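import Mathlib

/-!
R339, block ANT (helper575), part A.

Labelled words with the admissibility condition `m(U) > 0` along the path; strong closure,
product formula along an admissible path ("path gates").
-/

set_option autoImplicit false

noncomputable section

open scoped ComplexConjugate InnerProductSpace Topology
open Filter Set

namespace Crest.Agent.R339.Ant

section general

variable {S : Type*} [NormedAddCommGroup S] [InnerProductSpace ℂ S] [CompleteSpace S]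

/-- the unitary group of `S` -/
abbrev US (S : Type*) [NormedAddCommGroup S] [InnerProductSpace ℂ S] [CompleteSpace S] : Type _ :=
  unitary (S →L[ℂ] S)

/-- strong convergence of unitaries -/
def SC {α : Type*} (U : α → US S) (l : Filter α) (U₀ : US S) : Prop :=
  ∀ v : S, Tendsto (fun i => (U i : S →L[ℂ] S) v) l (𝓝 ((U₀ : S →L[ℂ] S) v))

lemma star_mul_cancel (U : US S) (v : S) :
    (star (U : S →L[ℂ] S)) ((U : S →L[ℂ] S) v) = v := by
  have h := (Unitary.mem_iff.mp U.2).1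
  exact congrArg (fun T : S →L[ℂ] S => T v) h

lemma mul_star_cancel (U : US S) (v : S) :
    (U : S →L[ℂ] S) ((star (U : S →L[ℂ] S)) v) = v := by
  have h := (Unitary.mem_iff.mp U.2).2
  exact congrArg (fun T : S →L[ℂ] S => T v) h

lemma inner_star_left (T : S →L[ℂ] S) (v w : S) : ⟪star T v, w⟫_ℂ = ⟪v, T w⟫_ℂ := by
  rw [ContinuousLinearMap.star_eq_adjoint, ContinuousLinearMap.adjoint_inner_left]

lemma inner_star_right (T : S →L[ℂ] S) (v w : S) : ⟪v, star T w⟫_ℂ = ⟪T v, w⟫_ℂ := by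
  rw [ContinuousLinearMap.star_eq_adjoint, ContinuousLinearMap.adjoint_inner_right]

lemma norm_U (U : US S) (v : S) : ‖(U : S →L[ℂ] S) v‖ = ‖v‖ := by
  have h2 : ⟪(U : S →L[ℂ] S) v, (U : S →L[ℂ] S) v⟫_ℂ = ⟪v, v⟫_ℂ := by
    rw [← inner_star_left, star_mul_cancel]
  rw [@norm_eq_sqrt_re_inner ℂ, h2, ← @norm_eq_sqrt_re_inner ℂ]

lemma norm_starU (U : US S) (v : S) : ‖(star (U : S →L[ℂ] S)) v‖ = ‖v‖ := norm_U (star U) v

lemma norm_coe_le (U : US S) : ‖(U : S →L[ℂ] S)‖ ≤ 1 :=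
  ContinuousLinearMap.opNorm_le_bound _ zero_le_one fun v => by rw [norm_U, one_mul]

lemma SC.apply {α : Type*} {l : Filter α} {U : α → US S} {U₀ : US S}
    (hU : SC U l U₀) {v : α → S} {v₀ : S} (hv : Tendsto v l (𝓝 v₀)) :
    Tendsto (fun i => (U i : S →L[ℂ] S) (v i)) l (𝓝 ((U₀ : S →L[ℂ] S) v₀)) := by
  have h1 := hU v₀
  have h2 : Tendsto (fun i => (U i : S →L[ℂ] S) (v i) - (U i : S →L[ℂ] S) v₀) l (𝓝 0) := by
    rw [tendsto_zero_iff_norm_tendsto_zero]
    refine (tendsto_iff_norm_sub_tendsto_zero.mp hv).congr fun i => ?_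
    rw [← map_sub, norm_U]
  simpa using h2.add h1

lemma SC.adj {α : Type*} {l : Filter α} {U : α → US S} {U₀ : US S}
    (hU : SC U l U₀) : SC (fun i => star (U i)) l (star U₀) := by
  intro v
  rw [tendsto_iff_norm_sub_tendsto_zero]
  have h1 := tendsto_iff_norm_sub_tendsto_zero.mp (hU ((star (U₀ : S →L[ℂ] S)) v))
  refine h1.congr fun i => ?_
  rw [mul_star_cancel]
  have h3 := star_mul_cancel (U i) ((star (U₀ : S →L[ℂ] S)) v)
  rw [← norm_starU (U i), map_sub, h3, ← norm_neg, neg_sub]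
  rfl

lemma SC.mul {α : Type*} {l : Filter α} {U V : α → US S} {U₀ V₀ : US S}
    (hU : SC U l U₀) (hV : SC V l V₀) : SC (fun i => U i * V i) l (U₀ * V₀) := by
  intro v
  exact hU.apply (hV v)

lemma SC.const {α : Type*} {l : Filter α} (U₀ : US S) : SC (fun _ : α => U₀) l U₀ :=
  fun _ => tendsto_const_nhds

lemma SC.of_norm {α : Type*} {l : Filter α} {U : α → US S} {U₀ : US S}
    (h : Tendsto (fun i => (U i : S →L[ℂ] S)) l (𝓝 (U₀ : S →L[ℂ] S))) : SC U l U₀ := by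
  intro v
  exact ((ContinuousLinearMap.apply ℂ S v).continuous.tendsto _).comp h

lemma norm_pow_sub_pow_le (a b : US S) (n : ℕ) :
    ‖((a ^ n : US S) : S →L[ℂ] S) - ((b ^ n : US S) : S →L[ℂ] S)‖
      ≤ n * ‖(a : S →L[ℂ] S) - (b : S →L[ℂ] S)‖ := by
  induction n with
  | zero => simp
  | succ n ih =>
    have h : ((a ^ (n + 1) : US S) : S →L[ℂ] S) - ((b ^ (n + 1) : US S) : S →L[ℂ] S)
        = ((a ^ n : US S) : S →L[ℂ] S) * ((a : S →L[ℂ] S) - (b : S →L[ℂ] S))
          + (((a ^ n : US S) : S →L[ℂ] S) - ((b ^ n : US S) : S →L[ℂ] S)) * (b : S →L[ℂ] S) := by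
      rw [pow_succ, pow_succ, Submonoid.coe_mul, Submonoid.coe_mul]
      noncomm_ring
    rw [h]
    refine (norm_add_le _ _).trans ?_
    have h1 : ‖((a ^ n : US S) : S →L[ℂ] S) * ((a : S →L[ℂ] S) - (b : S →L[ℂ] S))‖
        ≤ ‖(a : S →L[ℂ] S) - (b : S →L[ℂ] S)‖ := by
      refine (norm_mul_le _ _).trans ?_
      have := norm_coe_le (a ^ n)
      nlinarith [norm_nonneg ((a : S →L[ℂ] S) - (b : S →L[ℂ] S))]
    have h2 : ‖(((a ^ n : US S) : S →L[ℂ] S) - ((b ^ n : US S) : S →L[ℂ] S)) * (b : S →L[ℂ] S)‖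
        ≤ n * ‖(a : S →L[ℂ] S) - (b : S →L[ℂ] S)‖ := by
      refine (norm_mul_le _ _).trans ?_
      have := norm_coe_le b
      nlinarith [norm_nonneg (((a ^ n : US S) : S →L[ℂ] S) - ((b ^ n : US S) : S →L[ℂ] S))]
    rw [Nat.cast_succ]
    linarith

end general

/-- The data of the labelled model: spin operators, vacuum, the vector `ξ` (`x Ω`), mixers,
label drives, cost gates, energy functional. -/
structure LS (S : Type*) [NormedAddCommGroup S] [InnerProductSpace ℂ S] [CompleteSpace S] where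
  X : S →L[ℂ] S
  Z : S →L[ℂ] S
  Om : S
  xi : S
  mix : ℝ → US S
  lam : ℝ → US S
  cost : ℝ → S → US S
  En : S → ℝ
  norm_Om : ‖Om‖ ≤ 1
  norm_Z : ∀ v, ‖Z v‖ ≤ ‖v‖
  norm_X : ∀ v, ‖X v‖ ≤ ‖v‖
  mix_coe : ∀ b : ℝ, (mix b : S →L[ℂ] S) =
    ((Real.cos b : ℝ) : ℂ) • (1 : S →L[ℂ] S) - (Complex.I * ((Real.sin b : ℝ) : ℂ)) • X
  lam_Z : ∀ a, (lam a : S →L[ℂ] S) * Z = Z * (lam a : S →L[ℂ] S)
  lam_neg : ∀ a, lam (-a) * lam a = 1
  cost_Z : ∀ g e, (cost g e : S →L[ℂ] S) * Z = Z * (cost g e : S →L[ℂ] S)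
  cost_cont : ∀ g v, Continuous fun e => (cost g e : S →L[ℂ] S) v
  En_cont : Continuous En

namespace LS

variable {S : Type*} [NormedAddCommGroup S] [InnerProductSpace ℂ S] [CompleteSpace S]
variable (M : LS S)

/-- `U* Z U Ω` -/
def eV (U : US S) : S := (star (U : S →L[ℂ] S)) (M.Z ((U : S →L[ℂ] S) M.Om))

/-- `Re ⟨ξ, U* Z U Ω⟩` -/
def m (U : US S) : ℝ := (⟪M.xi, M.eV U⟫_ℂ).re

lemma m_eq (U : US S) :
    M.m U = (⟪(U : S →L[ℂ] S) M.xi, M.Z ((U : S →L[ℂ] S) M.Om)⟫_ℂ).re := by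
  rw [m, eV, inner_star_right]

lemma eV_mul_comm {W : US S} (hW : (W : S →L[ℂ] S) * M.Z = M.Z * (W : S →L[ℂ] S)) (U : US S) :
    M.eV (W * U) = M.eV U := by
  have h1 : ∀ v, (W : S →L[ℂ] S) (M.Z v) = M.Z ((W : S →L[ℂ] S) v) := fun v =>
    congrArg (fun T : S →L[ℂ] S => T v) hW
  show (star ((W : S →L[ℂ] S) * (U : S →L[ℂ] S)))
    (M.Z (((W : S →L[ℂ] S) * (U : S →L[ℂ] S)) M.Om)) = _
  rw [star_mul]
  show (star (U : S →L[ℂ] S)) ((star (W : S →L[ℂ] S)) (M.Z ((W : S →L[ℂ] S) _))) = _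
  rw [← h1, star_mul_cancel]
  rfl

lemma m_mul_comm {W : US S} (hW : (W : S →L[ℂ] S) * M.Z = M.Z * (W : S →L[ℂ] S)) (U : US S) :
    M.m (W * U) = M.m U := by
  rw [m, M.eV_mul_comm hW, m]

lemma tendsto_eV {α : Type*} {l : Filter α} {U : α → US S} {U₀ : US S}
    (hU : SC U l U₀) : Tendsto (fun i => M.eV (U i)) l (𝓝 (M.eV U₀)) :=
  hU.adj.apply ((M.Z.continuous.tendsto _).comp (hU M.Om))

lemma tendsto_m {α : Type*} {l : Filter α} {U : α → US S} {U₀ : US S}
    (hU : SC U l U₀) : Tendsto (fun i => M.m (U i)) l (𝓝 (M.m U₀)) :=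
  (Complex.continuous_re.tendsto _).comp (tendsto_const_nhds.inner (M.tendsto_eV hU))

/-- quantitative continuity of `m` -/
lemma abs_m_sub_le (U V : US S) :
    |M.m U - M.m V| ≤ ‖(U : S →L[ℂ] S) M.xi - (V : S →L[ℂ] S) M.xi‖
      + ‖M.xi‖ * ‖(U : S →L[ℂ] S) M.Om - (V : S →L[ℂ] S) M.Om‖ := by
  rw [m_eq, m_eq, ← Complex.sub_re]
  have h : ⟪(U : S →L[ℂ] S) M.xi, M.Z ((U : S →L[ℂ] S) M.Om)⟫_ℂ
      - ⟪(V : S →L[ℂ] S) M.xi, M.Z ((V : S →L[ℂ] S) M.Om)⟫_ℂ
      = ⟪(U : S →L[ℂ] S) M.xi - (V : S →L[ℂ] S) M.xi, M.Z ((U : S →L[ℂ] S) M.Om)⟫_ℂ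
        + ⟪(V : S →L[ℂ] S) M.xi,
            M.Z ((U : S →L[ℂ] S) M.Om - (V : S →L[ℂ] S) M.Om)⟫_ℂ := by
    rw [inner_sub_left, map_sub, inner_sub_right]
    ring
  rw [h]
  refine (Complex.abs_re_le_norm _).trans ((norm_add_le _ _).trans (add_le_add ?_ ?_))
  · refine (norm_inner_le_norm _ _).trans ?_
    have h1 : ‖M.Z ((U : S →L[ℂ] S) M.Om)‖ ≤ 1 :=
      (M.norm_Z _).trans (by rw [norm_U]; exact M.norm_Om)
    nlinarith [norm_nonneg ((U : S →L[ℂ] S) M.xi - (V : S →L[ℂ] S) M.xi)]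
  · refine (norm_inner_le_norm _ _).trans ?_
    rw [norm_U]
    exact mul_le_mul_of_nonneg_left (M.norm_Z _) (norm_nonneg _)

lemma abs_m_sub_le_norm (U V : US S) :
    |M.m U - M.m V| ≤ 2 * ‖M.xi‖ * ‖(U : S →L[ℂ] S) - (V : S →L[ℂ] S)‖ := by
  refine (M.abs_m_sub_le U V).trans ?_
  have h1 : ‖(U : S →L[ℂ] S) M.xi - (V : S →L[ℂ] S) M.xi‖
      ≤ ‖(U : S →L[ℂ] S) - (V : S →L[ℂ] S)‖ * ‖M.xi‖ := by
    rw [← sub_apply]
    exact ContinuousLinearMap.le_opNorm _ _
  have h2 : ‖(U : S →L[ℂ] S) M.Om - (V : S →L[ℂ] S) M.Om‖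
      ≤ ‖(U : S →L[ℂ] S) - (V : S →L[ℂ] S)‖ := by
    rw [← sub_apply]
    refine (ContinuousLinearMap.le_opNorm _ _).trans ?_
    have := M.norm_Om
    nlinarith [norm_nonneg ((U : S →L[ℂ] S) - (V : S →L[ℂ] S))]
  nlinarith [norm_nonneg M.xi, norm_nonneg ((U : S →L[ℂ] S) - (V : S →L[ℂ] S)),
    mul_le_mul_of_nonneg_left h2 (norm_nonneg M.xi)]

/-! ### Moves, words -/

/-- the labelled moves -/
inductive Mv
  | B (b : ℝ)
  | C (g : ℝ)
  | L (a : ℝ)

/-- action of a move -/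
def act : Mv → US S → US S
  | .B b, U => M.mix b * U
  | .C g, U => M.cost g (M.eV U) * U
  | .L a, U => M.lam a * U

/-- action of a word (first letter first) -/
def run (w : List Mv) (U : US S) : US S := w.foldl (fun V x => M.act x V) U

@[simp] lemma run_nil (U : US S) : M.run [] U = U := rfl

@[simp] lemma run_cons (x : Mv) (w : List Mv) (U : US S) :
    M.run (x :: w) U = M.run w (M.act x U) := rfl

lemma run_append (w w' : List Mv) (U : US S) :
    M.run (w ++ w') U = M.run w' (M.run w U) := by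
  simp [run, List.foldl_append]

/-- all states of the path are in the region `m > 0` -/
def Pos : List Mv → US S → Prop
  | [], U => 0 < M.m U
  | x :: w, U => 0 < M.m U ∧ Pos w (M.act x U)

lemma Pos.head {w : List Mv} {U : US S} (h : M.Pos w U) : 0 < M.m U := by
  cases w with
  | nil => exact h
  | cons x w => exact h.1

lemma pos_append {w w' : List Mv} {U : US S} :
    M.Pos (w ++ w') U ↔ M.Pos w U ∧ M.Pos w' (M.run w U) := by
  induction w generalizing U with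
  | nil =>
    constructor
    · intro h
      exact ⟨Pos.head M h, h⟩
    · intro h
      exact h.2
  | cons x w ih =>
    simp only [List.cons_append, Pos, run_cons]
    rw [ih]
    tauto

/-- every admissible word from `U` has energy at most `c` -/
def Good (c : ℝ) (U : US S) : Prop := ∀ w : List Mv, M.Pos w U → M.En (M.eV (M.run w U)) ≤ c

lemma Good.run {c : ℝ} {U : US S} (h : M.Good c U) {w : List Mv} (hw : M.Pos w U) :
    M.Good c (M.run w U) := by
  intro w' hw'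
  rw [← run_append]
  exact h _ ((M.pos_append).2 ⟨hw, hw'⟩)

lemma Good.energy {c : ℝ} {U : US S} (h : M.Good c U) (hU : 0 < M.m U) :
    M.En (M.eV U) ≤ c := h [] hU

lemma SC.act {α : Type*} {l : Filter α} {U : α → US S} {U₀ : US S}
    (hU : SC U l U₀) (x : Mv) : SC (fun i => M.act x (U i)) l (M.act x U₀) := by
  cases x with
  | B b => exact (SC.const _).mul hU
  | C g =>
    refine SC.mul (fun v => ?_) hU
    exact ((M.cost_cont g v).tendsto _).comp (M.tendsto_eV hU)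
  | L a => exact (SC.const _).mul hU

lemma SC.run {α : Type*} {l : Filter α} (w : List Mv) {U : α → US S} {U₀ : US S}
    (hU : SC U l U₀) : SC (fun i => M.run w (U i)) l (M.run w U₀) := by
  induction w generalizing U U₀ with
  | nil => exact hU
  | cons x w ih => exact ih (SC.act M hU x)

lemma eventually_Pos {α : Type*} {l : Filter α} {w : List Mv} {U : α → US S} {U₀ : US S}
    (hU : SC U l U₀) (hw : M.Pos w U₀) : ∀ᶠ i in l, M.Pos w (U i) := by
  induction w generalizing U U₀ with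
  | nil => exact (M.tendsto_m hU).eventually (lt_mem_nhds hw)
  | cons x w ih =>
    have h1 : ∀ᶠ i in l, 0 < M.m (U i) := (M.tendsto_m hU).eventually (lt_mem_nhds hw.1)
    have h2 := ih (SC.act M hU x) hw.2
    filter_upwards [h1, h2] with i h3 h4
    exact ⟨h3, h4⟩

/-- strong closure -/
theorem good_of_SC {α : Type*} {l : Filter α} [l.NeBot] {c : ℝ} {U : α → US S} {U₀ : US S}
    (hU : SC U l U₀) (h : ∀ᶠ i in l, M.Good c (U i)) : M.Good c U₀ := by
  intro w hw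
  have h1 := M.eventually_Pos hU hw
  have h2 : Tendsto (fun i => M.En (M.eV (M.run w (U i)))) l (𝓝 (M.En (M.eV (M.run w U₀)))) :=
    (M.En_cont.tendsto _).comp (M.tendsto_eV (SC.run M w hU))
  refine le_of_tendsto h2 ?_
  filter_upwards [h, h1] with i h3 h4
  exact h3 w h4

/-! ### Changes of `m` along short words -/

lemma norm_mix_sub_one_le (b : ℝ) : ‖(M.mix b : S →L[ℂ] S) - 1‖ ≤ 2 * |b| := by
  rw [M.mix_coe]
  have h : ((Real.cos b : ℝ) : ℂ) • (1 : S →L[ℂ] S) - (Complex.I * ((Real.sin b : ℝ) : ℂ)) • M.X - 1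
      = (((Real.cos b - 1 : ℝ)) : ℂ) • (1 : S →L[ℂ] S)
        - (Complex.I * ((Real.sin b : ℝ) : ℂ)) • M.X := by
    push_cast
    rw [sub_smul, one_smul]
    abel
  rw [h]
  refine (norm_sub_le _ _).trans ?_
  have h1 : ‖(((Real.cos b - 1 : ℝ)) : ℂ) • (1 : S →L[ℂ] S)‖ ≤ |b| := by
    refine (norm_smul_le _ _).trans ?_
    rw [Complex.norm_real, Real.norm_eq_abs]
    have h2 : ‖(1 : S →L[ℂ] S)‖ ≤ 1 := ContinuousLinearMap.norm_id_le
    have h3 : |Real.cos b - 1| ≤ |b| := by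
      have h4 : |Real.cos b - Real.cos 0| ≤ |b - 0| := by
        have := Real.abs_cos_sub_cos_le b 0
        simpa using this
      simpa using h4
    nlinarith [abs_nonneg (Real.cos b - 1), norm_nonneg (1 : S →L[ℂ] S)]
  have h2 : ‖(Complex.I * ((Real.sin b : ℝ) : ℂ)) • M.X‖ ≤ |b| := by
    refine (norm_smul_le _ _).trans ?_
    rw [norm_mul, Complex.norm_I, one_mul, Complex.norm_real, Real.norm_eq_abs]
    have h3 : ‖M.X‖ ≤ 1 :=
      ContinuousLinearMap.opNorm_le_bound _ zero_le_one fun v => by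
        rw [one_mul]; exact M.norm_X v
    have h4 : |Real.sin b| ≤ |b| := Real.abs_sin_le_abs
    nlinarith [abs_nonneg (Real.sin b), norm_nonneg M.X]
  linarith

lemma m_lam (a : ℝ) (U : US S) : M.m (M.lam a * U) = M.m U := M.m_mul_comm (M.lam_Z a) U

lemma m_cost (g : ℝ) (e : S) (U : US S) : M.m (M.cost g e * U) = M.m U :=
  M.m_mul_comm (M.cost_Z g e) U

lemma abs_m_mix (b : ℝ) (U : US S) : |M.m (M.mix b * U) - M.m U| ≤ 4 * ‖M.xi‖ * |b| := by
  refine (M.abs_m_sub_le_norm _ _).trans ?_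
  have h : ((M.mix b * U : US S) : S →L[ℂ] S) - (U : S →L[ℂ] S)
      = ((M.mix b : S →L[ℂ] S) - 1) * (U : S →L[ℂ] S) := by
    rw [Submonoid.coe_mul, sub_mul, one_mul]
  have h2 : ‖((M.mix b * U : US S) : S →L[ℂ] S) - (U : S →L[ℂ] S)‖ ≤ 2 * |b| := by
    rw [h]
    refine (norm_mul_le _ _).trans ?_
    have h3 := M.norm_mix_sub_one_le b
    have h4 := norm_coe_le U
    nlinarith [norm_nonneg ((M.mix b : S →L[ℂ] S) - 1), norm_nonneg (U : S →L[ℂ] S)]
  nlinarith [norm_nonneg M.xi, mul_le_mul_of_nonneg_left h2 (norm_nonneg M.xi)]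

/-- one Trotter step as a word: for each `(a, b)` in the list, `L a, B (h b), L (-a)` -/
def stepW (l : List (ℝ × ℝ)) (h : ℝ) : List Mv :=
  l.flatMap fun p => [Mv.L p.1, Mv.B (h * p.2), Mv.L (-p.1)]

/-- one Trotter step as a unitary -/
def stepU : List (ℝ × ℝ) → ℝ → US S
  | [], _ => 1
  | p :: l, h => stepU l h * (M.lam (-p.1) * M.mix (h * p.2) * M.lam p.1)

lemma run_stepW (l : List (ℝ × ℝ)) (h : ℝ) (U : US S) :
    M.run (stepW l h) U = M.stepU l h * U := by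
  induction l generalizing U with
  | nil => simp [stepW, stepU]
  | cons p l ih =>
    have h1 : stepW (p :: l) h = [Mv.L p.1, Mv.B (h * p.2), Mv.L (-p.1)] ++ stepW l h := rfl
    rw [h1, run_append, ih, stepU]
    simp only [run_cons, run_nil, act, mul_assoc]

/-- total size of the mixers -/
def sz (l : List (ℝ × ℝ)) : ℝ := (l.map fun p => |p.2|).sum

lemma sz_nonneg (l : List (ℝ × ℝ)) : 0 ≤ sz l :=
  List.sum_nonneg fun x hx => by
    obtain ⟨p, _, rfl⟩ := List.mem_map.1 hx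
    exact abs_nonneg _

lemma pos_stepW (l : List (ℝ × ℝ)) (h : ℝ) (U : US S)
    (hU : 4 * ‖M.xi‖ * (|h| * sz l) < M.m U) : M.Pos (stepW l h) U := by
  induction l generalizing U with
  | nil =>
    have : 0 ≤ 4 * ‖M.xi‖ * (|h| * sz []) := by
      have := sz_nonneg []
      positivity
    exact lt_of_le_of_lt this hU
  | cons p l ih =>
    have h1 : stepW (p :: l) h = [Mv.L p.1, Mv.B (h * p.2), Mv.L (-p.1)] ++ stepW l h := rfl
    have hsz : sz (p :: l) = |p.2| + sz l := by simp [sz]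
    have hs0 := sz_nonneg l
    have hx := norm_nonneg M.xi
    rw [hsz, mul_add, mul_add] at hU
    have hp : 0 ≤ 4 * ‖M.xi‖ * (|h| * |p.2|) := by positivity
    have hq : 0 ≤ 4 * ‖M.xi‖ * (|h| * sz l) := by positivity
    have e1 : M.m (M.lam p.1 * U) = M.m U := M.m_lam _ _
    have e2 : |M.m (M.mix (h * p.2) * (M.lam p.1 * U)) - M.m (M.lam p.1 * U)|
        ≤ 4 * ‖M.xi‖ * (|h| * |p.2|) := by
      rw [← abs_mul]
      exact M.abs_m_mix _ _
    have e3 := (abs_le.1 e2).1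
    have e4 : M.m (M.lam (-p.1) * (M.mix (h * p.2) * (M.lam p.1 * U)))
        = M.m (M.mix (h * p.2) * (M.lam p.1 * U)) := M.m_lam _ _
    rw [h1, pos_append]
    refine ⟨⟨by linarith, by show 0 < M.m (M.lam p.1 * U); linarith, ?_, ?_⟩, ?_⟩
    · show 0 < M.m (M.mix (h * p.2) * (M.lam p.1 * U))
      linarith
    · show 0 < M.m (M.lam (-p.1) * (M.mix (h * p.2) * (M.lam p.1 * U)))
      linarith
    · refine ih _ ?_
      show _ < M.m (M.lam (-p.1) * (M.mix (h * p.2) * (M.lam p.1 * U)))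
      linarith

/-- iterated steps -/
lemma pos_iter (l : List (ℝ × ℝ)) (h : ℝ) (U : US S) (n : ℕ)
    (hU : ∀ j ≤ n, 4 * ‖M.xi‖ * (|h| * sz l) < M.m ((M.stepU l h) ^ j * U)) :
    ∃ w, M.Pos w U ∧ M.run w U = (M.stepU l h) ^ n * U := by
  induction n with
  | zero =>
    refine ⟨[], ?_, by simp⟩
    have h0 := hU 0 le_rfl
    rw [pow_zero, one_mul] at h0
    refine lt_of_le_of_lt ?_ h0
    have := sz_nonneg l
    positivity
  | succ n ih =>
    obtain ⟨w, hw, hr⟩ := ih fun j hj => hU j (hj.trans (Nat.le_succ n))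
    refine ⟨w ++ stepW l h, (M.pos_append).2 ⟨hw, ?_⟩, ?_⟩
    · rw [hr]
      exact M.pos_stepW l h _ (hU n (Nat.le_succ n))
    · rw [run_append, hr, run_stepW, ← mul_assoc, ← pow_succ']

/-! ### The path-gate property -/

/-- `W 1` may be applied whenever `m > 0` along the whole path `W τ U`, `τ ∈ [0, 1]` -/
def PG (W : ℝ → US S) : Prop :=
  ∀ (c : ℝ) (U : US S), (∀ τ ∈ Icc (0 : ℝ) 1, 0 < M.m (W τ * U)) → M.Good c U →
    M.Good c (W 1 * U)

/-- the generator of a Trotter step -/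
def genL (l : List (ℝ × ℝ)) : S →L[ℂ] S :=
  (l.map fun p => (p.2 : ℂ) •
    ((M.lam (-p.1) : S →L[ℂ] S) * M.X * (M.lam p.1 : S →L[ℂ] S))).sum

lemma hasDerivAt_mix (b : ℝ) :
    HasDerivAt (fun h : ℝ => (M.mix (h * b) : S →L[ℂ] S)) (-(Complex.I * (b : ℂ)) • M.X) 0 := by
  have h1 : HasDerivAt (fun h : ℝ => (((Real.cos (h * b) : ℝ) : ℂ))) 0 0 := by
    have h2 : HasDerivAt (fun h : ℝ => Real.cos (h * b)) (-Real.sin (0 * b) * (1 * b)) 0 :=
      ((hasDerivAt_id (0 : ℝ)).mul_const b).cos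
    simpa using h2.ofReal_comp
  have h3 : HasDerivAt (fun h : ℝ => (((Real.sin (h * b) : ℝ) : ℂ))) (b : ℂ) 0 := by
    have h2 : HasDerivAt (fun h : ℝ => Real.sin (h * b)) (Real.cos (0 * b) * (1 * b)) 0 :=
      ((hasDerivAt_id (0 : ℝ)).mul_const b).sin
    simpa using h2.ofReal_comp
  have h4 := (h1.smul_const (1 : S →L[ℂ] S)).sub ((h3.const_mul Complex.I).smul_const M.X)
  refine (h4.congr_deriv ?_).congr_of_eventuallyEq (Eventually.of_forall fun h => ?_)
  · simp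
  · exact M.mix_coe (h * b)

lemma mix_zero : M.mix 0 = 1 := by
  apply Subtype.ext
  rw [M.mix_coe]
  simp

lemma stepU_zero (l : List (ℝ × ℝ)) : M.stepU l 0 = 1 := by
  induction l with
  | nil => rfl
  | cons p l ih =>
    rw [stepU, ih, zero_mul, mix_zero, one_mul, mul_one, M.lam_neg]

lemma hasDerivAt_stepU (l : List (ℝ × ℝ)) :
    HasDerivAt (fun h : ℝ => (M.stepU l h : S →L[ℂ] S)) (-Complex.I • M.genL l) 0 := by
  induction l with
  | nil =>
    have : (fun h : ℝ => (M.stepU [] h : S →L[ℂ] S)) = fun _ => 1 := rfl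
    rw [this]
    have h2 : -Complex.I • M.genL [] = 0 := by simp [genL]
    rw [h2]
    exact hasDerivAt_const _ _
  | cons p l ih =>
    have h1 : HasDerivAt (fun h : ℝ => (M.lam (-p.1) : S →L[ℂ] S) *
        (M.mix (h * p.2) : S →L[ℂ] S) * (M.lam p.1 : S →L[ℂ] S))
        ((M.lam (-p.1) : S →L[ℂ] S) * (-(Complex.I * (p.2 : ℂ)) • M.X) *
          (M.lam p.1 : S →L[ℂ] S)) 0 :=
      ((M.hasDerivAt_mix p.2).const_mul _).mul_const _
    have h2 := ih.mul h1
    refine (h2.congr_deriv ?_).congr_of_eventuallyEq (Eventually.of_forall fun h => rfl)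
    have h3 : (M.stepU l 0 : S →L[ℂ] S) = 1 := by rw [stepU_zero]; rfl
    have h4 : (M.lam (-p.1) : S →L[ℂ] S) * (M.mix (0 * p.2) : S →L[ℂ] S) *
        (M.lam p.1 : S →L[ℂ] S) = 1 := by
      rw [zero_mul, mix_zero]
      have := M.lam_neg p.1
      have h5 := congrArg (fun T : US S => (T : S →L[ℂ] S)) this
      simpa using h5
    rw [h3, h4, mul_one, one_mul]
    simp only [genL, List.map_cons, List.sum_cons, smul_add, mul_smul_comm, smul_mul_assoc,
      smul_smul]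
    rw [add_comm, neg_mul]

/-- differentiable one-parameter groups with a Trotter generator are path gates -/
theorem pg_of_list (W : ℝ → US S) (hW : ∀ s t, W (s + t) = W s * W t) (l : List (ℝ × ℝ))
    (hD : HasDerivAt (fun τ : ℝ => (W τ : S →L[ℂ] S)) (-Complex.I • M.genL l) 0) : M.PG W := by
  intro c U hpos hg
  have hW0 : W 0 = 1 := by
    have h := hW 0 0
    rw [add_zero] at h
    exact (mul_eq_left).1 h.symm
  -- continuity of `W` in norm
  have hcont : Continuous fun τ : ℝ => (W τ : S →L[ℂ] S) := by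
    rw [continuous_iff_continuousAt]
    intro t
    have h1 : ContinuousAt (fun τ : ℝ => (W τ : S →L[ℂ] S)) 0 := hD.continuousAt
    have h2 : (fun τ : ℝ => (W τ : S →L[ℂ] S))
        = fun τ : ℝ => (W t : S →L[ℂ] S) * (W (τ - t) : S →L[ℂ] S) := by
      funext τ
      rw [← Submonoid.coe_mul, ← hW]
      congr 2
      ring
    rw [h2]
    refine ContinuousAt.mul continuousAt_const ?_
    have h3 : ContinuousAt (fun τ : ℝ => τ - t) t := by fun_prop
    have h4 : ContinuousAt (fun τ : ℝ => (W τ : S →L[ℂ] S)) ((fun τ : ℝ => τ - t) t) := by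
      simpa using h1
    exact ContinuousAt.comp (g := fun τ : ℝ => (W τ : S →L[ℂ] S)) h4 h3
  have hmc : Continuous fun τ : ℝ => M.m (W τ * U) := by
    rw [continuous_iff_continuousAt]
    intro t
    refine M.tendsto_m (SC.mul (SC.of_norm ?_) (SC.const U))
    exact hcont.tendsto t
  obtain ⟨τ₀, hτ₀, hmin⟩ := isCompact_Icc.exists_isMinOn (nonempty_Icc.2 zero_le_one)
    hmc.continuousOn (s := Icc (0 : ℝ) 1)
  set δ : ℝ := M.m (W τ₀ * U) with hδ
  have hδpos : 0 < δ := hpos τ₀ hτ₀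
  have hmin' : ∀ τ ∈ Icc (0 : ℝ) 1, δ ≤ M.m (W τ * U) := fun τ hτ => hmin hτ
  -- the one-step error
  set r : ℝ → ℝ := fun h => ‖(M.stepU l h : S →L[ℂ] S) - (W h : S →L[ℂ] S)‖ with hr
  have hlo : (fun h : ℝ => (M.stepU l h : S →L[ℂ] S) - (W h : S →L[ℂ] S))
      =o[𝓝 0] fun h : ℝ => h := by
    have h1 := (M.hasDerivAt_stepU l).sub hD
    rw [sub_self, hasDerivAt_iff_isLittleO_nhds_zero] at h1
    simpa [stepU_zero, hW0] using h1
  have hN : Tendsto (fun n : ℕ => ((n : ℝ) + 1) * r (1 / ((n : ℝ) + 1))) atTop (𝓝 0) := by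
    have h1 : Tendsto (fun n : ℕ => (1 : ℝ) / ((n : ℝ) + 1)) atTop (𝓝 0) :=
      tendsto_one_div_add_atTop_nhds_zero_nat
    have h2 := hlo.comp_tendsto h1
    have h3 := h2.norm_norm.tendsto_div_nhds_zero
    refine h3.congr fun n => ?_
    have hn : (0 : ℝ) < (n : ℝ) + 1 := by positivity
    simp only [Function.comp, hr]
    rw [Real.norm_of_nonneg (by positivity : (0 : ℝ) ≤ 1 / ((n : ℝ) + 1))]
    field_simp
  have hx := norm_nonneg M.xi
  have hpow : ∀ (t : ℝ) (j : ℕ), (W t) ^ j = W (j * t) := by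
    intro t j
    induction j with
    | zero => simp [hW0]
    | succ j ih =>
      rw [pow_succ, ih, ← hW]
      congr 1
      push_cast
      ring
  -- closeness of the iterates
  have hclose : ∀ (n j : ℕ), j ≤ n + 1 →
      ‖(((M.stepU l (1 / ((n : ℝ) + 1))) ^ j : US S) : S →L[ℂ] S)
        - (W (j * (1 / ((n : ℝ) + 1))) : S →L[ℂ] S)‖
      ≤ ((n : ℝ) + 1) * r (1 / ((n : ℝ) + 1)) := by
    intro n j hj
    rw [← hpow]
    refine (norm_pow_sub_pow_le _ _ j).trans ?_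
    have : (j : ℝ) ≤ (n : ℝ) + 1 := by exact_mod_cast hj
    exact mul_le_mul_of_nonneg_right this (norm_nonneg _)
  have hs0 := sz_nonneg l
  have hev1 : ∀ᶠ n : ℕ in atTop,
      2 * ‖M.xi‖ * (((n : ℝ) + 1) * r (1 / ((n : ℝ) + 1))) < δ / 2 := by
    have h1 : Tendsto (fun n : ℕ => 2 * ‖M.xi‖ * (((n : ℝ) + 1) * r (1 / ((n : ℝ) + 1)))) atTop
        (𝓝 (2 * ‖M.xi‖ * 0)) := hN.const_mul _
    rw [mul_zero] at h1
    exact h1.eventually (gt_mem_nhds (by positivity))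
  have hev2 : ∀ᶠ n : ℕ in atTop, 4 * ‖M.xi‖ * (|1 / ((n : ℝ) + 1)| * sz l) < δ / 2 := by
    have h1 : Tendsto (fun n : ℕ => (1 : ℝ) / ((n : ℝ) + 1)) atTop (𝓝 0) :=
      tendsto_one_div_add_atTop_nhds_zero_nat
    have h2 : Tendsto (fun n : ℕ => 4 * ‖M.xi‖ * (|1 / ((n : ℝ) + 1)| * sz l)) atTop
        (𝓝 (4 * ‖M.xi‖ * (|0| * sz l))) := (h1.abs.mul_const _).const_mul _
    rw [abs_zero, zero_mul, mul_zero] at h2
    exact h2.eventually (gt_mem_nhds (by positivity))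
  have hmain : ∀ᶠ n : ℕ in atTop,
      M.Good c ((M.stepU l (1 / ((n : ℝ) + 1))) ^ (n + 1) * U) := by
    filter_upwards [hev1, hev2] with n h1 h2
    obtain ⟨w, hw, hrw⟩ := M.pos_iter l (1 / ((n : ℝ) + 1)) U (n + 1) (by
      intro j hj
      refine h2.trans ?_
      have h3 := M.abs_m_sub_le_norm ((M.stepU l (1 / ((n : ℝ) + 1))) ^ j * U)
        (W (j * (1 / ((n : ℝ) + 1))) * U)
      have h4 : ‖(((M.stepU l (1 / ((n : ℝ) + 1))) ^ j * U : US S) : S →L[ℂ] S)
          - ((W (j * (1 / ((n : ℝ) + 1))) * U : US S) : S →L[ℂ] S)‖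
          ≤ ((n : ℝ) + 1) * r (1 / ((n : ℝ) + 1)) := by
        refine le_trans ?_ (hclose n j hj)
        rw [Submonoid.coe_mul, Submonoid.coe_mul, ← sub_mul]
        refine (norm_mul_le _ _).trans ?_
        have := norm_coe_le U
        exact mul_le_of_le_one_right (norm_nonneg _) this
      have h5 : δ ≤ M.m (W (j * (1 / ((n : ℝ) + 1))) * U) := by
        refine hmin' _ ⟨by positivity, ?_⟩
        have hn : (0 : ℝ) < (n : ℝ) + 1 := by positivity
        rw [mul_one_div, div_le_one hn]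
        exact_mod_cast hj
      have h6 := (abs_le.1 (h3.trans (mul_le_mul_of_nonneg_left h4
        (by positivity : (0 : ℝ) ≤ 2 * ‖M.xi‖)))).1
      linarith)
    rw [← hrw]
    exact Good.run M hg hw
  refine M.good_of_SC (l := atTop) (U := fun n : ℕ =>
    (M.stepU l (1 / ((n : ℝ) + 1))) ^ (n + 1) * U) ?_ hmain
  refine SC.mul (SC.of_norm ?_) (SC.const U)
  rw [tendsto_iff_norm_sub_tendsto_zero]
  refine squeeze_zero (fun _ => norm_nonneg _) (fun n => ?_) hN
  have h1 := hclose n (n + 1) le_rfl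
  have h2 : (((n + 1 : ℕ) : ℝ)) * (1 / ((n : ℝ) + 1)) = 1 := by
    have hn : (n : ℝ) + 1 ≠ 0 := by positivity
    push_cast
    field_simp
  rw [h2] at h1
  exact h1

/-- second version: the derivative at `0` given by a quadratic bound -/
theorem pg_of_list' (W : ℝ → US S) (hW : ∀ s t, W (s + t) = W s * W t) (l : List (ℝ × ℝ))
    (C r : ℝ) (hr : 0 < r) (hD : ∀ τ : ℝ, |τ| ≤ r →
      ‖(W τ : S →L[ℂ] S) - 1 + (Complex.I * (τ : ℂ)) • M.genL l‖ ≤ C * τ ^ 2) : M.PG W := by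
  refine M.pg_of_list W hW l ?_
  have hW0 : W 0 = 1 := by
    have h := hW 0 0
    rw [add_zero] at h
    exact (mul_eq_left).1 h.symm
  rw [hasDerivAt_iff_isLittleO_nhds_zero]
  have hbig : (fun h : ℝ => (W (0 + h) : S →L[ℂ] S) - (W 0 : S →L[ℂ] S)
      - h • (-Complex.I • M.genL l)) =O[𝓝 0] fun h : ℝ => h ^ 2 := by
    refine Asymptotics.IsBigO.of_bound C ?_
    have hev : ∀ᶠ h : ℝ in 𝓝 0, |h| < r := by
      have h1 : Tendsto (fun h : ℝ => |h|) (𝓝 0) (𝓝 (|(0 : ℝ)|)) := continuous_abs.tendsto _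
      rw [abs_zero] at h1
      exact h1.eventually (gt_mem_nhds hr)
    filter_upwards [hev] with h hh
    have e1 : (W (0 + h) : S →L[ℂ] S) - (W 0 : S →L[ℂ] S) - h • (-Complex.I • M.genL l)
        = (W h : S →L[ℂ] S) - 1 + (Complex.I * (h : ℂ)) • M.genL l := by
      rw [zero_add, hW0, ← Complex.coe_smul, smul_smul]
      have : (h : ℂ) * -Complex.I = -(Complex.I * (h : ℂ)) := by ring
      rw [this, neg_smul, sub_neg_eq_add]
      rfl
    rw [e1, Real.norm_of_nonneg (sq_nonneg h)]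
    exact hD h hh.le
  refine hbig.trans_isLittleO ?_
  simpa using (Asymptotics.isLittleO_pow_pow (𝕜 := ℝ) (m := 1) (n := 2) (by norm_num))

/-- strong limits (uniform in the parameter) of path gates are path gates -/
theorem pg_limit (W : ℕ → ℝ → US S) (W₀ : ℝ → US S) (hW : ∀ n, M.PG (W n))
    (hlim : ∀ v : S, TendstoUniformlyOn (fun n τ => (W n τ : S →L[ℂ] S) v)
      (fun τ => (W₀ τ : S →L[ℂ] S) v) atTop (Icc (0 : ℝ) 1))
    (hc : ∀ v : S, Continuous fun τ => (W₀ τ : S →L[ℂ] S) v) : M.PG W₀ := by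
  intro c U hpos hg
  have hmc : Continuous fun τ : ℝ => M.m (W₀ τ * U) := by
    rw [continuous_iff_continuousAt]
    intro t
    refine M.tendsto_m (SC.mul (fun v => ?_) (SC.const U))
    exact (hc v).tendsto t
  obtain ⟨τ₀, hτ₀, hmin⟩ := isCompact_Icc.exists_isMinOn (nonempty_Icc.2 zero_le_one)
    hmc.continuousOn (s := Icc (0 : ℝ) 1)
  set δ : ℝ := M.m (W₀ τ₀ * U) with hδ
  have hδpos : 0 < δ := hpos τ₀ hτ₀
  have hx := norm_nonneg M.xi
  have e1 := Metric.tendstoUniformlyOn_iff.1 (hlim ((U : S →L[ℂ] S) M.xi)) (δ / 4) (by positivity)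
  have e2 := Metric.tendstoUniformlyOn_iff.1 (hlim ((U : S →L[ℂ] S) M.Om))
    (δ / (4 * (‖M.xi‖ + 1))) (by positivity)
  have hmain : ∀ᶠ n : ℕ in atTop, M.Good c (W n 1 * U) := by
    filter_upwards [e1, e2] with n h1 h2
    refine hW n c U (fun τ hτ => ?_) hg
    have h3 := M.abs_m_sub_le (W n τ * U) (W₀ τ * U)
    have h4 : ‖((W n τ * U : US S) : S →L[ℂ] S) M.xi - ((W₀ τ * U : US S) : S →L[ℂ] S) M.xi‖
        ≤ δ / 4 := by
      have := h1 τ hτ
      rw [dist_comm, dist_eq_norm] at this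
      exact this.le
    have h5 : ‖((W n τ * U : US S) : S →L[ℂ] S) M.Om - ((W₀ τ * U : US S) : S →L[ℂ] S) M.Om‖
        ≤ δ / (4 * (‖M.xi‖ + 1)) := by
      have := h2 τ hτ
      rw [dist_comm, dist_eq_norm] at this
      exact this.le
    have h6 : ‖M.xi‖ * (δ / (4 * (‖M.xi‖ + 1))) ≤ δ / 4 := by
      have h7 : ‖M.xi‖ * (δ / (4 * (‖M.xi‖ + 1))) = (δ / 4) * (‖M.xi‖ / (‖M.xi‖ + 1)) := by
        field_simp
      rw [h7]
      refine mul_le_of_le_one_right (by positivity) ?_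
      rw [div_le_one (by positivity)]
      linarith
    have h8 := mul_le_mul_of_nonneg_left h5 hx
    have h9 : δ ≤ M.m (W₀ τ * U) := hmin hτ
    have h10 := (abs_le.1 h3).1
    linarith
  refine M.good_of_SC (l := atTop) (U := fun n : ℕ => W n 1 * U) ?_ hmain
  refine SC.mul (fun v => ?_) (SC.const U)
  exact (hlim v).tendsto_at (right_mem_Icc.2 zero_le_one)

end LS

end Crest.Agent.R339.Ant
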