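import Crest.Agent.R339.LabFun286A

/-!
R339, block ANT (helper575), part B: even bounded measurable functions of the label are a.e. limits
of real trigonometric polynomials `∑ β_k cos (t_k x)`.
-/

set_option autoImplicit false

noncomputable section

namespace Crest.Agent.R339.Ant

open MeasureTheory ProbabilityTheory Filter Topology
open scoped ENNReal InnerProductSpace
open Crest.Agent.R339.LF

/-- the trigonometric polynomial of a list of pairs `(t, β)` -/
def trig (l : List (ℝ × ℝ)) (x : ℝ) : ℝ := (l.map fun p => p.2 * Real.cos (p.1 * x)).sum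

@[simp] lemma trig_nil (x : ℝ) : trig [] x = 0 := rfl

@[simp] lemma trig_cons (p : ℝ × ℝ) (l : List (ℝ × ℝ)) (x : ℝ) :
    trig (p :: l) x = p.2 * Real.cos (p.1 * x) + trig l x := rfl

lemma continuous_trig (l : List (ℝ × ℝ)) : Continuous (trig l) := by
  induction l with
  | nil => exact continuous_const
  | cons p l ih =>
    have : trig (p :: l) = fun x => p.2 * Real.cos (p.1 * x) + trig l x := rfl
    rw [this]
    fun_prop

lemma map_neg_gam1 : gam1.map (fun x : ℝ => -x) = gam1 := by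
  rw [gam1, gaussianReal_map_neg, neg_zero]

/-- every element of the span of the waves is a.e. a finite character sum -/
lemma span_wave_form (p : Lp ℂ 2 gam1)
    (hp : p ∈ Submodule.span ℂ (Set.range (fun q : ℝ × Unit => wave q.1 (1 : ℂ)))) :
    ∃ l : List (ℝ × ℂ), p =ᵐ[gam1] fun x => (l.map fun q => q.2 * chi q.1 x).sum := by
  induction hp using Submodule.span_induction with
  | mem v hv =>
    obtain ⟨⟨t, _⟩, rfl⟩ := hv
    refine ⟨[(t, 1)], ?_⟩
    filter_upwards [coeFn_wave t (1 : ℂ)] with x hx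
    simp [hx]
  | zero =>
    refine ⟨[], ?_⟩
    filter_upwards [Lp.coeFn_zero ℂ 2 gam1] with x hx
    rw [hx]
    simp
  | add v w _ _ hv hw =>
    obtain ⟨l1, h1⟩ := hv
    obtain ⟨l2, h2⟩ := hw
    refine ⟨l1 ++ l2, ?_⟩
    filter_upwards [h1, h2, Lp.coeFn_add v w] with x e1 e2 e3
    rw [e3, Pi.add_apply, e1, e2, List.map_append, List.sum_append]
  | smul a v _ hv =>
    obtain ⟨l1, h1⟩ := hv
    refine ⟨l1.map fun q => (q.1, a * q.2), ?_⟩
    filter_upwards [h1, Lp.coeFn_smul a v] with x e1 e2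
    rw [e2, Pi.smul_apply, e1, smul_eq_mul, List.map_map]
    simp only [Function.comp_def]
    rw [← List.sum_map_mul_left]
    simp [mul_assoc]

/-- the real, even part of a character sum -/
lemma re_even (l : List (ℝ × ℂ)) (x : ℝ) :
    trig (l.map fun q => (q.1, q.2.re)) x
      = (((l.map fun q => q.2 * chi q.1 x).sum + (l.map fun q => q.2 * chi q.1 (-x)).sum) / 2).re := by
  induction l with
  | nil => simp
  | cons q l ih =>
    simp only [List.map_cons, trig_cons, List.sum_cons]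
    rw [ih]
    have h1 : chi q.1 x + chi q.1 (-x) = 2 * (Real.cos (q.1 * x) : ℂ) := by
      unfold chi
      rw [mul_neg]
      push_cast
      rw [Complex.cos]
      rw [neg_mul]
      ring
    have h2 : (q.2 * chi q.1 x + (l.map fun q => q.2 * chi q.1 x).sum
        + (q.2 * chi q.1 (-x) + (l.map fun q => q.2 * chi q.1 (-x)).sum)) / 2
        = q.2 * (Real.cos (q.1 * x) : ℂ)
          + ((l.map fun q => q.2 * chi q.1 x).sum + (l.map fun q => q.2 * chi q.1 (-x)).sum) / 2 := by
      linear_combination (q.2 / 2) * h1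
    rw [h2, Complex.add_re, Complex.mul_re, Complex.ofReal_re, Complex.ofReal_im, mul_zero,
      sub_zero]

lemma span_one_total :
    (Submodule.span ℂ (Set.range (fun _ : Unit => (1 : ℂ)))).topologicalClosure = ⊤ := by
  have : Submodule.span ℂ (Set.range (fun _ : Unit => (1 : ℂ))) = ⊤ := by
    rw [Set.range_const]
    exact Ideal.span_singleton_one
  rw [this]
  exact eq_top_iff.2 (Submodule.le_topologicalClosure ⊤)

/-- every `L²` function is an `L²` limit of character sums -/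
lemma exists_char_seq (F : Lp ℂ 2 gam1) :
    ∃ L : ℕ → List (ℝ × ℂ), Tendsto (fun n => eLpNorm
      (fun x => ((L n).map fun q => q.2 * chi q.1 x).sum - (F : ℝ → ℂ) x) 2 gam1) atTop (𝓝 0) := by
  have htot := wave_total span_one_total
  have hmem : F ∈ closure ((Submodule.span ℂ
      (Set.range (fun p : ℝ × Unit => wave p.1 (1 : ℂ))) : Submodule ℂ (Lp ℂ 2 gam1)) :
        Set (Lp ℂ 2 gam1)) := by
    rw [← Submodule.topologicalClosure_coe, htot]
    trivial
  obtain ⟨p, hpmem, hplim⟩ := mem_closure_iff_seq_limit.1 hmem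
  choose L hL using fun n => span_wave_form (p n) (hpmem n)
  refine ⟨L, ?_⟩
  have h1 := (Lp.tendsto_Lp_iff_tendsto_eLpNorm' p F).1 hplim
  refine h1.congr fun n => ?_
  refine eLpNorm_congr_ae ?_
  filter_upwards [hL n] with x hx
  rw [Pi.sub_apply, hx]

/-- the error of the real even part -/
lemma trig_error (f : ℝ → ℝ) (heven : ∀ x, f (-x) = f x) (l : List (ℝ × ℂ)) (x : ℝ) :
    |trig (l.map fun q => (q.1, q.2.re)) x - f x| ≤
      (1 / 2 : ℝ) * ‖(l.map fun q => q.2 * chi q.1 x).sum - (f x : ℂ)‖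
        + (1 / 2) * ‖(l.map fun q => q.2 * chi q.1 (-x)).sum - (f (-x) : ℂ)‖ := by
  have a5 : trig (l.map fun q => (q.1, q.2.re)) x - f x
      = ((((l.map fun q => q.2 * chi q.1 x).sum - (f x : ℂ))
        + ((l.map fun q => q.2 * chi q.1 (-x)).sum - (f (-x) : ℂ))) / 2).re := by
    rw [re_even, heven]
    simp only [Complex.add_re, Complex.sub_re, Complex.ofReal_re, Complex.div_ofNat_re]
    ring
  rw [a5]
  refine (Complex.abs_re_le_norm _).trans ?_
  rw [norm_div]
  have : ‖(2 : ℂ)‖ = 2 := by norm_num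
  rw [this]
  have := norm_add_le ((l.map fun q => q.2 * chi q.1 x).sum - (f x : ℂ))
    ((l.map fun q => q.2 * chi q.1 (-x)).sum - (f (-x) : ℂ))
  linarith

lemma measurable_charsum (l : List (ℝ × ℂ)) :
    Measurable fun x : ℝ => (l.map fun q => q.2 * chi q.1 x).sum := by
  induction l with
  | nil => simp
  | cons q l ih =>
    simp only [List.map_cons, List.sum_cons]
    exact ((continuous_chi q.1).measurable.const_mul q.2).add ih

lemma eLpNorm_half (g : ℝ → ℂ) :
    eLpNorm (fun x => (1 / 2 : ℝ) * ‖g x‖) 2 gam1 = ENNReal.ofReal (1 / 2) * eLpNorm g 2 gam1 := by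
  have h := eLpNorm_const_smul (1 / 2 : ℝ) (fun x => ‖g x‖) 2 gam1
  rw [eLpNorm_norm] at h
  have h5 : ‖(1 / 2 : ℝ)‖ₑ = ENNReal.ofReal (1 / 2) := by
    rw [← ofReal_norm, Real.norm_of_nonneg (by norm_num)]
  rw [← h5, ← h]
  rfl

lemma trig_error_eLpNorm (f : ℝ → ℝ) (hf : Measurable f) (heven : ∀ x, f (-x) = f x)
    (l : List (ℝ × ℂ)) :
    eLpNorm (fun x => trig (l.map fun q => (q.1, q.2.re)) x - f x) 2 gam1 ≤
      eLpNorm (fun x => (l.map fun q => q.2 * chi q.1 x).sum - (f x : ℂ)) 2 gam1 := by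
  have hmp : MeasurePreserving (fun x : ℝ => -x) gam1 gam1 := ⟨measurable_neg, map_neg_gam1⟩
  let d : ℝ → ℂ := fun x => (l.map fun q => q.2 * chi q.1 x).sum - (f x : ℂ)
  have hdm : Measurable d := (measurable_charsum l).sub (Complex.measurable_ofReal.comp hf)
  have hdn : Measurable fun x => (1 / 2 : ℝ) * ‖d x‖ := hdm.norm.const_mul _
  have e1 : ∀ᵐ x ∂gam1, ‖trig (l.map fun q => (q.1, q.2.re)) x - f x‖
      ≤ (1 / 2 : ℝ) * ‖d x‖ + (1 / 2) * ‖d (-x)‖ :=
    Eventually.of_forall fun x => trig_error f heven l x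
  refine (eLpNorm_mono_ae_real e1).trans ?_
  have e2 : eLpNorm (fun x => (1 / 2 : ℝ) * ‖d x‖ + (1 / 2) * ‖d (-x)‖) 2 gam1
      ≤ eLpNorm (fun x => (1 / 2 : ℝ) * ‖d x‖) 2 gam1
        + eLpNorm (fun x => (1 / 2 : ℝ) * ‖d (-x)‖) 2 gam1 :=
    eLpNorm_add_le hdn.aestronglyMeasurable (hdn.comp measurable_neg).aestronglyMeasurable
      (by norm_num)
  refine e2.trans ?_
  have e4 : eLpNorm (fun x => (1 / 2 : ℝ) * ‖d (-x)‖) 2 gam1
      = eLpNorm (fun x => (1 / 2 : ℝ) * ‖d x‖) 2 gam1 :=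
    eLpNorm_comp_measurePreserving (g := fun x => (1 / 2 : ℝ) * ‖d x‖)
      hdn.aestronglyMeasurable hmp
  rw [e4, eLpNorm_half, ← add_mul, ← ENNReal.ofReal_add (by norm_num) (by norm_num)]
  norm_num
  exact le_rfl

lemma trig_tendstoInMeasure (f : ℝ → ℝ) (hf : Measurable f) (heven : ∀ x, f (-x) = f x)
    (hfm : MemLp (fun x => (f x : ℂ)) 2 gam1) :
    ∃ L : ℕ → List (ℝ × ℝ), TendstoInMeasure gam1 (fun n => trig (L n)) atTop f := by
  obtain ⟨L, hL⟩ := exists_char_seq (hfm.toLp _)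
  have hL' : Tendsto (fun n => eLpNorm
      (fun x => ((L n).map fun q => q.2 * chi q.1 x).sum - (f x : ℂ)) 2 gam1) atTop (𝓝 0) := by
    refine hL.congr fun n => eLpNorm_congr_ae ?_
    filter_upwards [MemLp.coeFn_toLp hfm] with x hx
    rw [hx]
  have hqlim : Tendsto (fun n => eLpNorm
      (trig ((L n).map fun q => (q.1, q.2.re)) - f) 2 gam1) atTop (𝓝 0) :=
    tendsto_of_tendsto_of_tendsto_of_le_of_le tendsto_const_nhds hL' (fun _ => bot_le)
      fun n => trig_error_eLpNorm f hf heven (L n)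
  refine ⟨fun n => (L n).map fun q => (q.1, q.2.re), ?_⟩
  exact tendstoInMeasure_of_tendsto_eLpNorm (by norm_num : (2 : ℝ≥0∞) ≠ 0)
    (fun n => (continuous_trig ((L n).map fun q => (q.1, q.2.re))).aestronglyMeasurable)
    hf.aestronglyMeasurable hqlim

/-- even bounded measurable functions are a.e. limits of cosine polynomials -/
theorem exists_trig_tendsto (f : ℝ → ℝ) (hf : Measurable f) (C : ℝ) (hC : ∀ x, |f x| ≤ C)
    (heven : ∀ x, f (-x) = f x) :
    ∃ l : ℕ → List (ℝ × ℝ), ∀ᵐ x ∂gam1, Tendsto (fun n => trig (l n) x) atTop (𝓝 (f x)) := by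
  have hfm : MemLp (fun x => (f x : ℂ)) 2 gam1 := by
    refine MemLp.of_bound (C := C) (Complex.measurable_ofReal.comp hf).aestronglyMeasurable
      (Eventually.of_forall fun x => ?_)
    rw [Complex.norm_real, Real.norm_eq_abs]
    exact hC x
  obtain ⟨L, hL⟩ := trig_tendstoInMeasure f hf heven hfm
  obtain ⟨ns, _, hns⟩ := hL.exists_seq_tendsto_ae
  exact ⟨fun n => L (ns n), hns⟩

end Crest.Agent.R339.Ant
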