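import Mathlib

/-!
# The Bose Fock space over a complex Hilbert space, through coherent vectors

`Fock K` is the completed space generated by exponential vectors `ev f`, `f : K`, with
`⟪ev f, ev g⟫ = exp ⟪f, g⟫`.
-/

set_option autoImplicit false

noncomputable section

open scoped ComplexConjugate ComplexOrder InnerProductSpace Topology
open Filter

namespace Crest.Agent.R339.Site

section Kernel

variable {X : Type*}

/-- A function of two variables, seen as matrix of operators on `ℂ`. -/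
def kerMat (k : X → X → ℂ) : Matrix X X (ℂ →L[ℂ] ℂ) := Matrix.of fun x y => k x y • (1 : ℂ →L[ℂ] ℂ)

lemma posSemidef_kerMat {k : X → X → ℂ} (hk : (Matrix.of k).PosSemidef) :
    (kerMat k).PosSemidef := by
  have h1 : (kerMat k).IsHermitian := by
    ext x y
    have := congrFun (congrFun hk.1 x) y
    simp only [Matrix.conjTranspose_apply, Matrix.of_apply] at this
    simp only [kerMat, Matrix.conjTranspose_apply, Matrix.of_apply, star_smul, this, star_one]
  have h0 := (RKHS.posSemidef_tfae (K := kerMat k)).out 0 2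
  refine h0.mpr ⟨h1, fun vv => ?_⟩
  have h2 := hk.2 vv
  have h3 := (Complex.le_def.mp h2).1
  simp only [Complex.zero_re] at h3
  refine h3.trans_eq ?_
  rw [← RCLike.re_eq_complex_re]
  congr 1
  unfold Finsupp.sum
  refine Finset.sum_congr rfl fun x _ => Finset.sum_congr rfl fun y _ => ?_
  have := congrFun (congrFun hk.1 x) y
  simp only [Matrix.conjTranspose_apply, Matrix.of_apply] at this
  simp only [kerMat, Matrix.of_apply]
  simp [← this, mul_comm]

end Kernel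

section ExpKernel

variable (K : Type*) [NormedAddCommGroup K] [InnerProductSpace ℂ K]

lemma posSemidef_inner_pow (n : ℕ) :
    (Matrix.of fun f g : K => (⟪f, g⟫_ℂ) ^ n).PosSemidef := by
  induction n with
  | zero =>
    refine ⟨by ext; simp, fun x => ?_⟩
    have : (x.sum fun i xi => x.sum fun j xj => star xi * (Matrix.of fun f g : K => (⟪f, g⟫_ℂ) ^ 0) i j * xj)
        = star (x.sum fun _ xi => xi) * (x.sum fun _ xi => xi) := by
      simp [Finsupp.sum, Finset.sum_mul_sum]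
    rw [this]
    exact star_mul_self_nonneg _
  | succ n ih =>
    have h1 : (Matrix.of fun f g : K => (⟪f, g⟫_ℂ)).PosSemidef := by
      refine ⟨by ext; simp, fun x => ?_⟩
      have : (x.sum fun i xi => x.sum fun j xj =>
          star xi * (Matrix.of fun f g : K => (⟪f, g⟫_ℂ)) i j * xj)
          = ⟪(x.sum fun i xi => xi • i), (x.sum fun i xi => xi • i)⟫_ℂ := by
        unfold Finsupp.sum
        rw [sum_inner]
        refine Finset.sum_congr rfl fun i _ => ?_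
        rw [inner_sum]
        refine Finset.sum_congr rfl fun j _ => ?_
        rw [inner_smul_left, inner_smul_right]
        simp only [Matrix.of_apply, Complex.star_def]
        ring
      rw [this, inner_self_eq_norm_sq_to_K]
      have := Complex.zero_le_real.mpr (by positivity : (0 : ℝ) ≤ ‖(x.sum fun i xi => xi • i)‖ ^ 2)
      rw [Complex.ofReal_pow] at this
      exact this
    have h2 := ih.hadamard h1
    have h3 : (Matrix.of fun f g : K => (⟪f, g⟫_ℂ) ^ (n + 1)) =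
        (Matrix.of fun f g : K => (⟪f, g⟫_ℂ) ^ n).hadamard (Matrix.of fun f g : K => (⟪f, g⟫_ℂ)) := by
      ext f g
      simp [pow_succ]
    rw [h3]
    exact h2

lemma posSemidef_exp_inner :
    (Matrix.of fun f g : K => Complex.exp ⟪f, g⟫_ℂ).PosSemidef := by
  refine ⟨?_, fun x => ?_⟩
  · ext f g
    simp only [Matrix.conjTranspose_apply, Matrix.of_apply]
    rw [Complex.star_def, ← Complex.exp_conj, inner_conj_symm]
  · have hsum : ∀ f g : K, HasSum (fun n : ℕ => (⟪f, g⟫_ℂ) ^ n / (n.factorial : ℂ))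
        (Complex.exp ⟪f, g⟫_ℂ) := by
      intro f g
      have := NormedSpace.exp_series_hasSum_exp' (𝕂 := ℂ) (⟪f, g⟫_ℂ)
      rw [← Complex.exp_eq_exp_ℂ] at this
      simpa [div_eq_inv_mul] using this
    have h2 : HasSum (fun n : ℕ => x.sum fun i xi => x.sum fun j xj =>
        star xi * ((⟪i, j⟫_ℂ) ^ n / (n.factorial : ℂ)) * xj)
        (x.sum fun i xi => x.sum fun j xj => star xi * (Matrix.of fun f g : K => Complex.exp ⟪f, g⟫_ℂ) i j * xj) := by
      unfold Finsupp.sum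
      refine hasSum_sum fun i _ => hasSum_sum fun j _ => ?_
      exact ((hsum i j).mul_left _).mul_right _
    refine h2.nonneg fun n => ?_
    have h3 := (posSemidef_inner_pow K n).2 x
    have h4 : (x.sum fun i xi => x.sum fun j xj =>
        star xi * ((⟪i, j⟫_ℂ) ^ n / (n.factorial : ℂ)) * xj) =
        ((n.factorial : ℝ)⁻¹ : ℝ) * (x.sum fun i xi => x.sum fun j xj => star xi *
          (Matrix.of fun f g : K => (⟪f, g⟫_ℂ) ^ n) i j * xj) := by
      unfold Finsupp.sum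
      rw [Finset.mul_sum]
      refine Finset.sum_congr rfl fun i _ => ?_
      rw [Finset.mul_sum]
      refine Finset.sum_congr rfl fun j _ => ?_
      simp only [Matrix.of_apply]
      push_cast
      ring
    rw [h4]
    refine mul_nonneg ?_ h3
    exact_mod_cast (by positivity : (0 : ℝ) ≤ ((n.factorial : ℝ)⁻¹))

instance factPos : Fact ((kerMat fun f g : K => Complex.exp ⟪f, g⟫_ℂ).PosSemidef) :=
  ⟨posSemidef_kerMat (posSemidef_exp_inner K)⟩

/-- The Bose Fock space of `K`. -/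
def Fock : Type _ := RKHS.OfKernel (kerMat fun f g : K => Complex.exp ⟪f, g⟫_ℂ)

instance : NormedAddCommGroup (Fock K) :=
  inferInstanceAs (NormedAddCommGroup (RKHS.OfKernel (kerMat fun f g : K => Complex.exp ⟪f, g⟫_ℂ)))
instance : InnerProductSpace ℂ (Fock K) :=
  inferInstanceAs (InnerProductSpace ℂ
    (RKHS.OfKernel (kerMat fun f g : K => Complex.exp ⟪f, g⟫_ℂ)))
instance : CompleteSpace (Fock K) :=
  inferInstanceAs (CompleteSpace (RKHS.OfKernel (kerMat fun f g : K => Complex.exp ⟪f, g⟫_ℂ)))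

variable {K}

/-- exponential vectors -/
def ev (f : K) : Fock K :=
  RKHS.kerFun (RKHS.OfKernel (kerMat fun f g : K => Complex.exp ⟪f, g⟫_ℂ)) f (1 : ℂ)

lemma inner_ev (f g : K) : ⟪ev f, ev g⟫_ℂ = Complex.exp ⟪f, g⟫_ℂ := by
  have h1 := RKHS.kerFun_inner (H := RKHS.OfKernel (kerMat fun f g : K => Complex.exp ⟪f, g⟫_ℂ))
    f (1 : ℂ) (RKHS.kerFun (RKHS.OfKernel (kerMat fun f g : K => Complex.exp ⟪f, g⟫_ℂ)) g (1 : ℂ))
  have h2 := RKHS.kerFun_apply (RKHS.OfKernel (kerMat fun f g : K => Complex.exp ⟪f, g⟫_ℂ))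
    g (1 : ℂ) f
  rw [h2, RKHS.OfKernel.kernel_ofKernel] at h1
  refine h1.trans ?_
  simp [kerMat]

lemma ev_sep {v : Fock K} (h : ∀ f : K, ⟪ev f, v⟫_ℂ = 0) : v = 0 := by
  have key : ∀ w : RKHS.OfKernel (kerMat fun f g : K => Complex.exp ⟪f, g⟫_ℂ),
      (∀ f : K, ⟪RKHS.kerFun (RKHS.OfKernel (kerMat fun f g : K => Complex.exp ⟪f, g⟫_ℂ)) f (1 : ℂ),
        w⟫_ℂ = 0) → w = 0 := by
    intro w hw
    refine RKHS.ext fun f => ?_
    have h1 := RKHS.kerFun_inner f (1 : ℂ) w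
    rw [hw f] at h1
    simpa using h1.symm
  exact key v h

lemma ev_total : (Submodule.span ℂ (Set.range (ev : K → Fock K))).topologicalClosure = ⊤ := by
  rw [Submodule.topologicalClosure_eq_top_iff, Submodule.eq_bot_iff]
  intro v hv
  refine ev_sep fun f => ?_
  exact (Submodule.mem_orthogonal _ _).mp hv _ (Submodule.subset_span ⟨f, rfl⟩)

end ExpKernel

section Gram

variable {X H H' : Type*} [NormedAddCommGroup H] [InnerProductSpace ℂ H]
  [NormedAddCommGroup H'] [InnerProductSpace ℂ H'] [CompleteSpace H']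

omit [CompleteSpace H'] in
lemma inner_lc_eq {c : X → H} {c' : X → H'} (h : ∀ x y, ⟪c x, c y⟫_ℂ = ⟪c' x, c' y⟫_ℂ)
    (v w : X →₀ ℂ) : ⟪Finsupp.linearCombination ℂ c v, Finsupp.linearCombination ℂ c w⟫_ℂ =
      ⟪Finsupp.linearCombination ℂ c' v, Finsupp.linearCombination ℂ c' w⟫_ℂ := by
  rw [Finsupp.linearCombination_apply, Finsupp.linearCombination_apply,
    Finsupp.linearCombination_apply, Finsupp.linearCombination_apply]
  unfold Finsupp.sum
  rw [sum_inner, sum_inner]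
  refine Finset.sum_congr rfl fun i _ => ?_
  rw [inner_sum, inner_sum]
  refine Finset.sum_congr rfl fun j _ => ?_
  rw [inner_smul_left, inner_smul_right, inner_smul_left, inner_smul_right, h]

/-- The operator sending one total family to another one with the same Gram matrix. -/
def isoOfGram (c : X → H) (c' : X → H') : H →L[ℂ] H' :=
  (Finsupp.linearCombination ℂ c').extendOfNorm (Finsupp.linearCombination ℂ c)

variable {c : X → H} {c' : X → H'}

lemma denseRange_lc (hc : (Submodule.span ℂ (Set.range c)).topologicalClosure = ⊤) :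
    DenseRange (Finsupp.linearCombination ℂ c) := by
  have h1 : Set.range (Finsupp.linearCombination ℂ c) = (Submodule.span ℂ (Set.range c) : Set H) := by
    rw [← Finsupp.range_linearCombination]
    rfl
  rw [DenseRange, h1, Submodule.dense_iff_topologicalClosure_eq_top]
  exact hc

lemma isoOfGram_lc (hc : (Submodule.span ℂ (Set.range c)).topologicalClosure = ⊤)
    (h : ∀ x y, ⟪c x, c y⟫_ℂ = ⟪c' x, c' y⟫_ℂ) (v : X →₀ ℂ) :
    isoOfGram c c' (Finsupp.linearCombination ℂ c v) = Finsupp.linearCombination ℂ c' v := by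
  refine LinearMap.extendOfNorm_eq (denseRange_lc hc) ⟨1, fun x => ?_⟩ v
  rw [one_mul, @norm_eq_sqrt_re_inner ℂ _ _ _ _ (Finsupp.linearCombination ℂ c x),
    @norm_eq_sqrt_re_inner ℂ _ _ _ _ (Finsupp.linearCombination ℂ c' x), inner_lc_eq h]

lemma isoOfGram_apply (hc : (Submodule.span ℂ (Set.range c)).topologicalClosure = ⊤)
    (h : ∀ x y, ⟪c x, c y⟫_ℂ = ⟪c' x, c' y⟫_ℂ) (x : X) :
    isoOfGram c c' (c x) = c' x := by
  have := isoOfGram_lc hc h (Finsupp.single x 1)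
  simpa using this

lemma norm_isoOfGram (hc : (Submodule.span ℂ (Set.range c)).topologicalClosure = ⊤)
    (h : ∀ x y, ⟪c x, c y⟫_ℂ = ⟪c' x, c' y⟫_ℂ) (v : H) :
    ‖isoOfGram c c' v‖ = ‖v‖ := by
  have hd := denseRange_lc hc
  have hcl : IsClosed {v : H | ‖isoOfGram c c' v‖ = ‖v‖} :=
    isClosed_eq (by fun_prop) (by fun_prop)
  refine hd.induction_on (p := fun v => ‖isoOfGram c c' v‖ = ‖v‖) v hcl fun x => ?_
  rw [isoOfGram_lc hc h, @norm_eq_sqrt_re_inner ℂ _ _ _ _ (Finsupp.linearCombination ℂ c x),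
    @norm_eq_sqrt_re_inner ℂ _ _ _ _ (Finsupp.linearCombination ℂ c' x), inner_lc_eq h]

omit [CompleteSpace H'] in
lemma ext_total {S T : H →L[ℂ] H'} (hc : (Submodule.span ℂ (Set.range c)).topologicalClosure = ⊤)
    (h : ∀ x, S (c x) = T (c x)) : S = T := by
  refine ContinuousLinearMap.ext fun v => ?_
  have hd := denseRange_lc hc
  have hcl : IsClosed {v : H | S v = T v} := isClosed_eq (by fun_prop) (by fun_prop)
  refine hd.induction_on (p := fun v => S v = T v) v hcl fun x => ?_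
  rw [Finsupp.linearCombination_apply]
  unfold Finsupp.sum
  rw [map_sum, map_sum]
  refine Finset.sum_congr rfl fun i _ => ?_
  rw [map_smul, map_smul, h]

end Gram

section Weyl

variable {K : Type*} [NormedAddCommGroup K] [InnerProductSpace ℂ K]

/-- normalised coherent vectors -/
def coh (f : K) : Fock K := Complex.exp (-((‖f‖ ^ 2 / 2 : ℝ) : ℂ)) • ev f

/-- the vacuum vector -/
def vac : Fock K := coh 0

lemma ev_eq (f : K) : ev f = Complex.exp ((‖f‖ ^ 2 / 2 : ℝ) : ℂ) • coh f := by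
  rw [coh, smul_smul, ← Complex.exp_add]
  simp

lemma vac_eq : (vac : Fock K) = ev 0 := by
  simp [vac, coh]

lemma inner_coh (f g : K) : ⟪coh f, coh g⟫_ℂ =
    Complex.exp (⟪f, g⟫_ℂ - (‖f‖ ^ 2 / 2 : ℝ) - (‖g‖ ^ 2 / 2 : ℝ)) := by
  rw [coh, coh, inner_smul_left, inner_smul_right, inner_ev, ← Complex.exp_conj, ← Complex.exp_add,
    ← Complex.exp_add]
  congr 1
  simp only [map_neg, Complex.conj_ofReal]
  ring

lemma norm_coh (f : K) : ‖coh f‖ = 1 := by
  rw [@norm_eq_sqrt_re_inner ℂ, inner_coh, inner_self_eq_norm_sq_to_K]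
  have : ((‖f‖ : ℂ) ^ 2 - (‖f‖ ^ 2 / 2 : ℝ) - (‖f‖ ^ 2 / 2 : ℝ)) = 0 := by
    push_cast
    ring
  have h2 : (((‖f‖ : ℝ) : ℂ)) ^ 2 - (‖f‖ ^ 2 / 2 : ℝ) - (‖f‖ ^ 2 / 2 : ℝ) = 0 := this
  erw [h2]
  simp

lemma norm_vac : ‖(vac : Fock K)‖ = 1 := norm_coh 0

lemma coh_total : (Submodule.span ℂ (Set.range (coh : K → Fock K))).topologicalClosure = ⊤ := by
  have : Submodule.span ℂ (Set.range (coh : K → Fock K)) = Submodule.span ℂ (Set.range ev) := by
    apply le_antisymm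
    · rw [Submodule.span_le]
      rintro _ ⟨f, rfl⟩
      exact Submodule.smul_mem _ _ (Submodule.subset_span ⟨f, rfl⟩)
    · rw [Submodule.span_le]
      rintro _ ⟨f, rfl⟩
      rw [ev_eq]
      exact Submodule.smul_mem _ _ (Submodule.subset_span ⟨f, rfl⟩)
  rw [this]
  exact ev_total

lemma coh_ext {H : Type*} [NormedAddCommGroup H] [InnerProductSpace ℂ H]
    {S T : Fock K →L[ℂ] H} (h : ∀ f, S (coh f) = T (coh f)) : S = T :=
  ext_total coh_total h

lemma normSq_sub_div (f g : K) : ⟪f, g⟫_ℂ - (‖f‖ ^ 2 / 2 : ℝ) - (‖g‖ ^ 2 / 2 : ℝ) =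
    Complex.I * (⟪f, g⟫_ℂ).im - ((‖f - g‖ ^ 2 / 2 : ℝ) : ℂ) := by
  have h := @norm_sub_sq ℂ _ _ _ _ f g
  rw [h]
  apply Complex.ext
  · simp
    ring
  · simp [-Complex.ofReal_pow]

/-- the Weyl operators, `Wy f = exp (i φ(f))` -/
def Wy (f : K) : Fock K →L[ℂ] Fock K :=
  isoOfGram coh (fun g => Complex.exp (-(Complex.I * ((⟪f, g⟫_ℂ).im : ℂ))) • coh (f + g))

lemma gram_Wy (f : K) (x y : K) : ⟪coh x, coh y⟫_ℂ =
    ⟪Complex.exp (-(Complex.I * ((⟪f, x⟫_ℂ).im : ℂ))) • coh (f + x),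
      Complex.exp (-(Complex.I * ((⟪f, y⟫_ℂ).im : ℂ))) • coh (f + y)⟫_ℂ := by
  rw [inner_smul_left, inner_smul_right, inner_coh, inner_coh, normSq_sub_div, normSq_sub_div,
    ← Complex.exp_conj, ← Complex.exp_add, ← Complex.exp_add]
  congr 1
  rw [add_sub_add_left_eq_sub, inner_add_left, inner_add_right, inner_add_right,
    inner_self_eq_norm_sq_to_K, ← inner_conj_symm f x]
  simp only [map_neg, map_mul, Complex.conj_I, Complex.conj_ofReal, Complex.add_im, Complex.conj_im]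
  have : ((((‖f‖ : ℝ) : ℂ)) ^ 2).im = 0 := by
    rw [← Complex.ofReal_pow, Complex.ofReal_im]
  erw [this]
  push_cast
  ring

@[simp] lemma Wy_coh (f g : K) : Wy f (coh g) =
    Complex.exp (-(Complex.I * ((⟪f, g⟫_ℂ).im : ℂ))) • coh (f + g) :=
  isoOfGram_apply coh_total (gram_Wy f) g

@[simp] lemma norm_Wy_apply (f : K) (v : Fock K) : ‖Wy f v‖ = ‖v‖ :=
  norm_isoOfGram coh_total (gram_Wy f) v

lemma Wy_vac (f : K) : Wy f vac = coh f := by
  rw [vac, Wy_coh]
  simp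

@[simp] lemma Wy_zero : Wy (0 : K) = 1 := by
  refine coh_ext fun f => ?_
  rw [Wy_coh]
  simp

lemma Wy_mul (f g : K) : Wy f * Wy g =
    Complex.exp (-(Complex.I * ((⟪f, g⟫_ℂ).im : ℂ))) • Wy (f + g) := by
  refine coh_ext fun h => ?_
  rw [mul_apply_eq_comp, Wy_coh, map_smul, Wy_coh, smul_apply,
    Wy_coh, smul_smul, smul_smul, ← Complex.exp_add, ← Complex.exp_add, add_assoc]
  congr 2
  rw [inner_add_right, inner_add_left, Complex.add_im, Complex.add_im]
  push_cast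
  ring

lemma Wy_mul_neg (f : K) : Wy f * Wy (-f) = 1 := by
  rw [Wy_mul, add_neg_cancel, Wy_zero, inner_neg_right, inner_self_eq_norm_sq_to_K]
  have : (-(((‖f‖ : ℝ) : ℂ)) ^ 2).im = 0 := by
    rw [← Complex.ofReal_pow, Complex.neg_im, Complex.ofReal_im, neg_zero]
  erw [this]
  simp

lemma Wy_neg_mul (f : K) : Wy (-f) * Wy f = 1 := by
  have := Wy_mul_neg (-f)
  rwa [neg_neg] at this

lemma inner_Wy_Wy (f : K) (v w : Fock K) : ⟪Wy f v, Wy f w⟫_ℂ = ⟪v, w⟫_ℂ := by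
  have := (LinearIsometry.mk (Wy f).toLinearMap (norm_Wy_apply f)).inner_map_map v w
  exact this

lemma inner_Wy_left (f : K) (v w : Fock K) : ⟪Wy f v, w⟫_ℂ = ⟪v, Wy (-f) w⟫_ℂ := by
  have h : w = Wy f (Wy (-f) w) := by
    rw [← mul_apply_eq_comp, Wy_mul_neg]; rfl
  conv_lhs => rw [h]
  exact inner_Wy_Wy f _ _

@[simp] lemma star_Wy (f : K) : star (Wy f) = Wy (-f) := by
  rw [ContinuousLinearMap.star_eq_adjoint]
  refine ContinuousLinearMap.ext fun w => ?_
  refine ext_inner_left ℂ fun v => ?_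
  rw [ContinuousLinearMap.adjoint_inner_right, inner_Wy_left]

/-- Weyl operators as unitaries. -/
def WyU (f : K) : unitary (Fock K →L[ℂ] Fock K) :=
  ⟨Wy f, by rw [Unitary.mem_iff, star_Wy]; exact ⟨Wy_neg_mul f, Wy_mul_neg f⟩⟩

lemma inner_vac_Wy (f : K) : ⟪vac, Wy f vac⟫_ℂ = Complex.exp (-((‖f‖ ^ 2 / 2 : ℝ) : ℂ)) := by
  rw [Wy_vac, vac, inner_coh]
  simp

lemma normSq_ev_sub (f g : K) : ‖ev f - ev g‖ ^ 2 =
    (Complex.exp ⟪f, f⟫_ℂ).re - 2 * (Complex.exp ⟪f, g⟫_ℂ).re + (Complex.exp ⟪g, g⟫_ℂ).re := by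
  rw [@norm_sub_sq ℂ, @norm_sq_eq_re_inner ℂ _ _ _ _ (ev f), @norm_sq_eq_re_inner ℂ _ _ _ _ (ev g),
    inner_ev, inner_ev, inner_ev]
  rfl

lemma continuous_ev : Continuous (ev : K → Fock K) := by
  rw [continuous_iff_continuousAt]
  intro g
  rw [ContinuousAt, tendsto_iff_norm_sub_tendsto_zero]
  have h1 : Tendsto (fun f : K => ‖ev f - ev g‖ ^ 2) (𝓝 g) (𝓝 0) := by
    have h2 : Continuous fun f : K => (Complex.exp ⟪f, f⟫_ℂ).re - 2 * (Complex.exp ⟪f, g⟫_ℂ).re +
        (Complex.exp ⟪g, g⟫_ℂ).re := by fun_prop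
    have h3 := h2.tendsto g
    have h4 : (Complex.exp ⟪g, g⟫_ℂ).re - 2 * (Complex.exp ⟪g, g⟫_ℂ).re +
        (Complex.exp ⟪g, g⟫_ℂ).re = 0 := by ring
    rw [h4] at h3
    exact h3.congr fun f => (normSq_ev_sub f g).symm
  have h5 := h1.sqrt
  rw [Real.sqrt_zero] at h5
  exact h5.congr fun f => Real.sqrt_sq (norm_nonneg _)

lemma continuous_coh : Continuous (coh : K → Fock K) := by
  unfold coh
  have := continuous_ev (K := K)
  fun_prop

/-- Strong continuity of the Weyl operators. -/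
lemma continuous_Wy_apply (v : Fock K) : Continuous fun f : K => Wy f v := by
  have hd := denseRange_lc (coh_total (K := K))
  have key : ∀ x : K →₀ ℂ, Continuous fun f : K => Wy f (Finsupp.linearCombination ℂ coh x) := by
    intro x
    have h1 : ∀ f : K, Wy f (Finsupp.linearCombination ℂ coh x) =
        ∑ g ∈ x.support, x g • (Complex.exp (-(Complex.I * ((⟪f, g⟫_ℂ).im : ℂ))) • coh (f + g)) := by
      intro f
      rw [Finsupp.linearCombination_apply]
      unfold Finsupp.sum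
      rw [map_sum]
      refine Finset.sum_congr rfl fun g _ => ?_
      rw [map_smul, Wy_coh]
    simp_rw [h1]
    refine continuous_finsetSum _ fun g _ => ?_
    have hc : Continuous fun f : K => (coh (f + g) : Fock K) :=
      continuous_coh.comp (continuous_id.add continuous_const)
    have he : Continuous fun f : K => Complex.exp (-(Complex.I * ((⟪f, g⟫_ℂ).im : ℂ))) := by
      refine Complex.continuous_exp.comp (Continuous.neg (continuous_const.mul ?_))
      exact Complex.continuous_ofReal.comp (Complex.continuous_im.comp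
        (continuous_id.inner continuous_const))
    exact Continuous.const_smul (he.smul hc) (x g)
  rw [Metric.continuous_iff]
  intro f ε hε
  obtain ⟨x, hx⟩ := hd.exists_dist_lt v (show (0 : ℝ) < ε / 3 by positivity)
  obtain ⟨δ, hδ, h⟩ := Metric.continuous_iff.mp (key x) f (ε / 3) (by positivity)
  refine ⟨δ, hδ, fun g hg => ?_⟩
  have h1 : dist (Wy g v) (Wy g (Finsupp.linearCombination ℂ coh x)) < ε / 3 := by
    rw [dist_eq_norm, ← map_sub, norm_Wy_apply, ← dist_eq_norm]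
    exact hx
  have h2 : dist (Wy f (Finsupp.linearCombination ℂ coh x)) (Wy f v) < ε / 3 := by
    rw [dist_eq_norm, ← map_sub, norm_Wy_apply, ← dist_eq_norm, dist_comm]
    exact hx
  calc dist (Wy g v) (Wy f v) ≤ _ := dist_triangle4 _ _ _ _
    _ < ε / 3 + ε / 3 + ε / 3 := add_lt_add (add_lt_add h1 (h g hg)) h2
    _ = ε := by ring

/-- joint strong continuity on sequences/filters -/
lemma tendsto_Wy_apply {ι : Type*} {l : Filter ι} {f : ι → K} {f₀ : K} {v : ι → Fock K}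
    {v₀ : Fock K} (hf : Tendsto f l (𝓝 f₀)) (hv : Tendsto v l (𝓝 v₀)) :
    Tendsto (fun i => Wy (f i) (v i)) l (𝓝 (Wy f₀ v₀)) := by
  have h1 : Tendsto (fun i => Wy (f i) v₀) l (𝓝 (Wy f₀ v₀)) :=
    ((continuous_Wy_apply v₀).tendsto f₀).comp hf
  have h2 : Tendsto (fun i => Wy (f i) (v i) - Wy (f i) v₀) l (𝓝 0) := by
    rw [tendsto_zero_iff_norm_tendsto_zero]
    have h3 := tendsto_iff_norm_sub_tendsto_zero.mp hv
    refine h3.congr fun i => ?_
    rw [← map_sub, norm_Wy_apply]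
  have := h2.add h1
  simpa using this

/-! ### one-particle vectors -/

/-- real derivative at zero of `t ↦ (exp (t a) - 1) / t`-type expressions -/
lemma tendsto_expm1_div (a : ℂ) : Tendsto (fun z : ℂ => (Complex.exp (z * a) - 1) / z)
    (𝓝[≠] 0) (𝓝 a) := by
  have h : HasDerivAt (fun z : ℂ => Complex.exp (z * a)) a 0 := by
    have h1 : HasDerivAt (fun z : ℂ => z * a) a 0 := by
      simpa using (hasDerivAt_id (0 : ℂ)).mul_const a
    simpa using h1.cexp
  have h2 := h.tendsto_slope_zero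
  refine h2.congr fun z => ?_
  simp [div_eq_inv_mul]

/-- difference quotient of the exponential vectors -/
def dq (f : K) (t : ℝ) : Fock K := ((t : ℂ))⁻¹ • (ev ((t : ℂ) • f) - ev 0)

lemma inner_dq (f g : K) (s t : ℝ) : ⟪dq f s, dq g t⟫_ℂ =
    (Complex.exp (((s * t : ℝ) : ℂ) * ⟪f, g⟫_ℂ) - 1) / ((s * t : ℝ) : ℂ) := by
  rw [dq, dq, inner_smul_left, inner_smul_right, inner_sub_left, inner_sub_right, inner_sub_right,
    inner_ev, inner_ev, inner_ev, inner_ev, inner_smul_left, inner_smul_right, inner_zero_left,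
    inner_zero_right, inner_zero_right]
  simp only [map_inv₀, Complex.conj_ofReal, Complex.exp_zero, Complex.ofReal_mul]
  rw [← mul_assoc (s : ℂ) t]
  field_simp
  ring

lemma tendsto_inner_dq (f g : K) : Tendsto (fun p : ℝ × ℝ => ⟪dq f p.1, dq g p.2⟫_ℂ)
    ((𝓝[≠] 0) ×ˢ (𝓝[≠] 0)) (𝓝 ⟪f, g⟫_ℂ) := by
  have h1 : Tendsto (fun p : ℝ × ℝ => ((p.1 * p.2 : ℝ) : ℂ)) ((𝓝[≠] 0) ×ˢ (𝓝[≠] 0))
      (𝓝[≠] (0 : ℂ)) := by
    rw [tendsto_nhdsWithin_iff]
    constructor
    · have h2 : Tendsto (fun p : ℝ × ℝ => ((p.1 * p.2 : ℝ) : ℂ)) (𝓝 0 ×ˢ 𝓝 0) (𝓝 0) := by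
        have h3 : Continuous fun p : ℝ × ℝ => ((p.1 * p.2 : ℝ) : ℂ) := by fun_prop
        have h4 := h3.tendsto (0, 0)
        rw [nhds_prod_eq] at h4
        simpa using h4
      exact h2.mono_left (Filter.prod_mono nhdsWithin_le_nhds nhdsWithin_le_nhds)
    · have h5 : ∀ᶠ p : ℝ × ℝ in (𝓝[≠] 0) ×ˢ (𝓝[≠] 0), p.1 ≠ 0 ∧ p.2 ≠ 0 :=
        (eventually_mem_nhdsWithin (a := (0 : ℝ)) (s := {0}ᶜ)).prod_mk
          (eventually_mem_nhdsWithin (a := (0 : ℝ)) (s := {0}ᶜ))
      filter_upwards [h5] with p hp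
      simp [hp.1, hp.2]
  refine ((tendsto_expm1_div ⟪f, g⟫_ℂ).comp h1).congr fun p => ?_
  rw [inner_dq]
  rfl

lemma cauchy_dq (f : K) : Cauchy (Filter.map (dq f) (𝓝[≠] 0)) := by
  rw [cauchy_map_iff]
  refine ⟨inferInstance, ?_⟩
  rw [tendsto_uniformity_iff_dist_tendsto_zero]
  have h1 := tendsto_inner_dq f f
  have hd : Tendsto (fun s : ℝ => (s, s)) (𝓝[≠] (0 : ℝ)) ((𝓝[≠] 0) ×ˢ (𝓝[≠] 0)) :=
    tendsto_id.prodMk tendsto_id
  have h2 : Tendsto (fun p : ℝ × ℝ => ⟪dq f p.1, dq f p.1⟫_ℂ) ((𝓝[≠] 0) ×ˢ (𝓝[≠] 0))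
      (𝓝 ⟪f, f⟫_ℂ) := (h1.comp hd).comp tendsto_fst
  have h3 : Tendsto (fun p : ℝ × ℝ => ⟪dq f p.2, dq f p.2⟫_ℂ) ((𝓝[≠] 0) ×ˢ (𝓝[≠] 0))
      (𝓝 ⟪f, f⟫_ℂ) := (h1.comp hd).comp tendsto_snd
  have h4 : Tendsto (fun p : ℝ × ℝ => ‖dq f p.1 - dq f p.2‖ ^ 2) ((𝓝[≠] 0) ×ˢ (𝓝[≠] 0))
      (𝓝 0) := by
    have h5 := ((Complex.continuous_re.tendsto _).comp h2).sub
      (((Complex.continuous_re.tendsto _).comp h1).const_mul 2) |>.add
      ((Complex.continuous_re.tendsto _).comp h3)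
    have h6 : (⟪f, f⟫_ℂ).re - 2 * (⟪f, f⟫_ℂ).re + (⟪f, f⟫_ℂ).re = 0 := by ring
    rw [h6] at h5
    refine h5.congr fun p => ?_
    rw [@norm_sub_sq ℂ, @norm_sq_eq_re_inner ℂ _ _ _ _ (dq f p.1),
      @norm_sq_eq_re_inner ℂ _ _ _ _ (dq f p.2)]
    rfl
  have h5 := h4.sqrt
  rw [Real.sqrt_zero] at h5
  refine h5.congr fun p => ?_
  rw [Real.sqrt_sq (norm_nonneg _), dist_eq_norm]

lemma exists_tendsto_dq (f : K) : ∃ v, Tendsto (dq f) (𝓝[≠] 0) (𝓝 v) :=
  cauchy_map_iff_exists_tendsto.mp (cauchy_dq f)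

/-- derivative of the exponential vectors at zero -/
def one' (f : K) : Fock K := (exists_tendsto_dq f).choose

lemma tendsto_dq (f : K) : Tendsto (dq f) (𝓝[≠] 0) (𝓝 (one' f)) :=
  (exists_tendsto_dq f).choose_spec

lemma inner_ev_one' (g f : K) : ⟪ev g, one' f⟫_ℂ = ⟪g, f⟫_ℂ := by
  have h1 : Tendsto (fun t => ⟪ev g, dq f t⟫_ℂ) (𝓝[≠] 0) (𝓝 ⟪ev g, one' f⟫_ℂ) :=
    (continuous_const.inner continuous_id).tendsto _ |>.comp (tendsto_dq f)
  refine tendsto_nhds_unique h1 ?_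
  have h2 : Tendsto (fun t : ℝ => (t : ℂ)) (𝓝[≠] 0) (𝓝[≠] 0) := by
    rw [tendsto_nhdsWithin_iff]
    refine ⟨(Complex.continuous_ofReal.tendsto' 0 0 (by simp)).mono_left nhdsWithin_le_nhds, ?_⟩
    filter_upwards [eventually_mem_nhdsWithin] with t ht
    simpa using ht
  refine ((tendsto_expm1_div ⟪g, f⟫_ℂ).comp h2).congr fun t => ?_
  rw [dq, inner_smul_right, inner_sub_right, inner_ev, inner_ev, inner_smul_right, inner_zero_right]
  simp [div_eq_inv_mul]

lemma inner_one'_one' (f g : K) : ⟪one' f, one' g⟫_ℂ = ⟪f, g⟫_ℂ := by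
  have h1 : Tendsto (fun p : ℝ × ℝ => ⟪dq f p.1, dq g p.2⟫_ℂ)
    ((𝓝[≠] 0) ×ˢ (𝓝[≠] 0)) (𝓝 ⟪one' f, one' g⟫_ℂ) :=
    Filter.Tendsto.inner ((tendsto_dq f).comp tendsto_fst) ((tendsto_dq g).comp tendsto_snd)
  exact tendsto_nhds_unique h1 (tendsto_inner_dq f g)

lemma ext_ev {v w : Fock K} (h : ∀ f : K, ⟪ev f, v⟫_ℂ = ⟪ev f, w⟫_ℂ) : v = w := by
  rw [← sub_eq_zero]
  refine ev_sep fun f => ?_
  rw [inner_sub_right, h, sub_self]

lemma ext_coh {v w : Fock K} (h : ∀ f : K, ⟪coh f, v⟫_ℂ = ⟪coh f, w⟫_ℂ) : v = w := by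
  refine ext_ev fun f => ?_
  rw [ev_eq, inner_smul_left, inner_smul_left, h]

/-- The one-particle vectors `one f = φ(f) vac = a†(f) vac`. -/
def one : K →ₗᵢ[ℂ] Fock K where
  toFun f := -Complex.I • one' f
  map_add' f g := by
    refine ext_ev fun h => ?_
    rw [inner_add_right, inner_smul_right, inner_smul_right, inner_smul_right, inner_ev_one',
      inner_ev_one', inner_ev_one', inner_add_right]
    ring
  map_smul' c f := by
    refine ext_ev fun h => ?_
    simp only [RingHom.id_apply]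
    rw [inner_smul_right, inner_smul_right, inner_smul_right, inner_ev_one',
      inner_ev_one', inner_smul_right]
    ring
  norm_map' f := by
    show ‖-Complex.I • one' f‖ = ‖f‖
    rw [norm_smul, @norm_eq_sqrt_re_inner ℂ _ _ _ _ (one' f), inner_one'_one',
      ← @norm_eq_sqrt_re_inner ℂ]
    simp

lemma one_apply (f : K) : one f = -Complex.I • one' f := rfl

lemma inner_ev_one (g f : K) : ⟪ev g, one f⟫_ℂ = -Complex.I * ⟪g, f⟫_ℂ := by
  rw [one_apply, inner_smul_right, inner_ev_one']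

lemma inner_coh_one (g f : K) : ⟪coh g, one f⟫_ℂ =
    -Complex.I * ⟪g, f⟫_ℂ * Complex.exp (-((‖g‖ ^ 2 / 2 : ℝ) : ℂ)) := by
  rw [coh, inner_smul_left, inner_ev_one, ← Complex.exp_conj]
  simp only [map_neg, Complex.conj_ofReal]
  ring

lemma inner_vac_one (f : K) : ⟪vac, one f⟫_ℂ = 0 := by
  rw [vac, inner_coh_one]
  simp

lemma hasDerivAt_ev (f : K) : HasDerivAt (fun t : ℝ => (ev ((t : ℂ) • f) : Fock K)) (one' f) 0 := by
  rw [hasDerivAt_iff_tendsto_slope_zero]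
  refine (tendsto_dq f).congr fun t => ?_
  simp only [zero_add, Complex.ofReal_zero, zero_smul]
  rw [dq, ← Complex.ofReal_inv, Complex.coe_smul]

/-- `d/dt exp (i t φ(f)) vac = i φ(f) vac` at `t = 0`. -/
lemma hasDerivAt_coh (f : K) :
    HasDerivAt (fun t : ℝ => (coh ((t : ℂ) • f) : Fock K)) (Complex.I • one f) 0 := by
  have h1 : HasDerivAt (fun t : ℝ => Complex.exp (-((‖(t : ℂ) • f‖ ^ 2 / 2 : ℝ) : ℂ))) 0 0 := by
    have h2 : HasDerivAt (fun t : ℝ => Complex.exp (-(((t ^ 2 * ‖f‖ ^ 2 / 2 : ℝ)) : ℂ))) 0 0 := by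
      have h3 : HasDerivAt (fun t : ℝ => -((t ^ 2 * ‖f‖ ^ 2 / 2 : ℝ))) 0 0 := by
        have : HasDerivAt (fun t : ℝ => -((t ^ 2 * ‖f‖ ^ 2 / 2 : ℝ))) _ 0 :=
          (((hasDerivAt_id (0 : ℝ)).pow 2).mul_const (‖f‖ ^ 2)).div_const 2 |>.neg
        exact this.congr_deriv (by simp)
      have h4 := h3.ofReal_comp.cexp
      simpa using h4
    refine h2.congr_of_eventuallyEq (Filter.Eventually.of_forall fun t => ?_)
    simp only [norm_smul, Complex.norm_real, Real.norm_eq_abs, mul_pow, sq_abs]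
  have h3 := h1.smul (hasDerivAt_ev f)
  have h4 : (Complex.I • one f : Fock K) = one' f := by
    rw [one_apply, smul_smul]
    simp
  rw [h4]
  have h5 : HasDerivAt (fun t : ℝ => (coh ((t : ℂ) • f) : Fock K)) _ 0 := h3
  exact h5.congr_deriv (by simp)

lemma Wy_comm (f g : K) : Wy f * Wy g =
    Complex.exp (-(Complex.I * (2 * (⟪f, g⟫_ℂ).im : ℂ))) • (Wy g * Wy f) := by
  rw [Wy_mul, Wy_mul, smul_smul, ← Complex.exp_add, add_comm g f, ← inner_conj_symm g f,
    Complex.conj_im]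
  congr 2
  push_cast
  ring

/-- `φ(f) coh g`, as the derivative of the Weyl group. -/
lemma hasDerivAt_Wy_coh (f g : K) :
    HasDerivAt (fun t : ℝ => Wy ((t : ℂ) • f) (coh g))
      (Complex.I • Wy g (one f - (2 * (⟪f, g⟫_ℂ).im : ℂ) • vac)) 0 := by
  have h1 : ∀ t : ℝ, Wy ((t : ℂ) • f) (coh g) =
      Complex.exp (-(Complex.I * (2 * (t * (⟪f, g⟫_ℂ).im) : ℂ))) • Wy g (coh ((t : ℂ) • f)) := by
    intro t
    rw [← Wy_vac g, ← Wy_vac ((t : ℂ) • f), ← mul_apply_eq_comp, ← mul_apply_eq_comp, Wy_comm,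
      smul_apply, inner_smul_left]
    simp
  have h2 : HasDerivAt (fun t : ℝ => Wy g (coh ((t : ℂ) • f))) (Wy g (Complex.I • one f)) 0 :=
    (((Wy g).restrictScalars ℝ).hasFDerivAt.comp_hasDerivAt (0 : ℝ) (hasDerivAt_coh f))
  have h3 : HasDerivAt (fun t : ℝ =>
      Complex.exp (-(Complex.I * (2 * (t * (⟪f, g⟫_ℂ).im) : ℂ))))
      (-(Complex.I * (2 * (⟪f, g⟫_ℂ).im : ℂ))) 0 := by
    have h4 : HasDerivAt (fun t : ℝ => -(Complex.I * (2 * ((t : ℂ) * (⟪f, g⟫_ℂ).im) : ℂ)))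
        (-(Complex.I * (2 * (⟪f, g⟫_ℂ).im : ℂ))) 0 := by
      have h5 : HasDerivAt (fun t : ℝ => (t : ℂ)) 1 0 := by
        simpa using (hasDerivAt_id (0 : ℝ)).ofReal_comp
      have : HasDerivAt (fun t : ℝ => -(Complex.I * (2 * ((t : ℂ) * (⟪f, g⟫_ℂ).im) : ℂ))) _ 0 :=
        ((h5.mul_const ((⟪f, g⟫_ℂ).im : ℂ)).const_mul 2 |>.const_mul Complex.I).neg
      exact this.congr_deriv (by simp)
    simpa using h4.cexp
  have h6 := h3.smul h2
  have h7 := h6.congr_of_eventuallyEq (Filter.Eventually.of_forall h1)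
  refine h7.congr_deriv ?_
  simp only [Complex.ofReal_zero, zero_mul, mul_zero, neg_zero, Complex.exp_zero, one_smul,
    zero_smul, map_smul, map_sub, smul_sub]
  rw [← vac, sub_eq_add_neg, neg_smul, smul_smul]

end Weyl

end Crest.Agent.R339.Site
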