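import Mathlib
import Crest.Prelude.Def_SpinGlass
import Crest.Agent.R339.SiteFock

/-!
# The site model: one spin coupled to the Fock space, `Sp K = ℂ² ⊗ Fock K`
-/

set_option autoImplicit false

noncomputable section

open scoped ComplexConjugate InnerProductSpace Topology
open Filter Crest.MathPhysics.SpinGlass

namespace Crest.Agent.R339.Site

/-- bounded operators on the Fock space -/
abbrev BF (K : Type*) [NormedAddCommGroup K] [InnerProductSpace ℂ K] : Type _ :=
  Fock K →L[ℂ] Fock K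

/-- `ℂ² ⊗ Fock K`; the index `b : Bool` has spin `spinSign b`. -/
abbrev Sp (K : Type*) [NormedAddCommGroup K] [InnerProductSpace ℂ K] : Type _ :=
  PiLp 2 (fun _ : Bool => Fock K)

variable {K : Type*} [NormedAddCommGroup K] [InnerProductSpace ℂ K]

/-- A `2 × 2` matrix of operators on `Fock K` acting on `Sp K`. -/
def opM (M : Matrix Bool Bool (BF K)) : Sp K →L[ℂ] Sp K :=
  ((PiLp.continuousLinearEquiv 2 ℂ (fun _ : Bool => Fock K)).symm :
    (Bool → Fock K) →L[ℂ] Sp K) ∘L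
    (ContinuousLinearMap.pi fun b => ∑ b', M b b' ∘L (ContinuousLinearMap.proj b')) ∘L
    ((PiLp.continuousLinearEquiv 2 ℂ (fun _ : Bool => Fock K)) : Sp K →L[ℂ] (Bool → Fock K))

@[simp] lemma opM_apply (M : Matrix Bool Bool (BF K)) (v : Sp K) (b : Bool) :
    opM M v b = ∑ b', M b b' (v b') := by
  simp [opM]

lemma opM_mul (M N : Matrix Bool Bool (BF K)) : opM (M * N) = opM M * opM N := by
  refine ContinuousLinearMap.ext fun v => ?_
  ext b
  rw [mul_apply_eq_comp, opM_apply, opM_apply]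
  simp only [opM_apply, Matrix.mul_apply, map_sum, sum_apply, mul_apply_eq_comp]
  rw [Finset.sum_comm]

lemma opM_one : opM (1 : Matrix Bool Bool (BF K)) = 1 := by
  refine ContinuousLinearMap.ext fun v => ?_
  ext b
  rw [opM_apply, Finset.sum_eq_single b]
  · simp
  · intro b' _ hb
    simp [Matrix.one_apply_ne hb.symm]
  · simp

lemma opM_add (M N : Matrix Bool Bool (BF K)) : opM (M + N) = opM M + opM N := by
  refine ContinuousLinearMap.ext fun v => ?_
  ext b
  simp [Finset.sum_add_distrib]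

lemma opM_smul (c : ℂ) (M : Matrix Bool Bool (BF K)) : opM (c • M) = c • opM M := by
  refine ContinuousLinearMap.ext fun v => ?_
  ext b
  simp

lemma opM_star (M : Matrix Bool Bool (BF K)) : star (opM M) = opM (star M) := by
  rw [ContinuousLinearMap.star_eq_adjoint, eq_comm, ContinuousLinearMap.eq_adjoint_iff]
  intro v w
  rw [PiLp.inner_apply, PiLp.inner_apply]
  simp only [opM_apply, sum_inner, inner_sum]
  rw [Finset.sum_comm]
  refine Finset.sum_congr rfl fun b _ => Finset.sum_congr rfl fun b' _ => ?_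
  rw [Matrix.star_apply, ContinuousLinearMap.star_eq_adjoint, ContinuousLinearMap.adjoint_inner_left]

/-- Matrices of operators as a star algebra homomorphism. -/
def opMHom : Matrix Bool Bool (BF K) →⋆ₐ[ℂ] (Sp K →L[ℂ] Sp K) where
  toFun := opM
  map_one' := opM_one
  map_mul' := opM_mul
  map_zero' := by
    refine ContinuousLinearMap.ext fun v => ?_
    ext b
    simp
  map_add' := opM_add
  commutes' c := by
    rw [Algebra.algebraMap_eq_smul_one, Algebra.algebraMap_eq_smul_one, opM_smul, opM_one]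
  map_star' M := (opM_star M).symm

/-! ### Elementary gates -/

/-- `Z`, as a matrix of operators -/
def zM : Matrix Bool Bool (BF K) := Matrix.diagonal fun b => ((spinSign b : ℝ) : ℂ) • (1 : BF K)

/-- the mixer `exp (-i β X) = cos β - i sin β X`, as a matrix of operators -/
def mixM (β : ℝ) : Matrix Bool Bool (BF K) := Matrix.of fun b b' =>
  (if b = b' then ((Real.cos β : ℝ) : ℂ) else -(Complex.I * ((Real.sin β : ℝ) : ℂ))) • (1 : BF K)

/-- the cost gate `exp (-i γ Z φ(f))`, as a matrix of operators -/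
def costM (γ : ℝ) (f : K) : Matrix Bool Bool (BF K) :=
  Matrix.diagonal fun b => Wy (((-(γ * spinSign b) : ℝ) : ℂ) • f)

lemma spinSign_sq (b : Bool) : spinSign b * spinSign b = 1 := by
  cases b <;> simp [spinSign]

lemma star_zM : star (zM : Matrix Bool Bool (BF K)) = zM := by
  rw [zM, Matrix.star_eq_conjTranspose, Matrix.diagonal_conjTranspose]
  congr 1
  funext b
  simp

lemma zM_mul_zM : (zM : Matrix Bool Bool (BF K)) * zM = 1 := by
  rw [zM, Matrix.diagonal_mul_diagonal, ← Matrix.diagonal_one]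
  congr 1
  funext b
  rw [smul_mul_smul_comm, mul_one, ← Complex.ofReal_mul, spinSign_sq]
  simp

lemma star_mixM (β : ℝ) : star (mixM β : Matrix Bool Bool (BF K)) = mixM (-β) := by
  ext b b' : 1
  rw [Matrix.star_apply]
  simp only [mixM, Matrix.of_apply, star_smul, star_one, Real.cos_neg, Real.sin_neg]
  congr 1
  cases b <;> cases b' <;> simp [-Complex.ofReal_cos, -Complex.ofReal_sin]

lemma mixM_mul (β β' : ℝ) : (mixM β : Matrix Bool Bool (BF K)) * mixM β' = mixM (β + β') := by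
  have h1 : ((Real.cos (β + β') : ℝ) : ℂ) = (Real.cos β : ℂ) * (Real.cos β' : ℂ) -
    (Real.sin β : ℂ) * (Real.sin β' : ℂ) := by rw [Real.cos_add]; push_cast; ring
  have h2 : ((Real.sin (β + β') : ℝ) : ℂ) = (Real.sin β : ℂ) * (Real.cos β' : ℂ) +
    (Real.cos β : ℂ) * (Real.sin β' : ℂ) := by rw [Real.sin_add]; push_cast; ring
  ext b b' : 1
  rw [Matrix.mul_apply]
  simp only [mixM, Matrix.of_apply, Fintype.sum_bool, smul_mul_smul_comm, mul_one, ← add_smul]
  congr 1
  rw [h1, h2]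
  cases b <;> cases b' <;> simp [-Complex.ofReal_cos, -Complex.ofReal_sin]
  · linear_combination ((Real.sin β : ℂ) * (Real.sin β' : ℂ)) * Complex.I_sq
  · ring
  · ring
  · linear_combination ((Real.sin β : ℂ) * (Real.sin β' : ℂ)) * Complex.I_sq

lemma mixM_zero : (mixM 0 : Matrix Bool Bool (BF K)) = 1 := by
  ext b b' : 1
  simp only [mixM, Matrix.of_apply, Matrix.one_apply]
  split_ifs <;> simp

lemma star_costM (γ : ℝ) (f : K) : star (costM γ f) = costM (-γ) f := by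
  rw [costM, Matrix.star_eq_conjTranspose, Matrix.diagonal_conjTranspose, costM]
  congr 1
  funext b
  simp

lemma costM_mul_neg (γ : ℝ) (f : K) : costM γ f * costM (-γ) f = 1 := by
  rw [costM, costM, Matrix.diagonal_mul_diagonal, ← Matrix.diagonal_one]
  congr 1
  funext b
  have : (((-(-γ * spinSign b) : ℝ)) : ℂ) • f = -((((-(γ * spinSign b) : ℝ)) : ℂ) • f) := by
    rw [← neg_smul]
    congr 1
    push_cast
    ring
  rw [this, Wy_mul_neg]

/-- exponentials of the same field with real coefficients form a one-parameter group -/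
lemma Wy_smul_mul (s t : ℝ) (f : K) :
    Wy ((s : ℂ) • f) * Wy ((t : ℂ) • f) = Wy (((s + t : ℝ) : ℂ) • f) := by
  rw [Wy_mul, inner_smul_left, inner_smul_right, inner_self_eq_norm_sq_to_K, ← add_smul]
  have : ((starRingEnd ℂ) (s : ℂ) * ((t : ℂ) * (((‖f‖ : ℝ) : ℂ)) ^ 2)).im = 0 := by
    rw [Complex.conj_ofReal, ← Complex.ofReal_pow, ← Complex.ofReal_mul, ← Complex.ofReal_mul,
      Complex.ofReal_im]
  erw [this]
  simp

lemma costM_mul (γ γ' : ℝ) (f : K) : costM γ f * costM γ' f = costM (γ + γ') f := by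
  rw [costM, costM, Matrix.diagonal_mul_diagonal, costM]
  congr 1
  funext b
  rw [Wy_smul_mul]
  congr 3
  ring

lemma costM_comm_zM (γ : ℝ) (f : K) : costM γ f * zM = zM * costM γ f := by
  rw [costM, zM, Matrix.diagonal_mul_diagonal, Matrix.diagonal_mul_diagonal]
  congr 1
  funext b
  simp

/-! ### Unitaries on `Sp K` -/

lemma opM_mem_unitary {M : Matrix Bool Bool (BF K)} (h1 : star M * M = 1) (h2 : M * star M = 1) :
    opM M ∈ unitary (Sp K →L[ℂ] Sp K) := by
  rw [Unitary.mem_iff, opM_star, ← opM_mul, ← opM_mul, h1, h2, opM_one]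
  exact ⟨rfl, rfl⟩

/-- the Pauli operator `Z` on the spin -/
def Zop : Sp K →L[ℂ] Sp K := opM zM

/-- `exp (-i β X)` -/
def mixU (β : ℝ) : unitary (Sp K →L[ℂ] Sp K) :=
  ⟨opM (mixM β), opM_mem_unitary (by rw [star_mixM, mixM_mul, neg_add_cancel, mixM_zero])
    (by rw [star_mixM, mixM_mul, add_neg_cancel, mixM_zero])⟩

/-- `exp (-i γ Z φ(f))` -/
def costU (γ : ℝ) (f : K) : unitary (Sp K →L[ℂ] Sp K) :=
  ⟨opM (costM γ f), opM_mem_unitary
    (by rw [star_costM]; have := costM_mul_neg (-γ) f; rwa [neg_neg] at this)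
    (by rw [star_costM, costM_mul_neg])⟩

/-- the initial state `|+⟩ ⊗ vac` -/
def Om : Sp K := WithLp.toLp 2 fun _ => (((1 : ℝ) / Real.sqrt 2 : ℝ) : ℂ) • vac

lemma Zop_apply (v : Sp K) (b : Bool) : Zop v b = ((spinSign b : ℝ) : ℂ) • v b := by
  rw [Zop, opM_apply, zM, Finset.sum_eq_single b]
  · simp
  · intro b' _ hb
    simp [Matrix.diagonal_apply_ne _ hb.symm]
  · simp

lemma costU_apply (γ : ℝ) (f : K) (v : Sp K) (b : Bool) :
    (costU γ f : Sp K →L[ℂ] Sp K) v b = Wy (((-(γ * spinSign b) : ℝ) : ℂ) • f) (v b) := by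
  show opM (costM γ f) v b = _
  rw [opM_apply, costM, Finset.sum_eq_single b]
  · simp
  · intro b' _ hb
    simp [Matrix.diagonal_apply_ne _ hb.symm]
  · simp

lemma mixU_apply (β : ℝ) (v : Sp K) (b : Bool) :
    ((mixU β : unitary (Sp K →L[ℂ] Sp K)) : Sp K →L[ℂ] Sp K) v b = ((Real.cos β : ℝ) : ℂ) • v b
      - (Complex.I * ((Real.sin β : ℝ) : ℂ)) • v (!b) := by
  show opM (mixM β) v b = _
  rw [opM_apply, Fintype.sum_bool]
  cases b <;> simp [mixM, -Complex.ofReal_cos, -Complex.ofReal_sin, sub_eq_add_neg, add_comm]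

lemma norm_Om : ‖(Om : Sp K)‖ = 1 := by
  have h := PiLp.norm_sq_eq_of_L2 (fun _ : Bool => Fock K) Om
  have h2 : ∀ b : Bool, ‖(Om : Sp K) b‖ ^ 2 = 1 / 2 := by
    intro b
    show ‖(((1 : ℝ) / Real.sqrt 2 : ℝ) : ℂ) • (vac : Fock K)‖ ^ 2 = 1 / 2
    rw [norm_smul, norm_vac, mul_one, Complex.norm_real, Real.norm_eq_abs, sq_abs, div_pow,
      Real.sq_sqrt (by norm_num)]
    norm_num
  simp only [h2, Fintype.sum_bool] at h
  have h3 : ‖(Om : Sp K)‖ ^ 2 = 1 := by rw [h]; norm_num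
  exact (pow_eq_one_iff_of_nonneg (norm_nonneg _) two_ne_zero).mp h3

/-! ### Moves and the energy functional -/

/-- `U* Z U Ω` -/
def eVec (U : unitary (Sp K →L[ℂ] Sp K)) : Sp K :=
  (star (U : Sp K →L[ℂ] Sp K)) (Zop ((U : Sp K →L[ℂ] Sp K) Om))

/-- left multiplication by the mixer -/
def moveB (β : ℝ) (U : unitary (Sp K →L[ℂ] Sp K)) : unitary (Sp K →L[ℂ] Sp K) := mixU β * U

/-- left multiplication by the cost gate in its own mean field -/
def moveC (ι : Sp K →ₗᵢ[ℂ] K) (γ : ℝ) (U : unitary (Sp K →L[ℂ] Sp K)) :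
    unitary (Sp K →L[ℂ] Sp K) := costU γ (ι (eVec U)) * U

/-- the unitary of a word -/
def wordU (ι : Sp K →ₗᵢ[ℂ] K) (angles : List (ℝ × ℝ)) : unitary (Sp K →L[ℂ] Sp K) :=
  angles.foldl (fun U a => moveB a.2 (moveC ι a.1 U)) 1

/-- `v ↦ |+⟩ ⊗ one (ι v)` -/
def Sop (ι : Sp K →ₗᵢ[ℂ] K) : Sp K →ₗᵢ[ℂ] Sp K where
  toFun v := WithLp.toLp 2 fun _ => (((1 : ℝ) / Real.sqrt 2 : ℝ) : ℂ) • one (ι v)
  map_add' v w := by
    ext b
    simp
  map_smul' c v := by
    ext b
    simp only [map_smul, RingHom.id_apply, PiLp.smul_apply]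
    rw [smul_comm]
  norm_map' v := by
    show ‖(WithLp.toLp 2 fun _ => (((1 : ℝ) / Real.sqrt 2 : ℝ) : ℂ) • one (ι v) : Sp K)‖ = ‖v‖
    have h := PiLp.norm_sq_eq_of_L2 (fun _ : Bool => Fock K)
      (WithLp.toLp 2 fun _ => (((1 : ℝ) / Real.sqrt 2 : ℝ) : ℂ) • one (ι v))
    have h2 : ‖(((1 : ℝ) / Real.sqrt 2 : ℝ) : ℂ) • (one (ι v) : Fock K)‖ ^ 2 = ‖v‖ ^ 2 / 2 := by
      rw [norm_smul, LinearIsometry.norm_map, LinearIsometry.norm_map, Complex.norm_real,
        Real.norm_eq_abs, mul_pow, sq_abs, div_pow, Real.sq_sqrt (by norm_num)]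
      ring
    simp only [Fintype.sum_bool, h2] at h
    rw [add_halves] at h
    exact (sq_eq_sq₀ (norm_nonneg _) (norm_nonneg _)).mp h

/-- The energy functional `Re ⟨e, S e⟩`, `e = U* Z U Ω`. -/
def energy (ι : Sp K →ₗᵢ[ℂ] K) (U : unitary (Sp K →L[ℂ] Sp K)) : ℝ :=
  (⟪eVec U, Sop ι (eVec U)⟫_ℂ).re

/-! ### Strong convergence -/

/-- the unitary group of the site -/
abbrev USp (K : Type*) [NormedAddCommGroup K] [InnerProductSpace ℂ K] : Type _ :=
  unitary (Sp K →L[ℂ] Sp K)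

/-- strong (pointwise) convergence of unitaries on the site space -/
def STends {α : Type*} (U : α → USp K) (l : Filter α) (U₀ : USp K) : Prop :=
  ∀ v : Sp K, Tendsto (fun i => (U i : Sp K →L[ℂ] Sp K) v) l (𝓝 ((U₀ : Sp K →L[ℂ] Sp K) v))

lemma norm_U_apply (U : USp K) (v : Sp K) : ‖(U : Sp K →L[ℂ] Sp K) v‖ = ‖v‖ := by
  have h1 := (Unitary.mem_iff.mp U.2).1
  have h2 : ⟪(U : Sp K →L[ℂ] Sp K) v, (U : Sp K →L[ℂ] Sp K) v⟫_ℂ = ⟪v, v⟫_ℂ := by
    rw [← ContinuousLinearMap.adjoint_inner_left, ← ContinuousLinearMap.star_eq_adjoint,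
      ← mul_apply_eq_comp, h1]
    rfl
  rw [@norm_eq_sqrt_re_inner ℂ, h2, ← @norm_eq_sqrt_re_inner ℂ]

lemma star_U_mul_self (U : USp K) :
    star (U : Sp K →L[ℂ] Sp K) * (U : Sp K →L[ℂ] Sp K) = 1 := (Unitary.mem_iff.mp U.2).1

lemma U_mul_star_self (U : USp K) :
    (U : Sp K →L[ℂ] Sp K) * star (U : Sp K →L[ℂ] Sp K) = 1 := (Unitary.mem_iff.mp U.2).2

lemma norm_star_U_apply (U : USp K) (v : Sp K) : ‖(star (U : Sp K →L[ℂ] Sp K)) v‖ = ‖v‖ :=
  norm_U_apply (star U) v

lemma tendsto_U_apply {α : Type*} {l : Filter α} {U : α → USp K} {U₀ : USp K}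
    (hU : STends U l U₀) {v : α → Sp K} {v₀ : Sp K} (hv : Tendsto v l (𝓝 v₀)) :
    Tendsto (fun i => (U i : Sp K →L[ℂ] Sp K) (v i)) l (𝓝 ((U₀ : Sp K →L[ℂ] Sp K) v₀)) := by
  have h1 := hU v₀
  have h2 : Tendsto (fun i => (U i : Sp K →L[ℂ] Sp K) (v i) - (U i : Sp K →L[ℂ] Sp K) v₀) l
      (𝓝 0) := by
    rw [tendsto_zero_iff_norm_tendsto_zero]
    refine (tendsto_iff_norm_sub_tendsto_zero.mp hv).congr fun i => ?_
    rw [← map_sub, norm_U_apply]
  simpa using h2.add h1

lemma STends.adj {α : Type*} {l : Filter α} {U : α → USp K} {U₀ : USp K}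
    (hU : STends U l U₀) : STends (fun i => star (U i)) l (star U₀) := by
  intro v
  rw [tendsto_iff_norm_sub_tendsto_zero]
  have h1 := tendsto_iff_norm_sub_tendsto_zero.mp (hU ((star (U₀ : Sp K →L[ℂ] Sp K)) v))
  refine h1.congr fun i => ?_
  have h2 : (U₀ : Sp K →L[ℂ] Sp K) ((star (U₀ : Sp K →L[ℂ] Sp K)) v) = v := by
    rw [← mul_apply_eq_comp, U_mul_star_self]
    rfl
  have h3 : (star (U i : Sp K →L[ℂ] Sp K))
      ((U i : Sp K →L[ℂ] Sp K) ((star (U₀ : Sp K →L[ℂ] Sp K)) v)) =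
      (star (U₀ : Sp K →L[ℂ] Sp K)) v := by
    rw [← mul_apply_eq_comp, star_U_mul_self]
    rfl
  rw [h2, ← norm_star_U_apply (U i), map_sub, h3, ← norm_neg, neg_sub]
  rfl

lemma STends.mul {α : Type*} {l : Filter α} {U V : α → USp K} {U₀ V₀ : USp K}
    (hU : STends U l U₀) (hV : STends V l V₀) : STends (fun i => U i * V i) l (U₀ * V₀) := by
  intro v
  exact tendsto_U_apply hU (hV v)

lemma STends.const {α : Type*} {l : Filter α} (U₀ : USp K) : STends (fun _ : α => U₀) l U₀ :=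
  fun _ => tendsto_const_nhds

lemma STends.tendsto_eVec {α : Type*} {l : Filter α} {U : α → USp K} {U₀ : USp K}
    (hU : STends U l U₀) : Tendsto (fun i => eVec (U i)) l (𝓝 (eVec U₀)) :=
  tendsto_U_apply hU.adj ((Zop.continuous.tendsto _).comp (hU Om))

lemma STends_costU {α : Type*} {l : Filter α} (γ : α → ℝ) (γ₀ : ℝ) (hγ : Tendsto γ l (𝓝 γ₀))
    {f : α → K} {f₀ : K} (hf : Tendsto f l (𝓝 f₀)) :
    STends (fun i => costU (γ i) (f i)) l (costU γ₀ f₀) := by
  intro v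
  have h : ∀ (γ : ℝ) (f : K), ((costU γ f : USp K) : Sp K →L[ℂ] Sp K) v =
      WithLp.toLp 2 (fun b => Wy (((-(γ * spinSign b) : ℝ) : ℂ) • f) (v b)) := by
    intro γ f
    ext b
    exact costU_apply γ f v b
  rw [h γ₀ f₀]
  refine Tendsto.congr (fun i => (h (γ i) (f i)).symm) ?_
  refine ((PiLp.continuous_toLp 2 (fun _ : Bool => Fock K)).tendsto _).comp ?_
  rw [tendsto_pi_nhds]
  intro b
  refine tendsto_Wy_apply (Tendsto.smul ?_ hf) tendsto_const_nhds
  exact (Complex.continuous_ofReal.tendsto _).comp ((hγ.mul_const _).neg)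

lemma STends.move_B {α : Type*} {l : Filter α} {U : α → USp K} {U₀ : USp K}
    (hU : STends U l U₀) (β : ℝ) : STends (fun i => moveB β (U i)) l (moveB β U₀) :=
  (STends.const _).mul hU

lemma STends.move_C {α : Type*} {l : Filter α} (ι : Sp K →ₗᵢ[ℂ] K) {U : α → USp K} {U₀ : USp K}
    (hU : STends U l U₀) (γ : ℝ) : STends (fun i => moveC ι γ (U i)) l (moveC ι γ U₀) :=
  (STends_costU _ _ tendsto_const_nhds ((ι.continuous.tendsto _).comp hU.tendsto_eVec)).mul hU

lemma STends.tendsto_energy {α : Type*} {l : Filter α} (ι : Sp K →ₗᵢ[ℂ] K) {U : α → USp K} {U₀ : USp K}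
    (hU : STends U l U₀) : Tendsto (fun i => energy ι (U i)) l (𝓝 (energy ι U₀)) := by
  have h1 := hU.tendsto_eVec
  exact (Complex.continuous_re.tendsto _).comp
    (h1.inner (((Sop ι).continuous.tendsto _).comp h1))

end Crest.Agent.R339.Site
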