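import Mathlib
import Crest.Agent.R339.SiteModel

/-!
# Basic algebra of the site model for the label gates (L1')

`Wl g` the Weyl operator on both spin components, `Xop`, `Ez f = exp (i Z φ(f))`, `Rz θ = exp (i θ Z)`,
`Pu β u = exp (i Z_β φ(u))`, spin operators, and the commutation relations.
-/

set_option autoImplicit false

noncomputable section

open scoped ComplexConjugate InnerProductSpace Topology
open Filter Crest.MathPhysics.SpinGlass Crest.Agent.R339.Site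

namespace Crest.Agent.R339.Lab

variable {K : Type*} [NormedAddCommGroup K] [InnerProductSpace ℂ K]

/-! ### Weyl operators on `Sp K` -/

/-- the Weyl operator acting on both spin components -/
def Wl (g : K) : Sp K →L[ℂ] Sp K := opM (Matrix.diagonal fun _ => Wy g)

@[simp] lemma Wl_apply (g : K) (v : Sp K) (b : Bool) : Wl g v b = Wy g (v b) := by
  rw [Wl, opM_apply, Finset.sum_eq_single b]
  · simp
  · intro b' _ hb
    simp [Matrix.diagonal_apply_ne _ hb.symm]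
  · simp

@[simp] lemma Wl_zero : Wl (0 : K) = 1 := by
  refine ContinuousLinearMap.ext fun v => ?_
  ext b
  simp

@[simp] lemma norm_Wl_apply (g : K) (v : Sp K) : ‖Wl g v‖ = ‖v‖ := by
  rw [PiLp.norm_eq_of_L2, PiLp.norm_eq_of_L2]
  simp

lemma Wl_Wl (f g : K) (v : Sp K) : Wl f (Wl g v) =
    Complex.exp (-(Complex.I * ((⟪f, g⟫_ℂ).im : ℂ))) • Wl (f + g) v := by
  ext b
  rw [Wl_apply, Wl_apply, PiLp.smul_apply, Wl_apply, ← mul_apply_eq_comp, Wy_mul, smul_apply]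

lemma Wl_comm (f g : K) (v : Sp K) : Wl f (Wl g v) =
    Complex.exp (-(Complex.I * (2 * (⟪f, g⟫_ℂ).im : ℂ))) • Wl g (Wl f v) := by
  ext b
  rw [Wl_apply, Wl_apply, PiLp.smul_apply, Wl_apply, Wl_apply, ← mul_apply_eq_comp, Wy_comm,
    smul_apply, mul_apply_eq_comp]

@[simp] lemma Wl_neg_Wl (g : K) (v : Sp K) : Wl (-g) (Wl g v) = v := by
  ext b
  rw [Wl_apply, Wl_apply, ← mul_apply_eq_comp, Wy_neg_mul]
  rfl

@[simp] lemma Wl_Wl_neg (g : K) (v : Sp K) : Wl g (Wl (-g) v) = v := by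
  ext b
  rw [Wl_apply, Wl_apply, ← mul_apply_eq_comp, Wy_mul_neg]
  rfl

lemma inner_Wl_Wl (g : K) (v w : Sp K) : ⟪Wl g v, Wl g w⟫_ℂ = ⟪v, w⟫_ℂ := by
  rw [PiLp.inner_apply, PiLp.inner_apply]
  simp only [Wl_apply, inner_Wy_Wy]

lemma inner_Wl_left (g : K) (v w : Sp K) : ⟪Wl g v, w⟫_ℂ = ⟪v, Wl (-g) w⟫_ℂ := by
  rw [← inner_Wl_Wl g v, Wl_Wl_neg]

/-- the difference operator -/
def Dl (g : K) : Sp K →L[ℂ] Sp K := Wl g - 1

lemma Dl_apply (g : K) (v : Sp K) : Dl g v = Wl g v - v := rfl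

@[simp] lemma Dl_zero : Dl (0 : K) = 0 := by simp [Dl]

lemma Wl_eq_add_Dl (g : K) (v : Sp K) : Wl g v = v + Dl g v := by rw [Dl_apply]; abel

lemma norm_Dl_le (g : K) (v : Sp K) : ‖Dl g v‖ ≤ 2 * ‖v‖ := by
  rw [Dl_apply]
  calc ‖Wl g v - v‖ ≤ ‖Wl g v‖ + ‖v‖ := norm_sub_le _ _
    _ = 2 * ‖v‖ := by rw [norm_Wl_apply]; ring

lemma norm_Dl_neg (g : K) (v : Sp K) : ‖Dl (-g) v‖ = ‖Dl g v‖ := by
  have : Dl (-g) v = -(Wl (-g) (Dl g v)) := by
    rw [Dl_apply, Dl_apply, map_sub, Wl_neg_Wl]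
    abel
  rw [this, norm_neg, norm_Wl_apply]

/-! ### Spin operators -/

/-- Operators commuting with all Weyl operators. -/
def IsSpin (A : Sp K →L[ℂ] Sp K) : Prop := ∀ (g : K) (v : Sp K), A (Wl g v) = Wl g (A v)

lemma IsSpin.Dl {A : Sp K →L[ℂ] Sp K} (hA : IsSpin A) (g : K) (v : Sp K) :
    A (Dl g v) = Lab.Dl g (A v) := by
  rw [Dl_apply, Dl_apply, map_sub, hA]

lemma isSpin_one : IsSpin (1 : Sp K →L[ℂ] Sp K) := fun _ _ => rfl

lemma isSpin_zero : IsSpin (0 : Sp K →L[ℂ] Sp K) := fun _ _ => by simp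

lemma IsSpin.mul {A B : Sp K →L[ℂ] Sp K} (hA : IsSpin A) (hB : IsSpin B) : IsSpin (A * B) := by
  intro g v
  rw [mul_apply_eq_comp, mul_apply_eq_comp, hB, hA]

lemma IsSpin.add {A B : Sp K →L[ℂ] Sp K} (hA : IsSpin A) (hB : IsSpin B) : IsSpin (A + B) := by
  intro g v
  rw [add_apply, add_apply, hB, hA, map_add]

lemma IsSpin.sub {A B : Sp K →L[ℂ] Sp K} (hA : IsSpin A) (hB : IsSpin B) : IsSpin (A - B) := by
  intro g v
  rw [sub_apply, sub_apply, hB, hA, map_sub]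

lemma IsSpin.neg {A : Sp K →L[ℂ] Sp K} (hA : IsSpin A) : IsSpin (-A) := by
  intro g v
  rw [neg_apply, neg_apply, hA, map_neg]

lemma IsSpin.smul {A : Sp K →L[ℂ] Sp K} (hA : IsSpin A) (c : ℂ) : IsSpin (c • A) := by
  intro g v
  rw [smul_apply, smul_apply, hA, map_smul]

lemma IsSpin.pow {A : Sp K →L[ℂ] Sp K} (hA : IsSpin A) (m : ℕ) : IsSpin (A ^ m) := by
  induction m with
  | zero => rw [pow_zero]; exact isSpin_one
  | succ m ih => rw [pow_succ]; exact ih.mul hA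

/-- A scalar `2 × 2` matrix acting on the spin. -/
def spM (M : Matrix Bool Bool ℂ) : Sp K →L[ℂ] Sp K := opM (M.map fun c => c • (1 : BF K))

lemma spM_apply (M : Matrix Bool Bool ℂ) (v : Sp K) (b : Bool) :
    spM M v b = ∑ b', M b b' • v b' := by
  rw [spM, opM_apply]
  rfl

lemma isSpin_spM (M : Matrix Bool Bool ℂ) : IsSpin (spM M : Sp K →L[ℂ] Sp K) := by
  intro g v
  ext b
  rw [spM_apply, Wl_apply, spM_apply, map_sum]
  refine Finset.sum_congr rfl fun b' _ => ?_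
  rw [Wl_apply, map_smul]

@[simp] lemma isSpin_Zop : IsSpin (Zop : Sp K →L[ℂ] Sp K) := by
  intro g v
  ext b
  rw [Zop_apply, Wl_apply, Wl_apply, Zop_apply, map_smul]

/-- the Pauli operator `X` on the spin -/
def Xop : Sp K →L[ℂ] Sp K := spM (Matrix.of fun b b' => if b = b' then 0 else 1)

@[simp] lemma Xop_apply (v : Sp K) (b : Bool) : Xop v b = v (!b) := by
  rw [Xop, spM_apply, Fintype.sum_bool]
  cases b <;> simp

@[simp] lemma isSpin_Xop : IsSpin (Xop : Sp K →L[ℂ] Sp K) := isSpin_spM _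

lemma isSpin_mixU (β : ℝ) : IsSpin ((mixU β : USp K) : Sp K →L[ℂ] Sp K) := by
  intro g v
  ext b
  rw [mixU_apply, Wl_apply, Wl_apply, Wl_apply, mixU_apply, map_sub, map_smul, map_smul]

lemma Zop_Zop (v : Sp K) : Zop (Zop v) = v := by
  ext b
  rw [Zop_apply, Zop_apply, smul_smul, ← Complex.ofReal_mul, spinSign_sq]
  simp

lemma Xop_Xop (v : Sp K) : Xop (Xop v) = v := by
  ext b
  simp

lemma spinSign_not (b : Bool) : spinSign (!b) = -spinSign b := by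
  cases b <;> simp [spinSign]

lemma Zop_Xop (v : Sp K) : Zop (Xop v) = -Xop (Zop v) := by
  ext b
  rw [Zop_apply, Xop_apply, PiLp.neg_apply, Xop_apply, Zop_apply, spinSign_not]
  simp

lemma norm_Zop_apply (v : Sp K) : ‖Zop v‖ = ‖v‖ := by
  rw [PiLp.norm_eq_of_L2, PiLp.norm_eq_of_L2]
  congr 1
  refine Finset.sum_congr rfl fun b _ => ?_
  rw [Zop_apply, norm_smul, Complex.norm_real, Real.norm_eq_abs]
  have : |spinSign b| = 1 := by cases b <;> simp [spinSign]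
  rw [this, one_mul]

lemma norm_Xop_apply (v : Sp K) : ‖Xop v‖ = ‖v‖ := by
  rw [PiLp.norm_eq_of_L2, PiLp.norm_eq_of_L2]
  simp [add_comm]

lemma inner_Zop_left (v w : Sp K) : ⟪Zop v, w⟫_ℂ = ⟪v, Zop w⟫_ℂ := by
  rw [PiLp.inner_apply, PiLp.inner_apply]
  refine Finset.sum_congr rfl fun b _ => ?_
  rw [Zop_apply, Zop_apply, inner_smul_left, inner_smul_right, Complex.conj_ofReal]

lemma inner_Xop_left (v w : Sp K) : ⟪Xop v, w⟫_ℂ = ⟪v, Xop w⟫_ℂ := by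
  rw [PiLp.inner_apply, PiLp.inner_apply]
  simp [add_comm]

lemma mixU_eq (β : ℝ) (v : Sp K) : ((mixU β : USp K) : Sp K →L[ℂ] Sp K) v =
    ((Real.cos β : ℝ) : ℂ) • v - (Complex.I * ((Real.sin β : ℝ) : ℂ)) • Xop v := by
  ext b
  rw [mixU_apply, PiLp.sub_apply, PiLp.smul_apply, PiLp.smul_apply, Xop_apply]

lemma mixU_add (β β' : ℝ) : (mixU β : USp K) * mixU β' = mixU (β + β') := by
  ext1
  show opM (mixM β) * opM (mixM β') = opM (mixM (β + β'))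
  rw [← opM_mul, mixM_mul]

@[simp] lemma mixU_zero : (mixU 0 : USp K) = 1 := by
  ext1
  show opM (mixM 0) = 1
  rw [mixM_zero, opM_one]

@[simp] lemma mixU_neg_mul (β : ℝ) : (mixU (-β) : USp K) * mixU β = 1 := by
  rw [mixU_add, neg_add_cancel, mixU_zero]

@[simp] lemma mixU_mul_neg (β : ℝ) : (mixU β : USp K) * mixU (-β) = 1 := by
  rw [mixU_add, add_neg_cancel, mixU_zero]

lemma mixU_apply_add (β β' : ℝ) (v : Sp K) : ((mixU β : USp K) : Sp K →L[ℂ] Sp K)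
    (((mixU β' : USp K) : Sp K →L[ℂ] Sp K) v) = ((mixU (β + β') : USp K) : Sp K →L[ℂ] Sp K) v := by
  rw [← mixU_add]; rfl

lemma star_mixU (β : ℝ) : star (mixU β : USp K) = mixU (-β) := by
  have h := mixU_neg_mul (K := K) β
  have h2 : star (mixU β : USp K) = (mixU (-β) * mixU β) * star (mixU β : USp K) := by
    rw [h, one_mul]
  rw [h2, mul_assoc, Unitary.mul_star_self, mul_one]

lemma star_mixU_coe (β : ℝ) : star ((mixU β : USp K) : Sp K →L[ℂ] Sp K) =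
    ((mixU (-β) : USp K) : Sp K →L[ℂ] Sp K) := by
  rw [← star_mixU]; rfl

lemma Zop_mixU (β : ℝ) (v : Sp K) : Zop (((mixU β : USp K) : Sp K →L[ℂ] Sp K) v) =
    ((mixU (-β) : USp K) : Sp K →L[ℂ] Sp K) (Zop v) := by
  rw [mixU_eq, mixU_eq, map_sub, map_smul, map_smul, Zop_Xop, Real.cos_neg, Real.sin_neg]
  simp only [smul_neg, Complex.ofReal_neg, mul_neg, neg_smul]

/-- `Z_β = exp (i β X) Z exp (- i β X)` -/
def Zb (β : ℝ) : Sp K →L[ℂ] Sp K :=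
  ((mixU (-β) : USp K) : Sp K →L[ℂ] Sp K) * Zop * ((mixU β : USp K) : Sp K →L[ℂ] Sp K)

lemma Zb_apply (β : ℝ) (v : Sp K) : Zb β v = ((mixU (-β) : USp K) : Sp K →L[ℂ] Sp K)
    (Zop (((mixU β : USp K) : Sp K →L[ℂ] Sp K) v)) := rfl

lemma Zb_eq (β : ℝ) (v : Sp K) : Zb β v = ((mixU (-(2 * β)) : USp K) : Sp K →L[ℂ] Sp K) (Zop v) := by
  rw [Zb_apply, Zop_mixU, mixU_apply_add, show -β + -β = -(2 * β) by ring]

@[simp] lemma Zb_zero : (Zb 0 : Sp K →L[ℂ] Sp K) = Zop := by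
  refine ContinuousLinearMap.ext fun v => ?_
  rw [Zb_eq, mul_zero, neg_zero, mixU_zero]
  rfl

@[simp] lemma isSpin_Zb (β : ℝ) : IsSpin (Zb β : Sp K →L[ℂ] Sp K) :=
  ((isSpin_mixU _).mul isSpin_Zop).mul (isSpin_mixU _)

lemma Zb_Zb (β β' : ℝ) (v : Sp K) : Zb β (Zb β' v) =
    ((mixU (2 * (β' - β)) : USp K) : Sp K →L[ℂ] Sp K) v := by
  rw [Zb_eq, Zb_eq, Zop_mixU, mixU_apply_add, Zop_Zop,
    show -(2 * β) + - -(2 * β') = 2 * (β' - β) by ring]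

lemma Zb_Zb_self (β : ℝ) (v : Sp K) : Zb β (Zb β v) = v := by
  rw [Zb_Zb, sub_self, mul_zero, mixU_zero]; rfl

lemma norm_Zb_apply (β : ℝ) (v : Sp K) : ‖Zb β v‖ = ‖v‖ := by
  rw [Zb_apply, norm_U_apply, norm_Zop_apply, norm_U_apply]

lemma inner_mixU_left (β : ℝ) (v w : Sp K) : ⟪((mixU β : USp K) : Sp K →L[ℂ] Sp K) v, w⟫_ℂ =
    ⟪v, ((mixU (-β) : USp K) : Sp K →L[ℂ] Sp K) w⟫_ℂ := by
  rw [← star_mixU_coe, ContinuousLinearMap.star_eq_adjoint, ContinuousLinearMap.adjoint_inner_right]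

lemma inner_Zb_left (β : ℝ) (v w : Sp K) : ⟪Zb β v, w⟫_ℂ = ⟪v, Zb β w⟫_ℂ := by
  rw [Zb_apply, inner_mixU_left, inner_Zop_left, inner_mixU_left, neg_neg, Zb_apply]

/-! ### `Ez f = exp (i Z φ(f))` -/

/-- `exp (i Z φ(f))` -/
def Ez (f : K) : USp K := costU (-1) f

@[simp] lemma Ez_apply (f : K) (v : Sp K) (b : Bool) :
    ((Ez f : USp K) : Sp K →L[ℂ] Sp K) v b = Wy (((spinSign b : ℝ) : ℂ) • f) (v b) := by
  rw [Ez, costU_apply]
  simp

lemma costU_eq_Ez (γ : ℝ) (f : K) : (costU γ f : USp K) = Ez ((-(γ : ℂ)) • f) := by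
  ext1
  refine ContinuousLinearMap.ext fun v => ?_
  ext b
  rw [costU_apply, Ez_apply, smul_smul]
  congr 2
  push_cast
  ring_nf

@[simp] lemma Ez_zero : (Ez (0 : K) : USp K) = 1 := by
  ext1
  refine ContinuousLinearMap.ext fun v => ?_
  ext b
  rw [Ez_apply]
  simp

/-- `exp (i θ Z)` -/
def Rz (θ : ℝ) : Sp K →L[ℂ] Sp K :=
  spM (Matrix.diagonal fun b => Complex.exp (Complex.I * ((θ * spinSign b : ℝ) : ℂ)))

@[simp] lemma Rz_apply (θ : ℝ) (v : Sp K) (b : Bool) :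
    Rz θ v b = Complex.exp (Complex.I * ((θ * spinSign b : ℝ) : ℂ)) • v b := by
  rw [Rz, spM_apply, Finset.sum_eq_single b]
  · simp
  · intro b' _ hb
    simp [Matrix.diagonal_apply_ne _ hb.symm]
  · simp

@[simp] lemma isSpin_Rz (θ : ℝ) : IsSpin (Rz θ : Sp K →L[ℂ] Sp K) := isSpin_spM _

@[simp] lemma Rz_zero : (Rz 0 : Sp K →L[ℂ] Sp K) = 1 := by
  refine ContinuousLinearMap.ext fun v => ?_
  ext b
  rw [Rz_apply]
  simp

lemma Rz_Rz (θ θ' : ℝ) (v : Sp K) : Rz θ (Rz θ' v) = Rz (θ + θ') v := by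
  ext b
  rw [Rz_apply, Rz_apply, Rz_apply, smul_smul, ← Complex.exp_add]
  congr 2
  push_cast
  ring

lemma norm_cexp_I_mul (t : ℝ) : ‖Complex.exp (Complex.I * (t : ℂ))‖ = 1 := by
  rw [mul_comm]
  exact Complex.norm_exp_ofReal_mul_I t

lemma norm_cexp_I_mul_sub_one (t : ℝ) : ‖Complex.exp (Complex.I * (t : ℂ)) - 1‖ ≤ |t| := by
  have := Real.norm_exp_I_mul_ofReal_sub_one_le (x := t)
  simpa using this

@[simp] lemma norm_Rz_apply (θ : ℝ) (v : Sp K) : ‖Rz θ v‖ = ‖v‖ := by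
  rw [PiLp.norm_eq_of_L2, PiLp.norm_eq_of_L2]
  congr 1
  refine Finset.sum_congr rfl fun b _ => ?_
  rw [Rz_apply, norm_smul, norm_cexp_I_mul, one_mul]

lemma Rz_eq (θ : ℝ) (v : Sp K) : Rz θ v = ((Real.cos θ : ℝ) : ℂ) • v +
    (Complex.I * ((Real.sin θ : ℝ) : ℂ)) • Zop v := by
  ext b
  rw [Rz_apply, PiLp.add_apply, PiLp.smul_apply, PiLp.smul_apply, Zop_apply, smul_smul, ← add_smul]
  congr 1
  have h : Complex.exp (Complex.I * ((θ * spinSign b : ℝ) : ℂ)) =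
      Complex.cos ((θ * spinSign b : ℝ) : ℂ) + Complex.sin ((θ * spinSign b : ℝ) : ℂ) * Complex.I := by
    rw [mul_comm, Complex.exp_mul_I]
  rw [h]
  cases b <;> simp [spinSign] <;> ring

lemma norm_Rz_sub (θ : ℝ) (v : Sp K) : ‖Rz θ v - v‖ ≤ |θ| * ‖v‖ := by
  rw [PiLp.norm_eq_of_L2, PiLp.norm_eq_of_L2]
  have h : ∀ b : Bool, ‖(Rz θ v - v) b‖ ^ 2 ≤ |θ| ^ 2 * ‖v b‖ ^ 2 := by
    intro b
    rw [← mul_pow]
    refine pow_le_pow_left₀ (norm_nonneg _) ?_ 2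
    have h1 : (Rz θ v - v) b = (Complex.exp (Complex.I * ((θ * spinSign b : ℝ) : ℂ)) - 1) • v b := by
      rw [PiLp.sub_apply, Rz_apply, sub_smul, one_smul]
    rw [h1, norm_smul]
    refine mul_le_mul_of_nonneg_right ((norm_cexp_I_mul_sub_one _).trans ?_) (norm_nonneg _)
    rw [abs_mul]
    have : |spinSign b| = 1 := by cases b <;> simp [spinSign]
    rw [this, mul_one]
  calc √(∑ b, ‖(Rz θ v - v) b‖ ^ 2) ≤ √(∑ b, |θ| ^ 2 * ‖v b‖ ^ 2) :=
        Real.sqrt_le_sqrt (Finset.sum_le_sum fun b _ => h b)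
    _ = |θ| * √(∑ b, ‖v b‖ ^ 2) := by
        rw [← Finset.mul_sum, Real.sqrt_mul (by positivity), Real.sqrt_sq (abs_nonneg _)]

/-- The basic commutation relation. -/
lemma Wl_Ez (g f : K) (v : Sp K) : Wl g (((Ez f : USp K) : Sp K →L[ℂ] Sp K) v) =
    ((Ez f : USp K) : Sp K →L[ℂ] Sp K) (Rz (2 * (⟪f, g⟫_ℂ).im) (Wl g v)) := by
  ext b
  rw [Wl_apply, Ez_apply, Ez_apply, Rz_apply, Wl_apply, map_smul, ← mul_apply_eq_comp, Wy_comm,
    smul_apply, mul_apply_eq_comp]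
  congr 2
  rw [inner_smul_right, ← inner_conj_symm g f]
  simp only [Complex.im_ofReal_mul, Complex.conj_im]
  push_cast
  ring

lemma Ez_Ez (f g : K) (v : Sp K) : ((Ez f : USp K) : Sp K →L[ℂ] Sp K)
    (((Ez g : USp K) : Sp K →L[ℂ] Sp K) v) =
    Complex.exp (-(Complex.I * ((⟪f, g⟫_ℂ).im : ℂ))) •
      ((Ez (f + g) : USp K) : Sp K →L[ℂ] Sp K) v := by
  ext b
  rw [Ez_apply, Ez_apply, PiLp.smul_apply, Ez_apply, ← mul_apply_eq_comp, Wy_mul, smul_apply,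
    ← smul_add, inner_smul_left, inner_smul_right, Complex.conj_ofReal, ← mul_assoc,
    ← Complex.ofReal_mul, spinSign_sq]
  simp

lemma Ez_neg_Ez (f : K) (v : Sp K) : ((Ez (-f) : USp K) : Sp K →L[ℂ] Sp K)
    (((Ez f : USp K) : Sp K →L[ℂ] Sp K) v) = v := by
  have him : (⟪-f, f⟫_ℂ).im = 0 := by
    rw [inner_neg_left, Complex.neg_im]
    exact neg_eq_zero.mpr (inner_self_im (𝕜 := ℂ) f)
  rw [Ez_Ez, him, neg_add_cancel, Ez_zero]
  simp

lemma Ez_Ez_neg (f : K) (v : Sp K) : ((Ez f : USp K) : Sp K →L[ℂ] Sp K)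
    (((Ez (-f) : USp K) : Sp K →L[ℂ] Sp K) v) = v := by
  have := Ez_neg_Ez (-f) v
  rwa [neg_neg] at this

lemma star_Ez (f : K) : star (Ez f : USp K) = Ez (-f) := by
  have h : (Ez (-f) : USp K) * Ez f = 1 := by
    ext1
    exact ContinuousLinearMap.ext fun v => Ez_neg_Ez f v
  have h2 : star (Ez f : USp K) = (Ez (-f) * Ez f) * star (Ez f : USp K) := by
    rw [h, one_mul]
  rw [h2, mul_assoc, Unitary.mul_star_self, mul_one]

lemma star_Ez_coe (f : K) : star ((Ez f : USp K) : Sp K →L[ℂ] Sp K) =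
    ((Ez (-f) : USp K) : Sp K →L[ℂ] Sp K) := by
  rw [← star_Ez]; rfl

lemma Zop_Ez (f : K) (v : Sp K) : Zop (((Ez f : USp K) : Sp K →L[ℂ] Sp K) v) =
    ((Ez f : USp K) : Sp K →L[ℂ] Sp K) (Zop v) := by
  ext b
  rw [Zop_apply, Ez_apply, Ez_apply, Zop_apply, map_smul]

lemma Rz_Ez (θ : ℝ) (f : K) (v : Sp K) : Rz θ (((Ez f : USp K) : Sp K →L[ℂ] Sp K) v) =
    ((Ez f : USp K) : Sp K →L[ℂ] Sp K) (Rz θ v) := by
  ext b
  rw [Rz_apply, Ez_apply, Ez_apply, Rz_apply, map_smul]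

lemma Xop_Ez (f : K) (v : Sp K) : Xop (((Ez f : USp K) : Sp K →L[ℂ] Sp K) v) =
    ((Ez (-f) : USp K) : Sp K →L[ℂ] Sp K) (Xop v) := by
  ext b
  rw [Xop_apply, Ez_apply, Ez_apply, Xop_apply, spinSign_not, Complex.ofReal_neg, neg_smul,
    smul_neg]

lemma Xop_Rz (θ : ℝ) (v : Sp K) : Xop (Rz θ v) = Rz (-θ) (Xop v) := by
  ext b
  rw [Xop_apply, Rz_apply, Rz_apply, Xop_apply, spinSign_not, mul_neg, neg_mul]

lemma Xop_mixU (β : ℝ) (v : Sp K) : Xop (((mixU β : USp K) : Sp K →L[ℂ] Sp K) v) =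
    ((mixU β : USp K) : Sp K →L[ℂ] Sp K) (Xop v) := by
  rw [mixU_eq, mixU_eq, map_sub, map_smul, map_smul]

/-- `exp (i Z_β φ(u))`, `Z_β = exp (i β X) Z exp (- i β X)` -/
def Pu (β : ℝ) (u : K) : USp K := mixU (-β) * Ez u * mixU β

lemma Pu_apply (β : ℝ) (u : K) (v : Sp K) : ((Pu β u : USp K) : Sp K →L[ℂ] Sp K) v =
    ((mixU (-β) : USp K) : Sp K →L[ℂ] Sp K) (((Ez u : USp K) : Sp K →L[ℂ] Sp K)
      (((mixU β : USp K) : Sp K →L[ℂ] Sp K) v)) := rfl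

/-- half sum / half difference of the Weyl operators -/
lemma Ez_eq (u : K) (v : Sp K) : ((Ez u : USp K) : Sp K →L[ℂ] Sp K) v =
    (1 / 2 : ℂ) • (Wl u v + Wl (-u) v) + (1 / 2 : ℂ) • Zop (Wl u v - Wl (-u) v) := by
  ext b
  simp only [PiLp.add_apply, PiLp.smul_apply, Zop_apply, PiLp.sub_apply, Wl_apply, Ez_apply]
  cases b
  · simp only [spinSign, Bool.false_eq_true, if_false]
    norm_num
    module
  · simp only [spinSign, if_true]
    norm_num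
    module

lemma Pu_eq (β : ℝ) (u : K) (v : Sp K) : ((Pu β u : USp K) : Sp K →L[ℂ] Sp K) v =
    (1 / 2 : ℂ) • (Wl u v + Wl (-u) v) + (1 / 2 : ℂ) • Zb β (Wl u v - Wl (-u) v) := by
  rw [Pu_apply, Ez_eq, Zb_apply, ← isSpin_mixU, ← isSpin_mixU, map_add, map_smul, map_smul, map_add,
    ← map_sub, mixU_apply_add, mixU_apply_add, neg_add_cancel, mixU_zero]
  rfl

end Crest.Agent.R339.Lab
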