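import Crest.Agent.R339.LabSp286B
import Crest.Agent.R339.Lab373A

/-!
R339: totality in the labelled site space, its isometric embedding into `Sp K`,
and label-controlled spin matrices.
-/

set_option autoImplicit false
set_option linter.unusedSectionVars false

noncomputable section

namespace Crest.Agent.R339.LF

open MeasureTheory ProbabilityTheory Filter Topology
open scoped InnerProductSpace ENNReal
open Crest.Agent.R339.Site Crest.Agent.R339.Lab Crest.MathPhysics.SpinGlass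

section total
variable {K0 : Type*} [NormedAddCommGroup K0] [InnerProductSpace ℂ K0]

lemma rt2_ne : ((((1 : ℝ) / Real.sqrt 2 : ℝ)) : ℂ) ≠ 0 := by
  rw [Complex.ofReal_ne_zero]
  positivity

lemma WS_OmS_apply (g : K0) (b : Bool) :
    (WS g (OmS : SL K0)) b = ((((1 : ℝ) / Real.sqrt 2 : ℝ)) : ℂ) • wave 0 (coh g) := by
  have h1 : (OmS : SL K0) b = ((((1 : ℝ) / Real.sqrt 2 : ℝ)) : ℂ) • wave 0 vac := rfl
  rw [WS, dg_apply, h1, map_smul, lift_wave, Wy_vac]

/-- **Totality**: a vector orthogonal to all `P_A W(g) Ω` and `P_A Z W(g) Ω` vanishes. -/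
theorem SL_sep {v : SL K0}
    (h1 : ∀ (A : Set ℝ) (g : K0), MeasurableSet A → ⟪PS A (WS g (OmS : SL K0)), v⟫_ℂ = 0)
    (h2 : ∀ (A : Set ℝ) (g : K0), MeasurableSet A → ⟪PS A (ZS (WS g (OmS : SL K0))), v⟫_ℂ = 0) :
    v = 0 := by
  have key : ∀ (b : Bool) (A : Set ℝ) (g : K0), MeasurableSet A →
      ⟪(mF (A.indicator fun _ => 1) (wave 0 (coh g)) : LFo K0), v b⟫_ℂ = 0 := by
    intro b A g hA
    have e1 := h1 A g hA
    have e2 := h2 A g hA
    rw [C2_inner, Fintype.sum_bool, PS, dg_apply, dg_apply, WS_OmS_apply, WS_OmS_apply,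
      map_smul, inner_smul_left, inner_smul_left, ← mul_add] at e1
    have hz : ∀ b, (ZS (WS g (OmS : SL K0)) : SL K0) b = ((spinSign b : ℝ) : ℂ) •
        (((((1 : ℝ) / Real.sqrt 2 : ℝ)) : ℂ) • wave 0 (coh g)) := by
      intro b
      rw [ZS, spG_apply, Finset.sum_eq_single b, WS_OmS_apply]
      · simp [zm]
      · intro b' _ hb
        rw [zm, Matrix.diagonal_apply_ne _ hb.symm, zero_smul]
      · simp
    rw [C2_inner, Fintype.sum_bool, PS, dg_apply, dg_apply, hz, hz] at e2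
    simp only [map_smul, inner_smul_left, Complex.conj_ofReal, spinSign] at e2
    have hc : (starRingEnd ℂ) ((((1 : ℝ) / Real.sqrt 2 : ℝ)) : ℂ) ≠ 0 := by
      rw [Complex.conj_ofReal]; exact rt2_ne
    have e3 := (mul_eq_zero.1 e1).resolve_left hc
    have e4 : ⟪(mF (A.indicator fun _ => 1) (wave 0 (coh g)) : LFo K0), v false⟫_ℂ
        - ⟪(mF (A.indicator fun _ => 1) (wave 0 (coh g)) : LFo K0), v true⟫_ℂ = 0 := by
      have h5 : ((((1 : ℝ) / Real.sqrt 2 : ℝ)) : ℂ)
          * (⟪(mF (A.indicator fun _ => 1) (wave 0 (coh g)) : LFo K0), v false⟫_ℂ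
            - ⟪(mF (A.indicator fun _ => 1) (wave 0 (coh g)) : LFo K0), v true⟫_ℂ) = 0 := by
        rw [← e2]
        simp only [if_true, if_false, Bool.false_eq_true]
        push_cast
        ring
      exact (mul_eq_zero.1 h5).resolve_left rt2_ne
    cases b
    · linear_combination (1 / 2) * e3 + (1 / 2) * e4
    · linear_combination (1 / 2) * e3 - (1 / 2) * e4
  have hb : ∀ b, v b = 0 := by
    intro b
    have htot := indicator_total (coh_total (K := K0))
    have hmem : v b ∈ (Submodule.span ℂ {v : LFo K0 | ∃ (A : Set ℝ) (x : K0), MeasurableSet A ∧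
      v = mF (A.indicator fun _ => 1) (wave 0 (coh x))})ᗮ := by
      rw [Submodule.mem_orthogonal]
      intro u hu
      induction hu using Submodule.span_induction with
      | mem u hu =>
        obtain ⟨A, x, hA, rfl⟩ := hu
        exact key b A x hA
      | zero => exact inner_zero_left _
      | add u w _ _ hu hw => rw [inner_add_left, hu, hw, add_zero]
      | smul c u _ hu => rw [inner_smul_left, hu, mul_zero]
    rw [Submodule.topologicalClosure_eq_top_iff] at htot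
    rw [htot] at hmem
    exact (Submodule.mem_bot ℂ).1 hmem
  ext b : 1
  rw [hb b]
  rfl

end total

/-! ### label-controlled spin matrices -/
section ctrl
variable {E : Type*} [NormedAddCommGroup E] [InnerProductSpace ℂ E] [CompleteSpace E]

/-- entrywise bounded measurable matrix function -/
def BMM (g : ℝ → Matrix Bool Bool ℂ) : Prop := ∀ b b', BM (fun x => g x b b')

lemma BMM.mul {g h : ℝ → Matrix Bool Bool ℂ} (hg : BMM g) (hh : BMM h) :
    BMM (fun x => g x * h x) := by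
  intro b b'
  simp_rw [Matrix.mul_apply]
  exact BM.sum _ fun i => (hg b i).mul (hh i b')

lemma BMM.star {g : ℝ → Matrix Bool Bool ℂ} (hg : BMM g) : BMM (fun x => star (g x)) := by
  intro b b'
  simp_rw [Matrix.star_apply]
  exact (hg b' b).conj

lemma BMM.const (m : Matrix Bool Bool ℂ) : BMM (fun _ => m) := fun b b' => BM.const (m b b')

/-- the operator of a label-controlled spin matrix -/
def gS (g : ℝ → Matrix Bool Bool ℂ) : C2 (Lp E 2 gam1) →L[ℂ] C2 (Lp E 2 gam1) :=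
  opG (Matrix.of fun b b' => mF (fun x => g x b b'))

lemma gS_apply (g : ℝ → Matrix Bool Bool ℂ) (v : C2 (Lp E 2 gam1)) (b : Bool) :
    gS g v b = ∑ b', mF (fun x => g x b b') (v b') := by
  rw [gS, opG_apply]
  rfl

lemma gS_mul {g h : ℝ → Matrix Bool Bool ℂ} (hg : BMM g) (hh : BMM h) :
    (gS (fun x => g x * h x) : C2 (Lp E 2 gam1) →L[ℂ] C2 (Lp E 2 gam1)) = gS g * gS h := by
  rw [gS, gS, gS, ← opG_mul]
  congr 1
  ext b b' : 1
  rw [Matrix.mul_apply]
  simp only [Matrix.of_apply, Matrix.mul_apply, Fintype.sum_bool]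
  rw [mF_add ((hg b true).mul (hh true b')) ((hg b false).mul (hh false b')),
    mF_mul (hg b true) (hh true b'), mF_mul (hg b false) (hh false b')]

lemma gS_star {g : ℝ → Matrix Bool Bool ℂ} (hg : BMM g) :
    star (gS g : C2 (Lp E 2 gam1) →L[ℂ] C2 (Lp E 2 gam1)) = gS (fun x => star (g x)) := by
  rw [gS, opG_star, gS]
  congr 1
  ext b b' : 1
  rw [Matrix.star_apply]
  simp only [Matrix.of_apply]
  rw [star_mF (hg b' b)]
  rfl

lemma gS_const (m : Matrix Bool Bool ℂ) :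
    (gS (fun _ => m) : C2 (Lp E 2 gam1) →L[ℂ] C2 (Lp E 2 gam1)) = spG m := by
  rw [gS, spG]
  congr 1
  ext b b' : 1
  simp only [Matrix.of_apply, Matrix.map_apply]
  rw [mF_const]

lemma gS_one : (gS (fun _ => 1) : C2 (Lp E 2 gam1) →L[ℂ] C2 (Lp E 2 gam1)) = 1 := by
  rw [gS_const, spG_one]

/-- label-controlled unitary spin matrices are unitary operators. -/
def gU (g : ℝ → Matrix Bool Bool ℂ) (hg : BMM g) (h1 : ∀ x, star (g x) * g x = 1)
    (h2 : ∀ x, g x * star (g x) = 1) :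
    unitary (C2 (Lp E 2 gam1) →L[ℂ] C2 (Lp E 2 gam1)) :=
  ⟨gS g, by
    rw [Unitary.mem_iff, gS_star hg, ← gS_mul hg.star hg, ← gS_mul hg hg.star]
    simp_rw [h1, h2]
    exact ⟨gS_one, gS_one⟩⟩

lemma gS_dg_comm {g : ℝ → Matrix Bool Bool ℂ} (hg : BMM g) (A : E →L[ℂ] E) :
    (gS g : C2 (Lp E 2 gam1) →L[ℂ] C2 (Lp E 2 gam1)) * dg (lift A) = dg (lift A) * gS g := by
  refine ContinuousLinearMap.ext fun v => ?_
  ext b : 1
  rw [mul_apply_eq_comp, mul_apply_eq_comp, gS_apply, dg_apply, gS_apply, map_sum]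
  refine Finset.sum_congr rfl fun b' _ => ?_
  rw [dg_apply]
  have := lift_mF_comm A (hg b b')
  exact (congrArg (fun T : Lp E 2 gam1 →L[ℂ] Lp E 2 gam1 => T (v b')) this).symm

lemma gS_dgmF_comm {g : ℝ → Matrix Bool Bool ℂ} (hg : BMM g) {c : ℝ → ℂ} (hc : BM c) :
    (gS g : C2 (Lp E 2 gam1) →L[ℂ] C2 (Lp E 2 gam1))
        * dg (mF c : Lp E 2 gam1 →L[ℂ] Lp E 2 gam1)
      = dg (mF c : Lp E 2 gam1 →L[ℂ] Lp E 2 gam1) * gS g := by
  refine ContinuousLinearMap.ext fun v => ?_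
  ext b : 1
  rw [mul_apply_eq_comp, mul_apply_eq_comp, gS_apply, dg_apply, gS_apply, map_sum]
  refine Finset.sum_congr rfl fun b' _ => ?_
  rw [dg_apply]
  have h := mF_comm (E := E) (hg b b') hc
  exact DFunLike.congr_fun h (v b')

/-- dominated convergence for label-controlled spin matrices -/
lemma tendsto_gS {ι : Type*} {l : Filter ι} [l.IsCountablyGenerated]
    {g : ι → ℝ → Matrix Bool Bool ℂ} {g0 : ℝ → Matrix Bool Bool ℂ}
    (h : ∀ i, BMM (g i)) (h0 : BMM g0) (C : ℝ) (hC : ∀ i x b b', ‖g i x b b'‖ ≤ C)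
    (hlim : ∀ᵐ x ∂gam1, ∀ b b', Tendsto (fun i => g i x b b') l (𝓝 (g0 x b b')))
    (v : C2 (Lp E 2 gam1)) :
    Tendsto (fun i => gS (g i) v) l (𝓝 (gS g0 v)) := by
  have e : ∀ g : ℝ → Matrix Bool Bool ℂ, gS g v
      = WithLp.toLp 2 (fun b => ∑ b', mF (fun x => g x b b') (v b')) := by
    intro g
    ext b : 1
    exact gS_apply g v b
  simp_rw [e]
  refine ((PiLp.continuous_toLp 2 (fun _ : Bool => Lp E 2 gam1)).tendsto _).comp ?_
  rw [tendsto_pi_nhds]
  intro b
  refine tendsto_finsetSum _ fun b' _ => ?_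
  refine tendsto_mF (fun i => h i b b') (h0 b b') C (fun i x => hC i x b b') ?_ (v b')
  filter_upwards [hlim] with x hx
  exact hx b b'

end ctrl

/-! ### embedding -/
section embed
variable {K0 K : Type*} [NormedAddCommGroup K0] [InnerProductSpace ℂ K0]
  [NormedAddCommGroup K] [InnerProductSpace ℂ K]
variable (j : K0 →ₗᵢ[ℂ] K) (s : K)

/-- the embedding of the labelled site space into `Sp K`. -/
def embS : SL K0 →L[ℂ] Sp K :=
  ((PiLp.continuousLinearEquiv 2 ℂ (fun _ : Bool => Fock K)).symm :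
    (Bool → Fock K) →L[ℂ] Sp K) ∘L
    (ContinuousLinearMap.pi fun b => (emb j s) ∘L (ContinuousLinearMap.proj b)) ∘L
    ((PiLp.continuousLinearEquiv 2 ℂ (fun _ : Bool => LFo K0)) : SL K0 →L[ℂ] (Bool → LFo K0))

@[simp] lemma embS_apply (v : SL K0) (b : Bool) : embS j s v b = emb j s (v b) := by
  simp [embS]

lemma norm_embS (hs : ‖s‖ = 1) (hsj : ∀ f, ⟪s, j f⟫_ℂ = 0) (v : SL K0) :
    ‖embS j s v‖ = ‖v‖ := by
  rw [PiLp.norm_eq_of_L2, PiLp.norm_eq_of_L2]
  simp only [embS_apply, norm_emb j s hs hsj]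

lemma embS_OmS (hs : ‖s‖ = 1) (hsj : ∀ f, ⟪s, j f⟫_ℂ = 0) :
    embS j s (OmS : SL K0) = Om := by
  ext b : 1
  rw [embS_apply]
  show emb j s (((((1 : ℝ) / Real.sqrt 2 : ℝ)) : ℂ) • wave 0 vac) = _
  rw [map_smul, emb_vac j s hs hsj]
  rfl

lemma embS_spG (m : Matrix Bool Bool ℂ) (v : SL K0) :
    embS j s (spG m v) = spM m (embS j s v) := by
  ext b : 1
  rw [embS_apply, spG_apply, spM_apply, map_sum]
  simp

lemma embS_ZS (v : SL K0) : embS j s (ZS v) = Zop (embS j s v) := by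
  ext b : 1
  rw [embS_apply, ZS, spG_apply, Zop_apply, Finset.sum_eq_single b]
  · simp [zm]
  · intro b' _ hb
    rw [zm, Matrix.diagonal_apply_ne _ hb.symm, zero_smul]
  · simp

lemma embS_WS (hs : ‖s‖ = 1) (hsj : ∀ f, ⟪s, j f⟫_ℂ = 0) (g : K0) (v : SL K0) :
    embS j s (WS g v) = Wl (j g) (embS j s v) := by
  ext b : 1
  rw [embS_apply, WS, dg_apply, Wl_apply, emb_Wy j s hs hsj, embS_apply]

lemma embS_chi (hs : ‖s‖ = 1) (hsj : ∀ f, ⟪s, j f⟫_ℂ = 0) (t : ℝ) (v : SL K0) :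
    embS j s (dg (mF (chi t)) v) = Wl ((t : ℂ) • s) (embS j s v) := by
  ext b : 1
  rw [embS_apply, dg_apply, Wl_apply, mF_chi_eq, emb_chi j s hs hsj, embS_apply]

end embed

end Crest.Agent.R339.LF
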