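import Mathlib

/-!
# R339, block LI (label induction), abstract IL system (helper728)

`ILSys Λ H`: a spin (`sg`, matrices indexed by `Bool`, `false` = spin `+1`), Weyl operators
`W : H → B(H)` indexed by the space itself (`W f = exp(i φ(f))`, the field map `iota` is absorbed),
label projections `P A` (`A ⊆ Λ` measurable), vacuum `Om`.
Moves (`Step S L`): X-rotations of classes, class couplings, pure label gates.
-/

set_option autoImplicit false

noncomputable section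

open scoped ComplexConjugate InnerProductSpace Topology
open Filter MeasureTheory

namespace Crest.Agent.R339.Li

/-- diagonal spin matrix -/
def dM (a b : ℂ) : Matrix Bool Bool ℂ := Matrix.diagonal fun s => if s then b else a
/-- `σ_x` -/
def xM : Matrix Bool Bool ℂ := Matrix.of fun s t => if s = t then 0 else 1
/-- `σ_z` -/
def zM : Matrix Bool Bool ℂ := dM 1 (-1)

/-- Abstract IL system. -/
structure ILSys (Λ H : Type*) [MeasurableSpace Λ]
    [NormedAddCommGroup H] [InnerProductSpace ℂ H] [CompleteSpace H] where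
  /-- law of the label -/
  μ : Measure Λ
  prob : IsProbabilityMeasure μ
  /-- spin operators -/
  sg : Matrix Bool Bool ℂ →⋆ₐ[ℂ] (H →L[ℂ] H)
  /-- label projections -/
  P : Set Λ → (H →L[ℂ] H)
  /-- Weyl operators -/
  W : H → (H →L[ℂ] H)
  /-- initial vector -/
  Om : H
  /-- one-particle vectors `φ(f) Om` -/
  one : H →L[ℂ] H
  P_univ : P Set.univ = 1
  P_inter : ∀ A B, MeasurableSet A → MeasurableSet B → P (A ∩ B) = P A * P B
  P_union : ∀ A B, MeasurableSet A → MeasurableSet B → Disjoint A B → P (A ∪ B) = P A + P B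
  P_star : ∀ A, MeasurableSet A → star (P A) = P A
  P_sg : ∀ A M, MeasurableSet A → Commute (P A) (sg M)
  P_W : ∀ A f, MeasurableSet A → Commute (P A) (W f)
  sg_W : ∀ M f, Commute (sg M) (W f)
  W_zero : W 0 = 1
  W_mul : ∀ f g, W f * W g = Complex.exp (-(Complex.I * ((⟪f, g⟫_ℂ).im : ℂ))) • W (f + g)
  W_star : ∀ f, star (W f) = W (-f)
  W_cont : ∀ v, Continuous fun f => W f v
  Om_X : sg xM Om = Om
  inner_Om : ∀ A f, MeasurableSet A →
    ⟪Om, P A (W f Om)⟫_ℂ = (μ.real A : ℂ) * Complex.exp (-((‖f‖ ^ 2 / 2 : ℝ) : ℂ))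
  total : (Submodule.span ℂ {v : H | ∃ A M f, MeasurableSet A ∧ v = P A (sg M (W f Om))}).topologicalClosure
    = ⊤
  one_deriv : ∀ f, HasDerivAt (fun t : ℝ => W ((t : ℂ) • f) Om) (Complex.I • one f) 0
  /-- the classes on which gates may act (even sets of the label) -/
  Cl : Set Λ → Prop
  Cl_meas : ∀ A, Cl A → MeasurableSet A
  Cl_univ : Cl Set.univ
  Cl_compl : ∀ A, Cl A → Cl Aᶜ
  Cl_inter : ∀ A B, Cl A → Cl B → Cl (A ∩ B)
  /-- divisibility of the classes: `R` cells of mass `≤ C / R` -/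
  Cl_div : ∃ C : ℝ, ∀ R : ℕ, 0 < R → ∃ N : ℕ → Set Λ, (∀ r, Cl (N r)) ∧
    (Pairwise fun i j => Disjoint (N i) (N j)) ∧ (⋃ r < R, N r) = Set.univ ∧
    ∀ r, μ.real (N r) ≤ C / R

attribute [instance] ILSys.prob

variable {Λ H : Type*} [MeasurableSpace Λ] [NormedAddCommGroup H] [InnerProductSpace ℂ H]
  [CompleteSpace H]

/-- unitaries of a Hilbert space -/
abbrev UH (H : Type*) [NormedAddCommGroup H] [InnerProductSpace ℂ H] [CompleteSpace H] : Type _ :=
  unitary (H →L[ℂ] H)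

namespace ILSys

variable (I : ILSys Λ H)

/-- `Z` -/
def Z : H →L[ℂ] H := I.sg zM
/-- `X` -/
def X : H →L[ℂ] H := I.sg xM
/-- projection on spin up -/
def Ep : H →L[ℂ] H := I.sg (dM 1 0)
/-- projection on spin down -/
def Em : H →L[ℂ] H := I.sg (dM 0 1)

/-- `exp (i Z φ(f))` -/
def zW (f : H) : H →L[ℂ] H := I.Ep * I.W f + I.Em * I.W (-f)

/-- `exp (i P_A Z φ(f))` -/
def cstO (A : Set Λ) (f : H) : H →L[ℂ] H := I.P Aᶜ + I.P A * I.zW f

/-- `exp (-i β P_A X)` -/
def rotO (A : Set Λ) (β : ℝ) : H →L[ℂ] H :=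
  I.P Aᶜ + I.P A * ((Real.cos β : ℂ) • 1 - (Complex.I * (Real.sin β : ℂ)) • I.X)

lemma P_empty : I.P ∅ = 0 := by
  have h := I.P_union ∅ ∅ MeasurableSet.empty MeasurableSet.empty (by simp)
  rw [Set.union_empty] at h
  simpa using h

variable {I}

lemma P_sq {A : Set Λ} (hA : MeasurableSet A) : I.P A * I.P A = I.P A := by
  rw [← I.P_inter A A hA hA, Set.inter_self]

lemma P_disj {A B : Set Λ} (hA : MeasurableSet A) (hB : MeasurableSet B) (h : Disjoint A B) :
    I.P A * I.P B = 0 := by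
  rw [← I.P_inter A B hA hB, Set.disjoint_iff_inter_eq_empty.mp h, P_empty]

lemma P_compl_add {A : Set Λ} (hA : MeasurableSet A) : I.P Aᶜ + I.P A = 1 := by
  rw [← I.P_union _ _ hA.compl hA disjoint_compl_left, Set.compl_union_self, I.P_univ]

lemma P_comm {A B : Set Λ} (hA : MeasurableSet A) (hB : MeasurableSet B) :
    Commute (I.P A) (I.P B) := by
  show I.P A * I.P B = I.P B * I.P A
  rw [← I.P_inter A B hA hB, ← I.P_inter B A hB hA, Set.inter_comm]

lemma star_Z : star I.Z = I.Z := by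
  rw [Z, ← map_star]
  congr 1
  ext s t
  fin_cases s <;> fin_cases t <;> simp [zM, dM, Matrix.star_apply]

lemma star_X : star I.X = I.X := by
  rw [X, ← map_star]
  congr 1
  ext s t
  fin_cases s <;> fin_cases t <;> simp [xM, Matrix.star_apply]

lemma star_Ep : star I.Ep = I.Ep := by
  rw [Ep, ← map_star]
  congr 1
  ext s t
  fin_cases s <;> fin_cases t <;> simp [dM, Matrix.star_apply]

lemma star_Em : star I.Em = I.Em := by
  rw [Em, ← map_star]
  congr 1
  ext s t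
  fin_cases s <;> fin_cases t <;> simp [dM, Matrix.star_apply]

lemma dM_mul (a b c d : ℂ) : dM a b * dM c d = dM (a * c) (b * d) := by
  rw [dM, dM, dM, Matrix.diagonal_mul_diagonal]
  congr 1
  funext s
  fin_cases s <;> simp

lemma dM_one : dM 1 1 = 1 := by
  rw [dM, ← Matrix.diagonal_one]
  congr 1
  funext s
  fin_cases s <;> simp

lemma dM_add (a b c d : ℂ) : dM a b + dM c d = dM (a + c) (b + d) := by
  rw [dM, dM, dM, Matrix.diagonal_add]
  congr 1
  funext s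
  fin_cases s <;> simp

lemma xM_mul_xM : xM * xM = 1 := by
  ext s t
  fin_cases s <;> fin_cases t <;> simp [xM, Matrix.mul_apply]

lemma Z_mul_Z : I.Z * I.Z = 1 := by
  rw [Z, ← map_mul, zM, dM_mul, ← map_one I.sg, ← dM_one]
  norm_num

lemma X_mul_X : I.X * I.X = 1 := by
  rw [X, ← map_mul, xM_mul_xM, map_one]

lemma Ep_Ep : I.Ep * I.Ep = I.Ep := by
  rw [Ep, ← map_mul, dM_mul]; norm_num

lemma Em_Em : I.Em * I.Em = I.Em := by
  rw [Em, ← map_mul, dM_mul]; norm_num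

lemma Ep_Em : I.Ep * I.Em = 0 := by
  rw [Ep, Em, ← map_mul, dM_mul]
  have : dM (1 * 0) (0 * 1) = 0 := by
    ext s t; fin_cases s <;> fin_cases t <;> simp [dM]
  rw [this, map_zero]

lemma Em_Ep : I.Em * I.Ep = 0 := by
  rw [Ep, Em, ← map_mul, dM_mul]
  have : dM (0 * 1) (1 * 0) = 0 := by
    ext s t; fin_cases s <;> fin_cases t <;> simp [dM]
  rw [this, map_zero]

lemma Ep_add_Em : I.Ep + I.Em = 1 := by
  rw [Ep, Em, ← map_add, dM_add, ← map_one I.sg, ← dM_one]; norm_num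

lemma Z_eq : I.Z = I.Ep - I.Em := by
  rw [Z, Ep, Em, ← map_sub]
  congr 1
  ext s t; fin_cases s <;> fin_cases t <;> simp [dM, zM]

lemma W_mul_neg (f : H) : I.W f * I.W (-f) = 1 := by
  rw [I.W_mul, add_neg_cancel, I.W_zero, inner_neg_right, inner_self_eq_norm_sq_to_K]
  have : (-(((‖f‖ : ℝ) : ℂ)) ^ 2).im = 0 := by
    rw [← Complex.ofReal_pow, Complex.neg_im, Complex.ofReal_im, neg_zero]
  erw [this]
  simp

lemma W_neg_mul (f : H) : I.W (-f) * I.W f = 1 := by
  have := W_mul_neg (I := I) (-f)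
  rwa [neg_neg] at this

lemma Ep_W (f : H) : Commute I.Ep (I.W f) := I.sg_W _ _
lemma Em_W (f : H) : Commute I.Em (I.W f) := I.sg_W _ _
lemma Z_W (f : H) : Commute I.Z (I.W f) := I.sg_W _ _
lemma X_W (f : H) : Commute I.X (I.W f) := I.sg_W _ _
lemma P_Z {A : Set Λ} (hA : MeasurableSet A) : Commute (I.P A) I.Z := I.P_sg _ _ hA
lemma P_X {A : Set Λ} (hA : MeasurableSet A) : Commute (I.P A) I.X := I.P_sg _ _ hA
lemma P_Ep {A : Set Λ} (hA : MeasurableSet A) : Commute (I.P A) I.Ep := I.P_sg _ _ hA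
lemma P_Em {A : Set Λ} (hA : MeasurableSet A) : Commute (I.P A) I.Em := I.P_sg _ _ hA

lemma star_zW (f : H) : star (I.zW f) = I.zW (-f) := by
  rw [zW, zW, star_add, star_mul, star_mul, I.W_star, I.W_star, star_Ep, star_Em, neg_neg,
    (Ep_W _).eq, (Em_W _).eq]

/-- product of two operators of the form `E₊ a + E₋ b` -/
lemma E_mul {a b c d : H →L[ℂ] H} (ha : Commute I.Ep a) (hb : Commute I.Em b)
    (ha' : Commute I.Em a) (hb' : Commute I.Ep b) :
    (I.Ep * a + I.Em * b) * (I.Ep * c + I.Em * d) = I.Ep * (a * c) + I.Em * (b * d) := by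
  have h1 : I.Ep * a * (I.Ep * c) = I.Ep * (a * c) := by
    rw [mul_assoc, ← mul_assoc a, ← ha.eq, mul_assoc, ← mul_assoc, ← mul_assoc, Ep_Ep, mul_assoc]
  have h2 : I.Ep * a * (I.Em * d) = 0 := by
    rw [mul_assoc, ← mul_assoc a, ← ha'.eq, mul_assoc, ← mul_assoc, Ep_Em, zero_mul]
  have h3 : I.Em * b * (I.Ep * c) = 0 := by
    rw [mul_assoc, ← mul_assoc b, ← hb'.eq, mul_assoc, ← mul_assoc, Em_Ep, zero_mul]
  have h4 : I.Em * b * (I.Em * d) = I.Em * (b * d) := by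
    rw [mul_assoc, ← mul_assoc b, ← hb.eq, mul_assoc, ← mul_assoc, ← mul_assoc, Em_Em, mul_assoc]
  rw [add_mul, mul_add, mul_add, h1, h2, h3, h4, add_zero, zero_add]

lemma zW_mul_neg (f : H) : I.zW f * I.zW (-f) = 1 := by
  rw [zW, zW, E_mul (I.sg_W _ _) (I.sg_W _ _) (I.sg_W _ _) (I.sg_W _ _), W_mul_neg,
    neg_neg, W_neg_mul, mul_one, mul_one, Ep_add_Em]

lemma zW_neg_mul (f : H) : I.zW (-f) * I.zW f = 1 := by
  have := zW_mul_neg (I := I) (-f)
  rwa [neg_neg] at this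

lemma zW_zero : I.zW 0 = 1 := by
  rw [zW, neg_zero, I.W_zero, mul_one, mul_one, Ep_add_Em]

lemma zW_mul (f g : H) : I.zW f * I.zW g =
    Complex.exp (-(Complex.I * ((⟪f, g⟫_ℂ).im : ℂ))) • I.zW (f + g) := by
  rw [zW, zW, zW, E_mul (I.sg_W _ _) (I.sg_W _ _) (I.sg_W _ _) (I.sg_W _ _), I.W_mul, I.W_mul,
    inner_neg_neg, mul_smul_comm, mul_smul_comm, ← smul_add, neg_add]

lemma P_zW {A : Set Λ} (hA : MeasurableSet A) (f : H) : Commute (I.P A) (I.zW f) := by
  rw [zW]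
  exact ((I.P_sg A _ hA).mul_right (I.P_W A _ hA)).add_right
    ((I.P_sg A _ hA).mul_right (I.P_W A _ hA))

/-- product of two block operators -/
lemma blk_mul {A : Set Λ} (hA : MeasurableSet A) {a b c d : H →L[ℂ] H}
    (ha : ∀ B, MeasurableSet B → Commute (I.P B) a) (hb : ∀ B, MeasurableSet B → Commute (I.P B) b) :
    (I.P Aᶜ * a + I.P A * b) * (I.P Aᶜ * c + I.P A * d) = I.P Aᶜ * (a * c) + I.P A * (b * d) := by
  have e1 : I.P Aᶜ * I.P A = 0 := P_disj hA.compl hA disjoint_compl_left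
  have e2 : I.P A * I.P Aᶜ = 0 := P_disj hA hA.compl disjoint_compl_right
  have h1 : I.P Aᶜ * a * (I.P Aᶜ * c) = I.P Aᶜ * (a * c) := by
    rw [mul_assoc, ← mul_assoc a, ← (ha _ hA.compl).eq, mul_assoc, ← mul_assoc, ← mul_assoc,
      P_sq hA.compl, mul_assoc]
  have h2 : I.P Aᶜ * a * (I.P A * d) = 0 := by
    rw [mul_assoc, ← mul_assoc a, ← (ha _ hA).eq, mul_assoc, ← mul_assoc, e1, zero_mul]
  have h3 : I.P A * b * (I.P Aᶜ * c) = 0 := by
    rw [mul_assoc, ← mul_assoc b, ← (hb _ hA.compl).eq, mul_assoc, ← mul_assoc, e2, zero_mul]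
  have h4 : I.P A * b * (I.P A * d) = I.P A * (b * d) := by
    rw [mul_assoc, ← mul_assoc b, ← (hb _ hA).eq, mul_assoc, ← mul_assoc, ← mul_assoc, P_sq hA,
      mul_assoc]
  rw [add_mul, mul_add, mul_add, h1, h2, h3, h4, add_zero, zero_add]

/-- block operators: identity outside `A` -/
def blk (I : ILSys Λ H) (A : Set Λ) (b : H →L[ℂ] H) : H →L[ℂ] H := I.P Aᶜ + I.P A * b

lemma blk_mul_blk {A : Set Λ} (hA : MeasurableSet A) {b d : H →L[ℂ] H}
    (hb : ∀ B, MeasurableSet B → Commute (I.P B) b) :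
    I.blk A b * I.blk A d = I.blk A (b * d) := by
  have h := blk_mul (I := I) hA (a := 1) (c := 1) (b := b) (d := d)
    (fun B _ => Commute.one_right _) hb
  simpa [blk] using h

lemma blk_one {A : Set Λ} (hA : MeasurableSet A) : I.blk A 1 = 1 := by
  rw [blk, mul_one, P_compl_add hA]

lemma star_blk {A : Set Λ} (hA : MeasurableSet A) {b : H →L[ℂ] H}
    (hb : Commute (I.P A) (star b)) : star (I.blk A b) = I.blk A (star b) := by
  rw [blk, blk, star_add, star_mul, I.P_star _ hA, I.P_star _ hA.compl, hb.eq]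

lemma cstO_eq (A : Set Λ) (f : H) : I.cstO A f = I.blk A (I.zW f) := rfl

lemma cstO_mul_neg {A : Set Λ} (hA : MeasurableSet A) (f : H) :
    I.cstO A f * I.cstO A (-f) = 1 := by
  rw [cstO_eq, cstO_eq, blk_mul_blk hA (fun B hB => P_zW hB f), zW_mul_neg, blk_one hA]

lemma star_cstO {A : Set Λ} (hA : MeasurableSet A) (f : H) :
    star (I.cstO A f) = I.cstO A (-f) := by
  rw [cstO_eq, cstO_eq, star_blk hA (by rw [star_zW]; exact P_zW hA _), star_zW]

/-- `exp (i P_A Z φ(f))` as unitary -/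
def cst (I : ILSys Λ H) {A : Set Λ} (hA : MeasurableSet A) (f : H) : UH H :=
  ⟨I.cstO A f, by
    rw [Unitary.mem_iff, star_cstO hA]
    have h1 := cstO_mul_neg (I := I) hA f
    have h2 := cstO_mul_neg (I := I) hA (-f)
    rw [neg_neg] at h2
    exact ⟨h2, h1⟩⟩

/-- `exp (-i β X)` -/
def mx (I : ILSys Λ H) (β : ℝ) : H →L[ℂ] H :=
  (Real.cos β : ℂ) • 1 - (Complex.I * (Real.sin β : ℂ)) • I.X

lemma rotO_eq (A : Set Λ) (β : ℝ) : I.rotO A β = I.blk A (I.mx β) := rfl

lemma mx_mul (β β' : ℝ) : I.mx β * I.mx β' = I.mx (β + β') := by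
  have h1 : ((Real.cos (β + β') : ℝ) : ℂ) = (Real.cos β : ℂ) * (Real.cos β' : ℂ) -
    (Real.sin β : ℂ) * (Real.sin β' : ℂ) := by rw [Real.cos_add]; push_cast; ring
  have h2 : ((Real.sin (β + β') : ℝ) : ℂ) = (Real.sin β : ℂ) * (Real.cos β' : ℂ) +
    (Real.cos β : ℂ) * (Real.sin β' : ℂ) := by rw [Real.sin_add]; push_cast; ring
  rw [mx, mx, mx, h1, h2, sub_mul, mul_sub, mul_sub, smul_mul_smul_comm, smul_mul_smul_comm,
    smul_mul_smul_comm, smul_mul_smul_comm, one_mul, mul_one, one_mul, X_mul_X]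
  have e : Complex.I * (Real.sin β : ℂ) * (Complex.I * (Real.sin β' : ℂ)) =
      -((Real.sin β : ℂ) * (Real.sin β' : ℂ)) := by
    linear_combination ((Real.sin β : ℂ) * (Real.sin β' : ℂ)) * Complex.I_sq
  rw [e]
  module

lemma mx_zero : I.mx 0 = 1 := by simp [mx]

lemma star_mx (β : ℝ) : star (I.mx β) = I.mx (-β) := by
  rw [mx, mx, star_sub, star_smul, star_smul, star_one, star_X, Real.cos_neg, Real.sin_neg]
  simp [-Complex.ofReal_cos, -Complex.ofReal_sin]

lemma P_mx {A : Set Λ} (hA : MeasurableSet A) (β : ℝ) : Commute (I.P A) (I.mx β) :=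
  ((Commute.one_right _).smul_right _).sub_right ((I.P_sg A _ hA).smul_right _)

lemma rotO_mul_neg {A : Set Λ} (hA : MeasurableSet A) (β : ℝ) :
    I.rotO A β * I.rotO A (-β) = 1 := by
  rw [rotO_eq, rotO_eq, blk_mul_blk hA (fun B hB => P_mx hB β), mx_mul, add_neg_cancel, mx_zero,
    blk_one hA]

lemma star_rotO {A : Set Λ} (hA : MeasurableSet A) (β : ℝ) :
    star (I.rotO A β) = I.rotO A (-β) := by
  rw [rotO_eq, rotO_eq, star_blk hA (by rw [star_mx]; exact P_mx hA _), star_mx]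

/-- `exp (-i β P_A X)` as unitary -/
def rot (I : ILSys Λ H) {A : Set Λ} (hA : MeasurableSet A) (β : ℝ) : UH H :=
  ⟨I.rotO A β, by
    rw [Unitary.mem_iff, star_rotO hA]
    have h1 := rotO_mul_neg (I := I) hA β
    have h2 := rotO_mul_neg (I := I) hA (-β)
    rw [neg_neg] at h2
    exact ⟨h2, h1⟩⟩

/-! ### Moves -/

/-- `U* Z U Om` -/
def eV (I : ILSys Λ H) (U : UH H) : H := star (U : H →L[ℂ] H) (I.Z ((U : H →L[ℂ] H) I.Om))

/-- the field vector of the class `A` -/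
def eA (I : ILSys Λ H) (A : Set Λ) (U : UH H) : H := I.P A (I.eV U)

/-- class coupling `exp (i g (P_A Z φ(e_B) + P_B Z φ(e_A)))` -/
def cpl (I : ILSys Λ H) {A B : Set Λ} (hA : MeasurableSet A) (hB : MeasurableSet B) (g : ℝ)
    (U : UH H) : UH H :=
  I.cst hA ((g : ℂ) • I.eA B U) * (I.cst hB ((g : ℂ) • I.eA A U) * U)

/-- One move. `S` : allowed region, `L` : vectors with pure label gates. -/
inductive Step (I : ILSys Λ H) (S : Set Λ) (L : Set H) : UH H → UH H → Prop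
  | rot {A : Set Λ} (hA : I.Cl A) (hS : A ⊆ S) (β : ℝ) (U : UH H) :
      Step I S L U (I.rot (I.Cl_meas A hA) β * U)
  | cpl {A B : Set Λ} (hA : I.Cl A) (hB : I.Cl B) (hAS : A ⊆ S) (hBS : B ⊆ S)
      (hd : Disjoint A B) (g : ℝ) (U : UH H) :
      Step I S L U (I.cpl (I.Cl_meas A hA) (I.Cl_meas B hB) g U)
  | lab {A : Set Λ} (hA : I.Cl A) (hS : A ⊆ S) {l : H} (hl : l ∈ L) (a : ℝ) (U : UH H) :
      Step I S L U (I.cst (I.Cl_meas A hA) ((a : ℂ) • l) * U)

/-- energy -/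
def energy (I : ILSys Λ H) (U : UH H) : ℝ := (⟪I.eV U, I.one (I.eV U)⟫_ℂ).re

/-- all words from `U` have energy at most `c` -/
def Good (I : ILSys Λ H) (S : Set Λ) (L : Set H) (c : ℝ) (U : UH H) : Prop :=
  ∀ U', Relation.ReflTransGen (I.Step S L) U U' → I.energy U' ≤ c

end ILSys

end Crest.Agent.R339.Li
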