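import Crest.Agent.R339.Ant575A
import Crest.Agent.R339.Ant575B
import Crest.Agent.R339.LabSp286C
import Crest.Agent.R339.Li728A

/-!
R339, block ANT (helper575), part C: the labelled model on `SL K₀`, and the path-gate property of
`exp (-i τ β X 1_A)` for even Borel sets `A`.
-/

set_option autoImplicit false
set_option linter.unusedSectionVars false

noncomputable section

open scoped ComplexConjugate InnerProductSpace Topology
open Filter Set MeasureTheory ProbabilityTheory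

namespace Crest.Agent.R339.Ant

open Crest.Agent.R339.LF Crest.Agent.R339.Site Crest.MathPhysics.SpinGlass

/-! ### scalar matrices -/

lemma mixm_mul (β β' : ℝ) : mixm β * mixm β' = mixm (β + β') := by
  have h1 : ((Real.cos (β + β') : ℝ) : ℂ) = (Real.cos β : ℂ) * (Real.cos β' : ℂ) -
    (Real.sin β : ℂ) * (Real.sin β' : ℂ) := by rw [Real.cos_add]; push_cast; ring
  have h2 : ((Real.sin (β + β') : ℝ) : ℂ) = (Real.sin β : ℂ) * (Real.cos β' : ℂ) +
    (Real.cos β : ℂ) * (Real.sin β' : ℂ) := by rw [Real.sin_add]; push_cast; ring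
  ext b b'
  rw [Matrix.mul_apply, Fintype.sum_bool]
  cases b <;> cases b' <;>
    simp [mixm, -Complex.ofReal_cos, -Complex.ofReal_sin, h1, h2]
  · linear_combination ((Real.sin β : ℂ) * (Real.sin β' : ℂ)) * Complex.I_sq
  · ring
  · ring
  · linear_combination ((Real.sin β : ℂ) * (Real.sin β' : ℂ)) * Complex.I_sq

lemma mixm_zero : mixm 0 = 1 := by
  ext b b'
  cases b <;> cases b' <;> simp [mixm]

lemma star_mixm (β : ℝ) : star (mixm β) = mixm (-β) := by
  ext b b'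
  rw [Matrix.star_apply]
  cases b <;> cases b' <;> simp [mixm, -Complex.ofReal_cos, -Complex.ofReal_sin]

/-- the matrix of `exp (i a x Z)` -/
def lamm (a x : ℝ) : Matrix Bool Bool ℂ := Matrix.diagonal fun b => chi (a * spinSign b) x

lemma lamm_mul_neg (a x : ℝ) : lamm a x * lamm (-a) x = 1 := by
  rw [lamm, lamm, Matrix.diagonal_mul_diagonal, ← Matrix.diagonal_one]
  congr 1
  funext b
  rw [← chi_add]
  have : a * spinSign b + -a * spinSign b = 0 := by ring
  rw [this]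
  simp [chi]

lemma star_lamm (a x : ℝ) : star (lamm a x) = lamm (-a) x := by
  rw [lamm, Matrix.star_eq_conjTranspose, Matrix.diagonal_conjTranspose, lamm]
  congr 1
  funext b
  show (starRingEnd ℂ) (chi (a * spinSign b) x) = _
  rw [conj_chi]
  congr 1
  ring

lemma BMM_mixm {f : ℝ → ℝ} (hf : Measurable f) : BMM fun x => mixm (f x) := by
  intro b b'
  have h : (fun x => mixm (f x) b b') = fun x => if b = b' then ((Real.cos (f x) : ℝ) : ℂ)
      else -(Complex.I * ((Real.sin (f x) : ℝ) : ℂ)) := rfl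
  rw [h]
  split_ifs with hb
  · refine ⟨Complex.measurable_ofReal.comp (Real.measurable_cos.comp hf), 1, fun x => ?_⟩
    rw [Complex.norm_real]
    exact Real.abs_cos_le_one _
  · refine ⟨((Complex.measurable_ofReal.comp (Real.measurable_sin.comp hf)).const_mul _).neg, 1,
      fun x => ?_⟩
    rw [norm_neg, norm_mul, Complex.norm_I, one_mul, Complex.norm_real]
    exact Real.abs_sin_le_one _

lemma BMM_lamm (a : ℝ) : BMM (lamm a) := by
  intro b b'
  by_cases h : b = b'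
  · subst h
    have : (fun x => lamm a x b b) = chi (a * spinSign b) := by
      funext x
      simp [lamm]
    rw [this]
    exact BM.chi _
  · have : (fun x => lamm a x b b') = fun _ => 0 := by
      funext x
      simp [lamm, Matrix.diagonal_apply_ne _ h]
    rw [this]
    exact BM.const 0

section model

variable {E : Type*} [NormedAddCommGroup E] [InnerProductSpace ℂ E] [CompleteSpace E]

/-- `exp (-i f(x) X)` -/
def rxU (f : ℝ → ℝ) (hf : Measurable f) : US (C2 (Lp E 2 gam1)) :=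
  gU (fun x => mixm (f x)) (BMM_mixm hf)
    (fun x => by rw [star_mixm, mixm_mul, neg_add_cancel, mixm_zero])
    (fun x => by rw [star_mixm, mixm_mul, add_neg_cancel, mixm_zero])

/-- `exp (i a x Z)` -/
def lamU (a : ℝ) : US (C2 (Lp E 2 gam1)) :=
  gU (lamm a) (BMM_lamm a)
    (fun x => by rw [star_lamm]; have := lamm_mul_neg (-a) x; rwa [neg_neg] at this)
    (fun x => by rw [star_lamm, lamm_mul_neg])

lemma coe_rxU (f : ℝ → ℝ) (hf : Measurable f) :
    ((rxU f hf : US (C2 (Lp E 2 gam1))) : C2 (Lp E 2 gam1) →L[ℂ] C2 (Lp E 2 gam1))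
      = gS (fun x => mixm (f x)) := rfl

lemma coe_lamU (a : ℝ) :
    ((lamU a : US (C2 (Lp E 2 gam1))) : C2 (Lp E 2 gam1) →L[ℂ] C2 (Lp E 2 gam1))
      = gS (lamm a) := rfl

lemma rxU_mul (f g : ℝ → ℝ) (hf : Measurable f) (hg : Measurable g) :
    (rxU f hf : US (C2 (Lp E 2 gam1))) * rxU g hg = rxU (fun x => f x + g x) (hf.add hg) := by
  apply Subtype.ext
  show gS _ * gS _ = gS _
  rw [← gS_mul (BMM_mixm hf) (BMM_mixm hg)]
  simp_rw [mixm_mul]

lemma lamU_neg (a : ℝ) : (lamU (-a) : US (C2 (Lp E 2 gam1))) * lamU a = 1 := by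
  apply Subtype.ext
  show gS _ * gS _ = 1
  rw [← gS_mul (BMM_lamm _) (BMM_lamm _)]
  have : ∀ x, lamm (-a) x * lamm a x = 1 := fun x => by
    have := lamm_mul_neg (-a) x
    rwa [neg_neg] at this
  simp_rw [this]
  exact gS_one

/-! ### norm bounds -/

lemma norm_mF_apply_le {c k : ℝ → ℂ} (hc : BM c) (hk : BM k) (h : ∀ x, ‖c x‖ ≤ ‖k x‖)
    (f : Lp E 2 gam1) : ‖mF c f‖ ≤ ‖mF k f‖ := by
  refine Lp.norm_le_norm_of_ae_le ?_
  filter_upwards [coeFn_mF hc f, coeFn_mF hk f] with x h1 h2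
  rw [h1, h2, norm_smul, norm_smul]
  exact mul_le_mul_of_nonneg_right (h x) (norm_nonneg _)

lemma norm_mF_apply_le_const {c : ℝ → ℂ} (hc : BM c) {C : ℝ} (h0 : 0 ≤ C) (h : ∀ x, ‖c x‖ ≤ C)
    (f : Lp E 2 gam1) : ‖mF c f‖ ≤ C * ‖f‖ := by
  have h1 := norm_mF_apply_le hc (BM.const (C : ℂ)) (fun x => by
    rw [Complex.norm_real, Real.norm_of_nonneg h0]; exact h x) f
  rw [mF_const] at h1
  refine h1.trans ?_
  rw [smul_apply, one_apply_eq_self, norm_smul, Complex.norm_real, Real.norm_of_nonneg h0]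

lemma norm_C2_le (v : C2 (Lp E 2 gam1)) : ‖v‖ ≤ ‖v true‖ + ‖v false‖ := by
  rw [PiLp.norm_eq_of_L2, Fintype.sum_bool]
  rw [Real.sqrt_le_left (by positivity)]
  nlinarith [norm_nonneg (v true), norm_nonneg (v false)]

lemma norm_apply_le_C2 (v : C2 (Lp E 2 gam1)) (b : Bool) : ‖v b‖ ≤ ‖v‖ := PiLp.norm_apply_le v b

/-- entrywise bound -/
lemma norm_gS_apply_le {g : ℝ → Matrix Bool Bool ℂ} (hg : BMM g) {C : ℝ} (h0 : 0 ≤ C)
    (h : ∀ x b b', ‖g x b b'‖ ≤ C) (v : C2 (Lp E 2 gam1)) : ‖gS g v‖ ≤ 4 * C * ‖v‖ := by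
  refine (norm_C2_le _).trans ?_
  have h1 : ∀ b, ‖(gS g v) b‖ ≤ 2 * C * ‖v‖ := by
    intro b
    rw [gS_apply, Fintype.sum_bool]
    refine (norm_add_le _ _).trans ?_
    have h2 := norm_mF_apply_le_const (hg b true) h0 (fun x => h x b true) (v true)
    have h3 := norm_mF_apply_le_const (hg b false) h0 (fun x => h x b false) (v false)
    have h4 := mul_le_mul_of_nonneg_left (norm_apply_le_C2 v true) h0
    have h5 := mul_le_mul_of_nonneg_left (norm_apply_le_C2 v false) h0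
    linarith
  have := h1 true
  have := h1 false
  linarith

lemma norm_gS_le {g : ℝ → Matrix Bool Bool ℂ} (hg : BMM g) {C : ℝ} (h0 : 0 ≤ C)
    (h : ∀ x b b', ‖g x b b'‖ ≤ C) :
    ‖(gS g : C2 (Lp E 2 gam1) →L[ℂ] C2 (Lp E 2 gam1))‖ ≤ 4 * C :=
  ContinuousLinearMap.opNorm_le_bound _ (by positivity) fun v => norm_gS_apply_le hg h0 h v

lemma bmm_sub {g h : ℝ → Matrix Bool Bool ℂ} (hg : BMM g) (hh : BMM h) :
    BMM (fun x => g x - h x) := by
  intro b b'
  exact (hg b b').sub (hh b b')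

lemma bmm_add {g h : ℝ → Matrix Bool Bool ℂ} (hg : BMM g) (hh : BMM h) :
    BMM (fun x => g x + h x) := by
  intro b b'
  exact (hg b b').add (hh b b')

lemma bmm_smul {g : ℝ → Matrix Bool Bool ℂ} (hg : BMM g) {c : ℝ → ℂ} (hc : BM c) :
    BMM (fun x => c x • g x) := by
  intro b b'
  exact hc.mul (hg b b')

lemma gS_sub {g h : ℝ → Matrix Bool Bool ℂ} (hg : BMM g) (hh : BMM h) :
    (gS (fun x => g x - h x) : C2 (Lp E 2 gam1) →L[ℂ] C2 (Lp E 2 gam1)) = gS g - gS h := by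
  refine ContinuousLinearMap.ext fun v => ?_
  ext b : 1
  rw [sub_apply, PiLp.sub_apply, gS_apply, gS_apply, gS_apply, ← Finset.sum_sub_distrib]
  refine Finset.sum_congr rfl fun b' _ => ?_
  have : (mF (fun x => (g x - h x) b b') : Lp E 2 gam1 →L[ℂ] Lp E 2 gam1)
      = mF (fun x => g x b b') - mF (fun x => h x b b') := mF_sub (hg b b') (hh b b')
  rw [this]
  rfl

lemma gS_add {g h : ℝ → Matrix Bool Bool ℂ} (hg : BMM g) (hh : BMM h) :
    (gS (fun x => g x + h x) : C2 (Lp E 2 gam1) →L[ℂ] C2 (Lp E 2 gam1)) = gS g + gS h := by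
  refine ContinuousLinearMap.ext fun v => ?_
  ext b : 1
  rw [add_apply, PiLp.add_apply, gS_apply, gS_apply, gS_apply, ← Finset.sum_add_distrib]
  refine Finset.sum_congr rfl fun b' _ => ?_
  have : (mF (fun x => (g x + h x) b b') : Lp E 2 gam1 →L[ℂ] Lp E 2 gam1)
      = mF (fun x => g x b b') + mF (fun x => h x b b') := mF_add (hg b b') (hh b b')
  rw [this]
  rfl

lemma gS_const_smul (z : ℂ) {g : ℝ → Matrix Bool Bool ℂ} (hg : BMM g) :
    (gS (fun x => z • g x) : C2 (Lp E 2 gam1) →L[ℂ] C2 (Lp E 2 gam1)) = z • gS g := by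
  refine ContinuousLinearMap.ext fun v => ?_
  ext b : 1
  rw [smul_apply, PiLp.smul_apply, gS_apply, gS_apply, Finset.smul_sum]
  refine Finset.sum_congr rfl fun b' _ => ?_
  have : (mF (fun x => (z • g x) b b') : Lp E 2 gam1 →L[ℂ] Lp E 2 gam1)
      = z • mF (fun x => g x b b') := mF_const_mul z (hg b b')
  rw [this]
  rfl

/-! ### the generator of `τ ↦ exp (-i τ f(x) X)` -/

lemma BMM_fX {f : ℝ → ℝ} (hf : Measurable f) {C : ℝ} (hC : ∀ x, |f x| ≤ C) :
    BMM fun x => (f x : ℂ) • xm := by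
  refine bmm_smul (BMM.const xm) ⟨Complex.measurable_ofReal.comp hf, C, fun x => ?_⟩
  rw [Complex.norm_real]
  exact hC x

lemma abs_cos_sub_one_le (t : ℝ) : |Real.cos t - 1| ≤ t ^ 2 := by
  have h1 := Real.one_sub_sq_div_two_le_cos (x := t)
  have h2 := Real.cos_le_one t
  rw [abs_le]
  constructor <;> nlinarith [sq_nonneg t]

lemma abs_sin_sub_le (t : ℝ) (ht : |t| ≤ 1) : |Real.sin t - t| ≤ t ^ 2 := by
  have h := Real.sin_bound ht
  have h2 : |Real.sin t - t| ≤ |Real.sin t - (t - t ^ 3 / 6)| + |t ^ 3 / 6| := by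
    have : Real.sin t - t = (Real.sin t - (t - t ^ 3 / 6)) + (-(t ^ 3 / 6)) := by ring
    rw [this]
    refine (abs_add_le _ _).trans ?_
    rw [abs_neg]
  have h3 : |t ^ 3 / 6| = |t| ^ 3 / 6 := by
    rw [abs_div, abs_pow]; norm_num
  have h4 : |t| ^ 3 ≤ |t| ^ 2 := pow_le_pow_of_le_one (abs_nonneg _) ht (by norm_num)
  have h5 : |t| ^ 4 ≤ |t| ^ 2 := pow_le_pow_of_le_one (abs_nonneg _) ht (by norm_num)
  have h6 : |t| ^ 2 = t ^ 2 := sq_abs t
  have h7 : 0 ≤ t ^ 2 := sq_nonneg t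
  rw [h3] at h2
  nlinarith

/-- quadratic bound for `τ ↦ exp (-i τ f(x) X)` at `0` -/
lemma rx_quad {f : ℝ → ℝ} (hf : Measurable f) {C : ℝ} (hC : ∀ x, |f x| ≤ C) (h : ℝ)
    (hh : |h| * C ≤ 1) :
    ‖(gS (fun x => mixm (h * f x)) : C2 (Lp E 2 gam1) →L[ℂ] C2 (Lp E 2 gam1)) - 1
      + (Complex.I * (h : ℂ)) • gS (fun x => (f x : ℂ) • xm)‖ ≤ 4 * C ^ 2 * h ^ 2 := by
  have hfm : Measurable fun x => h * f x := hf.const_mul h
  have hC0 : 0 ≤ C := (abs_nonneg _).trans (hC 0)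
  have hbm : BMM (fun x => mixm (h * f x) - 1 + (Complex.I * (h : ℂ)) • ((f x : ℂ) • xm)) :=
    bmm_add (bmm_sub (BMM_mixm hfm) (BMM.const 1))
        (bmm_smul (BMM_fX hf hC) (BM.const (Complex.I * (h : ℂ))))
  have e1 : (gS (fun x => mixm (h * f x)) : C2 (Lp E 2 gam1) →L[ℂ] C2 (Lp E 2 gam1)) - 1
      + (Complex.I * (h : ℂ)) • gS (fun x => (f x : ℂ) • xm)
      = gS (fun x => mixm (h * f x) - 1 + (Complex.I * (h : ℂ)) • ((f x : ℂ) • xm)) := by
    have e2 : (gS (fun x => mixm (h * f x) - 1 + (Complex.I * (h : ℂ)) • ((f x : ℂ) • xm)) :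
        C2 (Lp E 2 gam1) →L[ℂ] C2 (Lp E 2 gam1))
        = gS (fun x => mixm (h * f x) - 1)
          + gS (fun x => (Complex.I * (h : ℂ)) • ((f x : ℂ) • xm)) :=
      gS_add (bmm_sub (BMM_mixm hfm) (BMM.const 1))
        (bmm_smul (BMM_fX hf hC) (BM.const (Complex.I * (h : ℂ))))
    have e3 : (gS (fun x => mixm (h * f x) - 1) : C2 (Lp E 2 gam1) →L[ℂ] C2 (Lp E 2 gam1))
        = gS (fun x => mixm (h * f x)) - gS (fun _ => 1) :=
      gS_sub (BMM_mixm hfm) (BMM.const 1)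
    rw [e2, e3, gS_const_smul _ (BMM_fX hf hC), gS_one]
  rw [e1]
  refine (norm_gS_le hbm (C := C ^ 2 * h ^ 2) (by positivity) (fun x b b' => ?_)).trans ?_
  · have hsq : (h * f x) ^ 2 ≤ C ^ 2 * h ^ 2 := by
      have h1 : f x ^ 2 ≤ C ^ 2 := sq_le_sq' (by linarith [(abs_le.1 (hC x)).1]) (abs_le.1 (hC x)).2
      nlinarith [sq_nonneg h]
    have hle : |h * f x| ≤ 1 := by
      rw [abs_mul]
      have := mul_le_mul_of_nonneg_left (hC x) (abs_nonneg h)
      linarith
    have hcos := (abs_cos_sub_one_le (h * f x)).trans hsq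
    have hsin := (abs_sin_sub_le (h * f x) hle).trans hsq
    by_cases hb : b = b'
    · subst hb
      have : (mixm (h * f x) - 1 + (Complex.I * (h : ℂ)) • ((f x : ℂ) • xm)) b b
          = (((Real.cos (h * f x) - 1 : ℝ)) : ℂ) := by
        simp [mixm, xm]
      rw [this, Complex.norm_real]
      exact hcos
    · have : (mixm (h * f x) - 1 + (Complex.I * (h : ℂ)) • ((f x : ℂ) • xm)) b b'
          = -(Complex.I * ((Real.sin (h * f x) - h * f x : ℝ) : ℂ)) := by
        simp [mixm, xm, hb, Matrix.one_apply_ne hb]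
        ring
      rw [this, norm_neg, norm_mul, Complex.norm_I, one_mul, Complex.norm_real]
      exact hsin
  · exact le_of_eq (by ring)

/-! ### the Trotter generator of a cosine polynomial -/

/-- the list of conjugated mixers generating `trig l (x) X` -/
def sym (l : List (ℝ × ℝ)) : List (ℝ × ℝ) :=
  l.flatMap fun p => [(p.1 / 2, p.2 / 2), (-(p.1 / 2), p.2 / 2)]

lemma conj_xm (a x : ℝ) : lamm (-a) x * xm * lamm a x + lamm (-(-a)) x * xm * lamm (-a) x
    = ((2 * Real.cos (2 * a * x) : ℝ) : ℂ) • xm := by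
  have h1 : ∀ t : ℝ, chi t x = Complex.exp ((t * x : ℝ) * Complex.I) := fun t => rfl
  ext b b'
  cases b <;> cases b' <;>
    simp [lamm, xm, Matrix.mul_apply, Matrix.diagonal, spinSign]
  all_goals
    simp only [h1, ← Complex.exp_add]
    rw [Complex.cos]
  all_goals
    push_cast
    ring_nf

lemma norm_XS_apply (v : C2 (Lp E 2 gam1)) : ‖(spG xm : C2 (Lp E 2 gam1) →L[ℂ] _) v‖ ≤ ‖v‖ := by
  have h1 := PiLp.norm_sq_eq_of_L2 (fun _ : Bool => Lp E 2 gam1)
    ((spG xm : C2 (Lp E 2 gam1) →L[ℂ] _) v)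
  have h2 := PiLp.norm_sq_eq_of_L2 (fun _ : Bool => Lp E 2 gam1) v
  have h3 : ∀ b : Bool, ((spG xm : C2 (Lp E 2 gam1) →L[ℂ] _) v) b = v (!b) := by
    intro b
    rw [spG_apply, Fintype.sum_bool]
    cases b <;> simp [xm]
  rw [Fintype.sum_bool, h3, h3] at h1
  rw [Fintype.sum_bool] at h2
  have h4 : ‖(spG xm : C2 (Lp E 2 gam1) →L[ℂ] _) v‖ ^ 2 = ‖v‖ ^ 2 := by
    rw [h1, h2]; simp [add_comm]
  exact ((sq_eq_sq₀ (norm_nonneg _) (norm_nonneg _)).mp h4).le

/-! ### decomposition of label-controlled matrices -/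

lemma gS_smul_const {c : ℝ → ℂ} (hc : BM c) (m : Matrix Bool Bool ℂ) :
    (gS (fun x => c x • m) : C2 (Lp E 2 gam1) →L[ℂ] C2 (Lp E 2 gam1)) = dg (mF c) * spG m := by
  refine ContinuousLinearMap.ext fun v => ?_
  ext b : 1
  rw [gS_apply, mul_apply_eq_comp, dg_apply, spG_apply, map_sum]
  refine Finset.sum_congr rfl fun b' _ => ?_
  have : (mF (fun x => (c x • m) b b') : Lp E 2 gam1 →L[ℂ] Lp E 2 gam1) = m b b' • mF c := by
    rw [← mF_const_mul (m b b') hc]
    congr 1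
    funext x
    simp [mul_comm]
  rw [this, map_smul]
  rfl

lemma gS_scalar {c : ℝ → ℂ} (hc : BM c) :
    (gS (fun x => c x • (1 : Matrix Bool Bool ℂ)) : C2 (Lp E 2 gam1) →L[ℂ] C2 (Lp E 2 gam1))
      = dg (mF c) := by
  rw [gS_smul_const hc, spG_one, mul_one]

lemma mixm_eq (β : ℝ) : mixm β = ((Real.cos β : ℝ) : ℂ) • (1 : Matrix Bool Bool ℂ)
    - (Complex.I * ((Real.sin β : ℝ) : ℂ)) • xm := by
  ext b b'
  cases b <;> cases b' <;> simp [mixm, xm, -Complex.ofReal_cos, -Complex.ofReal_sin]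

lemma spG_sub (m n : Matrix Bool Bool ℂ) :
    (spG (m - n) : C2 (Lp E 2 gam1) →L[ℂ] C2 (Lp E 2 gam1)) = spG m - spG n := by
  refine ContinuousLinearMap.ext fun v => ?_
  ext b : 1
  rw [sub_apply, PiLp.sub_apply, spG_apply, spG_apply, spG_apply, ← Finset.sum_sub_distrib]
  refine Finset.sum_congr rfl fun b' _ => ?_
  rw [Matrix.sub_apply, sub_smul]

lemma spG_mixm (β : ℝ) :
    (spG (mixm β) : C2 (Lp E 2 gam1) →L[ℂ] C2 (Lp E 2 gam1))
      = ((Real.cos β : ℝ) : ℂ) • 1 - (Complex.I * ((Real.sin β : ℝ) : ℂ)) • spG xm := by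
  rw [mixm_eq, spG_sub, spG_smul, spG_smul, spG_one]

/-- uniform-in-`τ` domination -/
lemma norm_rx_sub_le {f q : ℝ → ℝ} (hf : Measurable f) (hq : Measurable q) {τ : ℝ}
    (hτ : |τ| ≤ 1) (v : C2 (Lp E 2 gam1)) :
    ‖(gS (fun x => mixm (τ * q x)) : C2 (Lp E 2 gam1) →L[ℂ] C2 (Lp E 2 gam1)) v
      - (gS (fun x => mixm (τ * f x)) : C2 (Lp E 2 gam1) →L[ℂ] C2 (Lp E 2 gam1)) v‖
    ≤ 2 * (‖mF (fun x => ((min 2 |q x - f x| : ℝ) : ℂ)) (v true)‖
      + ‖mF (fun x => ((min 2 |q x - f x| : ℝ) : ℂ)) (v false)‖) := by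
  have hk : BM (fun x => ((min 2 |q x - f x| : ℝ) : ℂ)) := by
    refine ⟨Complex.measurable_ofReal.comp (measurable_const.min (hq.sub hf).abs), 2, fun x => ?_⟩
    rw [Complex.norm_real, Real.norm_of_nonneg (le_min (by norm_num) (abs_nonneg _))]
    exact min_le_left _ _
  have hb1 := BMM_mixm (hq.const_mul τ)
  have hb2 := BMM_mixm (hf.const_mul τ)
  have hlip : ∀ x, |τ * q x - τ * f x| ≤ |q x - f x| := fun x => by
    rw [← mul_sub, abs_mul]
    exact mul_le_of_le_one_left (abs_nonneg _) hτ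
  have hent : ∀ b b' x, ‖(mixm (τ * q x) - mixm (τ * f x)) b b'‖
      ≤ ‖((min 2 |q x - f x| : ℝ) : ℂ)‖ := by
    intro b b' x
    rw [Complex.norm_real, Real.norm_of_nonneg (le_min (by norm_num) (abs_nonneg _))]
    by_cases hb : b = b'
    · subst hb
      have : (mixm (τ * q x) - mixm (τ * f x)) b b
          = ((Real.cos (τ * q x) - Real.cos (τ * f x) : ℝ) : ℂ) := by simp [mixm]
      rw [this, Complex.norm_real, Real.norm_eq_abs]
      refine le_min ?_ ((Real.abs_cos_sub_cos_le _ _).trans (hlip x))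
      have h1 := abs_sub (Real.cos (τ * q x)) (Real.cos (τ * f x))
      have h2 := Real.abs_cos_le_one (τ * q x)
      have h3 := Real.abs_cos_le_one (τ * f x)
      linarith
    · have : (mixm (τ * q x) - mixm (τ * f x)) b b'
          = -(Complex.I * ((Real.sin (τ * q x) - Real.sin (τ * f x) : ℝ) : ℂ)) := by
        simp [mixm, hb]
        ring
      rw [this, norm_neg, norm_mul, Complex.norm_I, one_mul, Complex.norm_real, Real.norm_eq_abs]
      refine le_min ?_ ((Real.abs_sin_sub_sin_le _ _).trans (hlip x))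
      have h1 := abs_sub (Real.sin (τ * q x)) (Real.sin (τ * f x))
      have h2 := Real.abs_sin_le_one (τ * q x)
      have h3 := Real.abs_sin_le_one (τ * f x)
      linarith
  rw [← sub_apply, ← gS_sub hb1 hb2]
  refine (norm_C2_le _).trans ?_
  have h1 : ∀ b, ‖((gS fun x => mixm (τ * q x) - mixm (τ * f x) :
      C2 (Lp E 2 gam1) →L[ℂ] C2 (Lp E 2 gam1)) v) b‖
      ≤ ‖mF (fun x => ((min 2 |q x - f x| : ℝ) : ℂ)) (v true)‖
        + ‖mF (fun x => ((min 2 |q x - f x| : ℝ) : ℂ)) (v false)‖ := by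
    intro b
    rw [gS_apply, Fintype.sum_bool]
    refine (norm_add_le _ _).trans (add_le_add ?_ ?_)
    · exact norm_mF_apply_le ((bmm_sub hb1 hb2) b true) hk (fun x => hent b true x) _
    · exact norm_mF_apply_le ((bmm_sub hb1 hb2) b false) hk (fun x => hent b false x) _
  have := h1 true
  have := h1 false
  linarith

lemma tendstoUniformlyOn_rx {f : ℝ → ℝ} (hf : Measurable f) {q : ℕ → ℝ → ℝ}
    (hq : ∀ n, Measurable (q n)) (hlim : ∀ᵐ x ∂gam1, Tendsto (fun n => q n x) atTop (𝓝 (f x)))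
    (v : C2 (Lp E 2 gam1)) :
    TendstoUniformlyOn
      (fun n τ => (gS (fun x => mixm (τ * q n x)) : C2 (Lp E 2 gam1) →L[ℂ] C2 (Lp E 2 gam1)) v)
      (fun τ => (gS (fun x => mixm (τ * f x)) : C2 (Lp E 2 gam1) →L[ℂ] C2 (Lp E 2 gam1)) v)
      atTop (Icc (0 : ℝ) 1) := by
  have hk : ∀ n, BM (fun x => ((min 2 |q n x - f x| : ℝ) : ℂ)) := by
    intro n
    refine ⟨Complex.measurable_ofReal.comp (measurable_const.min ((hq n).sub hf).abs), 2,
      fun x => ?_⟩
    rw [Complex.norm_real, Real.norm_of_nonneg (le_min (by norm_num) (abs_nonneg _))]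
    exact min_le_left _ _
  have hz : ∀ w : Lp E 2 gam1,
      Tendsto (fun n => ‖mF (fun x => ((min 2 |q n x - f x| : ℝ) : ℂ)) w‖) atTop (𝓝 0) := by
    intro w
    have h1 : Tendsto (fun n => mF (fun x => ((min 2 |q n x - f x| : ℝ) : ℂ)) w) atTop
        (𝓝 (mF (fun _ => (0 : ℂ)) w)) := by
      refine tendsto_mF hk (BM.const 0) 2 (fun n x => ?_) ?_ w
      · rw [Complex.norm_real, Real.norm_of_nonneg (le_min (by norm_num) (abs_nonneg _))]
        exact min_le_left _ _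
      · filter_upwards [hlim] with x hx
        have h2 : Tendsto (fun n => |q n x - f x|) atTop (𝓝 0) := by
          have := (hx.sub_const (f x)).abs
          simpa using this
        have h3 : Tendsto (fun n => min 2 |q n x - f x|) atTop (𝓝 (min 2 0)) :=
          (tendsto_const_nhds).min h2
        have h4 : min (2 : ℝ) 0 = 0 := min_eq_right (by norm_num)
        rw [h4] at h3
        exact (Complex.continuous_ofReal.tendsto 0).comp h3
    rw [mF_zero] at h1
    have := h1.norm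
    simpa using this
  have hb : Tendsto (fun n => 2 * (‖mF (fun x => ((min 2 |q n x - f x| : ℝ) : ℂ)) (v true)‖
      + ‖mF (fun x => ((min 2 |q n x - f x| : ℝ) : ℂ)) (v false)‖)) atTop (𝓝 0) := by
    have := ((hz (v true)).add (hz (v false))).const_mul 2
    simpa using this
  rw [Metric.tendstoUniformlyOn_iff]
  intro ε hε
  filter_upwards [hb.eventually (gt_mem_nhds hε)] with n hn τ hτ
  rw [dist_comm, dist_eq_norm]
  refine lt_of_le_of_lt (norm_rx_sub_le hf (hq n) ?_ v) hn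
  rw [abs_of_nonneg hτ.1]
  exact hτ.2

lemma continuous_rx {f : ℝ → ℝ} (hf : Measurable f) (v : C2 (Lp E 2 gam1)) :
    Continuous fun τ : ℝ =>
      (gS (fun x => mixm (τ * f x)) : C2 (Lp E 2 gam1) →L[ℂ] C2 (Lp E 2 gam1)) v := by
  rw [continuous_iff_continuousAt]
  intro τ₀
  refine tendsto_gS (l := 𝓝 τ₀) (fun τ => BMM_mixm (hf.const_mul τ)) (BMM_mixm (hf.const_mul τ₀)) 1
    (fun τ x b b' => ?_) (Eventually.of_forall fun x b b' => ?_) v
  · have h : mixm (τ * f x) b b' = if b = b' then ((Real.cos (τ * f x) : ℝ) : ℂ)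
        else -(Complex.I * ((Real.sin (τ * f x) : ℝ) : ℂ)) := rfl
    rw [h]
    split_ifs
    · rw [Complex.norm_real]
      exact Real.abs_cos_le_one _
    · rw [norm_neg, norm_mul, Complex.norm_I, one_mul, Complex.norm_real]
      exact Real.abs_sin_le_one _
  · have hc : Continuous fun τ : ℝ => mixm (τ * f x) b b' := by
      have h : (fun τ : ℝ => mixm (τ * f x) b b') = fun τ => if b = b' then
          ((Real.cos (τ * f x) : ℝ) : ℂ) else -(Complex.I * ((Real.sin (τ * f x) : ℝ) : ℂ)) := rfl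
      rw [h]
      split_ifs <;> fun_prop
    exact hc.tendsto τ₀

end model

end Crest.Agent.R339.Ant
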