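import Crest.Agent.R339.LabSp286C
import Crest.Agent.R339.LabQuant286
import Crest.Agent.R339.Li728A

/-!
R339: the labelled site space as an instance of helper728's `ILSys`, and its relation to the
plain site model of helper90.
-/

set_option autoImplicit false
set_option linter.unusedSectionVars false

noncomputable section

namespace Crest.Agent.R339.LF

open MeasureTheory ProbabilityTheory Filter Topology
open scoped InnerProductSpace ENNReal
open Crest.Agent.R339.Site Crest.Agent.R339.Lab Crest.MathPhysics.SpinGlass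

section inst
variable {K0 : Type*} [NormedAddCommGroup K0] [InnerProductSpace ℂ K0]

/-- spin matrices as a star algebra homomorphism -/
def spHom (F : Type*) [NormedAddCommGroup F] [InnerProductSpace ℂ F] [CompleteSpace F] :
    Matrix Bool Bool ℂ →⋆ₐ[ℂ] (C2 F →L[ℂ] C2 F) where
  toFun := spG
  map_one' := spG_one
  map_mul' := spG_mul
  map_zero' := by
    refine ContinuousLinearMap.ext fun v => ?_
    ext b
    rw [spG_apply]
    simp
  map_add' := spG_add
  commutes' c := by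
    rw [Algebra.algebraMap_eq_smul_one, Algebra.algebraMap_eq_smul_one, spG_smul, spG_one]
  map_star' m := (spG_star m).symm

@[simp] lemma spHom_apply (F : Type*) [NormedAddCommGroup F] [InnerProductSpace ℂ F]
    [CompleteSpace F] (m : Matrix Bool Bool ℂ) : spHom F m = spG m := rfl

/-- `v ↦ |+⟩ ⊗ 1 ⊗ v` as isometry. -/
def plusL : Fock K0 →ₗᵢ[ℂ] SL K0 where
  toFun v := WithLp.toLp 2 fun _ => (((1 : ℝ) / Real.sqrt 2 : ℝ) : ℂ) • wave 0 v
  map_add' v w := by
    ext b : 1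
    show (((1 : ℝ) / Real.sqrt 2 : ℝ) : ℂ) • wave 0 (v + w) = _
    rw [wave_add, smul_add]
    rfl
  map_smul' c v := by
    ext b : 1
    show (((1 : ℝ) / Real.sqrt 2 : ℝ) : ℂ) • wave 0 (c • v) = _
    rw [wave_smul, smul_comm]
    rfl
  norm_map' v := by
    show ‖(WithLp.toLp 2 fun _ => (((1 : ℝ) / Real.sqrt 2 : ℝ) : ℂ) • wave 0 v : SL K0)‖ = ‖v‖
    have h := PiLp.norm_sq_eq_of_L2 (fun _ : Bool => LFo K0)
      (WithLp.toLp 2 fun _ => (((1 : ℝ) / Real.sqrt 2 : ℝ) : ℂ) • wave 0 v)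
    have h2 : ‖(((1 : ℝ) / Real.sqrt 2 : ℝ) : ℂ) • (wave 0 v : LFo K0)‖ ^ 2 = ‖v‖ ^ 2 / 2 := by
      rw [norm_smul, norm_wave, Complex.norm_real, Real.norm_eq_abs, mul_pow, sq_abs, div_pow,
        Real.sq_sqrt (by norm_num)]
      ring
    simp only [Fintype.sum_bool, h2] at h
    rw [add_halves] at h
    exact (sq_eq_sq₀ (norm_nonneg _) (norm_nonneg _)).mp h

lemma plusL_apply (v : Fock K0) (b : Bool) :
    (plusL v : SL K0) b = (((1 : ℝ) / Real.sqrt 2 : ℝ) : ℂ) • wave 0 v := rfl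

lemma plusL_vac : (plusL vac : SL K0) = OmS := rfl

lemma WS_plusL (f : K0) (v : Fock K0) : WS f (plusL v : SL K0) = plusL (Wy f v) := by
  ext b : 1
  rw [WS, dg_apply, plusL_apply, plusL_apply, map_smul, lift_wave]

variable (ι : SL K0 →ₗᵢ[ℂ] K0)

/-- one-particle vectors in the labelled site space -/
def oneS : SL K0 →L[ℂ] SL K0 :=
  ((plusL.comp one).comp ι).toContinuousLinearMap

lemma oneS_apply (v : SL K0) : oneS ι v = plusL (one (ι v)) := rfl

lemma oneS_deriv (f : SL K0) :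
    HasDerivAt (fun t : ℝ => WS (ι ((t : ℂ) • f)) (OmS : SL K0)) (Complex.I • oneS ι f) 0 := by
  have h1 : HasDerivAt (fun t : ℝ => (plusL (coh ((t : ℂ) • ι f)) : SL K0))
      (plusL (Complex.I • one (ι f))) 0 :=
    (((plusL (K0 := K0)).toContinuousLinearMap.restrictScalars ℝ).hasFDerivAt.comp_hasDerivAt
      (0 : ℝ) (hasDerivAt_coh (ι f)))
  have h2 : ∀ t : ℝ, WS (ι ((t : ℂ) • f)) (OmS : SL K0) = plusL (coh ((t : ℂ) • ι f)) := by
    intro t
    rw [← plusL_vac, WS_plusL, Wy_vac, map_smul]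
  rw [show (Complex.I • oneS ι f : SL K0) = plusL (Complex.I • one (ι f)) by
    rw [oneS_apply, map_smul]]
  exact h1.congr_of_eventuallyEq (Eventually.of_forall h2)

end inst

section inst2
variable {K0 : Type*} [NormedAddCommGroup K0] [InnerProductSpace ℂ K0]
variable (ι : SL K0 ≃ₗᵢ[ℂ] K0)

lemma SL_total :
    (Submodule.span ℂ {v : SL K0 | ∃ (A : Set ℝ) (M : Matrix Bool Bool ℂ) (f : SL K0),
      MeasurableSet A ∧ v = PS A (spHom (LFo K0) M (WS (ι f) OmS))}).topologicalClosure = ⊤ := by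
  rw [Submodule.topologicalClosure_eq_top_iff, Submodule.eq_bot_iff]
  intro v hv
  have h : ∀ (A : Set ℝ) (M : Matrix Bool Bool ℂ) (g : K0), MeasurableSet A →
      ⟪PS A (spG M (WS g (OmS : SL K0))), v⟫_ℂ = 0 := by
    intro A M g hA
    refine (Submodule.mem_orthogonal _ _).mp hv _ (Submodule.subset_span ⟨A, M, ι.symm g, hA, ?_⟩)
    rw [ι.apply_symm_apply]
    rfl
  refine SL_sep (fun A g hA => ?_) (fun A g hA => h A zm g hA)
  have := h A 1 g hA
  rwa [spG_one] at this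

/-- even Borel sets of the label -/
def ClE (A : Set ℝ) : Prop := MeasurableSet A ∧ ∀ x, -x ∈ A ↔ x ∈ A

lemma ClE.univ : ClE Set.univ := ⟨MeasurableSet.univ, fun _ => by simp⟩

lemma ClE.compl {A : Set ℝ} (h : ClE A) : ClE Aᶜ :=
  ⟨h.1.compl, fun x => not_congr (h.2 x)⟩

lemma ClE.inter {A B : Set ℝ} (h : ClE A) (h' : ClE B) : ClE (A ∩ B) :=
  ⟨h.1.inter h'.1, fun x => and_congr (h.2 x) (h'.2 x)⟩

lemma ClE.union {A B : Set ℝ} (h : ClE A) (h' : ClE B) : ClE (A ∪ B) :=
  ⟨h.1.union h'.1, fun x => or_congr (h.2 x) (h'.2 x)⟩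

/-- every even Borel set is cut in `R` even Borel cells of mass at most `1/R`. -/
theorem exists_cells_of_ClE (R : ℕ) (hR : 0 < R) :
    ∃ c : Fin R → Set ℝ, (∀ i, ClE (c i)) ∧ (Pairwise fun i k => Disjoint (c i) (c k)) ∧
      (⋃ i, c i) = Set.univ ∧ ∀ i, gam1.real (c i) = 1 / R := by
  obtain ⟨c, h1, h2, h3, h4, h5⟩ := exists_even_cells R hR
  exact ⟨c, fun i => ⟨h1 i, h2 i⟩, fun i k hik => h3 i k hik, h4, h5⟩

theorem ClE_div (A : Set ℝ) (hA : ClE A) (ε : ℝ) (hε : 0 < ε) :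
    ∃ (n : ℕ) (F : Fin n → Set ℝ), (∀ i, ClE (F i)) ∧
      (Pairwise fun i j => Disjoint (F i) (F j)) ∧ (⋃ i, F i) = A ∧ ∀ i, gam1.real (F i) ≤ ε := by
  obtain ⟨R, hR⟩ := exists_nat_gt (1 / ε)
  have hRpos : 0 < R := by
    have : (0 : ℝ) < R := lt_trans (by positivity) hR
    exact_mod_cast this
  obtain ⟨c, h1, h2, h3, h4⟩ := exists_cells_of_ClE R hRpos
  refine ⟨R, fun i => A ∩ c i, fun i => hA.inter (h1 i), fun i k hik => ?_, ?_, fun i => ?_⟩
  · exact (h2 hik).mono Set.inter_subset_right Set.inter_subset_right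
  · rw [← Set.inter_iUnion, h3, Set.inter_univ]
  · calc gam1.real (A ∩ c i) ≤ gam1.real (c i) := measureReal_mono Set.inter_subset_right
      _ = 1 / R := h4 i
      _ ≤ ε := by
        have hR' : (0 : ℝ) < R := by exact_mod_cast hRpos
        rw [div_le_iff₀ hR']
        have := mul_lt_mul_of_pos_left hR hε
        rw [mul_one_div_cancel hε.ne'] at this
        exact this.le

end inst2

end Crest.Agent.R339.LF
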