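import Crest.Agent.R339.Ant575C
import Crest.Agent.R339.LabInst286

/-!
R339, block ANT (helper575), part D: the labelled model `lsI` on `SL K₀` (compatible with an
instance `I` of helper728's `ILSys`), and the path gates `exp (-i τ f(x) X)`, `f` even.
-/

set_option autoImplicit false
set_option linter.unusedSectionVars false

noncomputable section

open scoped ComplexConjugate InnerProductSpace Topology
open Filter Set MeasureTheory ProbabilityTheory

namespace Crest.Agent.R339.Ant

open Crest.Agent.R339.LF Crest.Agent.R339.Site Crest.MathPhysics.SpinGlass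

variable {K0 : Type*} [NormedAddCommGroup K0] [InnerProductSpace ℂ K0]

/-- `I` is an instance of `ILSys` on the labelled site space -/
structure Cp (I : Li.ILSys ℝ (SL K0)) : Prop where
  sg : ∀ m, I.sg m = spG m
  P : ∀ A, I.P A = PS A
  Om : I.Om = OmS
  Cl : ∀ A, I.Cl A ↔ ClE A
  mu : I.μ = gam1

lemma li_zM : Li.zM = zm := by
  ext b b'
  cases b <;> cases b' <;> simp [Li.zM, Li.dM, zm, spinSign]

lemma li_xM : Li.xM = xm := by
  ext b b'
  cases b <;> cases b' <;> simp [Li.xM, xm]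

variable {I : Li.ILSys ℝ (SL K0)}

lemma Cp.Z (h : Cp I) : I.Z = ZS := by
  rw [Li.ILSys.Z, h.sg, li_zM]
  rfl

lemma Cp.X (h : Cp I) : I.X = XS := by
  rw [Li.ILSys.X, h.sg, li_xM]
  rfl

lemma norm_ZS_apply (v : SL K0) : ‖ZS v‖ ≤ ‖v‖ := by
  have h1 := PiLp.norm_sq_eq_of_L2 (fun _ : Bool => LFo K0) (ZS v)
  have h2 := PiLp.norm_sq_eq_of_L2 (fun _ : Bool => LFo K0) v
  have h3 : ∀ b : Bool, ‖(ZS v) b‖ = ‖v b‖ := by
    intro b
    rw [ZS, spG_apply, Fintype.sum_bool]
    cases b <;> simp [zm, spinSign]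
  rw [Fintype.sum_bool, h3, h3, ← Fintype.sum_bool (fun b => ‖v b‖ ^ 2), ← h2] at h1
  exact ((sq_eq_sq₀ (norm_nonneg _) (norm_nonneg _)).mp h1).le

lemma cst_univ_coe (I : Li.ILSys ℝ (SL K0)) (f : SL K0) :
    ((I.cst MeasurableSet.univ f : US (SL K0)) : SL K0 →L[ℂ] SL K0) = I.zW f := by
  show I.cstO Set.univ f = _
  rw [Li.ILSys.cstO, Set.compl_univ, Li.ILSys.P_empty, I.P_univ, zero_add, one_mul]

lemma zW_Z (I : Li.ILSys ℝ (SL K0)) (f : SL K0) : I.zW f * I.Z = I.Z * I.zW f := by
  have h1 : I.Z * I.Ep = I.Ep * I.Z := by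
    rw [Li.ILSys.Z, Li.ILSys.Ep, ← map_mul, ← map_mul, Li.zM, Li.ILSys.dM_mul, Li.ILSys.dM_mul]
    simp
  have h2 : I.Z * I.Em = I.Em * I.Z := by
    rw [Li.ILSys.Z, Li.ILSys.Em, ← map_mul, ← map_mul, Li.zM, Li.ILSys.dM_mul, Li.ILSys.dM_mul]
    simp
  have h3 : ∀ g, I.Z * I.W g = I.W g * I.Z := fun g => (I.sg_W _ _).eq
  rw [Li.ILSys.zW, add_mul, mul_add, mul_assoc, mul_assoc, ← h3, ← h3, ← mul_assoc, ← mul_assoc,
    ← mul_assoc, ← mul_assoc, h1, h2]

lemma gS_diag_ZS (a : ℝ) : (gS (lamm a) : SL K0 →L[ℂ] SL K0) * ZS = ZS * gS (lamm a) := by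
  have h : ∀ x, lamm a x * zm = zm * lamm a x := by
    intro x
    rw [lamm, zm, Matrix.diagonal_mul_diagonal, Matrix.diagonal_mul_diagonal]
    congr 1
    funext b
    ring
  rw [ZS, ← gS_const, ← gS_mul (BMM_lamm a) (BMM.const _), ← gS_mul (BMM.const _) (BMM_lamm a)]
  simp_rw [h]

/-- the labelled model attached to `I` and the vector `ξ` -/
def lsI (hc : Cp I) (xi : SL K0) : LS (SL K0) where
  X := XS
  Z := ZS
  Om := OmS
  xi := xi
  mix b := rxU (fun _ => b) measurable_const
  lam a := lamU a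
  cost g e := I.cst MeasurableSet.univ ((-(g : ℂ)) • e)
  En e := (⟪e, I.one e⟫_ℂ).re
  norm_Om := norm_OmS.le
  norm_Z := norm_ZS_apply
  norm_X := norm_XS_apply
  mix_coe b := by
    show gS (fun _ => mixm b) = _
    rw [gS_const, spG_mixm]
    rfl
  lam_Z a := gS_diag_ZS a
  lam_neg a := lamU_neg a
  cost_Z g e := by
    rw [cst_univ_coe, ← hc.Z]
    exact zW_Z I _
  cost_cont g v := by
    have h : (fun e => ((I.cst MeasurableSet.univ ((-(g : ℂ)) • e) : US (SL K0)) :
        SL K0 →L[ℂ] SL K0) v)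
        = fun e => I.Ep (I.W ((-(g : ℂ)) • e) v) + I.Em (I.W (-((-(g : ℂ)) • e)) v) := by
      funext e
      rw [cst_univ_coe]
      rfl
    rw [h]
    have h1 : Continuous fun e : SL K0 => I.W ((-(g : ℂ)) • e) v :=
      (I.W_cont v).comp (continuous_const_smul _)
    have h2 : Continuous fun e : SL K0 => I.W (-((-(g : ℂ)) • e)) v :=
      (I.W_cont v).comp (continuous_const_smul _).neg
    exact (I.Ep.continuous.comp h1).add (I.Em.continuous.comp h2)
  En_cont := by
    have h : Continuous fun e : SL K0 => ⟪e, I.one e⟫_ℂ := continuous_id.inner I.one.continuous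
    exact Complex.continuous_re.comp h

section pg

variable (hc : Cp I) (xi : SL K0)

lemma sym_cons (p : ℝ × ℝ) (l : List (ℝ × ℝ)) :
    sym (p :: l) = (p.1 / 2, p.2 / 2) :: (-(p.1 / 2), p.2 / 2) :: sym l := rfl

lemma conj_gS (a : ℝ) :
    (gS (lamm (-a)) : SL K0 →L[ℂ] SL K0) * XS * gS (lamm a)
      = gS (fun x => lamm (-a) x * xm * lamm a x) := by
  rw [gS_mul (BMM.mul (BMM_lamm (-a)) (BMM.const xm)) (BMM_lamm a),
    gS_mul (BMM_lamm (-a)) (BMM.const xm), gS_const]
  rfl

lemma BMM_conj (a : ℝ) : BMM (fun x => lamm (-a) x * xm * lamm a x) :=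
  BMM.mul (BMM.mul (BMM_lamm (-a)) (BMM.const xm)) (BMM_lamm a)

lemma abs_trig_le (l : List (ℝ × ℝ)) (x : ℝ) : |trig l x| ≤ LS.sz l := by
  induction l with
  | nil => simp [LS.sz]
  | cons p l ih =>
    have h : LS.sz (p :: l) = |p.2| + LS.sz l := by simp [LS.sz]
    rw [trig_cons, h]
    refine (abs_add_le _ _).trans (add_le_add ?_ ih)
    rw [abs_mul]
    exact mul_le_of_le_one_right (abs_nonneg _) (Real.abs_cos_le_one _)

lemma genL_sym (l : List (ℝ × ℝ)) :
    (lsI hc xi).genL (sym l) = gS (fun x => (trig l x : ℂ) • xm) := by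
  induction l with
  | nil =>
    have h : (gS (fun x => (trig [] x : ℂ) • xm) : SL K0 →L[ℂ] SL K0) = 0 := by
      have : (fun x : ℝ => (trig [] x : ℂ) • xm) = fun _ => (0 : Matrix Bool Bool ℂ) := by
        funext x
        simp
      rw [this, gS_const]
      refine ContinuousLinearMap.ext fun v => ?_
      ext b : 1
      rw [spG_apply]
      simp
    rw [h]
    simp [LS.genL, sym]
  | cons p l ih =>
    have h0 : (lsI hc xi).genL (sym (p :: l))
        = ((p.2 / 2 : ℝ) : ℂ) • ((gS (lamm (-(p.1 / 2))) : SL K0 →L[ℂ] SL K0) * XS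
            * gS (lamm (p.1 / 2)))
          + (((p.2 / 2 : ℝ) : ℂ) • ((gS (lamm (-(-(p.1 / 2)))) : SL K0 →L[ℂ] SL K0) * XS
            * gS (lamm (-(p.1 / 2))))
          + (lsI hc xi).genL (sym l)) := rfl
    rw [h0, ih, conj_gS, conj_gS, ← gS_const_smul _ (BMM_conj _), ← gS_const_smul _ (BMM_conj _),
      ← add_assoc, ← gS_add (bmm_smul (BMM_conj _) (BM.const _)) (bmm_smul (BMM_conj _) (BM.const _)),
      ← gS_add (bmm_add (bmm_smul (BMM_conj _) (BM.const _)) (bmm_smul (BMM_conj _) (BM.const _)))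
        (BMM_fX (continuous_trig l).measurable (abs_trig_le l))]
    congr 1
    funext x
    rw [← smul_add, conj_xm, trig_cons, smul_smul, ← Complex.ofReal_mul, ← add_smul,
      ← Complex.ofReal_add]
    congr 3
    have : 2 * (p.1 / 2) * x = p.1 * x := by ring
    rw [this]
    ring

/-- path gates of cosine polynomials -/
lemma pg_trig (l : List (ℝ × ℝ)) :
    (lsI hc xi).PG (fun τ => rxU (fun x => τ * trig l x)
      ((continuous_trig l).measurable.const_mul τ)) := by
  have hS := LS.sz_nonneg l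
  refine (lsI hc xi).pg_of_list' _ (fun s t => ?_) (sym l) (4 * (LS.sz l + 1) ^ 2)
    (1 / (LS.sz l + 1)) (by positivity) (fun τ hτ => ?_)
  · rw [rxU_mul]
    congr 1
    funext x
    ring
  · rw [genL_sym, coe_rxU]
    refine rx_quad (continuous_trig l).measurable (C := LS.sz l + 1)
      (fun x => (abs_trig_le l x).trans (by linarith)) τ ?_
    rw [le_div_iff₀ (by positivity)] at hτ
    exact hτ

/-- **path gates `exp (-i τ f(x) X)`, `f` even, bounded, measurable** -/
theorem pg_rx (f : ℝ → ℝ) (hf : Measurable f) (C : ℝ) (hC : ∀ x, |f x| ≤ C)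
    (heven : ∀ x, f (-x) = f x) :
    (lsI hc xi).PG (fun τ => rxU (fun x => τ * f x) (hf.const_mul τ)) := by
  obtain ⟨l, hl⟩ := exists_trig_tendsto f hf C hC heven
  refine (lsI hc xi).pg_limit (fun n τ => rxU (fun x => τ * trig (l n) x)
      ((continuous_trig (l n)).measurable.const_mul τ)) _ (fun n => pg_trig hc xi (l n)) ?_ ?_
  · intro v
    exact tendstoUniformlyOn_rx hf (fun n => (continuous_trig (l n)).measurable) hl v
  · intro v
    exact continuous_rx hf v

include hc in
/-- the class rotations of `I` in terms of `rxU` -/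
lemma rot_eq {A : Set ℝ} (hA : MeasurableSet A) (β : ℝ) :
    I.rot hA β = rxU (A.indicator fun _ => β) (measurable_const.indicator hA) := by
  apply Subtype.ext
  show I.rotO A β = gS _
  have h1 : (fun x => mixm (A.indicator (fun _ => β) x))
      = fun x => (Aᶜ.indicator (fun _ => (1 : ℂ)) x) • (1 : Matrix Bool Bool ℂ)
        + (A.indicator (fun _ => (1 : ℂ)) x) • mixm β := by
    funext x
    by_cases hx : x ∈ A
    · simp [hx]
    · simp [hx, mixm_zero]
  have b1 : BMM (fun x => (Aᶜ.indicator (fun _ => (1 : ℂ)) x) • (1 : Matrix Bool Bool ℂ)) :=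
    bmm_smul (BMM.const 1) (BM.indicator hA.compl)
  have b2 : BMM (fun x => (A.indicator (fun _ => (1 : ℂ)) x) • mixm β) :=
    bmm_smul (BMM.const _) (BM.indicator hA)
  rw [h1, gS_add b1 b2, gS_smul_const (BM.indicator hA.compl), gS_smul_const (BM.indicator hA),
    spG_one, mul_one, spG_mixm, Li.ILSys.rotO, hc.P, hc.P, hc.X]
  rfl

/-- **path gates `exp (-i τ β X P_A)`, `A` an even Borel set** -/
theorem pg_rot {A : Set ℝ} (hA : I.Cl A) (β : ℝ) :
    (lsI hc xi).PG (fun τ => I.rot (I.Cl_meas A hA) (τ * β)) := by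
  have hE : ClE A := (hc.Cl A).1 hA
  have h := pg_rx hc xi (A.indicator fun _ => β) (measurable_const.indicator hE.1) |β|
    (fun x => by
      by_cases hx : x ∈ A
      · simp [hx]
      · simp [hx])
    (fun x => by
      by_cases hx : x ∈ A
      · have : -x ∈ A := (hE.2 x).2 hx
        simp [hx, this]
      · have : -x ∉ A := fun h => hx ((hE.2 x).1 h)
        simp [hx, this])
  have h2 : (fun τ : ℝ => I.rot (I.Cl_meas A hA) (τ * β))
      = fun τ : ℝ => rxU (fun x => τ * A.indicator (fun _ => β) x)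
        ((measurable_const.indicator hE.1).const_mul τ) := by
    funext τ
    rw [rot_eq hc]
    congr 1
    funext x
    by_cases hx : x ∈ A
    · simp [hx]
    · simp [hx]
  rw [h2]
  exact h

end pg

end Crest.Agent.R339.Ant
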