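import Crest.Agent.R339.Ant575A
import Crest.Agent.R339.Li728A

/-!
R339, block ANT (helper575), part E: simulation of helper728's steps (class rotations, class
couplings, pure label gates of the antenna vector) by admissible labelled words.
-/

set_option autoImplicit false
set_option linter.unusedSectionVars false

noncomputable section

open scoped ComplexConjugate InnerProductSpace Topology
open Filter Set MeasureTheory

namespace Crest.Agent.R339.Ant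

open Crest.Agent.R339.Li Crest.Agent.R339.Li.ILSys

variable {Λ H : Type*} [MeasurableSpace Λ] [NormedAddCommGroup H] [InnerProductSpace ℂ H]
  [CompleteSpace H]

/-- compatibility of the labelled model `M` with the IL system `I`; `par` is the parity -/
structure Sim (I : ILSys Λ H) (M : LS H) (par : H →L[ℂ] H) : Prop where
  Z : M.Z = I.Z
  Om : M.Om = I.Om
  cost : ∀ g e, M.cost g e = I.cst MeasurableSet.univ ((-(g : ℂ)) • e)
  En : ∀ e, M.En e = (⟪e, I.one e⟫_ℂ).re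
  one_le : ∀ v, ‖I.one v‖ ≤ ‖v‖
  pg : ∀ (F : Set Λ) (hF : I.Cl F) (β : ℝ), M.PG fun τ => I.rot (I.Cl_meas F hF) (τ * β)
  par_inner : ∀ v w, ⟪par v, par w⟫_ℂ = ⟪v, w⟫_ℂ
  par_Om : par I.Om = I.Om
  par_xi : par M.xi = -M.xi
  par_sg : ∀ m, Commute par (I.sg m)
  par_W : ∀ f, Commute par (I.W f)
  par_P : ∀ F, I.Cl F → Commute par (I.P F)

/-- commutation with all label projections -/
def CP (I : ILSys Λ H) (T : H →L[ℂ] H) : Prop := ∀ B, MeasurableSet B → Commute (I.P B) T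

variable {I : ILSys Λ H} {M : LS H} {par : H →L[ℂ] H}

lemma CP.mul {T T' : H →L[ℂ] H} (h : CP I T) (h' : CP I T') : CP I (T * T') :=
  fun B hB => (h B hB).mul_right (h' B hB)

lemma CP.add {T T' : H →L[ℂ] H} (h : CP I T) (h' : CP I T') : CP I (T + T') :=
  fun B hB => (h B hB).add_right (h' B hB)

lemma CP.one : CP I 1 := fun _ _ => Commute.one_right _

lemma CP.P {A : Set Λ} (hA : MeasurableSet A) : CP I (I.P A) := fun _ hB => P_comm hB hA

lemma CP.zW (f : H) : CP I (I.zW f) := fun _ hB => P_zW hB f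

lemma CP.mx (β : ℝ) : CP I (I.mx β) := fun _ hB => P_mx hB β

lemma CP.Z : CP I I.Z := fun _ hB => P_Z hB

lemma CP.star {T : H →L[ℂ] H} (h : CP I T) : CP I (star T) := by
  intro B hB
  have := (h B hB).star_star
  rwa [I.P_star B hB] at this

lemma CP.blk {A : Set Λ} (hA : MeasurableSet A) {T : H →L[ℂ] H} (h : CP I T) :
    CP I (I.P Aᶜ + I.P A * T) := (CP.P hA.compl).add ((CP.P hA).mul h)

lemma CP.cst {A : Set Λ} (hA : MeasurableSet A) (f : H) :
    CP I ((I.cst hA f : UH H) : H →L[ℂ] H) := CP.blk hA (CP.zW f)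

lemma CP.rot {A : Set Λ} (hA : MeasurableSet A) (β : ℝ) :
    CP I ((I.rot hA β : UH H) : H →L[ℂ] H) := CP.blk hA (CP.mx β)

lemma eV_eq (h : Sim I M par) (U : UH H) : M.eV U = I.eV U := by
  rw [LS.eV, ILSys.eV, h.Z, h.Om]

lemma Z_zW (f : H) : Commute I.Z (I.zW f) := by
  have h1 : Commute I.Z I.Ep := by
    show I.Z * I.Ep = I.Ep * I.Z
    rw [ILSys.Z, ILSys.Ep, ← map_mul, ← map_mul, zM, dM_mul, dM_mul]
    simp
  have h2 : Commute I.Z I.Em := by
    show I.Z * I.Em = I.Em * I.Z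
    rw [ILSys.Z, ILSys.Em, ← map_mul, ← map_mul, zM, dM_mul, dM_mul]
    simp
  exact (h1.mul_right (Z_W f)).add_right (h2.mul_right (Z_W (-f)))

lemma Z_cst {A : Set Λ} (hA : MeasurableSet A) (f : H) :
    Commute I.Z ((I.cst hA f : UH H) : H →L[ℂ] H) :=
  ((P_Z hA.compl).symm).add_right (((P_Z hA).symm).mul_right (Z_zW f))

lemma par_zW (h : Sim I M par) (f : H) : Commute par (I.zW f) :=
  ((h.par_sg _).mul_right (h.par_W f)).add_right ((h.par_sg _).mul_right (h.par_W (-f)))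

lemma par_cst (h : Sim I M par) {A : Set Λ} (hA : I.Cl A) (f : H) :
    Commute par ((I.cst (I.Cl_meas A hA) f : UH H) : H →L[ℂ] H) :=
  (h.par_P _ (I.Cl_compl A hA)).add_right ((h.par_P _ hA).mul_right (par_zW h f))

lemma par_mx (h : Sim I M par) (β : ℝ) : Commute par (I.mx β) :=
  ((Commute.one_right par).smul_right _).sub_right ((h.par_sg _).smul_right _)

lemma par_rot (h : Sim I M par) {A : Set Λ} (hA : I.Cl A) (β : ℝ) :
    Commute par ((I.rot (I.Cl_meas A hA) β : UH H) : H →L[ℂ] H) :=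
  (h.par_P _ (I.Cl_compl A hA)).add_right ((h.par_P _ hA).mul_right (par_mx h β))

/-! ### physical states -/

/-- invariants of the physical states: the antenna block is `U₀` up to a `Z`-diagonal dressing, the
rest is even -/
structure Ph0 (I : ILSys Λ H) (par : H →L[ℂ] H) (A : Set Λ) (U₀ : UH H) (V : UH H) : Prop where
  comm : CP I (V : H →L[ℂ] H)
  dress : ∃ D : UH H, Commute I.Z (D : H →L[ℂ] H) ∧ CP I (D : H →L[ℂ] H) ∧
    (V : H →L[ℂ] H) * I.P A = (D : H →L[ℂ] H) * (U₀ : H →L[ℂ] H) * I.P A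
  ev : Commute par ((V : H →L[ℂ] H) * I.P Aᶜ)

variable {A : Set Λ} {U₀ V : UH H}

lemma P_eV {V : UH H} (hV : CP I (V : H →L[ℂ] H)) {B : Set Λ} (hB : MeasurableSet B) :
    I.P B (I.eV V) = star (V : H →L[ℂ] H) (I.Z (((V : H →L[ℂ] H) * I.P B) I.Om)) := by
  have h1 : Commute (I.P B) (star (V : H →L[ℂ] H) * I.Z * (V : H →L[ℂ] H)) :=
    ((hV.star B hB).mul_right (P_Z hB)).mul_right (hV B hB)
  have h2 : I.P B * (star (V : H →L[ℂ] H) * I.Z * (V : H →L[ℂ] H))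
      = star (V : H →L[ℂ] H) * I.Z * ((V : H →L[ℂ] H) * I.P B) := by
    rw [h1.eq, mul_assoc]
  exact congrArg (fun T : H →L[ℂ] H => T I.Om) h2

lemma Ph0.P_eV (h : Ph0 I par A U₀ V) (hA : MeasurableSet A) (hU₀ : CP I (U₀ : H →L[ℂ] H)) :
    I.P A (I.eV V) = I.P A (I.eV U₀) := by
  obtain ⟨D, hDZ, hDP, hD⟩ := h.dress
  rw [Ant.P_eV h.comm hA, Ant.P_eV hU₀ hA, hD]
  -- `w = Z U₀ P_A Ω`
  set w : H := I.Z (((U₀ : H →L[ℂ] H) * I.P A) I.Om) with hw
  have e1 : I.Z (((D : H →L[ℂ] H) * (U₀ : H →L[ℂ] H) * I.P A) I.Om) = (D : H →L[ℂ] H) w := by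
    have : I.Z * ((D : H →L[ℂ] H) * (U₀ : H →L[ℂ] H) * I.P A)
        = (D : H →L[ℂ] H) * (I.Z * ((U₀ : H →L[ℂ] H) * I.P A)) := by
      rw [mul_assoc (D : H →L[ℂ] H), ← mul_assoc, hDZ.eq, mul_assoc]
    exact congrArg (fun T : H →L[ℂ] H => T I.Om) this
  have e2 : I.P A w = w := by
    have h1 : Commute (I.P A) (I.Z * ((U₀ : H →L[ℂ] H) * I.P A)) :=
      (P_Z hA).mul_right ((hU₀ A hA).mul_right (Commute.refl _))
    have h2 : I.P A * (I.Z * ((U₀ : H →L[ℂ] H) * I.P A)) = I.Z * ((U₀ : H →L[ℂ] H) * I.P A) := by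
      rw [h1.eq, mul_assoc, mul_assoc, P_sq hA]
    exact congrArg (fun T : H →L[ℂ] H => T I.Om) h2
  have e3 : (V : H →L[ℂ] H) (star (U₀ : H →L[ℂ] H) w) = (D : H →L[ℂ] H) w := by
    have h1 : star (U₀ : H →L[ℂ] H) w = I.P A (star (U₀ : H →L[ℂ] H) w) := by
      have := (hU₀.star A hA).eq
      have h2 := congrArg (fun T : H →L[ℂ] H => T w) this
      show _ = (I.P A * star (U₀ : H →L[ℂ] H)) w
      rw [this]
      show star (U₀ : H →L[ℂ] H) w = star (U₀ : H →L[ℂ] H) (I.P A w)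
      rw [e2]
    rw [h1]
    have h3 := congrArg (fun T : H →L[ℂ] H => T (star (U₀ : H →L[ℂ] H) w)) hD
    have h4 : (V : H →L[ℂ] H) (I.P A (star (U₀ : H →L[ℂ] H) w))
        = (D : H →L[ℂ] H) ((U₀ : H →L[ℂ] H) (I.P A (star (U₀ : H →L[ℂ] H) w))) := h3
    rw [h4, ← h1, mul_star_cancel]
  rw [e1, ← e3, star_mul_cancel]

lemma par_star_cancel {T : H →L[ℂ] H} (hT : Commute par T) (v : H) :
    par (T v) = T (par v) := congrArg (fun S : H →L[ℂ] H => S v) hT.eq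

/-- off the antenna the first moment vanishes -/
lemma Ph0.moment_zero (hs : Sim I M par) (hA : I.Cl A) (h : Ph0 I par A U₀ V) :
    ⟪M.xi, I.P Aᶜ (I.eV V)⟫_ℂ = 0 := by
  have hAm := I.Cl_meas A hA
  have hc : MeasurableSet Aᶜ := hAm.compl
  set T : H →L[ℂ] H := (V : H →L[ℂ] H) * I.P Aᶜ with hT
  have e1 : ⟪M.xi, I.P Aᶜ (I.eV V)⟫_ℂ = ⟪T M.xi, I.Z (T I.Om)⟫_ℂ := by
    have h1 : I.P Aᶜ (I.eV V) = I.P Aᶜ (I.P Aᶜ (I.eV V)) := by
      have := P_sq (I := I) hc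
      exact (congrArg (fun S : H →L[ℂ] H => S (I.eV V)) this).symm
    rw [h1, Ant.P_eV h.comm hc]
    have h2 : ⟪M.xi, I.P Aᶜ (star (V : H →L[ℂ] H) (I.Z (((V : H →L[ℂ] H) * I.P Aᶜ) I.Om)))⟫_ℂ
        = ⟪I.P Aᶜ M.xi, star (V : H →L[ℂ] H) (I.Z (((V : H →L[ℂ] H) * I.P Aᶜ) I.Om))⟫_ℂ := by
      have := inner_star_left (I.P Aᶜ) M.xi
        (star (V : H →L[ℂ] H) (I.Z (((V : H →L[ℂ] H) * I.P Aᶜ) I.Om)))
      rw [I.P_star _ hc] at this
      exact this.symm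
    rw [h2, inner_star_right]
    rfl
  have e2 : ⟪T M.xi, I.Z (T I.Om)⟫_ℂ = -⟪T M.xi, I.Z (T I.Om)⟫_ℂ := by
    have hp1 : par (T M.xi) = -(T M.xi) := by
      rw [par_star_cancel h.ev, hs.par_xi, map_neg]
    have hp2 : par (I.Z (T I.Om)) = I.Z (T I.Om) := by
      have hz : Commute par I.Z := hs.par_sg _
      rw [par_star_cancel hz, par_star_cancel h.ev, hs.par_Om]
    calc ⟪T M.xi, I.Z (T I.Om)⟫_ℂ = ⟪par (T M.xi), par (I.Z (T I.Om))⟫_ℂ :=
          (hs.par_inner _ _).symm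
      _ = -⟪T M.xi, I.Z (T I.Om)⟫_ℂ := by rw [hp1, hp2, inner_neg_left]
  rw [e1]
  have h3 : (2 : ℂ) * ⟪T M.xi, I.Z (T I.Om)⟫_ℂ = 0 := by
    linear_combination e2
  simpa using h3

lemma Ph0.m_eq (hs : Sim I M par) (hA : I.Cl A) (hU₀ : CP I (U₀ : H →L[ℂ] H))
    (h : Ph0 I par A U₀ V) : M.m V = (⟪M.xi, I.P A (I.eV U₀)⟫_ℂ).re := by
  have hAm := I.Cl_meas A hA
  have h1 : I.eV V = I.P Aᶜ (I.eV V) + I.P A (I.eV V) := by
    have := P_compl_add (I := I) hAm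
    exact (congrArg (fun S : H →L[ℂ] H => S (I.eV V)) this).symm
  rw [LS.m, eV_eq hs, h1, inner_add_right, h.moment_zero hs hA, zero_add, h.P_eV hAm hU₀]

/-- left multiplication by unitaries which are `Z`-diagonal on `A` and even off `A` -/
lemma Ph0.mul {T : UH H} (h : Ph0 I par A U₀ V) (hT : CP I (T : H →L[ℂ] H))
    (hpar : Commute par (T : H →L[ℂ] H))
    (hTA : ∃ D : UH H, Commute I.Z (D : H →L[ℂ] H) ∧ CP I (D : H →L[ℂ] H) ∧
      (T : H →L[ℂ] H) * I.P A = (D : H →L[ℂ] H) * I.P A) (hAm : MeasurableSet A) :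
    Ph0 I par A U₀ (T * V) := by
  refine ⟨hT.mul h.comm, ?_, ?_⟩
  · obtain ⟨D, hDZ, hDP, hD⟩ := h.dress
    obtain ⟨D', hDZ', hDP', hD'⟩ := hTA
    refine ⟨D' * D, hDZ'.mul_right hDZ, hDP'.mul hDP, ?_⟩
    have hc := (h.comm A hAm).eq
    have hc2 : I.P A * ((D : H →L[ℂ] H) * (U₀ : H →L[ℂ] H) * I.P A)
        = (D : H →L[ℂ] H) * (U₀ : H →L[ℂ] H) * I.P A := by
      rw [← hD, ← mul_assoc, hc, mul_assoc, P_sq hAm]
    show ((T : H →L[ℂ] H) * (V : H →L[ℂ] H)) * I.P A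
      = ((D' : H →L[ℂ] H) * (D : H →L[ℂ] H)) * (U₀ : H →L[ℂ] H) * I.P A
    calc ((T : H →L[ℂ] H) * (V : H →L[ℂ] H)) * I.P A
        = (T : H →L[ℂ] H) * ((V : H →L[ℂ] H) * I.P A) := mul_assoc _ _ _
      _ = (T : H →L[ℂ] H) * (I.P A * ((D : H →L[ℂ] H) * (U₀ : H →L[ℂ] H) * I.P A)) := by
          rw [hc2, hD]
      _ = ((T : H →L[ℂ] H) * I.P A) * ((D : H →L[ℂ] H) * (U₀ : H →L[ℂ] H) * I.P A) :=
          (mul_assoc _ _ _).symm
      _ = (D' : H →L[ℂ] H) * (I.P A * ((D : H →L[ℂ] H) * (U₀ : H →L[ℂ] H) * I.P A)) := by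
          rw [hD', mul_assoc]
      _ = _ := by rw [hc2]; simp only [mul_assoc]
  · show Commute par (((T : H →L[ℂ] H) * (V : H →L[ℂ] H)) * I.P Aᶜ)
    rw [mul_assoc]
    exact hpar.mul_right h.ev

/-- physical states -/
structure Ph (I : ILSys Λ H) (M : LS H) (par : H →L[ℂ] H) (A : Set Λ) (U₀ : UH H) (c : ℝ)
    (V : UH H) : Prop extends Ph0 I par A U₀ V where
  good : M.Good c V

/-- the standing assumptions on the antenna -/
structure AntS (I : ILSys Λ H) (M : LS H) (par : H →L[ℂ] H) (A : Set Λ) (U₀ : UH H) : Prop where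
  sim : Sim I M par
  cl : I.Cl A
  comm : CP I (U₀ : H →L[ℂ] H)
  mpos : 0 < (⟪M.xi, I.P A (I.eV U₀)⟫_ℂ).re

variable {c : ℝ}

lemma Ph.mpos (h : Ph I M par A U₀ c V) (ha : AntS I M par A U₀) : 0 < M.m V := by
  rw [h.toPh0.m_eq ha.sim ha.cl ha.comm]
  exact ha.mpos

lemma blk_mul_P {F A : Set Λ} (hF : MeasurableSet F) (hA : MeasurableSet A) (hd : Disjoint F A)
    {T : H →L[ℂ] H} (hT : CP I T) : (I.P Fᶜ + I.P F * T) * I.P A = I.P A := by
  have h1 : I.P Fᶜ * I.P A = I.P A := by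
    rw [← I.P_inter _ _ hF.compl hA]
    congr 1
    exact inter_eq_right.2 (subset_compl_iff_disjoint_left.2 hd)
  have h2 : I.P F * T * I.P A = 0 := by
    rw [mul_assoc, ← (hT A hA).eq, ← mul_assoc, P_disj hF hA hd, zero_mul]
  rw [add_mul, h1, h2, add_zero]

lemma blk_mul_P_sub {F B : Set Λ} (hF : MeasurableSet F) (hB : MeasurableSet B) (hd : B ⊆ F)
    {T : H →L[ℂ] H} (hT : CP I T) : (I.P Fᶜ + I.P F * T) * I.P B = T * I.P B := by
  have h1 : I.P Fᶜ * I.P B = 0 := P_disj hF.compl hB (disjoint_compl_left.mono_right hd)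
  have h2 : I.P F * T * I.P B = T * I.P B := by
    rw [(hT F hF).eq, mul_assoc, ← I.P_inter _ _ hF hB, inter_eq_right.2 hd]
  rw [add_mul, h1, h2, zero_add]

lemma Ph0.rot (ha : AntS I M par A U₀) {F : Set Λ} (hF : I.Cl F) (hFA : F ⊆ Aᶜ)
    (β : ℝ) (h : Ph0 I par A U₀ V) : Ph0 I par A U₀ (I.rot (I.Cl_meas F hF) β * V) := by
  refine h.mul (CP.rot _ β) (par_rot ha.sim hF β) ⟨1, Commute.one_right _, CP.one, ?_⟩
    (I.Cl_meas A ha.cl)
  rw [OneMemClass.coe_one, one_mul]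
  exact blk_mul_P (I.Cl_meas F hF) (I.Cl_meas A ha.cl)
    (subset_compl_iff_disjoint_right.1 hFA) (CP.mx β)

/-- class rotations off the antenna -/
theorem Ph.rot (ha : AntS I M par A U₀) {F : Set Λ} (hF : I.Cl F) (hFA : F ⊆ Aᶜ)
    (β : ℝ) (h : Ph I M par A U₀ c V) : Ph I M par A U₀ c (I.rot (I.Cl_meas F hF) β * V) := by
  refine ⟨h.toPh0.rot ha hF hFA β, ?_⟩
  have hpg := ha.sim.pg F hF β c V (fun τ _ => ?_) h.good
  · simpa using hpg
  · rw [(h.toPh0.rot ha hF hFA (τ * β)).m_eq ha.sim ha.cl ha.comm]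
    exact ha.mpos

lemma Ph0.cstU (ha : AntS I M par A U₀) (f : H) (h : Ph0 I par A U₀ V) :
    Ph0 I par A U₀ (I.cst MeasurableSet.univ f * V) := by
  refine h.mul (CP.cst _ f) ?_ ⟨I.cst MeasurableSet.univ f, Z_cst _ f, CP.cst _ f, rfl⟩
    (I.Cl_meas A ha.cl)
  exact par_cst ha.sim I.Cl_univ f

/-- the cost move -/
theorem Ph.costU (ha : AntS I M par A U₀) (g : ℝ) (h : Ph I M par A U₀ c V) :
    Ph I M par A U₀ c (I.cst MeasurableSet.univ ((-(g : ℂ)) • I.eV V) * V) := by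
  refine ⟨h.toPh0.cstU ha _, ?_⟩
  have h1 : M.act (LS.Mv.C g) V = I.cst MeasurableSet.univ ((-(g : ℂ)) • I.eV V) * V := by
    show M.cost g (M.eV V) * V = _
    rw [ha.sim.cost, eV_eq ha.sim]
  have h2 : M.Pos [LS.Mv.C g] V := by
    refine ⟨h.mpos ha, ?_⟩
    show 0 < M.m (M.act (LS.Mv.C g) V)
    rw [h1, (h.toPh0.cstU ha _).m_eq ha.sim ha.cl ha.comm]
    exact ha.mpos
  have h3 := LS.Good.run M h.good h2
  rwa [LS.run_cons, LS.run_nil, h1] at h3

/-! ### flips -/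

/-- `1 - 2 P_F` -/
def fl (I : ILSys Λ H) (F : Set Λ) : H →L[ℂ] H := I.P Fᶜ - I.P F

/-- `P_{Fᶜ} e^{iZφ(f)} + P_F e^{-iZφ(f)}` -/
def zF (I : ILSys Λ H) (F : Set Λ) (f : H) : H →L[ℂ] H := I.P Fᶜ * I.zW f + I.P F * I.zW (-f)

lemma mx_pi_half : I.mx (Real.pi / 2) = -Complex.I • I.X := by
  rw [ILSys.mx, Real.cos_pi_div_two, Real.sin_pi_div_two]
  simp

lemma mx_neg_pi_half : I.mx (-(Real.pi / 2)) = Complex.I • I.X := by
  rw [ILSys.mx, Real.cos_neg, Real.sin_neg, Real.cos_pi_div_two, Real.sin_pi_div_two]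
  simp

lemma X_Ep : I.X * I.Ep = I.Em * I.X := by
  rw [ILSys.X, ILSys.Ep, ILSys.Em, ← map_mul, ← map_mul]
  congr 1
  ext s t
  fin_cases s <;> fin_cases t <;> simp [xM, dM, Matrix.mul_apply, Matrix.diagonal]

lemma X_Em : I.X * I.Em = I.Ep * I.X := by
  rw [ILSys.X, ILSys.Ep, ILSys.Em, ← map_mul, ← map_mul]
  congr 1
  ext s t
  fin_cases s <;> fin_cases t <;> simp [xM, dM, Matrix.mul_apply, Matrix.diagonal]

lemma X_Z_X : I.X * I.Z * I.X = -I.Z := by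
  rw [ILSys.X, ILSys.Z, ← map_mul, ← map_mul, ← map_neg]
  congr 1
  ext s t
  fin_cases s <;> fin_cases t <;> simp [xM, zM, dM, Matrix.mul_apply, Matrix.diagonal]

lemma X_zW (f : H) : I.X * I.zW f * I.X = I.zW (-f) := by
  have h1 : I.X * (I.Ep * I.W f) = (I.Em * I.W f) * I.X := by
    rw [← mul_assoc, X_Ep, mul_assoc, (X_W f).eq, ← mul_assoc]
  have h2 : I.X * (I.Em * I.W (-f)) = (I.Ep * I.W (-f)) * I.X := by
    rw [← mul_assoc, X_Em, mul_assoc, (X_W (-f)).eq, ← mul_assoc]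
  rw [ILSys.zW, ILSys.zW, mul_add, h1, h2, ← add_mul, mul_assoc, X_mul_X, mul_one, neg_neg,
    add_comm]

lemma conj_cst_univ {F : Set Λ} (hF : MeasurableSet F) (f : H) :
    ((I.rot hF (-(Real.pi / 2)) * (I.cst MeasurableSet.univ f * I.rot hF (Real.pi / 2)) : UH H) :
      H →L[ℂ] H) = zF I F f := by
  have h0 : ((I.cst MeasurableSet.univ f : UH H) : H →L[ℂ] H) = I.zW f := by
    show I.cstO Set.univ f = _
    rw [ILSys.cstO, compl_univ, P_empty, I.P_univ, zero_add, one_mul]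
  show I.rotO F (-(Real.pi / 2)) * (((I.cst MeasurableSet.univ f : UH H) : H →L[ℂ] H)
    * I.rotO F (Real.pi / 2)) = _
  rw [h0]
  have h1 : I.zW f * I.rotO F (Real.pi / 2)
      = I.P Fᶜ * I.zW f + I.P F * (I.zW f * I.mx (Real.pi / 2)) := by
    rw [rotO_eq, ILSys.blk, mul_add, ← (P_zW hF.compl f).eq, ← mul_assoc, ← (P_zW hF f).eq,
      mul_assoc]
  rw [h1]
  have h2 := blk_mul (I := I) hF (a := 1) (c := I.zW f) (b := I.mx (-(Real.pi / 2)))
    (d := I.zW f * I.mx (Real.pi / 2)) (fun B _ => Commute.one_right _) (fun B hB => P_mx hB _)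
  rw [mul_one] at h2
  rw [rotO_eq, ILSys.blk, h2, one_mul, zF]
  congr 2
  rw [mx_pi_half, mx_neg_pi_half, ← X_zW]
  simp only [smul_mul_assoc, mul_smul_comm, smul_smul, neg_mul, Complex.I_mul_I, neg_neg,
    one_smul, mul_assoc]

lemma eV_rot_pi_half {F : Set Λ} (hF : MeasurableSet F) (V : UH H)
    (hV : CP I (V : H →L[ℂ] H)) :
    I.eV (I.rot hF (Real.pi / 2) * V) = fl I F (I.eV V) := by
  have h1 : star (I.rotO F (Real.pi / 2)) * I.Z * I.rotO F (Real.pi / 2) = fl I F * I.Z := by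
    rw [star_rotO hF, rotO_eq, rotO_eq, ILSys.blk, ILSys.blk]
    have h2 : I.Z * (I.P Fᶜ + I.P F * I.mx (Real.pi / 2))
        = I.P Fᶜ * I.Z + I.P F * (I.Z * I.mx (Real.pi / 2)) := by
      rw [mul_add, ← (P_Z hF.compl).eq, ← mul_assoc, ← (P_Z hF).eq, mul_assoc]
    rw [mul_assoc, h2]
    have h3 := blk_mul (I := I) hF (a := 1) (c := I.Z) (b := I.mx (-(Real.pi / 2)))
      (d := I.Z * I.mx (Real.pi / 2)) (fun B _ => Commute.one_right _) (fun B hB => P_mx hB _)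
    rw [mul_one] at h3
    rw [h3, one_mul, fl, sub_mul, sub_eq_add_neg]
    congr 1
    have h4 : I.mx (-(Real.pi / 2)) * (I.Z * I.mx (Real.pi / 2)) = -I.Z := by
      rw [mx_pi_half, mx_neg_pi_half, ← X_Z_X]
      simp only [smul_mul_assoc, mul_smul_comm, smul_smul, neg_mul, Complex.I_mul_I,
        neg_neg, one_smul, mul_assoc]
    rw [h4, mul_neg]
  have h5 : Commute (fl I F) (star (V : H →L[ℂ] H)) :=
    ((hV.star _ hF.compl).sub_left (hV.star _ hF))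
  have h6 : star ((I.rotO F (Real.pi / 2)) * (V : H →L[ℂ] H)) * I.Z
        * ((I.rotO F (Real.pi / 2)) * (V : H →L[ℂ] H))
      = fl I F * (star (V : H →L[ℂ] H) * I.Z * (V : H →L[ℂ] H)) := by
    rw [star_mul]
    calc star (V : H →L[ℂ] H) * star (I.rotO F (Real.pi / 2)) * I.Z
          * (I.rotO F (Real.pi / 2) * (V : H →L[ℂ] H))
        = star (V : H →L[ℂ] H) * (star (I.rotO F (Real.pi / 2)) * I.Z
          * I.rotO F (Real.pi / 2)) * (V : H →L[ℂ] H) := by simp only [mul_assoc]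
      _ = star (V : H →L[ℂ] H) * (fl I F * I.Z) * (V : H →L[ℂ] H) := by rw [h1]
      _ = _ := by rw [← mul_assoc, ← h5.eq]; simp only [mul_assoc]
  exact congrArg (fun T : H →L[ℂ] H => T I.Om) h6

/-- the unitary `zF` -/
def zFU (I : ILSys Λ H) {F : Set Λ} (hF : MeasurableSet F) (f : H) : UH H :=
  I.rot hF (-(Real.pi / 2)) * (I.cst MeasurableSet.univ f * I.rot hF (Real.pi / 2))

lemma zFU_coe {F : Set Λ} (hF : MeasurableSet F) (f : H) :
    ((zFU I hF f : UH H) : H →L[ℂ] H) = zF I F f := conj_cst_univ hF f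

/-- the flipped cost move -/
theorem Ph.flip (ha : AntS I M par A U₀) {F : Set Λ} (hF : I.Cl F) (hFA : F ⊆ Aᶜ) (g : ℝ)
    (h : Ph I M par A U₀ c V) :
    Ph I M par A U₀ c (zFU I (I.Cl_meas F hF) ((-(g : ℂ)) • fl I F (I.eV V)) * V) := by
  have h1 := h.rot ha hF hFA (Real.pi / 2)
  have h2 := h1.costU ha g
  have h3 := h2.rot ha hF hFA (-(Real.pi / 2))
  rw [eV_rot_pi_half _ V h.comm] at h3
  simpa only [zFU, mul_assoc] using h3

/-! ### couplings -/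

lemma eV_mul_Z {T : UH H} (hT : Commute I.Z (T : H →L[ℂ] H)) (V : UH H) :
    I.eV (T * V) = I.eV V := by
  have h1 : ∀ v, (T : H →L[ℂ] H) (I.Z v) = I.Z ((T : H →L[ℂ] H) v) := fun v =>
    congrArg (fun S : H →L[ℂ] H => S v) hT.eq.symm
  show (star ((T : H →L[ℂ] H) * (V : H →L[ℂ] H)))
    (I.Z (((T : H →L[ℂ] H) * (V : H →L[ℂ] H)) I.Om)) = _
  rw [star_mul]
  show (star (V : H →L[ℂ] H)) ((star (T : H →L[ℂ] H)) (I.Z ((T : H →L[ℂ] H) _))) = _
  rw [← h1, star_mul_cancel]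
  rfl

lemma zW_mul_of_im {f g : H} (h : (⟪f, g⟫_ℂ).im = 0) : I.zW f * I.zW g = I.zW (f + g) := by
  rw [zW_mul, h]
  simp

/-- inner products of images of one vector under commuting self-adjoint operators are real -/
lemma im_inner_sa {T T' : H →L[ℂ] H} (hT : star T = T) (hT' : star T' = T') (hc : Commute T T')
    (e : H) : (⟪T e, T' e⟫_ℂ).im = 0 := by
  have h1 : ⟪T e, T' e⟫_ℂ = ⟪T' e, T e⟫_ℂ := by
    have a1 : ⟪T e, T' e⟫_ℂ = ⟪e, T (T' e)⟫_ℂ := by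
      have := inner_star_left T e (T' e)
      rwa [hT] at this
    have a2 : ⟪T' e, T e⟫_ℂ = ⟪e, T' (T e)⟫_ℂ := by
      have := inner_star_left T' e (T e)
      rwa [hT'] at this
    have a3 : T (T' e) = T' (T e) := congrArg (fun S : H →L[ℂ] H => S e) hc.eq
    rw [a1, a2, a3]
  have h2 := inner_conj_symm (𝕜 := ℂ) (T e) (T' e)
  rw [← h1] at h2
  exact Complex.conj_eq_iff_im.1 h2

lemma star_fl {F : Set Λ} (hF : MeasurableSet F) : star (fl I F) = fl I F := by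
  rw [fl, star_sub, I.P_star _ hF, I.P_star _ hF.compl]

lemma add_fl {F : Set Λ} (hF : MeasurableSet F) (e : H) :
    e + fl I F e = (2 : ℂ) • I.P Fᶜ e := by
  have h := congrArg (fun S : H →L[ℂ] H => S e) (P_compl_add (I := I) hF)
  have h' : I.P Fᶜ e + I.P F e = e := h
  have h2 : fl I F e = I.P Fᶜ e - I.P F e := rfl
  rw [h2]
  nth_rewrite 1 [← h']
  rw [two_smul]
  abel

lemma sub_fl {F : Set Λ} (hF : MeasurableSet F) (e : H) :
    e - fl I F e = (2 : ℂ) • I.P F e := by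
  have h := congrArg (fun S : H →L[ℂ] H => S e) (P_compl_add (I := I) hF)
  have h' : I.P Fᶜ e + I.P F e = e := h
  have h2 : fl I F e = I.P Fᶜ e - I.P F e := rfl
  rw [h2]
  nth_rewrite 1 [← h']
  rw [two_smul]
  abel

lemma P_mul_of_subset {B F : Set Λ} (hB : MeasurableSet B) (hF : MeasurableSet F) (h : B ⊆ F) :
    I.P F * I.P B = I.P B := by
  rw [← I.P_inter _ _ hF hB, inter_eq_right.2 h]

lemma P_compl_mul_of_subset {B F : Set Λ} (hB : MeasurableSet B) (hF : MeasurableSet F)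
    (h : B ⊆ F) : I.P Fᶜ * I.P B = 0 :=
  P_disj hF.compl hB (disjoint_compl_left.mono_right h)

lemma P_compl_mul_of_disj {B F : Set Λ} (hB : MeasurableSet B) (hF : MeasurableSet F)
    (h : Disjoint F B) : I.P Fᶜ * I.P B = I.P B :=
  P_mul_of_subset hB hF.compl (subset_compl_iff_disjoint_left.2 h)

/-- two-block operators on an atom -/
lemma two_mul_P_in {B F : Set Λ} (hB : MeasurableSet B) (hF : MeasurableSet F) (h : B ⊆ F)
    {S T : H →L[ℂ] H} (hS : CP I S) (hT : CP I T) :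
    (I.P Fᶜ * S + I.P F * T) * I.P B = T * I.P B := by
  rw [add_mul, (hS _ hF.compl).eq, (hT _ hF).eq, mul_assoc, mul_assoc,
    P_compl_mul_of_subset hB hF h, P_mul_of_subset hB hF h, mul_zero, zero_add]

lemma two_mul_P_out {B F : Set Λ} (hB : MeasurableSet B) (hF : MeasurableSet F)
    (h : Disjoint F B) {S T : H →L[ℂ] H} (hS : CP I S) (hT : CP I T) :
    (I.P Fᶜ * S + I.P F * T) * I.P B = S * I.P B := by
  rw [add_mul, (hS _ hF.compl).eq, (hT _ hF).eq, mul_assoc, mul_assoc,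
    P_compl_mul_of_disj hB hF h, P_disj hF hB h, mul_zero, add_zero]

lemma zF_in {B F : Set Λ} (hB : MeasurableSet B) (hF : MeasurableSet F) (h : B ⊆ F) (f : H) :
    zF I F f * I.P B = I.zW (-f) * I.P B :=
  two_mul_P_in hB hF h (CP.zW _) (CP.zW _)

lemma zF_out {B F : Set Λ} (hB : MeasurableSet B) (hF : MeasurableSet F) (h : Disjoint F B)
    (f : H) : zF I F f * I.P B = I.zW f * I.P B :=
  two_mul_P_out hB hF h (CP.zW _) (CP.zW _)

lemma cst_in {B F : Set Λ} (hB : MeasurableSet B) (hF : MeasurableSet F) (h : B ⊆ F) (f : H) :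
    ((I.cst hF f : UH H) : H →L[ℂ] H) * I.P B = I.zW f * I.P B := by
  show (I.P Fᶜ + I.P F * I.zW f) * I.P B = _
  have := two_mul_P_in (I := I) hB hF h CP.one (CP.zW f)
  rwa [mul_one] at this

lemma cst_out {B F : Set Λ} (hB : MeasurableSet B) (hF : MeasurableSet F) (h : Disjoint F B)
    (f : H) : ((I.cst hF f : UH H) : H →L[ℂ] H) * I.P B = I.P B := by
  show (I.P Fᶜ + I.P F * I.zW f) * I.P B = _
  have := two_mul_P_out (I := I) hB hF h CP.one (CP.zW f)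
  rwa [mul_one, one_mul] at this

lemma cst_univ_coe' (f : H) :
    ((I.cst MeasurableSet.univ f : UH H) : H →L[ℂ] H) = I.zW f := by
  show I.cstO Set.univ f = _
  rw [ILSys.cstO, compl_univ, P_empty, I.P_univ, zero_add, one_mul]

/-- coupling of `F` with its complement, as an operator -/
def tF (I : ILSys Λ H) (F : Set Λ) (g : ℝ) (e : H) : H →L[ℂ] H :=
  I.P Fᶜ * I.zW ((g : ℂ) • I.P F e) + I.P F * I.zW ((g : ℂ) • I.P Fᶜ e)

/-- coupling of `F` with its complement -/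
def tFU (I : ILSys Λ H) {F : Set Λ} (hF : MeasurableSet F) (g : ℝ) (e : H) : UH H :=
  zFU I hF ((-((g / 2 : ℝ) : ℂ)) • fl I F e) * I.cst MeasurableSet.univ (((g / 2 : ℝ) : ℂ) • e)

/-- operators agreeing on `F` and `Fᶜ` are equal -/
lemma ext_P {F : Set Λ} (hF : MeasurableSet F) {S T : H →L[ℂ] H}
    (h1 : S * I.P F = T * I.P F) (h2 : S * I.P Fᶜ = T * I.P Fᶜ) : S = T := by
  rw [← mul_one S, ← mul_one T, ← P_compl_add (I := I) hF, mul_add, mul_add, h1, h2]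

lemma half_two (g : ℝ) (v : H) : ((g / 2 : ℝ) : ℂ) • ((2 : ℂ) • v) = (g : ℂ) • v := by
  rw [smul_smul]
  congr 1
  push_cast
  ring

lemma fl_comm_one {F : Set Λ} (e : H) (hF : MeasurableSet F) (a b : ℂ) (ha : a.im = 0)
    (hb : b.im = 0) : (⟪a • fl I F e, b • e⟫_ℂ).im = 0 := by
  rw [inner_smul_left, inner_smul_right]
  have h := im_inner_sa (star_fl (I := I) hF) (star_one (R := H →L[ℂ] H))
    (Commute.one_right _) e
  have h2 : (⟪fl I F e, e⟫_ℂ).im = 0 := h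
  simp [Complex.mul_im, Complex.mul_re, ha, hb, h2]

lemma tFU_coe {F : Set Λ} (hF : MeasurableSet F) (g : ℝ) (e : H) :
    ((tFU I hF g e : UH H) : H →L[ℂ] H) = tF I F g e := by
  have h0 : ((tFU I hF g e : UH H) : H →L[ℂ] H)
      = zF I F ((-((g / 2 : ℝ) : ℂ)) • fl I F e) * I.zW (((g / 2 : ℝ) : ℂ) • e) := by
    show ((zFU I hF _ : UH H) : H →L[ℂ] H) * ((I.cst MeasurableSet.univ _ : UH H) : H →L[ℂ] H) = _
    rw [zFU_coe, cst_univ_coe']
  rw [h0]
  refine ext_P (I := I) hF ?_ ?_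
  · rw [mul_assoc, ← (P_zW hF _).eq, ← mul_assoc, zF_in hF hF subset_rfl, mul_assoc,
      (P_zW hF _).eq, ← mul_assoc, ← neg_smul, neg_neg,
      zW_mul_of_im (fl_comm_one e hF _ _ (Complex.ofReal_im _) (Complex.ofReal_im _)),
      ← smul_add, add_comm (fl I F e) e, add_fl hF, half_two, tF,
      two_mul_P_in hF hF subset_rfl (CP.zW _) (CP.zW _)]
  · have hFc := hF.compl
    have hd : Disjoint F Fᶜ := disjoint_compl_right
    rw [mul_assoc, ← (P_zW hFc _).eq, ← mul_assoc, zF_out hFc hF hd, mul_assoc,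
      (P_zW hFc _).eq, ← mul_assoc,
      zW_mul_of_im (fl_comm_one e hF _ _ (by simp) (Complex.ofReal_im _)),
      neg_smul, neg_add_eq_sub, ← smul_sub, sub_fl hF, half_two, tF,
      two_mul_P_out hFc hF hd (CP.zW _) (CP.zW _)]

lemma Z_rot_conj {F : Set Λ} (hF : MeasurableSet F) (f : H) :
    Commute I.Z ((zFU I hF f : UH H) : H →L[ℂ] H) := by
  rw [zFU_coe]
  exact ((P_Z hF.compl).symm.mul_right (Z_zW _)).add_right ((P_Z hF).symm.mul_right (Z_zW _))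

theorem Ph.tF (ha : AntS I M par A U₀) {F : Set Λ} (hF : I.Cl F) (hFA : F ⊆ Aᶜ) (g : ℝ)
    (h : Ph I M par A U₀ c V) :
    Ph I M par A U₀ c (tFU I (I.Cl_meas F hF) g (I.eV V) * V) := by
  have h1 := h.costU ha (-(g / 2))
  have h2 := h1.flip ha hF hFA (g / 2)
  have e1 : (-((-(g / 2) : ℝ) : ℂ)) = ((g / 2 : ℝ) : ℂ) := by push_cast; ring
  rw [e1] at h1 h2
  rw [eV_mul_Z (Z_cst _ _)] at h2
  simpa only [tFU, mul_assoc] using h2

/-- conjugation of a `Z`-diagonal two-block operator by the flip of `B` -/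
lemma conj_rot_in {B C : Set Λ} (hB : MeasurableSet B) (hC : MeasurableSet C) (h : C ⊆ B)
    {T : H →L[ℂ] H} {f : H} (hT : T * I.P C = I.zW f * I.P C) :
    I.rotO B (-(Real.pi / 2)) * (T * I.rotO B (Real.pi / 2)) * I.P C = I.zW (-f) * I.P C := by
  have h1 : I.rotO B (Real.pi / 2) * I.P C = I.P C * I.mx (Real.pi / 2) := by
    have := blk_mul_P_sub (I := I) hB hC h (CP.mx (Real.pi / 2))
    rw [rotO_eq, ILSys.blk, this, (P_mx hC _).eq]
  have h2 : I.rotO B (-(Real.pi / 2)) * I.P C = I.P C * I.mx (-(Real.pi / 2)) := by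
    have := blk_mul_P_sub (I := I) hB hC h (CP.mx (-(Real.pi / 2)))
    rw [rotO_eq, ILSys.blk, this, (P_mx hC _).eq]
  have h3 : I.mx (-(Real.pi / 2)) * (I.zW f * I.mx (Real.pi / 2)) = I.zW (-f) := by
    rw [mx_pi_half, mx_neg_pi_half, ← X_zW]
    simp only [smul_mul_assoc, mul_smul_comm, smul_smul, neg_mul, Complex.I_mul_I,
      neg_neg, one_smul, mul_assoc]
  calc I.rotO B (-(Real.pi / 2)) * (T * I.rotO B (Real.pi / 2)) * I.P C
      = I.rotO B (-(Real.pi / 2)) * (T * (I.rotO B (Real.pi / 2) * I.P C)) := by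
        simp only [mul_assoc]
    _ = I.rotO B (-(Real.pi / 2)) * ((T * I.P C) * I.mx (Real.pi / 2)) := by
        rw [h1]; simp only [mul_assoc]
    _ = (I.rotO B (-(Real.pi / 2)) * I.P C) * (I.zW f * I.mx (Real.pi / 2)) := by
        rw [hT, ← (P_zW hC f).eq]; simp only [mul_assoc]
    _ = I.P C * (I.mx (-(Real.pi / 2)) * (I.zW f * I.mx (Real.pi / 2))) := by
        rw [h2]; simp only [mul_assoc]
    _ = _ := by rw [h3, (P_zW hC _).eq]

lemma conj_rot_out {B C : Set Λ} (hB : MeasurableSet B) (hC : MeasurableSet C)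
    (h : Disjoint B C) {T : H →L[ℂ] H} {f : H} (hT : T * I.P C = I.zW f * I.P C) :
    I.rotO B (-(Real.pi / 2)) * (T * I.rotO B (Real.pi / 2)) * I.P C = I.zW f * I.P C := by
  have h1 : I.rotO B (Real.pi / 2) * I.P C = I.P C := by
    rw [rotO_eq, ILSys.blk]
    exact blk_mul_P hB hC h (CP.mx _)
  have h2 : I.rotO B (-(Real.pi / 2)) * I.P C = I.P C := by
    rw [rotO_eq, ILSys.blk]
    exact blk_mul_P hB hC h (CP.mx _)
  calc I.rotO B (-(Real.pi / 2)) * (T * I.rotO B (Real.pi / 2)) * I.P C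
      = I.rotO B (-(Real.pi / 2)) * (T * (I.rotO B (Real.pi / 2) * I.P C)) := by
        simp only [mul_assoc]
    _ = I.rotO B (-(Real.pi / 2)) * (T * I.P C) := by rw [h1]
    _ = (I.rotO B (-(Real.pi / 2)) * I.P C) * I.zW f := by
        rw [hT, ← (P_zW hC f).eq, mul_assoc]
    _ = _ := by rw [h2, (P_zW hC _).eq]

/-- three atoms -/
lemma ext_P3 {F B : Set Λ} (hF : MeasurableSet F) (hB : MeasurableSet B) (hd : Disjoint F B)
    {S T : H →L[ℂ] H} (h1 : S * I.P F = T * I.P F) (h2 : S * I.P B = T * I.P B)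
    (h3 : S * I.P (F ∪ B)ᶜ = T * I.P (F ∪ B)ᶜ) : S = T := by
  refine ext_P (hF.union hB) ?_ h3
  rw [I.P_union _ _ hF hB hd, mul_add, mul_add, h1, h2]

lemma P_fl_of_disj {F B : Set Λ} (hF : MeasurableSet F) (hB : MeasurableSet B)
    (hd : Disjoint F B) (e : H) : I.P F (fl I B e) = I.P F e := by
  have h : I.P F * fl I B = I.P F := by
    rw [fl, mul_sub, (P_comm hF hB.compl).eq, P_compl_mul_of_disj hF hB hd.symm,
      P_disj hF hB hd, sub_zero]
  exact congrArg (fun S : H →L[ℂ] H => S e) h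

lemma star_P_compl_fl {F B : Set Λ} (hF : MeasurableSet F) (hB : MeasurableSet B) :
    star (I.P Fᶜ * fl I B) = I.P Fᶜ * fl I B := by
  rw [star_mul, star_fl hB, I.P_star _ hF.compl]
  exact ((P_comm hF.compl hB.compl).sub_right (P_comm hF.compl hB)).eq.symm

lemma comm_P_fl {F B C : Set Λ} (hF : MeasurableSet F) (hB : MeasurableSet B)
    (hC : MeasurableSet C) : Commute (I.P Fᶜ * fl I B) (I.P C) :=
  (P_comm hF.compl hC).mul_left ((P_comm hB.compl hC).sub_left (P_comm hB hC))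

lemma im_inner_smul_smul {v w : H} (h : (⟪v, w⟫_ℂ).im = 0) {a b : ℂ} (ha : a.im = 0)
    (hb : b.im = 0) : (⟪a • v, b • w⟫_ℂ).im = 0 := by
  rw [inner_smul_left, inner_smul_right]
  simp [Complex.mul_im, Complex.mul_re, ha, hb, h]

lemma coupling_coe {F B : Set Λ} (hF : MeasurableSet F) (hB : MeasurableSet B)
    (hd : Disjoint F B) (g : ℝ) (e : H) :
    ((I.rot hB (-(Real.pi / 2)) * (tFU I hF (-(g / 2)) (fl I B e) * (I.rot hB (Real.pi / 2) *
      tFU I hF (g / 2) e)) : UH H) : H →L[ℂ] H)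
      = ((I.cst hF ((g : ℂ) • I.P B e) * I.cst hB ((g : ℂ) • I.P F e) : UH H) : H →L[ℂ] H) := by
  have hR : MeasurableSet (F ∪ B)ᶜ := (hF.union hB).compl
  have hdFR : Disjoint F (F ∪ B)ᶜ := disjoint_compl_right.mono_left subset_union_left
  have hdBR : Disjoint B (F ∪ B)ᶜ := disjoint_compl_right.mono_left subset_union_right
  have h0 : ((I.rot hB (-(Real.pi / 2)) * (tFU I hF (-(g / 2)) (fl I B e) *
      (I.rot hB (Real.pi / 2) * tFU I hF (g / 2) e)) : UH H) : H →L[ℂ] H)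
      = I.rotO B (-(Real.pi / 2)) * (tF I F (-(g / 2)) (fl I B e) * I.rotO B (Real.pi / 2))
        * tF I F (g / 2) e := by
    show I.rotO B (-(Real.pi / 2)) * (((tFU I hF (-(g / 2)) (fl I B e) : UH H) : H →L[ℂ] H) *
      (I.rotO B (Real.pi / 2) * ((tFU I hF (g / 2) e : UH H) : H →L[ℂ] H))) = _
    rw [tFU_coe, tFU_coe]
    simp only [mul_assoc]
  rw [h0]
  show _ = ((I.cst hF ((g : ℂ) • I.P B e) : UH H) : H →L[ℂ] H)
    * ((I.cst hB ((g : ℂ) • I.P F e) : UH H) : H →L[ℂ] H)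
  refine ext_P3 (I := I) hF hB hd ?_ ?_ ?_
  · -- on `F`
    have e1 : tF I F (g / 2) e * I.P F = I.zW (((g / 2 : ℝ) : ℂ) • I.P Fᶜ e) * I.P F :=
      two_mul_P_in hF hF subset_rfl (CP.zW _) (CP.zW _)
    have e2 : tF I F (-(g / 2)) (fl I B e) * I.P F
        = I.zW (((-(g / 2) : ℝ) : ℂ) • I.P Fᶜ (fl I B e)) * I.P F :=
      two_mul_P_in hF hF subset_rfl (CP.zW _) (CP.zW _)
    have e3 := conj_rot_out (I := I) hB hF hd.symm e2
    have him : (⟪((-(g / 2) : ℝ) : ℂ) • I.P Fᶜ (fl I B e), ((g / 2 : ℝ) : ℂ) • I.P Fᶜ e⟫_ℂ).im = 0 :=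
      im_inner_smul_smul (im_inner_sa (star_P_compl_fl hF hB) (I.P_star _ hF.compl)
        (comm_P_fl hF hB hF.compl) e) (Complex.ofReal_im _) (Complex.ofReal_im _)
    have erhs : ((I.cst hF ((g : ℂ) • I.P B e) : UH H) : H →L[ℂ] H)
        * ((I.cst hB ((g : ℂ) • I.P F e) : UH H) : H →L[ℂ] H) * I.P F
        = I.zW ((g : ℂ) • I.P B e) * I.P F := by
      rw [mul_assoc, cst_out hF hB hd.symm, cst_in hF hF subset_rfl]
    rw [erhs, mul_assoc, e1, ← (P_zW hF _).eq, ← mul_assoc, e3, mul_assoc, (P_zW hF _).eq,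
      ← mul_assoc, zW_mul_of_im him]
    congr 2
    have e4 : I.P Fᶜ e - I.P Fᶜ (fl I B e) = (2 : ℂ) • I.P B e := by
      rw [← map_sub, sub_fl hB, map_smul]
      congr 1
      exact congrArg (fun S : H →L[ℂ] H => S e) (P_compl_mul_of_disj hB hF hd)
    rw [← half_two g, ← e4, smul_sub]
    push_cast
    rw [neg_smul, neg_add_eq_sub]
  · -- on `B`
    have e1 : tF I F (g / 2) e * I.P B = I.zW (((g / 2 : ℝ) : ℂ) • I.P F e) * I.P B :=
      two_mul_P_out hB hF hd (CP.zW _) (CP.zW _)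
    have e2 : tF I F (-(g / 2)) (fl I B e) * I.P B
        = I.zW (((-(g / 2) : ℝ) : ℂ) • I.P F (fl I B e)) * I.P B :=
      two_mul_P_out hB hF hd (CP.zW _) (CP.zW _)
    have e3 := conj_rot_in (I := I) hB hB subset_rfl e2
    rw [P_fl_of_disj hF hB hd] at e3
    have e5 : -(((-(g / 2) : ℝ) : ℂ) • I.P F e) = ((g / 2 : ℝ) : ℂ) • I.P F e := by
      push_cast
      rw [neg_smul, neg_neg]
    rw [e5] at e3
    have him : (⟪((g / 2 : ℝ) : ℂ) • I.P F e, ((g / 2 : ℝ) : ℂ) • I.P F e⟫_ℂ).im = 0 :=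
      im_inner_smul_smul (im_inner_sa (I.P_star _ hF) (I.P_star _ hF)
        (Commute.refl _) e) (Complex.ofReal_im _) (Complex.ofReal_im _)
    have erhs : ((I.cst hF ((g : ℂ) • I.P B e) : UH H) : H →L[ℂ] H)
        * ((I.cst hB ((g : ℂ) • I.P F e) : UH H) : H →L[ℂ] H) * I.P B
        = I.zW ((g : ℂ) • I.P F e) * I.P B := by
      rw [mul_assoc, cst_in hB hB subset_rfl, ← (P_zW hB _).eq, ← mul_assoc, cst_out hB hF hd]
    rw [erhs, mul_assoc, e1, ← (P_zW hB _).eq, ← mul_assoc, e3, mul_assoc, (P_zW hB _).eq,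
      ← mul_assoc, zW_mul_of_im him]
    congr 2
    rw [← two_smul ℂ, smul_comm, half_two]
  · -- elsewhere
    have e1 : tF I F (g / 2) e * I.P (F ∪ B)ᶜ
        = I.zW (((g / 2 : ℝ) : ℂ) • I.P F e) * I.P (F ∪ B)ᶜ :=
      two_mul_P_out hR hF hdFR (CP.zW _) (CP.zW _)
    have e2 : tF I F (-(g / 2)) (fl I B e) * I.P (F ∪ B)ᶜ
        = I.zW (((-(g / 2) : ℝ) : ℂ) • I.P F (fl I B e)) * I.P (F ∪ B)ᶜ :=
      two_mul_P_out hR hF hdFR (CP.zW _) (CP.zW _)
    have e3 := conj_rot_out (I := I) hB hR hdBR e2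
    rw [P_fl_of_disj hF hB hd] at e3
    have e5 : ((-(g / 2) : ℝ) : ℂ) • I.P F e = -(((g / 2 : ℝ) : ℂ) • I.P F e) := by
      push_cast
      rw [neg_smul]
    rw [e5] at e3
    rw [mul_assoc, e1, ← (P_zW hR _).eq, ← mul_assoc, e3, mul_assoc, (P_zW hR _).eq, ← mul_assoc,
      zW_neg_mul, one_mul, mul_assoc, cst_out hR hB hdBR, cst_out hR hF hdFR]

/-- class couplings off the antenna -/
theorem Ph.cpl (ha : AntS I M par A U₀) {F B : Set Λ} (hF : I.Cl F) (hB : I.Cl B)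
    (hFA : F ⊆ Aᶜ) (hBA : B ⊆ Aᶜ) (hd : Disjoint F B) (g : ℝ) (h : Ph I M par A U₀ c V) :
    Ph I M par A U₀ c (I.cst (I.Cl_meas F hF) ((g : ℂ) • I.P B (I.eV V)) *
      I.cst (I.Cl_meas B hB) ((g : ℂ) • I.P F (I.eV V)) * V) := by
  have h1 := h.tF ha hF hFA (g / 2)
  have h2 := h1.rot ha hB hBA (Real.pi / 2)
  have h3 := h2.tF ha hF hFA (-(g / 2))
  have h4 := h3.rot ha hB hBA (-(Real.pi / 2))
  have hZ : Commute I.Z ((tFU I (I.Cl_meas F hF) (g / 2) (I.eV V) : UH H) : H →L[ℂ] H) := by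
    rw [tFU_coe]
    exact ((P_Z (I.Cl_meas F hF).compl).symm.mul_right (Z_zW _)).add_right
      ((P_Z (I.Cl_meas F hF)).symm.mul_right (Z_zW _))
  rw [eV_rot_pi_half _ _ h1.comm, eV_mul_Z hZ] at h4
  have h5 := coupling_coe (I := I) (I.Cl_meas F hF) (I.Cl_meas B hB) hd g (I.eV V)
  have h6 := Subtype.ext (a1 := (I.rot (I.Cl_meas B hB) (-(Real.pi / 2)) *
      (tFU I (I.Cl_meas F hF) (-(g / 2)) (fl I B (I.eV V)) * (I.rot (I.Cl_meas B hB)
        (Real.pi / 2) * tFU I (I.Cl_meas F hF) (g / 2) (I.eV V))) : UH H)) h5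
  rw [← h6]
  simpa only [mul_assoc] using h4

end Crest.Agent.R339.Ant
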