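import Crest.Agent.R339.Ant575E

/-!
R339, block ANT (helper575), part F: from the antenna state of the labelled model to
`Good` at level `0` of the label induction.
-/

set_option autoImplicit false
set_option linter.unusedSectionVars false

noncomputable section

open scoped ComplexConjugate InnerProductSpace Topology
open Filter Set MeasureTheory

namespace Crest.Agent.R339.Ant

open Crest.Agent.R339.Li Crest.Agent.R339.Li.ILSys

variable {Λ H : Type*} [MeasurableSpace Λ] [NormedAddCommGroup H] [InnerProductSpace ℂ H]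
  [CompleteSpace H]

variable {I : ILSys Λ H} {M : LS H} {par : H →L[ℂ] H} {A : Set Λ} {U₀ V : UH H} {c : ℝ}

lemma compl_split {F A : Set Λ} (hF : MeasurableSet F) (hA : MeasurableSet A) (hd : Disjoint F A) :
    I.P Fᶜ = I.P A + I.P (F ∪ A)ᶜ := by
  rw [← I.P_union _ _ hA (hF.union hA).compl (disjoint_compl_right.mono_left subset_union_right)]
  congr 1
  ext x
  have := Set.disjoint_left.1 hd
  simp only [mem_compl_iff, mem_union, not_or]
  constructor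
  · intro h
    by_cases hx : x ∈ A
    · exact Or.inl hx
    · exact Or.inr ⟨h, hx⟩
  · rintro (h | h)
    · exact fun hF => this hF h
    · exact h.1

lemma antenna_coe {F A : Set Λ} (hF : MeasurableSet F) (hA : MeasurableSet A) (hd : Disjoint F A)
    (hR : MeasurableSet (F ∪ A)ᶜ) (g : ℝ) (e : H) :
    ((I.cst hF (((-g : ℝ) : ℂ) • I.P (F ∪ A)ᶜ e) * I.cst hR (((-g : ℝ) : ℂ) • I.P F e) *
      tFU I hF g e : UH H) : H →L[ℂ] H)
      = ((I.cst hF ((g : ℂ) • I.P A e) * I.cst hA ((g : ℂ) • I.P F e) : UH H) : H →L[ℂ] H) := by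
  have hdFR : Disjoint F (F ∪ A)ᶜ := disjoint_compl_right.mono_left subset_union_left
  have hdAR : Disjoint A (F ∪ A)ᶜ := disjoint_compl_right.mono_left subset_union_right
  show ((I.cst hF (((-g : ℝ) : ℂ) • I.P (F ∪ A)ᶜ e) : UH H) : H →L[ℂ] H) *
    ((I.cst hR (((-g : ℝ) : ℂ) • I.P F e) : UH H) : H →L[ℂ] H) *
    ((tFU I hF g e : UH H) : H →L[ℂ] H)
    = ((I.cst hF ((g : ℂ) • I.P A e) : UH H) : H →L[ℂ] H)
      * ((I.cst hA ((g : ℂ) • I.P F e) : UH H) : H →L[ℂ] H)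
  rw [tFU_coe]
  refine ext_P3 (I := I) hF hA hd ?_ ?_ ?_
  · -- on `F`
    have e1 : tF I F g e * I.P F = I.zW ((g : ℂ) • I.P Fᶜ e) * I.P F :=
      two_mul_P_in hF hF subset_rfl (CP.zW _) (CP.zW _)
    have him : (⟪((-g : ℝ) : ℂ) • I.P (F ∪ A)ᶜ e, (g : ℂ) • I.P Fᶜ e⟫_ℂ).im = 0 :=
      im_inner_smul_smul (im_inner_sa (I.P_star _ hR) (I.P_star _ hF.compl)
        (P_comm hR hF.compl) e) (Complex.ofReal_im _) (Complex.ofReal_im _)
    have hsum : ((-g : ℝ) : ℂ) • I.P (F ∪ A)ᶜ e + (g : ℂ) • I.P Fᶜ e = (g : ℂ) • I.P A e := by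
      rw [compl_split hF hA hd, add_apply]
      push_cast
      rw [neg_smul, smul_add]
      abel
    calc ((I.cst hF (((-g : ℝ) : ℂ) • I.P (F ∪ A)ᶜ e) : UH H) : H →L[ℂ] H) *
          ((I.cst hR (((-g : ℝ) : ℂ) • I.P F e) : UH H) : H →L[ℂ] H) * tF I F g e * I.P F
        = ((I.cst hF (((-g : ℝ) : ℂ) • I.P (F ∪ A)ᶜ e) : UH H) : H →L[ℂ] H) *
          (((I.cst hR (((-g : ℝ) : ℂ) • I.P F e) : UH H) : H →L[ℂ] H) * (tF I F g e * I.P F)) := by
          simp only [mul_assoc]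
      _ = ((I.cst hF (((-g : ℝ) : ℂ) • I.P (F ∪ A)ᶜ e) : UH H) : H →L[ℂ] H) *
          ((((I.cst hR (((-g : ℝ) : ℂ) • I.P F e) : UH H) : H →L[ℂ] H) * I.P F)
            * I.zW ((g : ℂ) • I.P Fᶜ e)) := by
          rw [e1, ← (P_zW hF _).eq]; simp only [mul_assoc]
      _ = (((I.cst hF (((-g : ℝ) : ℂ) • I.P (F ∪ A)ᶜ e) : UH H) : H →L[ℂ] H) * I.P F)
            * I.zW ((g : ℂ) • I.P Fᶜ e) := by
          rw [cst_out hF hR hdFR.symm]; simp only [mul_assoc]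
      _ = I.zW (((-g : ℝ) : ℂ) • I.P (F ∪ A)ᶜ e) * I.zW ((g : ℂ) • I.P Fᶜ e) * I.P F := by
          rw [cst_in hF hF subset_rfl, mul_assoc, (P_zW hF _).eq, ← mul_assoc]
      _ = I.zW ((g : ℂ) • I.P A e) * I.P F := by rw [zW_mul_of_im him, hsum]
      _ = _ := by rw [mul_assoc, cst_out hF hA hd.symm, cst_in hF hF subset_rfl]
  · -- on `A`
    have e1 : tF I F g e * I.P A = I.zW ((g : ℂ) • I.P F e) * I.P A :=
      two_mul_P_out hA hF hd (CP.zW _) (CP.zW _)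
    calc ((I.cst hF (((-g : ℝ) : ℂ) • I.P (F ∪ A)ᶜ e) : UH H) : H →L[ℂ] H) *
          ((I.cst hR (((-g : ℝ) : ℂ) • I.P F e) : UH H) : H →L[ℂ] H) * tF I F g e * I.P A
        = ((I.cst hF (((-g : ℝ) : ℂ) • I.P (F ∪ A)ᶜ e) : UH H) : H →L[ℂ] H) *
          (((I.cst hR (((-g : ℝ) : ℂ) • I.P F e) : UH H) : H →L[ℂ] H) * (tF I F g e * I.P A)) := by
          simp only [mul_assoc]
      _ = ((I.cst hF (((-g : ℝ) : ℂ) • I.P (F ∪ A)ᶜ e) : UH H) : H →L[ℂ] H) *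
          ((((I.cst hR (((-g : ℝ) : ℂ) • I.P F e) : UH H) : H →L[ℂ] H) * I.P A)
            * I.zW ((g : ℂ) • I.P F e)) := by
          rw [e1, ← (P_zW hA _).eq]; simp only [mul_assoc]
      _ = (((I.cst hF (((-g : ℝ) : ℂ) • I.P (F ∪ A)ᶜ e) : UH H) : H →L[ℂ] H) * I.P A)
            * I.zW ((g : ℂ) • I.P F e) := by
          rw [cst_out hA hR hdAR.symm]; simp only [mul_assoc]
      _ = I.P A * I.zW ((g : ℂ) • I.P F e) := by rw [cst_out hA hF hd]
      _ = _ := by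
          rw [mul_assoc, cst_in hA hA subset_rfl, ← (P_zW hA _).eq, ← mul_assoc, cst_out hA hF hd]
  · -- elsewhere
    have e1 : tF I F g e * I.P (F ∪ A)ᶜ = I.zW ((g : ℂ) • I.P F e) * I.P (F ∪ A)ᶜ :=
      two_mul_P_out hR hF hdFR (CP.zW _) (CP.zW _)
    have e2 : ((-g : ℝ) : ℂ) • I.P F e = -((g : ℂ) • I.P F e) := by
      push_cast
      rw [neg_smul]
    calc ((I.cst hF (((-g : ℝ) : ℂ) • I.P (F ∪ A)ᶜ e) : UH H) : H →L[ℂ] H) *
          ((I.cst hR (((-g : ℝ) : ℂ) • I.P F e) : UH H) : H →L[ℂ] H) * tF I F g e * I.P (F ∪ A)ᶜ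
        = ((I.cst hF (((-g : ℝ) : ℂ) • I.P (F ∪ A)ᶜ e) : UH H) : H →L[ℂ] H) *
          (((I.cst hR (((-g : ℝ) : ℂ) • I.P F e) : UH H) : H →L[ℂ] H)
            * (tF I F g e * I.P (F ∪ A)ᶜ)) := by
          simp only [mul_assoc]
      _ = ((I.cst hF (((-g : ℝ) : ℂ) • I.P (F ∪ A)ᶜ e) : UH H) : H →L[ℂ] H) *
          ((((I.cst hR (((-g : ℝ) : ℂ) • I.P F e) : UH H) : H →L[ℂ] H) * I.P (F ∪ A)ᶜ)
            * I.zW ((g : ℂ) • I.P F e)) := by
          rw [e1, ← (P_zW hR _).eq]; simp only [mul_assoc]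
      _ = ((I.cst hF (((-g : ℝ) : ℂ) • I.P (F ∪ A)ᶜ e) : UH H) : H →L[ℂ] H) * I.P (F ∪ A)ᶜ := by
          rw [cst_in hR hR subset_rfl, mul_assoc, (P_zW hR _).eq, ← mul_assoc (I.zW _), e2,
            zW_neg_mul, one_mul]
      _ = I.P (F ∪ A)ᶜ := cst_out hR hF hdFR _
      _ = _ := by rw [mul_assoc, cst_out hR hA hdAR, cst_out hR hF hdFR]

/-- coupling of a class with the antenna -/
theorem Ph.cplA (ha : AntS I M par A U₀) {F : Set Λ} (hF : I.Cl F) (hFA : F ⊆ Aᶜ) (g : ℝ)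
    (h : Ph I M par A U₀ c V) :
    Ph I M par A U₀ c (I.cst (I.Cl_meas F hF) ((g : ℂ) • I.P A (I.eV V)) *
      I.cst (I.Cl_meas A ha.cl) ((g : ℂ) • I.P F (I.eV V)) * V) := by
  have hd : Disjoint F A := subset_compl_iff_disjoint_right.1 hFA
  have hR : I.Cl (F ∪ A)ᶜ := by
    rw [compl_union]
    exact I.Cl_inter _ _ (I.Cl_compl _ hF) (I.Cl_compl _ ha.cl)
  have hRA : (F ∪ A)ᶜ ⊆ Aᶜ := compl_subset_compl.2 subset_union_right
  have hdFR : Disjoint F (F ∪ A)ᶜ := disjoint_compl_right.mono_left subset_union_left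
  have h1 := h.tF ha hF hFA g
  have h2 := h1.cpl ha hF hR hFA hRA hdFR (-g)
  have hZ : Commute I.Z ((tFU I (I.Cl_meas F hF) g (I.eV V) : UH H) : H →L[ℂ] H) := by
    rw [tFU_coe]
    exact ((P_Z (I.Cl_meas F hF).compl).symm.mul_right (Z_zW _)).add_right
      ((P_Z (I.Cl_meas F hF)).symm.mul_right (Z_zW _))
  rw [eV_mul_Z hZ] at h2
  have h5 := antenna_coe (I := I) (I.Cl_meas F hF) (I.Cl_meas A ha.cl) hd (I.Cl_meas _ hR) g
    (I.eV V)
  have h6 : I.cst (I.Cl_meas F hF) (((-g : ℝ) : ℂ) • I.P (F ∪ A)ᶜ (I.eV V)) *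
      I.cst (I.Cl_meas _ hR) (((-g : ℝ) : ℂ) • I.P F (I.eV V)) *
      tFU I (I.Cl_meas F hF) g (I.eV V)
      = I.cst (I.Cl_meas F hF) ((g : ℂ) • I.P A (I.eV V)) *
        I.cst (I.Cl_meas A ha.cl) ((g : ℂ) • I.P F (I.eV V)) := Subtype.ext h5
  rw [← h6]
  simpa only [mul_assoc] using h2

/-! ### comparison with the run started at `1` -/

/-- the run `U'` of the IL system and the physical run `V` agree off the antenna -/
structure Rl (I : ILSys Λ H) (M : LS H) (par : H →L[ℂ] H) (A : Set Λ) (U₀ : UH H) (c : ℝ)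
    (U' V : UH H) : Prop where
  cp : CP I (U' : H →L[ℂ] H)
  onA : (U' : H →L[ℂ] H) * I.P A = I.P A
  offA : (V : H →L[ℂ] H) * I.P Aᶜ = (U' : H →L[ℂ] H) * I.P Aᶜ
  ph : Ph I M par A U₀ c V

lemma eV_off {U' V : UH H} (hU : CP I (U' : H →L[ℂ] H)) (hV : CP I (V : H →L[ℂ] H)) {B : Set Λ}
    (hB : MeasurableSet B) (h : (V : H →L[ℂ] H) * I.P B = (U' : H →L[ℂ] H) * I.P B) :
    I.P B (I.eV U') = I.P B (I.eV V) := by
  rw [P_eV hU hB, P_eV hV hB, ← h]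
  set w : H := I.Z (((V : H →L[ℂ] H) * I.P B) I.Om) with hw
  have e2 : I.P B w = w := by
    have h1 : Commute (I.P B) (I.Z * ((V : H →L[ℂ] H) * I.P B)) :=
      (P_Z hB).mul_right ((hV B hB).mul_right (Commute.refl _))
    have h2 : I.P B * (I.Z * ((V : H →L[ℂ] H) * I.P B)) = I.Z * ((V : H →L[ℂ] H) * I.P B) := by
      rw [h1.eq, mul_assoc, mul_assoc, P_sq hB]
    exact congrArg (fun T : H →L[ℂ] H => T I.Om) h2
  have e3 : star (V : H →L[ℂ] H) * I.P B = star (U' : H →L[ℂ] H) * I.P B := by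
    have h1 := congrArg star h
    rw [star_mul, star_mul, I.P_star _ hB, (hV.star B hB).eq, (hU.star B hB).eq] at h1
    exact h1
  have h4 := congrArg (fun T : H →L[ℂ] H => T w) e3
  have h5 : star (V : H →L[ℂ] H) (I.P B w) = star (U' : H →L[ℂ] H) (I.P B w) := h4
  rw [e2] at h5
  exact h5.symm

lemma eV_off_sub {U' V : UH H} (hU : CP I (U' : H →L[ℂ] H)) (hV : CP I (V : H →L[ℂ] H))
    {B C : Set Λ} (hB : MeasurableSet B) (hC : MeasurableSet C) (hCB : C ⊆ B)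
    (h : (V : H →L[ℂ] H) * I.P B = (U' : H →L[ℂ] H) * I.P B) :
    I.P C (I.eV U') = I.P C (I.eV V) := by
  have h1 := eV_off hU hV hB h
  have h2 : I.P C = I.P C * I.P B := by
    rw [← I.P_inter _ _ hC hB, inter_eq_left.2 hCB]
  rw [h2]
  exact congrArg (I.P C) h1

lemma Rl.step (ha : AntS I M par A U₀) (r : ℝ) {U' U'' V : UH H} (h : Rl I M par A U₀ c U' V)
    (hst : I.Step Aᶜ {(r : ℂ) • I.P A (I.eV U₀)} U' U'') :
    ∃ V', Rl I M par A U₀ c U'' V' := by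
  have hAm := I.Cl_meas A ha.cl
  cases hst with
  | @rot F hF hS β =>
    have hFm := I.Cl_meas F hF
    have hd : Disjoint F A := subset_compl_iff_disjoint_right.1 hS
    refine ⟨I.rot hFm β * V, (CP.rot hFm β).mul h.cp, ?_, ?_, h.ph.rot ha hF hS β⟩
    · show (I.rotO F β * (U' : H →L[ℂ] H)) * I.P A = _
      rw [mul_assoc, h.onA]
      exact blk_mul_P hFm hAm hd (CP.mx β)
    · show (I.rotO F β * (V : H →L[ℂ] H)) * I.P Aᶜ = (I.rotO F β * (U' : H →L[ℂ] H)) * I.P Aᶜ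
      rw [mul_assoc, h.offA, mul_assoc]
  | @cpl F B hF hB hFS hBS hd g =>
    have hFm := I.Cl_meas F hF
    have hBm := I.Cl_meas B hB
    have hdF : Disjoint F A := subset_compl_iff_disjoint_right.1 hFS
    have hdB : Disjoint B A := subset_compl_iff_disjoint_right.1 hBS
    have e1 : I.eA B U' = I.P B (I.eV V) := eV_off_sub h.cp h.ph.comm hAm.compl hBm hBS h.offA
    have e2 : I.eA F U' = I.P F (I.eV V) := eV_off_sub h.cp h.ph.comm hAm.compl hFm hFS h.offA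
    refine ⟨_, ?_, ?_, ?_, h.ph.cpl ha hF hB hFS hBS hd g⟩
    · exact (CP.cst hFm _).mul ((CP.cst hBm _).mul h.cp)
    · show ((I.cst hFm _ : UH H) : H →L[ℂ] H) * (((I.cst hBm _ : UH H) : H →L[ℂ] H)
        * (U' : H →L[ℂ] H)) * I.P A = I.P A
      rw [mul_assoc, mul_assoc, h.onA, cst_out hAm hBm hdB, cst_out hAm hFm hdF]
    · show ((I.cst hFm _ : UH H) : H →L[ℂ] H) * ((I.cst hBm _ : UH H) : H →L[ℂ] H)
        * (V : H →L[ℂ] H) * I.P Aᶜ
        = ((I.cst hFm ((g : ℂ) • I.eA B U') : UH H) : H →L[ℂ] H)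
          * (((I.cst hBm ((g : ℂ) • I.eA F U') : UH H) : H →L[ℂ] H)
          * (U' : H →L[ℂ] H)) * I.P Aᶜ
      rw [e1, e2, mul_assoc, h.offA]
      simp only [mul_assoc]
  | @lab F hF hS l hl a =>
    have hFm := I.Cl_meas F hF
    have hd : Disjoint F A := subset_compl_iff_disjoint_right.1 hS
    rw [mem_singleton_iff] at hl
    subst hl
    have e1 : I.P A (I.eV V) = I.P A (I.eV U₀) := h.ph.toPh0.P_eV hAm ha.comm
    have e2 : ((a * r : ℝ) : ℂ) • I.P A (I.eV V) = (a : ℂ) • ((r : ℂ) • I.P A (I.eV U₀)) := by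
      rw [e1, smul_smul]
      push_cast
      rfl
    refine ⟨_, ?_, ?_, ?_, h.ph.cplA ha hF hS (a * r)⟩
    · exact (CP.cst hFm _).mul h.cp
    · show ((I.cst hFm _ : UH H) : H →L[ℂ] H) * (U' : H →L[ℂ] H) * I.P A = I.P A
      rw [mul_assoc, h.onA, cst_out hAm hFm hd]
    · show ((I.cst hFm _ : UH H) : H →L[ℂ] H) * ((I.cst hAm _ : UH H) : H →L[ℂ] H)
        * (V : H →L[ℂ] H) * I.P Aᶜ
        = ((I.cst hFm _ : UH H) : H →L[ℂ] H) * (U' : H →L[ℂ] H) * I.P Aᶜ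
      have e3 : ((I.cst hAm (((a * r : ℝ) : ℂ) • I.P F (I.eV V)) : UH H) : H →L[ℂ] H)
          * ((V : H →L[ℂ] H) * I.P Aᶜ) = (V : H →L[ℂ] H) * I.P Aᶜ := by
        rw [← (h.ph.comm _ hAm.compl).eq, ← mul_assoc,
          cst_out hAm.compl hAm disjoint_compl_right]
      rw [mul_assoc, mul_assoc, e3, e2, h.offA, mul_assoc]

lemma norm_Z_apply (v : H) : ‖I.Z v‖ = ‖v‖ := by
  have h : ⟪I.Z v, I.Z v⟫_ℂ = ⟪v, v⟫_ℂ := by
    have := inner_star_left I.Z v (I.Z v)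
    rw [star_Z] at this
    rw [this]
    exact congrArg (fun S : H →L[ℂ] H => ⟪v, S v⟫_ℂ) Z_mul_Z
  rw [@norm_eq_sqrt_re_inner ℂ, h, ← @norm_eq_sqrt_re_inner ℂ]

lemma norm_P_Om {B : Set Λ} (hB : MeasurableSet B) : ‖I.P B I.Om‖ = Real.sqrt (I.μ.real B) := by
  have h1 := I.inner_Om B 0 hB
  rw [I.W_zero] at h1
  have h2 : ⟪I.P B I.Om, I.P B I.Om⟫_ℂ = ⟪I.Om, I.P B I.Om⟫_ℂ := by
    have := inner_star_left (I.P B) I.Om (I.P B I.Om)
    rw [I.P_star _ hB] at this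
    rw [this]
    exact congrArg (fun S : H →L[ℂ] H => ⟪I.Om, S I.Om⟫_ℂ) (P_sq hB)
  have h3 : ⟪I.Om, I.P B I.Om⟫_ℂ = ((I.μ.real B : ℝ) : ℂ) := by
    have : ⟪I.Om, I.P B ((1 : H →L[ℂ] H) I.Om)⟫_ℂ
        = (I.μ.real B : ℂ) * Complex.exp (-(((‖(0 : H)‖ ^ 2 / 2 : ℝ) : ℂ))) := h1
    simpa using this
  rw [@norm_eq_sqrt_re_inner ℂ, h2, h3]
  simp

lemma norm_Om : ‖I.Om‖ = 1 := by
  have h := norm_P_Om (I := I) MeasurableSet.univ
  rw [I.P_univ, probReal_univ] at h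
  simpa using h

lemma norm_eV (U : UH H) : ‖I.eV U‖ = 1 := by
  rw [ILSys.eV, norm_starU, norm_Z_apply, norm_U, norm_Om]

lemma norm_P_eV {U : UH H} (hU : CP I (U : H →L[ℂ] H)) {B : Set Λ} (hB : MeasurableSet B) :
    ‖I.P B (I.eV U)‖ = Real.sqrt (I.μ.real B) := by
  rw [P_eV hU hB, norm_starU, norm_Z_apply]
  show ‖(U : H →L[ℂ] H) (I.P B I.Om)‖ = _
  rw [norm_U, norm_P_Om hB]

lemma Rl.energy_le (ha : AntS I M par A U₀) {U' V : UH H} (h : Rl I M par A U₀ c U' V) :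
    I.energy U' ≤ c + 4 * Real.sqrt (I.μ.real A) := by
  have hAm := I.Cl_meas A ha.cl
  have h1 : M.En (M.eV V) ≤ c := LS.Good.energy M h.ph.good (h.ph.mpos ha)
  rw [ha.sim.En, eV_eq ha.sim] at h1
  set e := I.eV V with he
  set e' := I.eV U' with he'
  have hne : ‖e‖ = 1 := norm_eV V
  have hne' : ‖e'‖ = 1 := norm_eV U'
  have hdiff : ‖e' - e‖ ≤ 2 * Real.sqrt (I.μ.real A) := by
    have e1 : ∀ v : H, v = I.P Aᶜ v + I.P A v := fun v =>
      (congrArg (fun S : H →L[ℂ] H => S v) (P_compl_add (I := I) hAm)).symm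
    have e2 : e' - e = I.P A e' - I.P A e := by
      conv_lhs => rw [e1 e', e1 e]
      rw [eV_off h.cp h.ph.comm hAm.compl h.offA]
      abel
    rw [e2]
    refine (norm_sub_le _ _).trans ?_
    rw [norm_P_eV h.cp hAm, norm_P_eV h.ph.comm hAm]
    linarith
  have hone : ∀ v w : H, ‖⟪v, I.one w⟫_ℂ‖ ≤ ‖v‖ * ‖w‖ := fun v w =>
    (norm_inner_le_norm _ _).trans (mul_le_mul_of_nonneg_left (ha.sim.one_le w) (norm_nonneg v))
  have hE : I.energy U' - (⟪e, I.one e⟫_ℂ).re ≤ 4 * Real.sqrt (I.μ.real A) := by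
    have e3 : I.energy U' - (⟪e, I.one e⟫_ℂ).re
        = (⟪e' - e, I.one e'⟫_ℂ + ⟪e, I.one (e' - e)⟫_ℂ).re := by
      rw [ILSys.energy, ← he', ← Complex.sub_re, map_sub, inner_sub_left, inner_sub_right]
      congr 1
      ring
    rw [e3]
    refine (Complex.re_le_norm _).trans ((norm_add_le _ _).trans ?_)
    have h4 := hone (e' - e) e'
    have h5 := hone e (e' - e)
    rw [hne', mul_one] at h4
    rw [hne, one_mul] at h5
    linarith
  linarith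

/-- **Level `0` of the label induction from the antenna state of the labelled model.** -/
theorem good_of_ant (ha : AntS I M par A U₀) (hU₀ : (U₀ : H →L[ℂ] H) * I.P Aᶜ = I.P Aᶜ)
    (hg : M.Good c U₀) (r : ℝ) :
    I.Good Aᶜ {(r : ℂ) • I.P A (I.eV U₀)} (c + 4 * Real.sqrt (I.μ.real A)) 1 := by
  have hAm := I.Cl_meas A ha.cl
  have h0 : Rl I M par A U₀ c 1 U₀ := by
    refine ⟨CP.one, one_mul _, ?_, ⟨⟨ha.comm, ⟨1, Commute.one_right _, CP.one, ?_⟩, ?_⟩, hg⟩⟩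
    · rw [hU₀]
      exact (one_mul _).symm
    · rw [OneMemClass.coe_one, one_mul]
    · rw [hU₀]
      exact ha.sim.par_P _ (I.Cl_compl _ ha.cl)
  intro U' hU'
  have : ∃ V, Rl I M par A U₀ c U' V := by
    induction hU' with
    | refl => exact ⟨_, h0⟩
    | tail _ hst ih =>
      obtain ⟨V, hV⟩ := ih
      exact hV.step ha r hst
  obtain ⟨V, hV⟩ := this
  exact hV.energy_le ha

end Crest.Agent.R339.Ant
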