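import Mathlib

/-!
# Row 339, part (A): tools for finite standard Gaussian vectors

`G ι` is the law of `ι` i.i.d. standard Gaussians.
-/

set_option autoImplicit false

namespace Crest.Agent.R339.Guerra

open MeasureTheory ProbabilityTheory

noncomputable section

/-- the standard Gaussian -/
abbrev γ : Measure ℝ := gaussianReal 0 1

/-- the standard Gaussian vector indexed by `ι` -/
abbrev G (ι : Type*) [Fintype ι] : Measure (ι → ℝ) := Measure.pi fun _ : ι => γ

variable {ι κ : Type*} [Fintype ι] [Fintype κ]

theorem mp_int {α β : Type*} [MeasurableSpace α] [MeasurableSpace β] {μ : Measure α}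
    {ν : Measure β} {φ : α → β} (h : MeasurePreserving φ μ ν) {f : β → ℝ}
    (hf : AEStronglyMeasurable f ν) : ∫ x, f (φ x) ∂μ = ∫ y, f y ∂ν := by
  rw [← h.map_eq] at hf ⊢
  rw [integral_map h.aemeasurable hf]

/-- restriction to a sub-family of coordinates -/
theorem mp_comp (e : κ → ι) (he : Function.Injective e) :
    MeasurePreserving (fun g : ι → ℝ => fun k => g (e k)) (G ι) (G κ) := by
  classical
  have hm : Measurable (fun g : ι → ℝ => fun k => g (e k)) :=
    measurable_pi_lambda _ fun k => measurable_pi_apply _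
  refine ⟨hm, (Measure.pi_eq fun s hs => ?_).symm⟩
  rw [Measure.map_apply hm (MeasurableSet.univ_pi hs)]
  have : (fun g : ι → ℝ => fun k => g (e k)) ⁻¹' (Set.univ.pi s) =
      Set.univ.pi (fun i => if h : ∃ k, e k = i then s h.choose else Set.univ) := by
    ext g
    simp only [Set.mem_preimage, Set.mem_pi, Set.mem_univ, true_implies]
    constructor
    · intro hg i
      by_cases h : ∃ k, e k = i
      · rw [dif_pos h]
        have := hg h.choose
        rwa [h.choose_spec] at this
      · rw [dif_neg h]; trivial
    · intro hg k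
      have h := hg (e k)
      have hex : ∃ k', e k' = e k := ⟨k, rfl⟩
      rw [dif_pos hex] at h
      have : hex.choose = k := he hex.choose_spec
      rwa [this] at h
  rw [this, Measure.pi_pi]
  symm
  apply Fintype.prod_of_injective e he
  · intro i hi
    have : ¬ ∃ k, e k = i := fun ⟨k, hk⟩ => hi ⟨k, hk⟩
    rw [dif_neg this]; simp
  · intro k
    have hex : ∃ k', e k' = e k := ⟨k, rfl⟩
    rw [dif_pos hex]
    have : hex.choose = k := he hex.choose_spec
    rw [this]

/-- resampling one coordinate -/
theorem mp_update [DecidableEq ι] (j : ι) :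
    MeasurePreserving (fun p : (ι → ℝ) × ℝ => Function.update p.1 j p.2)
      ((G ι).prod γ) (G ι) := by
  have hm : Measurable (fun p : (ι → ℝ) × ℝ => Function.update p.1 j p.2) := by
    refine measurable_pi_lambda _ fun i => ?_
    by_cases h : i = j
    · subst h; simpa using measurable_snd
    · simp only [Function.update_of_ne h]
      exact (measurable_pi_apply i).comp measurable_fst
  refine ⟨hm, (Measure.pi_eq fun s hs => ?_).symm⟩
  rw [Measure.map_apply hm (MeasurableSet.univ_pi hs)]
  have : (fun p : (ι → ℝ) × ℝ => Function.update p.1 j p.2) ⁻¹' (Set.univ.pi s) =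
      (Set.univ.pi (Function.update s j Set.univ)) ×ˢ (s j) := by
    ext ⟨g, t⟩
    simp only [Set.mem_preimage, Set.mem_pi, Set.mem_univ, true_implies, Set.mem_prod]
    constructor
    · intro h
      refine ⟨fun i => ?_, by simpa using h j⟩
      by_cases hi : i = j
      · subst hi; simp
      · simpa [Function.update_of_ne hi] using h i
    · rintro ⟨h1, h2⟩ i
      by_cases hi : i = j
      · subst hi; simpa using h2
      · simpa [Function.update_of_ne hi] using h1 i
  rw [this, Measure.prod_prod, Measure.pi_pi]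
  rw [← Finset.mul_prod_erase Finset.univ (fun i => γ (s i)) (Finset.mem_univ j),
    ← Finset.mul_prod_erase Finset.univ (fun i => γ (Function.update s j Set.univ i))
      (Finset.mem_univ j)]
  simp only [Function.update_self, measure_univ, one_mul]
  rw [mul_comm]
  congr 1
  refine Finset.prod_congr rfl fun i hi => ?_
  rw [Function.update_of_ne (Finset.ne_of_mem_erase hi)]

/-- two independent blocks -/
theorem mp_sum :
    MeasurePreserving (fun p : (ι → ℝ) × (κ → ℝ) => (Sum.elim p.1 p.2 : ι ⊕ κ → ℝ))
      ((G ι).prod (G κ)) (G (ι ⊕ κ)) := by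
  have hm : Measurable (fun p : (ι → ℝ) × (κ → ℝ) => (Sum.elim p.1 p.2 : ι ⊕ κ → ℝ)) := by
    refine measurable_pi_lambda _ fun i => ?_
    rcases i with i | i
    · exact (measurable_pi_apply i).comp measurable_fst
    · exact (measurable_pi_apply i).comp measurable_snd
  refine ⟨hm, (Measure.pi_eq fun s hs => ?_).symm⟩
  rw [Measure.map_apply hm (MeasurableSet.univ_pi hs)]
  have : (fun p : (ι → ℝ) × (κ → ℝ) => (Sum.elim p.1 p.2 : ι ⊕ κ → ℝ)) ⁻¹' (Set.univ.pi s) =
      (Set.univ.pi (fun i => s (Sum.inl i))) ×ˢ (Set.univ.pi (fun i => s (Sum.inr i))) := by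
    ext ⟨g, t⟩
    simp [Set.mem_pi, Sum.forall]
  rw [this, Measure.prod_prod, Measure.pi_pi, Measure.pi_pi, Fintype.prod_sum_type]

theorem integrable_id_γ : Integrable (fun x : ℝ => x) γ := by
  have := (memLp_id_gaussianReal (μ := 0) (v := 1) 1)
  have h2 := memLp_one_iff_integrable.1 this
  exact h2

theorem integrable_coord (j : ι) : Integrable (fun g : ι → ℝ => g j) (G ι) := by
  have h : Integrable (fun x : ℝ => x) γ := by
    exact integrable_id_γ
  exact (measurePreserving_eval (fun _ : ι => γ) j).integrable_comp_of_integrable h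

theorem integrable_exp_coord (t : ℝ) (j : ι) :
    Integrable (fun g : ι → ℝ => Real.exp (t * g j)) (G ι) := by
  have h : Integrable (fun x : ℝ => Real.exp (t * x)) γ := integrable_exp_mul_gaussianReal t
  exact (measurePreserving_eval (fun _ : ι => γ) j).integrable_comp_of_integrable h

theorem integrable_exp_abs1 (t : ℝ) : Integrable (fun x : ℝ => Real.exp (t * |x|)) γ := by
  have h1 : Integrable (fun x : ℝ => Real.exp (t * x)) γ := integrable_exp_mul_gaussianReal t
  have h2 : Integrable (fun x : ℝ => Real.exp (-t * x)) γ := integrable_exp_mul_gaussianReal (-t)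
  refine (h1.add h2).mono' (by fun_prop) ?_
  filter_upwards with x
  rw [Real.norm_eq_abs, abs_of_pos (Real.exp_pos _)]
  simp only [Pi.add_apply]
  rcases le_total 0 x with hx | hx
  · rw [abs_of_nonneg hx]
    have := Real.exp_pos (-t * x)
    linarith
  · rw [abs_of_nonpos hx]
    have := Real.exp_pos (t * x)
    have e : t * -x = -t * x := by ring
    rw [e]
    linarith

/-- `exp (t ∑ |g_j|)` is integrable. -/
theorem integrable_exp_abs (t : ℝ) :
    Integrable (fun g : ι → ℝ => Real.exp (t * ∑ j, |g j|)) (G ι) := by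
  have : (fun g : ι → ℝ => Real.exp (t * ∑ j, |g j|)) =
      fun g : ι → ℝ => ∏ j, Real.exp (t * |g j|) := by
    ext g
    rw [Finset.mul_sum, Real.exp_sum]
  rw [this]
  exact Integrable.fintype_prod (f := fun _ x => Real.exp (t * |x|))
    (fun i => integrable_exp_abs1 t)

/-- functions bounded by `C exp (t ∑ |g_j|)` are integrable -/
theorem integrable_of_exp_bound {f : (ι → ℝ) → ℝ} (hf : AEStronglyMeasurable f (G ι)) (C t : ℝ)
    (h : ∀ g, |f g| ≤ C * Real.exp (t * ∑ j, |g j|)) : Integrable f (G ι) :=
  ((integrable_exp_abs t).const_mul C).mono' hf (Filter.Eventually.of_forall h)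

theorem integral_coord (j : ι) : ∫ g : ι → ℝ, g j ∂(G ι) = 0 := by
  have h := mp_int (measurePreserving_eval (fun _ : ι => γ) j) (f := fun x => x)
    (measurable_id.aestronglyMeasurable)
  simp only [Function.eval] at h
  rw [h]
  simp

/-! ### One-dimensional integration by parts -/

theorem hasDerivAt_pdf (x : ℝ) :
    HasDerivAt (gaussianPDFReal 0 1) (-(x * gaussianPDFReal 0 1 x)) x := by
  have : gaussianPDFReal 0 1 = fun x => (Real.sqrt (2 * Real.pi * 1))⁻¹ *
      Real.exp (-(x - 0) ^ 2 / (2 * 1)) := by
    ext x; simp [gaussianPDFReal]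
  rw [this]
  have h1 : HasDerivAt (fun x : ℝ => -(x - 0) ^ 2 / (2 * 1)) (-x) x := by
    have h2 : HasDerivAt (fun x : ℝ => x ^ 2) (2 * x) x := by
      simpa using hasDerivAt_pow 2 x
    have h3 : (fun x : ℝ => -(x - 0) ^ 2 / (2 * 1)) = fun x : ℝ => (-1/2) * x ^ 2 := by
      ext y; ring
    rw [h3]
    have h4 := h2.const_mul (-1/2 : ℝ)
    have h6 : (-1/2 : ℝ) * (2 * x) = -x := by ring
    rw [h6] at h4
    exact h4
  have h5 := (h1.exp).const_mul ((Real.sqrt (2 * Real.pi * 1))⁻¹)
  have h7 : (Real.sqrt (2 * Real.pi * 1))⁻¹ * (Real.exp (-(x - 0) ^ 2 / (2 * 1)) * -x) =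
      -(x * ((Real.sqrt (2 * Real.pi * 1))⁻¹ * Real.exp (-(x - 0) ^ 2 / (2 * 1)))) := by ring
  rw [h7] at h5
  exact h5

theorem integrable_pdf_mul {f : ℝ → ℝ} (hf : Integrable f γ) :
    Integrable (fun x : ℝ => gaussianPDFReal 0 1 x * f x) := by
  have hf : Integrable f (gaussianReal 0 1) := hf
  rw [gaussianReal_of_var_ne_zero _ (by norm_num : (1 : NNReal) ≠ 0)] at hf
  rw [integrable_withDensity_iff_integrable_smul' (measurable_gaussianPDF _ _)
    (ae_of_all _ fun _ => gaussianPDF_lt_top)] at hf
  simpa [toReal_gaussianPDF] using hf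

/-- one-dimensional Stein identity for bounded functions with bounded derivative -/
theorem stein1 {f f' : ℝ → ℝ} (hf : ∀ x, HasDerivAt f (f' x) x) (hm : Measurable f')
    {C C' : ℝ} (hC : ∀ x, |f x| ≤ C) (hC' : ∀ x, |f' x| ≤ C') :
    ∫ x, x * f x ∂γ = ∫ x, f' x ∂γ := by
  have hfc : Continuous f := continuous_iff_continuousAt.2 fun x => (hf x).continuousAt
  have hif : Integrable f γ :=
    (integrable_const C).mono' hfc.aestronglyMeasurable (Filter.Eventually.of_forall hC)
  have hif' : Integrable f' γ :=
    (integrable_const C').mono' hm.aestronglyMeasurable (Filter.Eventually.of_forall hC')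
  have hx : Integrable (fun x : ℝ => x) γ := integrable_id_γ
  have hixf : Integrable (fun x => x * f x) γ := by
    refine (hx.norm.const_mul C).mono' (by fun_prop) (Filter.Eventually.of_forall fun x => ?_)
    rw [Real.norm_eq_abs, abs_mul, Real.norm_eq_abs, mul_comm]
    exact mul_le_mul_of_nonneg_right (hC x) (abs_nonneg _)
  rw [integral_gaussianReal_eq_integral_smul (by norm_num),
    integral_gaussianReal_eq_integral_smul (by norm_num)]
  have h := integral_mul_deriv_eq_deriv_mul_of_integrable (A := ℝ)
    (u := f) (v := gaussianPDFReal 0 1)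
    (u' := f') (v' := fun x => -(x * gaussianPDFReal 0 1 x))
    (fun x _ => hf x) (fun x _ => hasDerivAt_pdf x)
    (by
      have := (integrable_pdf_mul hixf).neg
      refine this.congr (ae_of_all _ fun x => ?_)
      simp only [Pi.neg_apply, Pi.mul_apply]; ring)
    (by
      have := (integrable_pdf_mul hif')
      refine this.congr (ae_of_all _ fun x => ?_)
      simp only [Pi.mul_apply]; ring)
    (by
      refine (integrable_pdf_mul hif).congr (ae_of_all _ fun x => ?_)
      simp only [Pi.mul_apply]; ring)
  have h1 : ∫ x, gaussianPDFReal 0 1 x • (x * f x) =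
      - ∫ x, f x * -(x * gaussianPDFReal 0 1 x) := by
    rw [← integral_neg]; congr 1; ext x; simp only [smul_eq_mul]; ring
  have h2 : ∫ x, gaussianPDFReal 0 1 x • f' x =
      ∫ x, f' x * gaussianPDFReal 0 1 x := by
    congr 1; ext x; simp only [smul_eq_mul]; ring
  rw [h1, h2, h, neg_neg]

/-- Gaussian integration by parts in one coordinate of a Gaussian vector. -/
theorem steinG [DecidableEq ι] (j : ι) {f f' : (ι → ℝ) → ℝ} (hf : Continuous f)
    (hf' : Measurable f')
    (hd : ∀ g : ι → ℝ, HasDerivAt (fun t => f (Function.update g j t)) (f' g) (g j))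
    {C C' : ℝ} (hC : ∀ g, |f g| ≤ C) (hC' : ∀ g, |f' g| ≤ C') :
    ∫ g, g j * f g ∂(G ι) = ∫ g, f' g ∂(G ι) := by
  have hi1 : Integrable (fun g : ι → ℝ => g j * f g) (G ι) := by
    refine ((integrable_coord j).norm.const_mul C).mono' (by fun_prop)
      (Filter.Eventually.of_forall fun x => ?_)
    rw [Real.norm_eq_abs, abs_mul, Real.norm_eq_abs, mul_comm]
    exact mul_le_mul_of_nonneg_right (hC x) (abs_nonneg _)
  have hi2 : Integrable f' (G ι) :=
    (integrable_const C').mono' hf'.aestronglyMeasurable (Filter.Eventually.of_forall hC')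
  have hmp := mp_update (ι := ι) j
  rw [← mp_int hmp hi1.aestronglyMeasurable, ← mp_int hmp hi2.aestronglyMeasurable]
  have e1 : Integrable (fun p : (ι → ℝ) × ℝ => Function.update p.1 j p.2 j *
      f (Function.update p.1 j p.2)) ((G ι).prod γ) := hmp.integrable_comp_of_integrable hi1
  have e2 : Integrable (fun p : (ι → ℝ) × ℝ => f' (Function.update p.1 j p.2))
      ((G ι).prod γ) := hmp.integrable_comp_of_integrable hi2
  rw [integral_prod _ e1, integral_prod _ e2]
  congr 1
  ext g
  simp only [Function.update_self]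
  refine stein1 (f := fun t => f (Function.update g j t))
    (f' := fun t => f' (Function.update g j t)) (fun t => ?_) ?_ (fun t => hC _) (fun t => hC' _)
  · have := hd (Function.update g j t)
    simpa using this
  · exact hf'.comp (by
      refine measurable_pi_lambda _ fun i => ?_
      by_cases h : i = j
      · subst h; simp only [Function.update_self]; exact measurable_id
      · simp only [Function.update_of_ne h]
        exact measurable_const)

end

end Crest.Agent.R339.Guerra
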