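import Mathlib
import Crest.Prelude.Def_SpinGlass

/-!
R339 part (C1): definitions for the exact path-sum form of the disorder averaged alternating circuit.
`P` = set of time slices ("positions"), a site path is `P → Bool`.
-/

set_option autoImplicit false

namespace Crest.Agent.R339.Lim

open Crest.MathPhysics.SpinGlass MeasureTheory
open scoped BigOperators

section general
variable {P : Type*} [Fintype P] [DecidableEq P]

/-- `K(a,b) = ∑_τ γ_τ s(a_τ) s(b_τ)` -/
noncomputable def Kf (γ : P → ℝ) (a b : P → Bool) : ℝ :=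
  ∑ τ, γ τ * (spinSign (a τ) * spinSign (b τ))

/-- Gaussian-averaged weight `exp (-(1/4n) ∑_{i,j} K(a_i,a_j)^2)`. -/
noncomputable def wt (γ : P → ℝ) (n : ℕ) {N : ℕ} (a : Fin N → P → Bool) : ℝ :=
  Real.exp (-(1 / (4 * (n : ℝ))) * ∑ i, ∑ j, (Kf γ (a i) (a j)) ^ 2)

/-- the averaged path functional on `N` sites with normalisation `n`. -/
noncomputable def FF (μ : (P → Bool) → ℂ) (γ : P → ℝ) (n N : ℕ)
    (Ψ : (Fin N → P → Bool) → ℂ) : ℂ :=
  ∑ a : Fin N → P → Bool, (∏ j, μ (a j)) * (wt γ n a : ℂ) * Ψ a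

/-- overlap of two slices, `Q_{ττ'} = (1/n) ∑_j s(a_j τ) s(a_j τ')`. -/
noncomputable def Q (n : ℕ) {N : ℕ} (a : Fin N → P → Bool) (τ τ' : P) : ℝ :=
  (1 / (n : ℝ)) * ∑ j, spinSign (a j τ) * spinSign (a j τ')

/-- product of overlaps along a list of pairs of slices. -/
noncomputable def Qp (n : ℕ) {N : ℕ} (l : List (P × P)) (a : Fin N → P → Bool) : ℂ :=
  (l.map (fun q => ((Q n a q.1 q.2 : ℝ) : ℂ))).prod

end general

section circuit

/-- time slices of the circuit with `M` layers: side (`false` = bra/left, `true` = ket/right) and level `≤ M`. -/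
abbrev Pos (M : ℕ) : Type := Bool × Fin (M + 1)

/-- matrix element of `cos b - i sin b X`. -/
noncomputable def mx (b : ℝ) (x y : Bool) : ℂ :=
  if x = y then ((Real.cos b : ℝ) : ℂ) else -(Complex.I * ((Real.sin b : ℝ) : ℂ))

/-- amplitude of a ket path `y_0, …, y_M` of one site: product of the mixer matrix elements. -/
noncomputable def amp (b : ℕ → ℝ) (M : ℕ) (y : Fin (M + 1) → Bool) : ℂ :=
  ∏ l : Fin M, mx (b l) (y l.succ) (y l.castSucc)

/-- weight of a two-sided site path. -/
noncomputable def mu (b : ℕ → ℝ) (M : ℕ) (a : Pos M → Bool) : ℂ :=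
  (1 / 2) * (if a (false, Fin.last M) = a (true, Fin.last M) then 1 else 0)
    * (starRingEnd ℂ (amp b M (fun l => a (false, l))) * amp b M (fun l => a (true, l)))

/-- signed cost angles: `+g_l` on the bra side, `-g_l` on the ket side, `0` on the top slice. -/
noncomputable def gam (g : ℕ → ℝ) (M : ℕ) (τ : Pos M) : ℝ :=
  if (τ.2 : ℕ) < M then (if τ.1 then -(g τ.2) else g τ.2) else 0

end circuit

end Crest.Agent.R339.Lim
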