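import Mathlib
import Crest.Prelude.Def_SpinGlass
import Crest.Agent.R339.GTools
import Crest.Agent.R339.Lim286Def

/-!
R339 part (C1), helper220: exact Gaussian averages of exponentials of the couplings.
-/

set_option autoImplicit false

namespace Crest.Agent.R339.En

open MeasureTheory ProbabilityTheory Complex
open Crest.MathPhysics.SpinGlass
open scoped BigOperators

noncomputable section

theorem int_cexp (t : ℝ) :
    ∫ x, cexp (I * ((t * x : ℝ) : ℂ)) ∂(gaussianReal 0 1) = ((Real.exp (-(t ^ 2) / 2) : ℝ) : ℂ) := by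
  have h := charFun_gaussianReal (μ := 0) (v := 1) t
  rw [charFun_apply_real] at h
  have h2 : ∫ x, cexp (I * ((t * x : ℝ) : ℂ)) ∂(gaussianReal 0 1)
      = ∫ x, cexp (t * x * I) ∂(gaussianReal 0 1) := by
    congr 1; ext x; congr 1; push_cast; ring
  rw [h2, h]
  push_cast
  congr 1
  simp
  ring

theorem integrable_cexp (t : ℝ) :
    Integrable (fun x : ℝ => cexp (I * ((t * x : ℝ) : ℂ))) (gaussianReal 0 1) := by
  refine (integrable_const (1 : ℝ)).mono' ?_ (Filter.Eventually.of_forall fun x => ?_)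
  · exact Continuous.aestronglyMeasurable (by fun_prop)
  · rw [mul_comm, norm_exp_ofReal_mul_I]

theorem integrable_x_cexp (t : ℝ) :
    Integrable (fun x : ℝ => (x : ℂ) * cexp (I * ((t * x : ℝ) : ℂ))) (gaussianReal 0 1) := by
  have hx : Integrable (fun x : ℝ => x) (gaussianReal 0 1) := Guerra.integrable_id_γ
  refine hx.norm.mono' ?_ (Filter.Eventually.of_forall fun x => ?_)
  · exact Continuous.aestronglyMeasurable (by fun_prop)
  · rw [norm_mul, mul_comm I, norm_exp_ofReal_mul_I, mul_one, Complex.norm_real]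

theorem int_x_cexp (t : ℝ) :
    ∫ x, (x : ℂ) * cexp (I * ((t * x : ℝ) : ℂ)) ∂(gaussianReal 0 1)
      = I * t * ((Real.exp (-(t ^ 2) / 2) : ℝ) : ℂ) := by
  have hre : ∫ x, x * Real.cos (t * x) ∂(gaussianReal 0 1)
      = ∫ x, -(Real.sin (t * x)) * t ∂(gaussianReal 0 1) := by
    refine Guerra.stein1 (f := fun x => Real.cos (t * x)) (C := 1) (C' := |t|) (fun x => ?_)
      (by fun_prop) (fun x => Real.abs_cos_le_one _) (fun x => ?_)
    · have := ((hasDerivAt_id' x).const_mul t).cos
      simpa using this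
    · rw [abs_mul, abs_neg]
      exact mul_le_of_le_one_left (abs_nonneg _) (Real.abs_sin_le_one _)
  have him : ∫ x, x * Real.sin (t * x) ∂(gaussianReal 0 1)
      = ∫ x, Real.cos (t * x) * t ∂(gaussianReal 0 1) := by
    refine Guerra.stein1 (f := fun x => Real.sin (t * x)) (C := 1) (C' := |t|) (fun x => ?_)
      (by fun_prop) (fun x => Real.abs_sin_le_one _) (fun x => ?_)
    · have := ((hasDerivAt_id' x).const_mul t).sin
      simpa using this
    · rw [abs_mul]
      exact mul_le_of_le_one_left (abs_nonneg _) (Real.abs_cos_le_one _)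
  have hI := integrable_x_cexp t
  have hI1 := integrable_cexp t
  have ire : ∀ {f : ℝ → ℂ}, Integrable f (gaussianReal 0 1) →
      ∫ x, (f x).re ∂(gaussianReal 0 1) = (∫ x, f x ∂(gaussianReal 0 1)).re := fun h =>
    Complex.reCLM.integral_comp_comm h
  have iim : ∀ {f : ℝ → ℂ}, Integrable f (gaussianReal 0 1) →
      ∫ x, (f x).im ∂(gaussianReal 0 1) = (∫ x, f x ∂(gaussianReal 0 1)).im := fun h =>
    Complex.imCLM.integral_comp_comm h
  have hre1 : ∀ x : ℝ, (cexp (I * ((t * x : ℝ) : ℂ))).re = Real.cos (t * x) := by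
    intro x; rw [mul_comm, Complex.exp_ofReal_mul_I_re]
  have him1 : ∀ x : ℝ, (cexp (I * ((t * x : ℝ) : ℂ))).im = Real.sin (t * x) := by
    intro x; rw [mul_comm, Complex.exp_ofReal_mul_I_im]
  have e0 := int_cexp t
  have r1 : ∫ x, Real.cos (t * x) ∂(gaussianReal 0 1) = Real.exp (-(t ^ 2) / 2) := by
    have := congrArg Complex.re e0
    rw [Complex.ofReal_re, ← ire hI1] at this
    rw [← this]
    simp_rw [hre1]
  have r2 : ∫ x, Real.sin (t * x) ∂(gaussianReal 0 1) = 0 := by
    have := congrArg Complex.im e0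
    rw [Complex.ofReal_im, ← iim hI1] at this
    simp_rw [him1] at this
    exact this
  apply Complex.ext
  · rw [← ire hI]
    have : ∀ x : ℝ, ((x : ℂ) * cexp (I * ((t * x : ℝ) : ℂ))).re = x * Real.cos (t * x) := by
      intro x
      rw [Complex.mul_re, Complex.ofReal_re, Complex.ofReal_im, hre1, him1]; ring
    simp_rw [this]
    rw [hre, integral_mul_const, integral_neg, r2]
    simp only [Complex.mul_re, Complex.mul_im, Complex.I_re, Complex.I_im, Complex.ofReal_re,
      Complex.ofReal_im]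
    ring
  · rw [← iim hI]
    have : ∀ x : ℝ, ((x : ℂ) * cexp (I * ((t * x : ℝ) : ℂ))).im = x * Real.sin (t * x) := by
      intro x
      rw [Complex.mul_im, Complex.ofReal_re, Complex.ofReal_im, hre1, him1]; ring
    simp_rw [this]
    rw [him, integral_mul_const, r1]
    simp only [Complex.mul_re, Complex.mul_im, Complex.I_re, Complex.I_im, Complex.ofReal_re,
      Complex.ofReal_im]
    ring

/-- Fubini for products of one-coordinate functions of the coupling array. -/
theorem prod_int (n : ℕ) (f : Fin n → Fin n → ℝ → ℂ) :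
    ∫ J, ∏ i, ∏ j, f i j (J i j) ∂(gaussianCouplings n)
      = ∏ i, ∏ j, ∫ x, f i j x ∂(gaussianReal 0 1) := by
  unfold gaussianCouplings
  rw [integral_fintype_prod_eq_prod (f := fun (i : Fin n) (r : Fin n → ℝ) => ∏ j, f i j (r j))]
  refine Finset.prod_congr rfl fun i _ => ?_
  rw [integral_fintype_prod_eq_prod]

/-- phase `∑_{i<j} c_{ij} J_{ij}` -/
def ph (n : ℕ) (c J : Fin n → Fin n → ℝ) : ℝ :=
  ∑ i, ∑ j, if i < j then c i j * J i j else 0

/-- `∑_{i<j} c_{ij}^2` -/
def sq (n : ℕ) (c : Fin n → Fin n → ℝ) : ℝ :=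
  ∑ i, ∑ j, if i < j then (c i j) ^ 2 else 0

theorem exp_ph (n : ℕ) (c J : Fin n → Fin n → ℝ) :
    cexp (I * (ph n c J : ℂ)) =
      ∏ i, ∏ j, cexp (I * ((((if i < j then c i j else 0) * J i j : ℝ)) : ℂ)) := by
  unfold ph
  simp_rw [← Complex.exp_sum]
  congr 1
  push_cast
  rw [Finset.mul_sum]
  refine Finset.sum_congr rfl fun i _ => ?_
  rw [Finset.mul_sum]
  refine Finset.sum_congr rfl fun j _ => ?_
  split_ifs <;> simp

theorem prod_gauss (n : ℕ) (c : Fin n → Fin n → ℝ) :
    ∏ i, ∏ j, ((Real.exp (-((if i < j then c i j else 0) ^ 2) / 2) : ℝ) : ℂ)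
      = ((Real.exp (-(1 / 2) * sq n c) : ℝ) : ℂ) := by
  unfold sq
  rw [Finset.mul_sum]
  simp_rw [← Complex.ofReal_prod, ← Real.exp_sum]
  congr 2
  refine Finset.sum_congr rfl fun i _ => ?_
  rw [Finset.mul_sum]
  refine Finset.sum_congr rfl fun j _ => ?_
  split_ifs <;> simp
  ring

theorem avg_exp (n : ℕ) (c : Fin n → Fin n → ℝ) :
    ∫ J, cexp (I * (ph n c J : ℂ)) ∂(gaussianCouplings n)
      = ((Real.exp (-(1 / 2) * sq n c) : ℝ) : ℂ) := by
  simp_rw [exp_ph]
  rw [prod_int n (fun i j x => cexp (I * ((((if i < j then c i j else 0) * x : ℝ)) : ℂ)))]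
  simp_rw [int_cexp]
  exact prod_gauss n c

theorem avg_J_exp (n : ℕ) (c : Fin n → Fin n → ℝ) (k l : Fin n) (hkl : k < l) :
    ∫ J, (J k l : ℂ) * cexp (I * (ph n c J : ℂ)) ∂(gaussianCouplings n)
      = I * (c k l) * ((Real.exp (-(1 / 2) * sq n c) : ℝ) : ℂ) := by
  have h1 : ∀ J : Fin n → Fin n → ℝ, (J k l : ℂ) * cexp (I * (ph n c J : ℂ)) =
      ∏ i, ∏ j, ((if i = k ∧ j = l then (J i j : ℂ) else 1) *
        cexp (I * ((((if i < j then c i j else 0) * J i j : ℝ)) : ℂ))) := by
    intro J
    rw [exp_ph]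
    simp_rw [Finset.prod_mul_distrib]
    congr 1
    rw [Finset.prod_eq_single k, Finset.prod_eq_single l]
    · simp
    · intro b _ hb; simp [hb]
    · intro h; exact absurd (Finset.mem_univ _) h
    · intro b _ hb
      refine Finset.prod_eq_one fun j _ => ?_
      simp [hb]
    · intro h; exact absurd (Finset.mem_univ _) h
  simp_rw [h1]
  rw [prod_int n (fun i j x => (if i = k ∧ j = l then (x : ℂ) else 1) *
    cexp (I * ((((if i < j then c i j else 0) * x : ℝ)) : ℂ)))]
  have h2 : ∀ i j : Fin n, ∫ x : ℝ, (if i = k ∧ j = l then (x : ℂ) else 1) *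
      cexp (I * ((((if i < j then c i j else 0) * x : ℝ)) : ℂ)) ∂(gaussianReal 0 1)
      = (if i = k ∧ j = l then I * (c k l) else 1) *
        ((Real.exp (-((if i < j then c i j else 0) ^ 2) / 2) : ℝ) : ℂ) := by
    intro i j
    by_cases h : i = k ∧ j = l
    · obtain ⟨rfl, rfl⟩ := h
      simp only [and_self, if_true, hkl]
      rw [int_x_cexp]
    · simp only [h, if_false, one_mul]
      rw [int_cexp]
  simp_rw [h2, Finset.prod_mul_distrib]
  rw [prod_gauss]
  congr 1
  rw [Finset.prod_eq_single k, Finset.prod_eq_single l]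
  · simp
  · intro b _ hb; simp [hb]
  · intro h; exact absurd (Finset.mem_univ _) h
  · intro b _ hb
    refine Finset.prod_eq_one fun j _ => ?_
    simp [hb]
  · intro h; exact absurd (Finset.mem_univ _) h

theorem integrable_exp_ph (n : ℕ) (c : Fin n → Fin n → ℝ) :
    Integrable (fun J => cexp (I * (ph n c J : ℂ))) (gaussianCouplings n) := by
  have : IsProbabilityMeasure (gaussianCouplings n) := by
    unfold gaussianCouplings; infer_instance
  refine (integrable_const (1 : ℝ)).mono' ?_ (Filter.Eventually.of_forall fun x => ?_)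
  · refine Continuous.aestronglyMeasurable ?_
    unfold ph
    refine Complex.continuous_exp.comp (continuous_const.mul (Complex.continuous_ofReal.comp ?_))
    refine continuous_finsetSum _ fun i _ => continuous_finsetSum _ fun j _ => ?_
    split_ifs
    · fun_prop
    · exact continuous_const
  · rw [mul_comm, norm_exp_ofReal_mul_I]

theorem integrable_J (n : ℕ) (k l : Fin n) :
    Integrable (fun J : Fin n → Fin n → ℝ => J k l) (gaussianCouplings n) := by
  unfold gaussianCouplings
  have h1 : Integrable (fun r : Fin n → ℝ => r l) (Measure.pi fun _ : Fin n => gaussianReal 0 1) :=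
    integrable_comp_eval (μ := fun _ : Fin n => gaussianReal 0 1) (i := l)
      (f := fun x : ℝ => x) Guerra.integrable_id_γ
  exact integrable_comp_eval (μ := fun _ : Fin n => Measure.pi fun _ : Fin n => gaussianReal 0 1)
    (i := k) (f := fun r : Fin n → ℝ => r l) h1

theorem integrable_J_exp_ph (n : ℕ) (c : Fin n → Fin n → ℝ) (k l : Fin n) :
    Integrable (fun J : Fin n → Fin n → ℝ => (J k l : ℂ) * cexp (I * (ph n c J : ℂ)))
      (gaussianCouplings n) := by
  refine (integrable_J n k l).norm.mono' ?_ (Filter.Eventually.of_forall fun x => ?_)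
  · exact ((integrable_J n k l).ofReal (𝕜 := ℂ)).aestronglyMeasurable.mul
      (integrable_exp_ph n c).aestronglyMeasurable
  · rw [norm_mul, mul_comm I, norm_exp_ofReal_mul_I, mul_one, Complex.norm_real]

end

end Crest.Agent.R339.En
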