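import Mathlib
import Crest.Prelude.Def_SpinGlass
import Crest.Agent.R339.Lim286Def
import Crest.Agent.R339.En220A

/-!
R339 part (C1), helper220: path sums of the layered circuit at a fixed coupling array.
-/

set_option autoImplicit false

namespace Crest.Agent.R339.En

open MeasureTheory ProbabilityTheory Complex
open Crest.MathPhysics.SpinGlass Crest.Agent.R339.Lim
open scoped BigOperators ComplexConjugate

noncomputable section

section path

variable {C : Type*} [Fintype C]

/-- layered vector: `vec (M+1) = T_M (F_M · vec M)`. -/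
def vec (T : ℕ → C → C → ℂ) (F : ℕ → C → ℂ) (v0 : C → ℂ) : ℕ → C → ℂ
  | 0 => v0
  | (M + 1) => fun σ => ∑ τ, T M σ τ * (F M τ * vec T F v0 M τ)

/-- amplitude of a path -/
def pamp (T : ℕ → C → C → ℂ) (F : ℕ → C → ℂ) (v0 : C → ℂ) (M : ℕ) (y : Fin (M + 1) → C) : ℂ :=
  v0 (y 0) * ∏ l : Fin M, (T l (y l.succ) (y l.castSucc) * F l (y l.castSucc))

theorem path_sum (T : ℕ → C → C → ℂ) (F : ℕ → C → ℂ) (v0 : C → ℂ) (M : ℕ) (h : C → ℂ) :
    ∑ y : Fin (M + 1) → C, pamp T F v0 M y * h (y (Fin.last M))
      = ∑ σ, vec T F v0 M σ * h σ := by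
  induction M generalizing h with
  | zero =>
    refine Fintype.sum_equiv (Equiv.funUnique (Fin 1) C) _ _ fun y => ?_
    simp [pamp, vec]
  | succ M ih =>
    rw [← (Fin.snocEquiv (fun _ : Fin (M + 2) => C)).sum_comp, Fintype.sum_prod_type]
    have key : ∀ (σ : C) (y : Fin (M + 1) → C),
        pamp T F v0 (M + 1) ((Fin.snocEquiv (fun _ : Fin (M + 2) => C)) (σ, y)) *
          h ((Fin.snocEquiv (fun _ : Fin (M + 2) => C)) (σ, y) (Fin.last (M + 1)))
        = pamp T F v0 M y * (T M σ (y (Fin.last M)) * F M (y (Fin.last M))) * h σ := by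
      intro σ y
      have e1 : ∀ i : Fin (M + 1), (Fin.snocEquiv (fun _ : Fin (M + 2) => C)) (σ, y) i.castSucc
          = y i := by
        intro i
        simp [Fin.snocEquiv]
      have e2 : (Fin.snocEquiv (fun _ : Fin (M + 2) => C)) (σ, y) (Fin.last (M + 1)) = σ := by
        simp [Fin.snocEquiv]
      have e0 : (Fin.snocEquiv (fun _ : Fin (M + 2) => C)) (σ, y) 0 = y 0 := by
        have := e1 0
        simpa using this
      unfold pamp
      rw [Fin.prod_univ_castSucc, e0, e2]
      have e3 : ∀ l : Fin M, (Fin.snocEquiv (fun _ : Fin (M + 2) => C)) (σ, y) l.castSucc.succ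
          = y l.succ := by
        intro l
        rw [Fin.succ_castSucc]
        exact e1 _
      have e4 : (Fin.snocEquiv (fun _ : Fin (M + 2) => C)) (σ, y) (Fin.last M).succ = σ := by
        rw [Fin.succ_last]; exact e2
      rw [e4]
      simp_rw [e3, e1]
      simp only [Fin.val_castSucc, Fin.val_last]
      ring
    simp_rw [key]
    have h2 : ∀ σ : C, ∑ y : Fin (M + 1) → C,
        pamp T F v0 M y * (T M σ (y (Fin.last M)) * F M (y (Fin.last M))) * h σ
        = vec T F v0 (M + 1) σ * h σ := by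
      intro σ
      rw [← Finset.sum_mul, ih (fun τ => T M σ τ * F M τ)]
      congr 1
      simp only [vec]
      refine Finset.sum_congr rfl fun τ _ => ?_
      ring
    simp_rw [h2]

theorem vec_congr {T T' : ℕ → C → C → ℂ} {F F' : ℕ → C → ℂ} {v0 : C → ℂ} (M : ℕ)
    (hT : ∀ l < M, T l = T' l) (hF : ∀ l < M, F l = F' l) :
    vec T F v0 M = vec T' F' v0 M := by
  induction M with
  | zero => rfl
  | succ M ih =>
    have := ih (fun l hl => hT l (by omega)) (fun l hl => hF l (by omega))
    simp only [vec, this, hT M (by omega), hF M (by omega)]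

/-- two-sided path sum -/
theorem two_sided [DecidableEq C] (T : ℕ → C → C → ℂ) (FL FR : ℕ → C → ℂ) (v0 : C → ℂ) (M : ℕ)
    (H : C → ℂ) :
    ∑ yL : Fin (M + 1) → C, ∑ yR : Fin (M + 1) → C,
      conj (pamp T FL v0 M yL) * pamp T FR v0 M yR *
        ((if yL (Fin.last M) = yR (Fin.last M) then 1 else 0) * H (yR (Fin.last M)))
      = ∑ σ, conj (vec T FL v0 M σ) * vec T FR v0 M σ * H σ := by
  have h1 : ∀ yL : Fin (M + 1) → C, ∑ yR : Fin (M + 1) → C,
      conj (pamp T FL v0 M yL) * pamp T FR v0 M yR *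
        ((if yL (Fin.last M) = yR (Fin.last M) then 1 else 0) * H (yR (Fin.last M)))
      = conj (pamp T FL v0 M yL) *
        (vec T FR v0 M (yL (Fin.last M)) * H (yL (Fin.last M))) := by
    intro yL
    simp_rw [mul_assoc]
    rw [← Finset.mul_sum]
    congr 1
    rw [path_sum T FR v0 M (fun τ => (if yL (Fin.last M) = τ then 1 else 0) * H τ)]
    rw [Finset.sum_eq_single (yL (Fin.last M))]
    · simp
    · intro b _ hb
      rw [if_neg (Ne.symm hb)]; ring
    · intro h; exact absurd (Finset.mem_univ _) h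
  simp_rw [h1]
  have h2 := path_sum T FL v0 M (fun τ => conj (vec T FR v0 M τ * H τ))
  have h3 := congrArg conj h2
  rw [map_sum, map_sum] at h3
  simp only [map_mul, Complex.conj_conj] at h3 ⊢
  rw [h3]
  refine Finset.sum_congr rfl fun σ _ => ?_
  ring

end path

end

end Crest.Agent.R339.En
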