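import Mathlib
import Crest.Prelude.Def_SpinGlass
import Crest.Agent.R339.Lim286Def
import Crest.Agent.R339.En220A
import Crest.Agent.R339.En220B

/-!
R339 part (C1), helper220: the circuit path sum on configurations at a fixed coupling array.
-/

set_option autoImplicit false

namespace Crest.Agent.R339.En

open MeasureTheory ProbabilityTheory Complex
open Crest.MathPhysics.SpinGlass Crest.Agent.R339.Lim
open scoped BigOperators ComplexConjugate

noncomputable section

/-- energy of a configuration of `N` spins with normalisation `1/√n`. -/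
def Ee (n N : ℕ) (J : Fin N → Fin N → ℝ) (σ : Fin N → Bool) : ℝ :=
  (1 / Real.sqrt n) * ∑ i, ∑ j, if i < j then J i j * spinSign (σ i) * spinSign (σ j) else 0

theorem Ee_self (n : ℕ) (J : Fin n → Fin n → ℝ) (σ : Fin n → Bool) :
    Ee n n J σ = pairEnergy n J σ := rfl

/-- mixer matrix -/
def Tm (N : ℕ) (b : ℕ → ℝ) (l : ℕ) (σ τ : Fin N → Bool) : ℂ := ∏ j, mx (b l) (σ j) (τ j)

/-- cost phase times an extra factor -/
def Fc (n N : ℕ) (J : Fin N → Fin N → ℝ) (g : ℕ → ℝ) (D : ℕ → (Fin N → Bool) → ℂ) (l : ℕ)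
    (σ : Fin N → Bool) : ℂ := cexp (-(I * (g l : ℂ) * (Ee n N J σ : ℂ))) * D l σ

/-- coefficients of the phase of a family of site paths -/
def cK {M : ℕ} (n N : ℕ) (g : ℕ → ℝ) (a : Fin N → Pos M → Bool) (i j : Fin N) : ℝ :=
  (1 / Real.sqrt n) * Kf (gam g M) (a i) (a j)

theorem theta_gen {P : Type*} [Fintype P] [DecidableEq P] (n N : ℕ) (γ : P → ℝ)
    (J : Fin N → Fin N → ℝ) (a : Fin N → P → Bool) :
    ph N (fun i j => (1 / Real.sqrt n) * Kf γ (a i) (a j)) J
      = ∑ τ, γ τ * Ee n N J (fun j => a j τ) := by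
  unfold ph Ee Kf
  have h1 : ∀ τ : P, γ τ * ((1 / Real.sqrt n) * ∑ i : Fin N, ∑ j : Fin N,
      if i < j then J i j * spinSign (a i τ) * spinSign (a j τ) else 0)
      = ∑ i : Fin N, ∑ j : Fin N, if i < j then
        (1 / Real.sqrt n) * (γ τ * (spinSign (a i τ) * spinSign (a j τ))) * J i j else 0 := by
    intro τ
    rw [Finset.mul_sum, Finset.mul_sum]
    refine Finset.sum_congr rfl fun i _ => ?_
    rw [Finset.mul_sum, Finset.mul_sum]
    refine Finset.sum_congr rfl fun j _ => ?_
    split_ifs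
    · ring
    · simp
  simp_rw [h1]
  conv_rhs => rw [Finset.sum_comm]
  refine Finset.sum_congr rfl fun i _ => ?_
  conv_rhs => rw [Finset.sum_comm]
  refine Finset.sum_congr rfl fun j _ => ?_
  split_ifs
  · rw [Finset.mul_sum, Finset.sum_mul]
  · simp

theorem sum_gam {M : ℕ} (g : ℕ → ℝ) (f : Pos M → ℝ) :
    ∑ τ, gam g M τ * f τ = (∑ l : Fin M, g l * f (false, l.castSucc))
      - ∑ l : Fin M, g l * f (true, l.castSucc) := by
  rw [Fintype.sum_prod_type, Fintype.sum_bool, Fin.sum_univ_castSucc, Fin.sum_univ_castSucc]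
  have e1 : ∀ s : Bool, gam g M (s, Fin.last M) = 0 := by
    intro s; simp [gam]
  have e2 : ∀ l : Fin M, gam g M (true, l.castSucc) = -(g l) := by
    intro l; simp [gam]
  have e3 : ∀ l : Fin M, gam g M (false, l.castSucc) = g l := by
    intro l; simp [gam]
  simp only [e1, e2, e3, zero_mul, add_zero, neg_mul, Finset.sum_neg_distrib]
  ring

/-- a family of two-sided site paths is a pair of configuration paths -/
def pathEquiv (N M : ℕ) :
    (Fin N → Pos M → Bool) ≃ (Fin (M + 1) → Fin N → Bool) × (Fin (M + 1) → Fin N → Bool) where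
  toFun a := (fun l j => a j (false, l), fun l j => a j (true, l))
  invFun p := fun j τ => if τ.1 then p.2 τ.2 j else p.1 τ.2 j
  left_inv := by
    intro a; funext j τ
    obtain ⟨s, l⟩ := τ
    cases s <;> simp
  right_inv := by
    intro p
    obtain ⟨p, q⟩ := p
    simp

theorem prod_mu (N M : ℕ) (b : ℕ → ℝ) (yL yR : Fin (M + 1) → Fin N → Bool) :
    ∏ j, mu b M ((pathEquiv N M).symm (yL, yR) j)
      = (if yL (Fin.last M) = yR (Fin.last M) then 1 else 0) *
        (conj (plusState N (yL 0)) * plusState N (yR 0)) *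
        (conj (∏ l : Fin M, Tm N b l (yL l.succ) (yL l.castSucc)) *
          ∏ l : Fin M, Tm N b l (yR l.succ) (yR l.castSucc)) := by
  have h1 : ∀ j, mu b M ((pathEquiv N M).symm (yL, yR) j) =
      (1 / 2) * (if yL (Fin.last M) j = yR (Fin.last M) j then 1 else 0) *
        (conj (∏ l : Fin M, mx (b l) (yL l.succ j) (yL l.castSucc j)) *
          ∏ l : Fin M, mx (b l) (yR l.succ j) (yR l.castSucc j)) := by
    intro j
    simp [mu, amp, pathEquiv]
  simp_rw [h1, Finset.prod_mul_distrib, ← map_prod]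
  have e1 : ∏ j : Fin N, (if yL (Fin.last M) j = yR (Fin.last M) j then (1 : ℂ) else 0)
      = if yL (Fin.last M) = yR (Fin.last M) then 1 else 0 := by
    rw [Finset.prod_ite_zero]
    simp [funext_iff]
  have e2 : ∀ y : Fin (M + 1) → Fin N → Bool,
      ∏ j : Fin N, ∏ l : Fin M, mx (b l) (y l.succ j) (y l.castSucc j)
      = ∏ l : Fin M, Tm N b l (y l.succ) (y l.castSucc) := by
    intro y
    rw [Finset.prod_comm]; rfl
  have e3 : ∀ σ τ : Fin N → Bool, conj (plusState N σ) * plusState N τ
      = ∏ _j : Fin N, (1 / 2 : ℂ) := by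
    intro σ τ
    unfold plusState
    rw [Finset.prod_const, Finset.card_univ, Fintype.card_fin, map_pow, ← mul_pow,
      Complex.conj_ofReal, ← Complex.ofReal_mul]
    congr 1
    have : (1 / Real.sqrt 2) * (1 / Real.sqrt 2) = 1 / 2 := by
      rw [div_mul_div_comm, one_mul, Real.mul_self_sqrt (by norm_num)]
    rw [this]; push_cast; ring
  rw [e1, e2, e2, ← e3 (yL 0) (yR 0)]
  ring

theorem main_path (n N M : ℕ) (J : Fin N → Fin N → ℝ) (g b : ℕ → ℝ)
    (DL DR : ℕ → (Fin N → Bool) → ℂ) (H : (Fin N → Bool) → ℂ) :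
    ∑ a : Fin N → Pos M → Bool, (∏ j, mu b M (a j)) *
        cexp (I * (ph N (cK n N g a) J : ℂ)) *
        ((∏ l : Fin M, DL l (fun j => a j (false, l.castSucc))) *
          (∏ l : Fin M, DR l (fun j => a j (true, l.castSucc)))) *
        H (fun j => a j (true, Fin.last M))
      = ∑ σ, conj (vec (Tm N b) (Fc n N J g (fun l σ => conj (DL l σ))) (plusState N) M σ) *
          vec (Tm N b) (Fc n N J g DR) (plusState N) M σ * H σ := by
  rw [← two_sided, ← (pathEquiv N M).symm.sum_comp, Fintype.sum_prod_type]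
  refine Finset.sum_congr rfl fun yL _ => Finset.sum_congr rfl fun yR _ => ?_
  rw [prod_mu]
  have ea : ∀ l : Fin (M + 1), (fun j => (pathEquiv N M).symm (yL, yR) j (false, l)) = yL l := by
    intro l; funext j; simp [pathEquiv]
  have eb : ∀ l : Fin (M + 1), (fun j => (pathEquiv N M).symm (yL, yR) j (true, l)) = yR l := by
    intro l; funext j; simp [pathEquiv]
  have ht : (ph N (cK n N g ((pathEquiv N M).symm (yL, yR))) J : ℝ) =
      (∑ l : Fin M, g l * Ee n N J (yL l.castSucc)) -
        ∑ l : Fin M, g l * Ee n N J (yR l.castSucc) := by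
    have := theta_gen n N (gam g M) J ((pathEquiv N M).symm (yL, yR))
    rw [sum_gam] at this
    simp_rw [ea, eb] at this
    exact this
  simp_rw [ea, eb]
  have hexp : cexp (I * (ph N (cK n N g ((pathEquiv N M).symm (yL, yR))) J : ℂ)) =
      conj (∏ l : Fin M, cexp (-(I * (g l : ℂ) * (Ee n N J (yL l.castSucc) : ℂ)))) *
        ∏ l : Fin M, cexp (-(I * (g l : ℂ) * (Ee n N J (yR l.castSucc) : ℂ))) := by
    rw [ht, ← Complex.exp_sum, ← Complex.exp_sum, ← Complex.exp_conj, ← Complex.exp_add]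
    congr 1
    push_cast
    rw [map_sum, mul_sub, Finset.mul_sum, Finset.mul_sum, sub_eq_add_neg, ← Finset.sum_neg_distrib]
    congr 1
    · refine Finset.sum_congr rfl fun l _ => ?_
      simp only [map_neg, map_mul, Complex.conj_I, Complex.conj_ofReal]
      ring
    · refine Finset.sum_congr rfl fun l _ => ?_
      ring
  rw [hexp]
  unfold pamp Fc
  simp only [Finset.prod_mul_distrib, map_mul, map_prod, Complex.conj_conj]
  ring

end

end Crest.Agent.R339.En
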