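import Mathlib
import Crest.Prelude.Def_SpinGlass
import Crest.Agent.R339.Lim286Def
import Crest.Agent.R339.En220A
import Crest.Agent.R339.En220B
import Crest.Agent.R339.En220C

/-!
R339 part (C1), helper220: contraction bounds and (III.1) `FF_Qp_norm_le`.
-/

set_option autoImplicit false

namespace Crest.Agent.R339.En

open MeasureTheory ProbabilityTheory Complex
open Crest.MathPhysics.SpinGlass Crest.Agent.R339.Lim
open scoped BigOperators ComplexConjugate

noncomputable section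

theorem spinSign_mul_self (x : Bool) : spinSign x * spinSign x = 1 := by
  cases x <;> simp [spinSign]

theorem abs_spinSign (x : Bool) : |spinSign x| = 1 := by
  cases x <;> simp [spinSign]

theorem norm_spinSign (x : Bool) : ‖((spinSign x : ℝ) : ℂ)‖ = 1 := by
  rw [Complex.norm_real, Real.norm_eq_abs, abs_spinSign]

theorem mx_unitary (β : ℝ) (y y' : Bool) :
    ∑ x : Bool, conj (mx β x y) * mx β x y' = if y = y' then 1 else 0 := by
  have hcs : ((Real.cos β : ℝ) : ℂ) * ((Real.cos β : ℝ) : ℂ) +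
      ((Real.sin β : ℝ) : ℂ) * ((Real.sin β : ℝ) : ℂ) = 1 := by
    rw [← Complex.ofReal_mul, ← Complex.ofReal_mul, ← Complex.ofReal_add]
    norm_cast
    have := Real.cos_sq_add_sin_sq β
    nlinarith
  have hI : I * I = -1 := Complex.I_mul_I
  rw [Fintype.sum_bool]
  cases y <;> cases y' <;>
    simp only [mx, Bool.true_eq_false, Bool.false_eq_true, if_true, if_false, map_neg, map_mul,
      Complex.conj_I, Complex.conj_ofReal] <;> first
      | linear_combination hcs - ((Real.sin β : ℝ) : ℂ) * ((Real.sin β : ℝ) : ℂ) * hI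
      | ring

theorem Tm_unitary (N : ℕ) (b : ℕ → ℝ) (l : ℕ) (τ τ' : Fin N → Bool) :
    ∑ σ, conj (Tm N b l σ τ) * Tm N b l σ τ' = if τ = τ' then 1 else 0 := by
  unfold Tm
  simp_rw [map_prod, ← Finset.prod_mul_distrib]
  have h := Finset.prod_univ_sum (fun _ : Fin N => (Finset.univ : Finset Bool))
    (fun j x => conj (mx (b l) x (τ j)) * mx (b l) x (τ' j))
  rw [Fintype.piFinset_univ] at h
  rw [← h]
  simp_rw [mx_unitary]
  rw [Finset.prod_ite_zero]
  simp [funext_iff]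

section
variable {C : Type*} [Fintype C]

/-- squared norm -/
def nsq (v : C → ℂ) : ℝ := ∑ σ, ‖v σ‖ ^ 2

theorem nsq_nonneg (v : C → ℂ) : 0 ≤ nsq v := Finset.sum_nonneg fun _ _ => by positivity

theorem nsq_eq (v : C → ℂ) : ((nsq v : ℝ) : ℂ) = ∑ σ, conj (v σ) * v σ := by
  unfold nsq
  push_cast
  refine Finset.sum_congr rfl fun σ _ => ?_
  rw [Complex.conj_mul']

theorem nsq_apply_unitary [DecidableEq C] (T : C → C → ℂ)
    (hT : ∀ τ τ', ∑ σ, conj (T σ τ) * T σ τ' = if τ = τ' then 1 else 0) (u : C → ℂ) :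
    nsq (fun σ => ∑ τ, T σ τ * u τ) = nsq u := by
  have : ((nsq (fun σ => ∑ τ, T σ τ * u τ) : ℝ) : ℂ) = ((nsq u : ℝ) : ℂ) := by
    rw [nsq_eq, nsq_eq]
    simp_rw [map_sum, map_mul, Finset.sum_mul_sum]
    rw [Finset.sum_comm]
    refine Finset.sum_congr rfl fun τ _ => ?_
    rw [Finset.sum_comm]
    have h2 : ∀ τ' : C, ∑ σ, conj (T σ τ) * conj (u τ) * (T σ τ' * u τ')
        = conj (u τ) * u τ' * (if τ = τ' then 1 else 0) := by
      intro τ'
      rw [← hT τ τ', Finset.mul_sum]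
      refine Finset.sum_congr rfl fun σ _ => ?_
      ring
    simp_rw [h2]
    rw [Finset.sum_eq_single τ]
    · simp
    · intro b _ hb; rw [if_neg (Ne.symm hb)]; ring
    · intro h; exact absurd (Finset.mem_univ _) h
  exact_mod_cast this

theorem nsq_mul_le (F v : C → ℂ) (hF : ∀ σ, ‖F σ‖ ≤ 1) : nsq (fun σ => F σ * v σ) ≤ nsq v := by
  unfold nsq
  refine Finset.sum_le_sum fun σ _ => ?_
  rw [norm_mul, mul_pow]
  have h1 : ‖F σ‖ ^ 2 ≤ 1 := pow_le_one₀ (norm_nonneg _) (hF σ)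
  nlinarith [sq_nonneg ‖v σ‖]

theorem nsq_vec_le [DecidableEq C] (T : ℕ → C → C → ℂ)
    (hT : ∀ l τ τ', ∑ σ, conj (T l σ τ) * T l σ τ' = if τ = τ' then 1 else 0)
    (F : ℕ → C → ℂ) (hF : ∀ l σ, ‖F l σ‖ ≤ 1) (v0 : C → ℂ) (M : ℕ) :
    nsq (vec T F v0 M) ≤ nsq v0 := by
  induction M with
  | zero => exact le_rfl
  | succ M ih =>
    refine le_trans ?_ ih
    simp only [vec]
    rw [nsq_apply_unitary (T M) (hT M) (fun τ => F M τ * vec T F v0 M τ)]
    exact nsq_mul_le _ _ (hF M)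

theorem norm_sum_three_le (w v H : C → ℂ) (hw : nsq w ≤ 1) (hv : nsq v ≤ 1)
    (hH : ∀ σ, ‖H σ‖ ≤ 1) : ‖∑ σ, conj (w σ) * v σ * H σ‖ ≤ 1 := by
  refine (norm_sum_le _ _).trans ?_
  have h1 : ∀ σ, ‖conj (w σ) * v σ * H σ‖ ≤ (‖w σ‖ ^ 2 + ‖v σ‖ ^ 2) / 2 := by
    intro σ
    rw [norm_mul, norm_mul, RCLike.norm_conj]
    have h2 : ‖w σ‖ * ‖v σ‖ * ‖H σ‖ ≤ ‖w σ‖ * ‖v σ‖ :=
      mul_le_of_le_one_right (mul_nonneg (norm_nonneg _) (norm_nonneg _)) (hH σ)
    nlinarith [sq_nonneg (‖w σ‖ - ‖v σ‖)]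
  refine (Finset.sum_le_sum fun σ _ => h1 σ).trans ?_
  rw [← Finset.sum_div, Finset.sum_add_distrib]
  unfold nsq at hw hv
  linarith

end

theorem nsq_plus (N : ℕ) : nsq (plusState N) = 1 := by
  unfold nsq plusState
  rw [Finset.sum_const, Finset.card_univ]
  simp only [Fintype.card_fun, Fintype.card_bool, Fintype.card_fin, nsmul_eq_mul, norm_pow,
    Complex.norm_real, Real.norm_eq_abs]
  rw [abs_of_pos (by positivity), ← pow_mul, mul_comm N 2, pow_mul, div_pow, one_pow,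
    Real.sq_sqrt (by norm_num)]
  push_cast
  rw [← mul_pow]
  norm_num

theorem norm_Fc (n N : ℕ) (J : Fin N → Fin N → ℝ) (g : ℕ → ℝ) (D : ℕ → (Fin N → Bool) → ℂ)
    (l : ℕ) (σ : Fin N → Bool) : ‖Fc n N J g D l σ‖ = ‖D l σ‖ := by
  unfold Fc
  rw [norm_mul]
  have : -(I * (g l : ℂ) * (Ee n N J σ : ℂ)) = ((-(g l * Ee n N J σ) : ℝ) : ℂ) * I := by
    push_cast; ring
  rw [this, norm_exp_ofReal_mul_I, one_mul]

/-- admissible bounded insertions -/
def Adm (N M : ℕ) (b : ℕ → ℝ) (Φ : (Fin N → Pos M → Bool) → ℂ) : Prop :=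
  ∃ (DL DR : ℕ → (Fin N → Bool) → ℂ) (H : (Fin N → Bool) → ℂ),
    (∀ l σ, ‖DL l σ‖ ≤ 1) ∧ (∀ l σ, ‖DR l σ‖ ≤ 1) ∧ (∀ σ, ‖H σ‖ ≤ 1) ∧
    ∀ a, (∏ j, mu b M (a j)) * Φ a = (∏ j, mu b M (a j)) *
      ((∏ l : Fin M, DL l (fun j => a j (false, l.castSucc))) *
        (∏ l : Fin M, DR l (fun j => a j (true, l.castSucc))) *
        H (fun j => a j (true, Fin.last M)))

theorem Adm_one (N M : ℕ) (b : ℕ → ℝ) : Adm N M b (fun _ => 1) :=
  ⟨fun _ _ => 1, fun _ _ => 1, fun _ => 1, by simp, by simp, by simp, by simp⟩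

theorem mu_top {M : ℕ} (b : ℕ → ℝ) (N : ℕ) (a : Fin N → Pos M → Bool) (j : Fin N) :
    (∏ i, mu b M (a i)) * ((spinSign (a j (false, Fin.last M)) : ℝ) : ℂ)
      = (∏ i, mu b M (a i)) * ((spinSign (a j (true, Fin.last M)) : ℝ) : ℂ) := by
  by_cases h : a j (false, Fin.last M) = a j (true, Fin.last M)
  · rw [h]
  · have : ∏ i, mu b M (a i) = 0 := by
      refine Finset.prod_eq_zero (Finset.mem_univ j) ?_
      simp [mu, h]
    rw [this, zero_mul, zero_mul]

theorem prod_upd {M : ℕ} (f : Fin M → ℂ) (k : Fin M) (x : Fin M → ℂ) :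
    ∏ l : Fin M, (f l * if (l : ℕ) = (k : ℕ) then x l else 1) = (∏ l, f l) * x k := by
  rw [Finset.prod_mul_distrib]
  congr 1
  rw [Finset.prod_eq_single k]
  · simp
  · intro l _ hl
    rw [if_neg (fun h => hl (Fin.ext h))]
  · intro h; exact absurd (Finset.mem_univ _) h

theorem Adm_mul {N M : ℕ} {b : ℕ → ℝ} {Φ : (Fin N → Pos M → Bool) → ℂ} (h : Adm N M b Φ)
    (j : Fin N) (τ : Pos M) : Adm N M b (fun a => Φ a * ((spinSign (a j τ) : ℝ) : ℂ)) := by
  obtain ⟨DL, DR, H, hL, hR, hH, he⟩ := h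
  obtain ⟨s, t⟩ := τ
  have hnorm : ∀ (x y : ℂ), ‖x‖ ≤ 1 → ‖y‖ ≤ 1 → ‖x * y‖ ≤ 1 := by
    intro x y hx hy
    rw [norm_mul]
    exact mul_le_one₀ hx (norm_nonneg _) hy
  by_cases htop : t = Fin.last M
  · subst htop
    refine ⟨DL, DR, fun σ => H σ * ((spinSign (σ j) : ℝ) : ℂ), hL, hR,
      fun σ => hnorm _ _ (hH σ) (norm_spinSign _).le, fun a => ?_⟩
    have h1 : (∏ i, mu b M (a i)) * (Φ a * ((spinSign (a j (s, Fin.last M)) : ℝ) : ℂ))
        = (∏ i, mu b M (a i)) * (Φ a * ((spinSign (a j (true, Fin.last M)) : ℝ) : ℂ)) := by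
      cases s
      · linear_combination (Φ a) * mu_top b N a j
      · rfl
    rw [h1]
    linear_combination ((spinSign (a j (true, Fin.last M)) : ℝ) : ℂ) * he a
  · obtain ⟨k, rfl⟩ : ∃ k : Fin M, k.castSucc = t :=
      ⟨t.castPred htop, Fin.castSucc_castPred t htop⟩
    cases s
    · refine ⟨fun l σ => DL l σ * (if l = (k : ℕ) then ((spinSign (σ j) : ℝ) : ℂ) else 1),
        DR, H, fun l σ => hnorm _ _ (hL l σ) ?_, hR, hH, fun a => ?_⟩
      · split_ifs
        · exact (norm_spinSign _).le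
        · simp
      · rw [prod_upd (fun l => DL l (fun j => a j (false, l.castSucc))) k
          (fun l => ((spinSign (a j (false, l.castSucc)) : ℝ) : ℂ))]
        linear_combination ((spinSign (a j (false, k.castSucc)) : ℝ) : ℂ) * he a
    · refine ⟨DL, fun l σ => DR l σ * (if l = (k : ℕ) then ((spinSign (σ j) : ℝ) : ℂ) else 1),
        H, hL, fun l σ => hnorm _ _ (hR l σ) ?_, hH, fun a => ?_⟩
      · split_ifs
        · exact (norm_spinSign _).le
        · simp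
      · rw [prod_upd (fun l => DR l (fun j => a j (true, l.castSucc))) k
          (fun l => ((spinSign (a j (true, l.castSucc)) : ℝ) : ℂ))]
        linear_combination ((spinSign (a j (true, k.castSucc)) : ℝ) : ℂ) * he a

/-- path functional at fixed couplings -/
def GJ (n N M : ℕ) (J : Fin N → Fin N → ℝ) (g b : ℕ → ℝ) (Φ : (Fin N → Pos M → Bool) → ℂ) : ℂ :=
  ∑ a : Fin N → Pos M → Bool, (∏ j, mu b M (a j)) * cexp (I * (ph N (cK n N g a) J : ℂ)) * Φ a

theorem GJ_Adm_le (n N M : ℕ) (J : Fin N → Fin N → ℝ) (g b : ℕ → ℝ)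
    (Φ : (Fin N → Pos M → Bool) → ℂ) (h : Adm N M b Φ) : ‖GJ n N M J g b Φ‖ ≤ 1 := by
  obtain ⟨DL, DR, H, hL, hR, hH, he⟩ := h
  have h1 : GJ n N M J g b Φ = ∑ σ,
      conj (vec (Tm N b) (Fc n N J g (fun l σ => conj (DL l σ))) (plusState N) M σ) *
          vec (Tm N b) (Fc n N J g DR) (plusState N) M σ * H σ := by
    rw [← main_path]
    unfold GJ
    refine Finset.sum_congr rfl fun a _ => ?_
    linear_combination (cexp (I * (ph N (cK n N g a) J : ℂ))) * he a
  rw [h1]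
  refine norm_sum_three_le _ _ _ ?_ ?_ hH
  · rw [← nsq_plus N]
    refine nsq_vec_le _ (Tm_unitary N b) _ (fun l σ => ?_) _ _
    rw [norm_Fc, RCLike.norm_conj]
    exact hL l σ
  · rw [← nsq_plus N]
    refine nsq_vec_le _ (Tm_unitary N b) _ (fun l σ => ?_) _ _
    rw [norm_Fc]
    exact hR l σ

theorem GJ_Qp_le (n N M : ℕ) (hNn : N ≤ n) (J : Fin N → Fin N → ℝ) (g b : ℕ → ℝ)
    (l : List (Pos M × Pos M)) (Φ : (Fin N → Pos M → Bool) → ℂ) (h : Adm N M b Φ) :
    ‖GJ n N M J g b (fun a => Φ a * Qp n l a)‖ ≤ 1 := by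
  induction l generalizing Φ with
  | nil =>
    simp only [Qp, List.map_nil, List.prod_nil, mul_one]
    exact GJ_Adm_le n N M J g b Φ h
  | cons q l ih =>
    have h1 : GJ n N M J g b (fun a => Φ a * Qp n (q :: l) a) =
        (1 / (n : ℂ)) * ∑ j : Fin N, GJ n N M J g b (fun a => (Φ a * ((spinSign (a j q.1) : ℝ) : ℂ)
          * ((spinSign (a j q.2) : ℝ) : ℂ)) * Qp n l a) := by
      unfold GJ
      rw [Finset.sum_comm, Finset.mul_sum]
      refine Finset.sum_congr rfl fun a _ => ?_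
      have h2 : Qp n (q :: l) a = (1 / (n : ℂ)) * (∑ j, ((spinSign (a j q.1) : ℝ) : ℂ)
          * ((spinSign (a j q.2) : ℝ) : ℂ)) * Qp n l a := by
        simp only [Qp, List.map_cons, List.prod_cons, Q]
        push_cast
        ring
      beta_reduce
      have h3 : ∑ j : Fin N, (∏ i, mu b M (a i)) * cexp (I * (ph N (cK n N g a) J : ℂ)) *
          (Φ a * ((spinSign (a j q.1) : ℝ) : ℂ) * ((spinSign (a j q.2) : ℝ) : ℂ) * Qp n l a)
          = (∏ i, mu b M (a i)) * cexp (I * (ph N (cK n N g a) J : ℂ)) * Φ a * Qp n l a *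
            (∑ j, ((spinSign (a j q.1) : ℝ) : ℂ) * ((spinSign (a j q.2) : ℝ) : ℂ)) := by
        rw [Finset.mul_sum]
        refine Finset.sum_congr rfl fun j _ => ?_
        ring
      rw [h2, h3]
      ring
    rw [h1, norm_mul]
    have h3 : ‖∑ j : Fin N, GJ n N M J g b (fun a => (Φ a * ((spinSign (a j q.1) : ℝ) : ℂ)
          * ((spinSign (a j q.2) : ℝ) : ℂ)) * Qp n l a)‖ ≤ N := by
      refine (norm_sum_le _ _).trans ?_
      refine (Finset.sum_le_sum fun j _ => ih _ (Adm_mul (Adm_mul h j q.1) j q.2)).trans ?_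
      simp
    have h4 : ‖(1 / (n : ℂ))‖ = 1 / (n : ℝ) := by simp
    rw [h4]
    rcases Nat.eq_zero_or_pos n with hn | hn
    · subst hn; simp
    · have hn' : (0 : ℝ) < n := by exact_mod_cast hn
      calc 1 / (n : ℝ) * _ ≤ 1 / (n : ℝ) * N := by gcongr
        _ ≤ 1 := by
          rw [one_div, inv_mul_le_iff₀ hn', mul_one]
          exact_mod_cast hNn

theorem sum_symm {N : ℕ} (f : Fin N → Fin N → ℝ) (hs : ∀ i j, f i j = f j i) (h0 : ∀ i, f i i = 0) :
    ∑ i, ∑ j, f i j = 2 * ∑ i, ∑ j, if i < j then f i j else 0 := by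
  have h1 : ∀ i j, f i j = (if i < j then f i j else 0) + (if j < i then f j i else 0) := by
    intro i j
    rcases lt_trichotomy i j with h | h | h
    · simp [h, h.not_gt]
    · subst h; simp [h0]
    · simp [h, h.not_gt, hs i j]
  have h2 : ∑ i, ∑ j, f i j = (∑ i, ∑ j, if i < j then f i j else 0) +
      ∑ i, ∑ j, (if j < i then f j i else 0) := by
    rw [← Finset.sum_add_distrib]
    refine Finset.sum_congr rfl fun i _ => ?_
    rw [← Finset.sum_add_distrib]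
    exact Finset.sum_congr rfl fun j _ => h1 i j
  have h3 : ∑ i : Fin N, ∑ j : Fin N, (if j < i then f j i else 0)
      = ∑ i, ∑ j, if i < j then f i j else 0 := Finset.sum_comm
  rw [h2, h3]; ring

theorem Kf_comm {M : ℕ} (γ : Pos M → ℝ) (a b : Pos M → Bool) : Kf γ a b = Kf γ b a := by
  unfold Kf
  refine Finset.sum_congr rfl fun τ _ => ?_
  ring

theorem Kf_self {M : ℕ} (g : ℕ → ℝ) (a : Pos M → Bool) : Kf (gam g M) a a = 0 := by
  unfold Kf
  simp_rw [spinSign_mul_self]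
  rw [sum_gam g (fun _ => 1)]
  simp

theorem wt_eq (n N M : ℕ) (g : ℕ → ℝ) (a : Fin N → Pos M → Bool) :
    wt (gam g M) n a = Real.exp (-(1 / 2) * sq N (cK n N g a)) := by
  unfold wt
  congr 1
  have h := sum_symm (fun i j => (Kf (gam g M) (a i) (a j)) ^ 2)
    (fun i j => by rw [Kf_comm]) (fun i => by rw [Kf_self]; ring)
  have h2 : sq N (cK n N g a) = (1 / (n : ℝ)) *
      ∑ i, ∑ j, if i < j then (Kf (gam g M) (a i) (a j)) ^ 2 else 0 := by
    unfold sq cK
    rw [Finset.mul_sum]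
    refine Finset.sum_congr rfl fun i _ => ?_
    rw [Finset.mul_sum]
    refine Finset.sum_congr rfl fun j _ => ?_
    split_ifs
    · rw [mul_pow, div_pow, one_pow, Real.sq_sqrt (Nat.cast_nonneg n)]
    · simp
  rw [h2, h]
  ring

theorem FF_eq_integral (n N M : ℕ) (g b : ℕ → ℝ) (Ψ : (Fin N → Pos M → Bool) → ℂ) :
    FF (mu b M) (gam g M) n N Ψ = ∫ J, GJ n N M J g b Ψ ∂(gaussianCouplings N) := by
  unfold GJ
  rw [integral_finsetSum _ (fun a _ => ?_)]
  · unfold FF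
    refine Finset.sum_congr rfl fun a _ => ?_
    rw [integral_mul_const, integral_const_mul, avg_exp, wt_eq]
  · exact ((integrable_exp_ph N (cK n N g a)).const_mul _).mul_const _

/-- (III.1) -/
theorem FF_Qp_norm_le (g b : ℕ → ℝ) (M n N : ℕ) (hNn : N ≤ n) (l : List (Pos M × Pos M)) :
    ‖FF (mu b M) (gam g M) n N (Qp n l)‖ ≤ 1 := by
  rw [FF_eq_integral]
  have : IsProbabilityMeasure (gaussianCouplings N) := by
    unfold gaussianCouplings; infer_instance
  have h := norm_integral_le_of_norm_le_const (μ := gaussianCouplings N) (C := 1)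
    (f := fun J => GJ n N M J g b (Qp n l)) (Filter.Eventually.of_forall fun J => by
      have := GJ_Qp_le n N M hNn J g b l (fun _ => 1) (Adm_one N M b)
      simpa using this)
  simpa using h

end

end Crest.Agent.R339.En
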