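import Mathlib
import Crest.Prelude.Def_SpinGlass
import Crest.Agent.R339.Lim286Def
import Crest.Agent.R339.En220A
import Crest.Agent.R339.En220B
import Crest.Agent.R339.En220C
import Crest.Agent.R339.En220D

/-!
R339 part (C1), helper220: (III.2) `energy_eq`, the averaged energy as a path functional.
-/

set_option autoImplicit false

namespace Crest.Agent.R339.En

open MeasureTheory ProbabilityTheory Complex
open Crest.MathPhysics.SpinGlass Crest.Agent.R339.Lim
open scoped BigOperators ComplexConjugate

noncomputable section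

/-- cost angle of layer `l` -/
def gA (angles : List (ℝ × ℝ)) (l : ℕ) : ℝ := (angles.getD l (0, 0)).1
/-- mixer angle of layer `l` -/
def bA (angles : List (ℝ × ℝ)) (l : ℕ) : ℝ := (angles.getD l (0, 0)).2

theorem gA_append (angles : List (ℝ × ℝ)) (x : ℝ × ℝ) (l : ℕ) (hl : l < angles.length) :
    gA (angles ++ [x]) l = gA angles l := by
  unfold gA
  rw [List.getD_append _ _ _ _ hl]

theorem bA_append (angles : List (ℝ × ℝ)) (x : ℝ × ℝ) (l : ℕ) (hl : l < angles.length) :
    bA (angles ++ [x]) l = bA angles l := by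
  unfold bA
  rw [List.getD_append _ _ _ _ hl]

theorem gA_last (angles : List (ℝ × ℝ)) (x : ℝ × ℝ) :
    gA (angles ++ [x]) angles.length = x.1 := by
  unfold gA
  rw [List.getD_append_right _ _ _ _ le_rfl]
  simp

theorem bA_last (angles : List (ℝ × ℝ)) (x : ℝ × ℝ) :
    bA (angles ++ [x]) angles.length = x.2 := by
  unfold bA
  rw [List.getD_append_right _ _ _ _ le_rfl]
  simp

theorem altState_append (n : ℕ) (J : Fin n → Fin n → ℝ) (angles : List (ℝ × ℝ)) (x : ℝ × ℝ) :
    alternatingState n J (angles ++ [x]) =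
      mixerRotation n x.2 (costRotation n J x.1 (alternatingState n J angles)) := by
  unfold alternatingState
  rw [List.foldl_append]
  rfl

theorem altState_eq (n : ℕ) (J : Fin n → Fin n → ℝ) (angles : List (ℝ × ℝ)) :
    alternatingState n J angles =
      vec (Tm n (bA angles)) (Fc n n J (gA angles) (fun _ _ => 1)) (plusState n)
        angles.length := by
  induction angles using List.reverseRecOn with
  | nil => rfl
  | append_singleton angles x ih =>
    rw [altState_append, ih, List.length_append, List.length_singleton]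
    have h1 : vec (Tm n (bA (angles ++ [x]))) (Fc n n J (gA (angles ++ [x])) (fun _ _ => 1))
        (plusState n) angles.length
        = vec (Tm n (bA angles)) (Fc n n J (gA angles) (fun _ _ => 1)) (plusState n)
          angles.length := by
      refine vec_congr _ (fun l hl => ?_) (fun l hl => ?_)
      · unfold Tm
        rw [bA_append _ _ _ hl]
      · unfold Fc
        rw [gA_append _ _ _ hl]
    funext σ
    simp only [vec]
    rw [h1]
    unfold mixerRotation costRotation
    refine Finset.sum_congr rfl fun τ _ => ?_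
    have e1 : (∏ j, if σ j = τ j then ((Real.cos x.2 : ℝ) : ℂ) else -(I * ((Real.sin x.2 : ℝ) : ℂ)))
        = Tm n (bA (angles ++ [x])) angles.length σ τ := by
      unfold Tm
      rw [bA_last]
      rfl
    have e2 : cexp (-(I * (x.1 : ℂ) * (pairEnergy n J τ : ℂ)))
        = Fc n n J (gA (angles ++ [x])) (fun _ _ => 1) angles.length τ := by
      unfold Fc
      rw [gA_last, mul_one, Ee_self]
    rw [e1, e2]

theorem energy_fixed (n : ℕ) (J : Fin n → Fin n → ℝ) (angles : List (ℝ × ℝ)) :
    ((expectedEnergy n J (alternatingState n J angles) : ℝ) : ℂ) =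
      GJ n n angles.length J (gA angles) (bA angles)
        (fun a => ((Ee n n J (fun j => a j (true, Fin.last angles.length)) : ℝ) : ℂ)) := by
  have h := main_path n n angles.length J (gA angles) (bA angles) (fun _ _ => 1) (fun _ _ => 1)
    (fun σ => ((Ee n n J σ : ℝ) : ℂ))
  unfold GJ
  simp only [map_one, Finset.prod_const_one, mul_one] at h
  rw [h, ← altState_eq]
  unfold expectedEnergy
  push_cast
  refine Finset.sum_congr rfl fun σ _ => ?_
  rw [Complex.conj_mul', Ee_self]

theorem sum_SK {n M : ℕ} (g : ℕ → ℝ) (a : Fin n → Pos M → Bool) (hn : 0 < n) (t : Pos M) :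
    (∑ i, ∑ j, if i < j then spinSign (a i t) * spinSign (a j t) * Kf (gam g M) (a i) (a j) else 0)
      = (1 / 2) * (n : ℝ) ^ 2 * ∑ τ, gam g M τ * (Q n a t τ) ^ 2 := by
  have h := sum_symm (fun i j => spinSign (a i t) * spinSign (a j t) * Kf (gam g M) (a i) (a j))
    (fun i j => by rw [Kf_comm]; ring) (fun i => by rw [Kf_self]; ring)
  have h2 : ∑ i, ∑ j, spinSign (a i t) * spinSign (a j t) * Kf (gam g M) (a i) (a j)
      = (n : ℝ) ^ 2 * ∑ τ, gam g M τ * (Q n a t τ) ^ 2 := by
    have h3 : ∀ τ, gam g M τ * (Q n a t τ) ^ 2 = (1 / (n : ℝ)) ^ 2 * (gam g M τ *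
        ∑ i, ∑ j, (spinSign (a i t) * spinSign (a i τ)) * (spinSign (a j t) * spinSign (a j τ))) := by
      intro τ
      unfold Q
      rw [← Finset.sum_mul_sum]
      ring
    simp_rw [h3]
    rw [← Finset.mul_sum, ← mul_assoc, ← mul_pow, mul_one_div_cancel (by positivity), one_pow,
      one_mul]
    unfold Kf
    simp_rw [Finset.mul_sum]
    rw [Finset.sum_comm' (t' := Finset.univ) (s' := fun _ => Finset.univ) (by simp)]
    rw [Finset.sum_comm]
    conv_rhs => rw [Finset.sum_comm]
    refine Finset.sum_congr rfl fun i _ => ?_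
    conv_rhs => rw [Finset.sum_comm]
    refine Finset.sum_congr rfl fun j _ => ?_
    refine Finset.sum_congr rfl fun τ _ => ?_
    ring
  linarith

theorem avg_energy_path (n M : ℕ) (hn : 0 < n) (g : ℕ → ℝ) (a : Fin n → Pos M → Bool) (t : Pos M) :
    ∫ J, cexp (I * (ph n (cK n n g a) J : ℂ)) * ((Ee n n J (fun j => a j t) : ℝ) : ℂ)
        ∂(gaussianCouplings n)
      = (wt (gam g M) n a : ℂ) * ((n : ℂ) * (I / 2) * ∑ τ, (gam g M τ : ℂ) * (Q n a t τ : ℂ) ^ 2) := by
  have h1 : ∀ J : Fin n → Fin n → ℝ,
      cexp (I * (ph n (cK n n g a) J : ℂ)) * ((Ee n n J (fun j => a j t) : ℝ) : ℂ)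
      = ∑ i, ∑ j, if i < j then
        ((1 / Real.sqrt n * (spinSign (a i t) * spinSign (a j t)) : ℝ) : ℂ) *
          ((J i j : ℂ) * cexp (I * (ph n (cK n n g a) J : ℂ))) else 0 := by
    intro J
    unfold Ee
    push_cast
    rw [Finset.mul_sum, Finset.mul_sum]
    refine Finset.sum_congr rfl fun i _ => ?_
    rw [Finset.mul_sum, Finset.mul_sum]
    refine Finset.sum_congr rfl fun j _ => ?_
    split_ifs
    · push_cast; ring
    · simp
  simp_rw [h1]
  have hint : ∀ i j : Fin n, Integrable (fun J : Fin n → Fin n → ℝ => if i < j then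
        ((1 / Real.sqrt n * (spinSign (a i t) * spinSign (a j t)) : ℝ) : ℂ) *
          ((J i j : ℂ) * cexp (I * (ph n (cK n n g a) J : ℂ))) else 0) (gaussianCouplings n) := by
    intro i j
    split_ifs
    · exact (integrable_J_exp_ph n _ i j).const_mul _
    · exact integrable_zero _ _ _
  rw [integral_finsetSum _ (fun i _ => integrable_finsetSum _ fun j _ => hint i j)]
  simp_rw [integral_finsetSum _ (fun j _ => hint _ j)]
  have h2 : ∀ i j : Fin n, ∫ J : Fin n → Fin n → ℝ, (if i < j then
        ((1 / Real.sqrt n * (spinSign (a i t) * spinSign (a j t)) : ℝ) : ℂ) *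
          ((J i j : ℂ) * cexp (I * (ph n (cK n n g a) J : ℂ))) else 0) ∂(gaussianCouplings n)
      = (I * (wt (gam g M) n a : ℂ) * (1 / n : ℂ)) * (((if i < j then
        spinSign (a i t) * spinSign (a j t) * Kf (gam g M) (a i) (a j) else 0) : ℝ) : ℂ) := by
    intro i j
    split_ifs with hij
    · rw [integral_const_mul, avg_J_exp n _ i j hij, ← wt_eq]
      have hs : ((1 / Real.sqrt n : ℝ) : ℂ) * ((1 / Real.sqrt n : ℝ) : ℂ) = (1 / n : ℂ) := by
        rw [← Complex.ofReal_mul, div_mul_div_comm, one_mul, Real.mul_self_sqrt (Nat.cast_nonneg n)]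
        push_cast; rfl
      unfold cK
      rw [← hs]
      push_cast
      ring
    · simp
  simp_rw [h2, ← Finset.mul_sum]
  have h3 := sum_SK g a hn t
  have h4 : (∑ i : Fin n, ∑ j : Fin n, (((if i < j then
        spinSign (a i t) * spinSign (a j t) * Kf (gam g M) (a i) (a j) else 0) : ℝ) : ℂ))
      = (((1 / 2) * (n : ℝ) ^ 2 * ∑ τ, gam g M τ * (Q n a t τ) ^ 2 : ℝ) : ℂ) := by
    rw [← h3]; push_cast; rfl
  rw [h4]
  push_cast
  have hn' : (n : ℂ) ≠ 0 := by exact_mod_cast hn.ne'
  field_simp

/-- (III.2) -/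
theorem energy_eq (n : ℕ) (hn : 1 ≤ n) (angles : List (ℝ × ℝ)) :
    (((∫ J, expectedEnergy n J (alternatingState n J angles) ∂(gaussianCouplings n)) / n : ℝ) : ℂ)
      = (I / 2) * ∑ τ, (gam (gA angles) angles.length τ : ℂ) *
        FF (mu (bA angles) angles.length) (gam (gA angles) angles.length) n n
          (fun a => (Q n a (true, Fin.last angles.length) τ : ℂ) ^ 2) := by
  have hn' : (n : ℂ) ≠ 0 := by exact_mod_cast (by omega : n ≠ 0)
  rw [Complex.ofReal_div, ← integral_complex_ofReal]
  simp_rw [energy_fixed]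
  unfold GJ
  rw [integral_finsetSum _ (fun a _ => ?_)]
  · have h1 : ∀ a : Fin n → Pos angles.length → Bool,
        ∫ J, (∏ j, mu (bA angles) angles.length (a j)) *
          cexp (I * (ph n (cK n n (gA angles) a) J : ℂ)) *
          ((Ee n n J (fun j => a j (true, Fin.last angles.length)) : ℝ) : ℂ) ∂(gaussianCouplings n)
        = (∏ j, mu (bA angles) angles.length (a j)) *
          ((wt (gam (gA angles) angles.length) n a : ℂ) * ((n : ℂ) * (I / 2) *
            ∑ τ, (gam (gA angles) angles.length τ : ℂ) *
              (Q n a (true, Fin.last angles.length) τ : ℂ) ^ 2)) := by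
      intro a
      rw [← avg_energy_path n angles.length (by omega) (gA angles) a, ← integral_const_mul]
      refine integral_congr_ae (Filter.Eventually.of_forall fun J => ?_)
      ring
    simp_rw [h1]
    unfold FF
    simp_rw [Finset.mul_sum]
    rw [Finset.sum_comm]
    simp_rw [Complex.ofReal_natCast, Finset.sum_div]
    refine Finset.sum_congr rfl fun τ _ => ?_
    refine Finset.sum_congr rfl fun a _ => ?_
    field_simp
  · simp_rw [mul_assoc]
    refine Integrable.const_mul ?_ _
    have h1 : ∀ J : Fin n → Fin n → ℝ,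
        cexp (I * (ph n (cK n n (gA angles) a) J : ℂ)) *
          ((Ee n n J (fun j => a j (true, Fin.last angles.length)) : ℝ) : ℂ)
        = ∑ i, ∑ j, if i < j then
          ((1 / Real.sqrt n * (spinSign (a i (true, Fin.last angles.length)) *
            spinSign (a j (true, Fin.last angles.length))) : ℝ) : ℂ) *
            ((J i j : ℂ) * cexp (I * (ph n (cK n n (gA angles) a) J : ℂ))) else 0 := by
      intro J
      unfold Ee
      push_cast
      rw [Finset.mul_sum, Finset.mul_sum]
      refine Finset.sum_congr rfl fun i _ => ?_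
      rw [Finset.mul_sum, Finset.mul_sum]
      refine Finset.sum_congr rfl fun j _ => ?_
      split_ifs
      · push_cast; ring
      · simp
    simp_rw [h1]
    refine integrable_finsetSum _ fun i _ => integrable_finsetSum _ fun j _ => ?_
    split_ifs
    · exact (integrable_J_exp_ph n _ i j).const_mul _
    · exact integrable_zero _ _ _

end

end Crest.Agent.R339.En
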