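import Crest.Agent.R339.Lim286Tan

/-!
R339 part (C1): the circuit weights, dropping the top layer, and the limit theorem.
-/

set_option autoImplicit false
set_option linter.unusedSectionVars false

namespace Crest.Agent.R339.Lim

open Crest.MathPhysics.SpinGlass MeasureTheory Filter Topology
open scoped BigOperators

/-- restriction of a site path to the lower levels. -/
def rst (M : ℕ) (a : Pos (M + 1) → Bool) : Pos M → Bool := fun τ => a (τ.1, τ.2.castSucc)

/-- extension of a site path by two top values. -/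
def ext (M : ℕ) (a : Pos M → Bool) (u : Bool × Bool) : Pos (M + 1) → Bool :=
  fun τ => (Fin.snoc (α := fun _ => Bool) (fun l => a (τ.1, l)) (if τ.1 then u.2 else u.1)) τ.2

lemma rst_ext (M : ℕ) (a : Pos M → Bool) (u : Bool × Bool) : rst M (ext M a u) = a := by
  funext τ
  simp [rst, ext]

/-- splitting off the top values. -/
def splitTop (M : ℕ) : (Pos (M + 1) → Bool) ≃ (Pos M → Bool) × (Bool × Bool) where
  toFun a := (rst M a, (a (false, Fin.last (M + 1)), a (true, Fin.last (M + 1))))
  invFun p := ext M p.1 p.2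
  left_inv a := by
    funext τ
    obtain ⟨s, l⟩ := τ
    refine Fin.lastCases ?_ (fun i => ?_) l
    · cases s <;> simp [ext]
    · simp [ext, rst]
  right_inv p := by
    obtain ⟨a, u, v⟩ := p
    simp only [rst_ext]
    simp [ext]

lemma amp_succ (b : ℕ → ℝ) (M : ℕ) (y : Fin (M + 2) → Bool) :
    amp b (M + 1) y = amp b M (fun l => y l.castSucc)
      * mx (b M) (y (Fin.last (M + 1))) (y (Fin.last M).castSucc) := by
  unfold amp
  rw [Fin.prod_univ_castSucc]
  simp only [Fin.val_castSucc, Fin.val_last, Fin.succ_castSucc, Fin.succ_last]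

lemma mx_sum (b : ℝ) (x y : Bool) :
    ∑ u : Bool, (starRingEnd ℂ) (mx b u x) * mx b u y = if x = y then 1 else 0 := by
  have h : ((Real.cos b : ℝ) : ℂ) * ((Real.cos b : ℝ) : ℂ)
      + ((Real.sin b : ℝ) : ℂ) * ((Real.sin b : ℝ) : ℂ) = 1 := by
    rw [← Complex.ofReal_mul, ← Complex.ofReal_mul, ← Complex.ofReal_add]
    have : Real.cos b * Real.cos b + Real.sin b * Real.sin b = 1 := by
      have := Real.cos_sq_add_sin_sq b
      nlinarith
    rw [this]
    simp
  rw [Fintype.sum_bool]
  cases x <;> cases y <;> simp only [mx, map_neg, map_mul, Complex.conj_I, Complex.conj_ofReal,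
    if_true, if_false, Bool.false_eq_true, Bool.true_eq_false, reduceIte, reduceCtorEq]
  · linear_combination h + (-((Real.sin b : ℝ) : ℂ) * ((Real.sin b : ℝ) : ℂ)) * Complex.I_mul_I
  · ring
  · ring
  · linear_combination h + (-((Real.sin b : ℝ) : ℂ) * ((Real.sin b : ℝ) : ℂ)) * Complex.I_mul_I

lemma mu_ext (b : ℕ → ℝ) (M : ℕ) (a : Pos M → Bool) (u v : Bool) :
    mu b (M + 1) (ext M a (u, v))
      = (1 / 2) * (starRingEnd ℂ (amp b M (fun l => a (false, l))) * amp b M (fun l => a (true, l)))
        * ((if u = v then 1 else 0) * (starRingEnd ℂ (mx (b M) u (a (false, Fin.last M)))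
          * mx (b M) v (a (true, Fin.last M)))) := by
  unfold mu
  rw [amp_succ, amp_succ]
  have h1 : ∀ l : Fin (M + 1), ext M a (u, v) (false, l.castSucc) = a (false, l) := by
    intro l; simp [ext]
  have h2 : ∀ l : Fin (M + 1), ext M a (u, v) (true, l.castSucc) = a (true, l) := by
    intro l; simp [ext]
  have h3 : ext M a (u, v) (false, Fin.last (M + 1)) = u := by simp [ext]
  have h4 : ext M a (u, v) (true, Fin.last (M + 1)) = v := by simp [ext]
  simp only [h1, h2, h3, h4, map_mul]
  ring

lemma mu_sum_top (b : ℕ → ℝ) (M : ℕ) (a : Pos M → Bool) :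
    ∑ u : Bool × Bool, mu b (M + 1) (ext M a u) = mu b M a := by
  rw [Fintype.sum_prod_type]
  simp_rw [mu_ext]
  have h : ∀ u : Bool, ∑ v : Bool,
      (1 / 2) * (starRingEnd ℂ (amp b M (fun l => a (false, l))) * amp b M (fun l => a (true, l)))
        * ((if u = v then 1 else 0) * (starRingEnd ℂ (mx (b M) u (a (false, Fin.last M)))
          * mx (b M) v (a (true, Fin.last M))))
      = (1 / 2) * (starRingEnd ℂ (amp b M (fun l => a (false, l))) * amp b M (fun l => a (true, l)))
        * ((starRingEnd ℂ (mx (b M) u (a (false, Fin.last M)))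
          * mx (b M) u (a (true, Fin.last M)))) := by
    intro u
    rw [← Finset.mul_sum]
    congr 1
    simp
  rw [Finset.sum_congr rfl fun u _ => h u, ← Finset.mul_sum, mx_sum]
  unfold mu
  ring

lemma gam_castSucc_lt (g : ℕ → ℝ) (M : ℕ) (s : Bool) (l : Fin (M + 1)) (hl : (l : ℕ) < M) :
    gam g (M + 1) (s, l.castSucc) = gam g M (s, l) := by
  have h1 : (l : ℕ) < M + 1 := by omega
  simp only [gam, Fin.val_castSucc, h1, hl, if_true]

lemma gam_last (g : ℕ → ℝ) (M : ℕ) (s : Bool) : gam g M (s, Fin.last M) = 0 := by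
  simp [gam]

lemma gam_sum (g : ℕ → ℝ) (M : ℕ) : ∑ τ, gam g M τ = 0 := by
  rw [Fintype.sum_prod_type, Fintype.sum_bool, ← Finset.sum_add_distrib]
  refine Finset.sum_eq_zero fun l _ => ?_
  unfold gam
  by_cases h : (l : ℕ) < M <;> simp [h]

lemma Kf_succ (g : ℕ → ℝ) (M : ℕ) (a a' : Pos (M + 1) → Bool)
    (h1 : a (false, (Fin.last M).castSucc) = a (true, (Fin.last M).castSucc))
    (h2 : a' (false, (Fin.last M).castSucc) = a' (true, (Fin.last M).castSucc)) :
    Kf (gam g (M + 1)) a a' = Kf (gam g M) (rst M a) (rst M a') := by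
  unfold Kf
  rw [Fintype.sum_prod_type, Fintype.sum_bool, Fintype.sum_prod_type, Fintype.sum_bool,
    ← Finset.sum_add_distrib, ← Finset.sum_add_distrib, Fin.sum_univ_castSucc]
  have h3 : gam g (M + 1) (true, Fin.last (M + 1)) = 0 := gam_last g (M + 1) true
  have h4 : gam g (M + 1) (false, Fin.last (M + 1)) = 0 := gam_last g (M + 1) false
  rw [h3, h4, zero_mul, zero_mul, add_zero, add_zero]
  refine Finset.sum_congr rfl fun l _ => ?_
  by_cases hl : (l : ℕ) < M
  · rw [gam_castSucc_lt g M true l hl, gam_castSucc_lt g M false l hl]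
    rfl
  · have hl' : l = Fin.last M := by
      apply Fin.ext
      have := l.2
      simp only [Fin.val_last]
      omega
    subst hl'
    rw [gam_last, gam_last]
    have h5 : gam g (M + 1) (true, (Fin.last M).castSucc) = -(g M) := by simp [gam]
    have h6 : gam g (M + 1) (false, (Fin.last M).castSucc) = g M := by simp [gam]
    rw [h5, h6, h1, h2]
    ring

lemma mu_eq_zero (b : ℕ → ℝ) (M : ℕ) (a : Pos M → Bool)
    (h : a (false, Fin.last M) ≠ a (true, Fin.last M)) : mu b M a = 0 := by
  simp [mu, h]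

/-- DROP: a function that ignores the top slices only sees the shorter circuit. -/
theorem FF_drop (g b : ℕ → ℝ) (M n N : ℕ) (Ψ : (Fin N → Pos M → Bool) → ℂ) :
    FF (mu b (M + 1)) (gam g (M + 1)) n N (fun a => Ψ (fun j => rst M (a j)))
      = FF (mu b M) (gam g M) n N Ψ := by
  classical
  unfold FF
  rw [← Equiv.sum_comp ((Equiv.arrowProdEquivProdArrow (Fin N) (fun _ => Pos M → Bool)
      (fun _ => Bool × Bool)).symm.trans
      (Equiv.arrowCongr (Equiv.refl (Fin N)) (splitTop M).symm))]
  rw [Fintype.sum_prod_type]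
  refine Finset.sum_congr rfl fun a _ => ?_
  have h0 : ∀ u : Fin N → Bool × Bool,
      ((Equiv.arrowProdEquivProdArrow (Fin N) (fun _ => Pos M → Bool)
      (fun _ => Bool × Bool)).symm.trans
      (Equiv.arrowCongr (Equiv.refl (Fin N)) (splitTop M).symm)) (a, u)
      = fun j => ext M (a j) (u j) := by
    intro u
    funext j
    rfl
  simp_rw [h0, rst_ext]
  by_cases hs : ∀ j, a j (false, Fin.last M) = a j (true, Fin.last M)
  · have hw : ∀ u : Fin N → Bool × Bool,
        wt (gam g (M + 1)) n (fun j => ext M (a j) (u j)) = wt (gam g M) n a := by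
      intro u
      unfold wt
      congr 2
      refine Finset.sum_congr rfl fun i _ => Finset.sum_congr rfl fun j _ => ?_
      rw [Kf_succ g M _ _ ?_ ?_, rst_ext, rst_ext]
      · simpa [ext] using hs i
      · simpa [ext] using hs j
    simp_rw [hw]
    rw [← Finset.sum_mul, ← Finset.sum_mul]
    congr 2
    have h1 : ∏ j, mu b M (a j) = ∏ j, ∑ u : Bool × Bool, mu b (M + 1) (ext M (a j) u) :=
      Finset.prod_congr rfl fun j _ => (mu_sum_top b M (a j)).symm
    rw [h1, Finset.prod_univ_sum, Fintype.piFinset_univ]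
  · obtain ⟨j, hj⟩ := not_forall.1 hs
    have h1 : ∏ j, mu b M (a j) = 0 :=
      Finset.prod_eq_zero (Finset.mem_univ j) (mu_eq_zero b M _ hj)
    rw [h1, zero_mul, zero_mul]
    -- the sum over the tops at site `j` vanishes; but the weight depends on the lower part only
    have hw : ∀ u : Fin N → Bool × Bool,
        wt (gam g (M + 1)) n (fun j => ext M (a j) (u j))
          = wt (gam g (M + 1)) n (fun j => ext M (a j) (false, false)) := by
      intro u
      unfold wt
      congr 2
      refine Finset.sum_congr rfl fun i _ => Finset.sum_congr rfl fun j _ => ?_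
      congr 1
      unfold Kf
      refine Finset.sum_congr rfl fun τ _ => ?_
      obtain ⟨s, l⟩ := τ
      refine Fin.lastCases ?_ (fun l => ?_) l
      · rw [gam_last]; simp
      · simp [ext]
    simp_rw [hw]
    rw [← Finset.sum_mul, ← Finset.sum_mul]
    have h2 : ∑ u : Fin N → Bool × Bool, ∏ j, mu b (M + 1) (ext M (a j) (u j)) = 0 := by
      have h3 : ∏ j, ∑ u : Bool × Bool, mu b (M + 1) (ext M (a j) u) = 0 :=
        Finset.prod_eq_zero (Finset.mem_univ j) (by rw [mu_sum_top]; exact mu_eq_zero b M _ hj)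
      rw [Finset.prod_univ_sum, Fintype.piFinset_univ] at h3
      exact h3
    rw [h2, zero_mul, zero_mul]

lemma FF_Qp_nil_zero (g b : ℕ → ℝ) (n N : ℕ) :
    FF (mu b 0) (gam g 0) n N (Qp n []) = 1 := by
  unfold FF
  have h1 : ∀ a : Fin N → Pos 0 → Bool, wt (gam g 0) n a = 1 := by
    intro a
    unfold wt
    have : ∀ i j, Kf (gam g 0) (a i) (a j) = 0 := by
      intro i j
      unfold Kf
      refine Finset.sum_eq_zero fun τ _ => ?_
      simp [gam]
    simp [this]
  simp_rw [h1, Qp_nil]
  simp only [Complex.ofReal_one, mul_one]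
  have h2 : ∑ a : Pos 0 → Bool, mu b 0 a = 1 := by
    have h3 : ∀ a : Pos 0 → Bool, mu b 0 a
        = (1 / 2) * (if a (false, 0) = a (true, 0) then 1 else 0) := by
      intro a
      simp [mu, amp]
    simp_rw [h3]
    rw [← Finset.mul_sum]
    have h4 : ∑ a : Pos 0 → Bool, (if a (false, 0) = a (true, 0) then (1 : ℂ) else 0) = 2 := by
      let e : (Pos 0 → Bool) ≃ Bool × Bool :=
        { toFun := fun a => (a (false, 0), a (true, 0))
          invFun := fun p τ => if τ.1 then p.2 else p.1
          left_inv := by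
            intro a
            funext τ
            obtain ⟨s, l⟩ := τ
            have hl : l = 0 := by
              apply Fin.ext
              have := l.2
              simp only [Fin.val_zero]
              omega
            subst hl
            cases s <;> simp
          right_inv := by
            intro p
            simp }
      have h5 : ∑ a : Pos 0 → Bool, (if a (false, 0) = a (true, 0) then (1 : ℂ) else 0)
          = ∑ p : Bool × Bool, (if p.1 = p.2 then (1 : ℂ) else 0) :=
        Equiv.sum_comp e (fun p : Bool × Bool => if p.1 = p.2 then (1 : ℂ) else 0)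
      rw [h5, Fintype.sum_prod_type, Fintype.sum_bool, Fintype.sum_bool, Fintype.sum_bool]
      norm_num
    rw [h4]
    norm_num
  calc ∑ a : Fin N → Pos 0 → Bool, ∏ j, mu b 0 (a j)
      = ∏ _j : Fin N, ∑ a : Pos 0 → Bool, mu b 0 a := by
        rw [Finset.prod_univ_sum, Fintype.piFinset_univ]
    _ = 1 := by rw [h2]; simp

/-- the consistent family hypothesis (fixed point equations of the overlap numbers). -/
def GCons (g b : ℕ → ℝ) (G : Bool × ℕ → Bool × ℕ → ℂ) : Prop :=
  ∀ (M : ℕ) (t t' : Pos M),
    (∑ a : Pos M → Bool, mu b M a * ((spinSign (a t) * spinSign (a t') : ℝ) : ℂ)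
      * Complex.exp (-(1 / 2) * ∑ ρ : Pos M, ∑ ρ' : Pos M,
        ((gam g M ρ * gam g M ρ' * spinSign (a ρ) * spinSign (a ρ') : ℝ) : ℂ)
          * G (ρ.1, (ρ.2 : ℕ)) (ρ'.1, (ρ'.2 : ℕ))))
      = G (t.1, (t.2 : ℕ)) (t'.1, (t'.2 : ℕ))

/-- the family restricted to the slices of height `M`. -/
def GR (G : Bool × ℕ → Bool × ℕ → ℂ) (M : ℕ) (q : Pos M × Pos M) : ℂ :=
  G (q.1.1, (q.1.2 : ℕ)) (q.2.1, (q.2.2 : ℕ))

lemma Gnext_GR {g b : ℕ → ℝ} {G : Bool × ℕ → Bool × ℕ → ℂ} (hG : GCons g b G) (M : ℕ)
    (q : Pos M × Pos M) : Gnext (mu b M) (gam g M) (GR G M) q = GR G M q := by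
  have h := hG M q.1 q.2
  unfold GR at *
  rw [← h]
  unfold Gnext
  refine Finset.sum_congr rfl fun a _ => ?_
  congr 2
  rw [Fintype.sum_prod_type, Finset.mul_sum]
  refine Finset.sum_congr rfl fun ρ _ => ?_
  rw [Finset.mul_sum]
  refine Finset.sum_congr rfl fun ρ' _ => ?_
  unfold cof
  push_cast
  ring

/-- a pair of slices of height `M` seen in height `M+1`. -/
def lft (M : ℕ) (q : Pos M × Pos M) : Pos (M + 1) × Pos (M + 1) :=
  ((q.1.1, q.1.2.castSucc), (q.2.1, q.2.2.castSucc))

lemma low_lift (M : ℕ) : ∀ k : List (Pos (M + 1) × Pos (M + 1)),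
    (∀ q ∈ k, (q.1.2 : ℕ) < M + 1 ∧ (q.2.2 : ℕ) < M + 1) →
    ∃ k' : List (Pos M × Pos M), k = k'.map (lft M) := by
  intro k
  induction k with
  | nil => intro _; exact ⟨[], rfl⟩
  | cons q k ih =>
    intro h
    obtain ⟨k', hk'⟩ := ih (fun q' hq' => h q' (List.mem_cons_of_mem _ hq'))
    have hq := h q (by simp)
    refine ⟨((q.1.1, ⟨q.1.2, hq.1⟩), (q.2.1, ⟨q.2.2, hq.2⟩)) :: k', ?_⟩
    rw [List.map_cons, ← hk']
    rfl

/-- **Limit theorem for the overlaps**, for every shift `c`. -/
theorem tendsto_FF_shift {g b : ℕ → ℝ} {G : Bool × ℕ → Bool × ℕ → ℂ} (hG : GCons g b G)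
    (hB : ∀ M, BddQ (mu b M) (gam g M)) (M : ℕ) :
    ∀ (l : List (Pos M × Pos M)) (c : ℕ),
      Tendsto (fun N => FF (mu b M) (gam g M) (N + c) N (Qp (N + c) l)) atTop
        (𝓝 ((l.map (GR G M)).prod)) := by
  induction M with
  | zero =>
    intro l c
    have h := conv_general (mu b 0) (gam g 0) (gam_sum g 0) (hB 0) (fun _ => False)
      (fun q h1 _ => absurd (by simp [gam]) h1) (GR G 0)
      (by
        intro k hk c
        have : k = [] := by
          cases k with
          | nil => rfl
          | cons q k => exact absurd (hk q (by simp)) (by simp)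
        subst this
        simp_rw [FF_Qp_nil_zero]
        simp) l [] (by simp) c
    have h2 : (l.map (Gnext (mu b 0) (gam g 0) (GR G 0))) = l.map (GR G 0) :=
      List.map_congr_left fun q _ => Gnext_GR hG 0 q
    rw [h2] at h
    simpa using h
  | succ M ih =>
    intro l c
    have h := conv_general (mu b (M + 1)) (gam g (M + 1)) (gam_sum g (M + 1)) (hB (M + 1))
      (fun q => (q.1.2 : ℕ) < M + 1 ∧ (q.2.2 : ℕ) < M + 1)
      (by
        intro q h1 h2
        constructor
        · by_contra h3
          exact h1 (by simp [gam, h3])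
        · by_contra h3
          exact h2 (by simp [gam, h3]))
      (GR G (M + 1))
      (by
        intro k hk c
        -- rewrite the low list as the image of a list of pairs of slices of height `M`
        obtain ⟨k', rfl⟩ := low_lift M k hk
        have h1 : ∀ N : ℕ, FF (mu b (M + 1)) (gam g (M + 1)) (N + c) N
            (Qp (N + c) (k'.map (lft M)))
            = FF (mu b M) (gam g M) (N + c) N (Qp (N + c) k') := by
          intro N
          rw [← FF_drop g b M (N + c) N (Qp (N + c) k')]
          congr 1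
          funext a
          unfold Qp
          rw [List.map_map]
          rfl
        simp_rw [h1]
        have h2 : ((k'.map (lft M)).map (GR G (M + 1))) = k'.map (GR G M) := by
          rw [List.map_map]
          rfl
        rw [h2]
        exact ih k' c) l [] (by simp) c
    have h2 : (l.map (Gnext (mu b (M + 1)) (gam g (M + 1)) (GR G (M + 1))))
        = l.map (GR G (M + 1)) :=
      List.map_congr_left fun q _ => Gnext_GR hG (M + 1) q
    rw [h2] at h
    simpa using h

/-- **Limit theorem for the overlaps.** -/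
theorem tendsto_FF {g b : ℕ → ℝ} {G : Bool × ℕ → Bool × ℕ → ℂ} (hG : GCons g b G)
    (hB : ∀ M, BddQ (mu b M) (gam g M)) (p : ℕ) (l : List (Pos p × Pos p)) :
    Tendsto (fun n => FF (mu b p) (gam g p) n n (Qp n l)) atTop (𝓝 ((l.map (GR G p)).prod)) :=
  tendsto_FF_shift hG hB p l 0

end Crest.Agent.R339.Lim
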