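import Mathlib
import Crest.Agent.R339.LimFock90
import Crest.Agent.R339.Lim286Circ
import Crest.Agent.R339.En220E

/-!
# The limit theorem for plain words: glue
-/

set_option autoImplicit false

noncomputable section

open scoped ComplexConjugate InnerProductSpace Topology
open Filter Crest.MathPhysics.SpinGlass Crest.Agent.R339.Lim MeasureTheory

namespace Crest.Agent.R339.Site

variable {K : Type*} [NormedAddCommGroup K] [InnerProductSpace ℂ K]

lemma GCons_GF (ι : Sp K →ₗᵢ[ℂ] K) (g b : ℕ → ℝ) : GCons g b (GF ι g b) :=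
  fun M t t' => GF_recursion ι g b M t t'

/-- (III.2) -/
def EnergyEq : Prop := ∀ (angles : List (ℝ × ℝ)) (n : ℕ), 1 ≤ n →
  (((∫ J, expectedEnergy n J (alternatingState n J angles) ∂(gaussianCouplings n)) / n : ℝ) : ℂ) =
    (Complex.I / 2) * ∑ τ : Pos angles.length,
      (gam (fun l => (angles.getD l (0, 0)).1) angles.length τ : ℂ) *
      FF (mu (fun l => (angles.getD l (0, 0)).2) angles.length)
        (gam (fun l => (angles.getD l (0, 0)).1) angles.length) n n
        (fun a => ((Q n a (true, Fin.last angles.length) τ : ℝ) : ℂ) ^ 2)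

theorem tendsto_energy_of (hB : ∀ g b : ℕ → ℝ, ∀ M, BddQ (mu b M) (gam g M)) (hE : EnergyEq)
    (ι : Sp K →ₗᵢ[ℂ] K) (angles : List (ℝ × ℝ)) :
    Tendsto (fun n : ℕ => (∫ J, expectedEnergy n J (alternatingState n J angles)
      ∂(gaussianCouplings n)) / n) atTop (𝓝 (energy ι (wordU ι angles))) := by
  set p := angles.length with hp
  set g : ℕ → ℝ := fun l => (angles.getD l (0, 0)).1 with hg
  set b : ℕ → ℝ := fun l => (angles.getD l (0, 0)).2 with hb
  have hw : wordU ι angles = Wd ι g b p := wordU_eq ι angles g b (fun _ _ => rfl) (fun _ _ => rfl)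
  rw [hw]
  have h1 : ∀ τ : Pos p, Tendsto (fun n => FF (mu b p) (gam g p) n n
      (fun a => ((Q n a (true, Fin.last p) τ : ℝ) : ℂ) ^ 2)) atTop
      (𝓝 (GF ι g b (true, p) (τ.1, (τ.2 : ℕ)) ^ 2)) := by
    intro τ
    have := tendsto_FF (GCons_GF ι g b) (hB g b) p
      [((true, Fin.last p), τ), ((true, Fin.last p), τ)]
    have h2 : (([((true, Fin.last p), τ), ((true, Fin.last p), τ)] : List (Pos p × Pos p)).map
        (GR (GF ι g b) p)).prod = GF ι g b (true, p) (τ.1, (τ.2 : ℕ)) ^ 2 := by
      simp [GR, pow_two]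
    rw [h2] at this
    refine this.congr fun n => ?_
    congr 1
    funext a
    simp [Qp, pow_two]
  have h3 : Tendsto (fun n => (Complex.I / 2) * ∑ τ : Pos p, (gam g p τ : ℂ) *
      FF (mu b p) (gam g p) n n (fun a => ((Q n a (true, Fin.last p) τ : ℝ) : ℂ) ^ 2)) atTop
      (𝓝 ((energy ι (Wd ι g b p) : ℝ) : ℂ)) := by
    rw [energy_contour]
    exact (tendsto_finsetSum _ fun τ _ => (h1 τ).const_mul _).const_mul _
  have h4 : Tendsto (fun n : ℕ => (((∫ J, expectedEnergy n J (alternatingState n J angles)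
      ∂(gaussianCouplings n)) / n : ℝ) : ℂ)) atTop (𝓝 ((energy ι (Wd ι g b p) : ℝ) : ℂ)) := by
    refine h3.congr' ?_
    filter_upwards [eventually_ge_atTop 1] with n hn
    exact (hE angles n hn).symm
  have h5 := (Complex.continuous_re.tendsto _).comp h4
  exact h5

theorem bddQ_all (g b : ℕ → ℝ) (M : ℕ) : BddQ (mu b M) (gam g M) :=
  fun n N hNn l => En.FF_Qp_norm_le g b M n N hNn l

theorem energyEq_all : EnergyEq := by
  intro angles n hn
  exact En.energy_eq n hn angles

/-- **(C1)** For every one-particle space `K` and every isometry `ι : Sp K → K`, the averaged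
energy per spin of an alternating word converges to the site-model energy of the word. -/
theorem tendsto_energy (ι : Sp K →ₗᵢ[ℂ] K) (angles : List (ℝ × ℝ)) :
    Tendsto (fun n : ℕ => (∫ J, expectedEnergy n J (alternatingState n J angles)
      ∂(gaussianCouplings n)) / n) atTop (𝓝 (energy ι (wordU ι angles))) :=
  tendsto_energy_of bddQ_all energyEq_all ι angles

end Crest.Agent.R339.Site
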