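import Crest.Agent.R339.D3Step

/-!
# Row 339, (D3): the Euler chain versus the tilted chain
-/

set_option autoImplicit false

namespace Crest.Agent.R339.D3

open MeasureTheory ProbabilityTheory Real
open Crest.Agent.R164.GC
open Crest.ProbabilityR.InvariantGlass (gaussOp)

noncomputable section

/-- composition of `k` kernels starting with the one of index `r` -/
def comp (P : ℕ → (ℝ → ℝ) → ℝ → ℝ) : ℕ → ℕ → (ℝ → ℝ) → ℝ → ℝ
  | 0, _, V => V
  | k + 1, r, V => P r (comp P k (r + 1) V)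

theorem comp_succ' (P : ℕ → (ℝ → ℝ) → ℝ → ℝ) : ∀ (k r : ℕ) (V : ℝ → ℝ),
    comp P (k + 1) r V = comp P k r (P (r + k) V)
  | 0, r, V => rfl
  | k + 1, r, V => by
    have := comp_succ' P k (r + 1) V
    rw [show r + 1 + k = r + (k + 1) by omega] at this
    show P r (comp P (k + 1) (r + 1) V) = P r (comp P k (r + 1) (P (r + (k + 1)) V))
    rw [this]

/-- the schedule -/
structure Sched (M C : ℝ) (K : ℕ) (h : ℝ) (m v : ℕ → ℝ) (f f1 f2 : ℕ → ℝ → ℝ) : Prop where
  M0 : 0 ≤ M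
  C0 : 0 ≤ C
  step : ∀ r < K, Step M C (m r) (v r) (f (r + 1)) (f1 (r + 1)) (f2 (r + 1))
  f1_eq : ∀ r < K, f1 r = tE (m r) (v r) (f (r + 1)) (f1 (r + 1))
  f2_eq : ∀ r < K, f2 r = g2 (m r) (v r) (f (r + 1)) (f1 (r + 1)) (f2 (r + 1))
  vh : ∀ r < K, v r ≤ h
  vs : ∑ r ∈ Finset.range K, v r ≤ 1

/-- the tilted kernels -/
def Kern (m v : ℕ → ℝ) (f : ℕ → ℝ → ℝ) (r : ℕ) (V : ℝ → ℝ) : ℝ → ℝ :=
  tE (m r) (v r) (f (r + 1)) V

/-- the Euler kernels -/
def Eul (m v : ℕ → ℝ) (f f1 : ℕ → ℝ → ℝ) (r : ℕ) (V : ℝ → ℝ) : ℝ → ℝ :=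
  KP (m r) (v r) (f (r + 1)) (f1 (r + 1)) V

theorem cont_of_lip {V : ℝ → ℝ} {L : ℝ} (hV : ∀ x y, |V x - V y| ≤ L * |x - y|) :
    Continuous V := by
  have hL : 0 ≤ L := by
    have := hV 0 1
    have h2 := abs_nonneg (V 0 - V 1)
    norm_num at this
    linarith
  have : LipschitzWith L.toNNReal V := LipschitzWith.of_dist_le_mul fun x y => by
    rw [Real.dist_eq, Real.dist_eq, Real.coe_toNNReal _ hL]; exact hV x y
  exact this.continuous

theorem lip_nonneg {V : ℝ → ℝ} {L : ℝ} (hV : ∀ x y, |V x - V y| ≤ L * |x - y|) : 0 ≤ L := by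
  have := hV 0 1
  have h2 := abs_nonneg (V 0 - V 1)
  norm_num at this
  linarith

theorem KP_BC {M C m v : ℝ} {f f1 f2 : ℝ → ℝ} (h : Step M C m v f f1 f2) {V : ℝ → ℝ} {L B : ℝ}
    (hV : ∀ x y, |V x - V y| ≤ L * |x - y|) (hB : ∀ x, |V x| ≤ B) :
    BC (KP m v f f1 V) B := by
  refine ⟨cont_of_lip (h.KP_lip hV), fun x => ?_⟩
  unfold KP
  have hc := cont_of_lip hV
  have hx := Step.xp_cont_g (m := m) (v := v) (f := f) (f1 := f1) x
  have hi : Integrable (fun g => V (xp m v f f1 x g)) γ :=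
    (integrable_const B).mono' (by fun_prop) (Filter.Eventually.of_forall fun g => by
      rw [Real.norm_eq_abs]; exact hB _)
  calc |∫ g, V (xp m v f f1 x g) ∂γ| ≤ ∫ g, |V (xp m v f f1 x g)| ∂γ :=
        abs_integral_le_integral_abs
    _ ≤ ∫ _g, B ∂γ := integral_mono hi.abs (integrable_const _) fun g => hB _
    _ = B := by simp

section

variable {M C : ℝ} {K : ℕ} {h : ℝ} {m v : ℕ → ℝ} {f f1 f2 : ℕ → ℝ → ℝ}

/-- the growth constant of Lipschitz norms -/
def gr (M C : ℝ) : ℝ := M * (C + M)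

theorem eul_lip (S : Sched M C K h m v f f1 f2) : ∀ (k r : ℕ), r + k ≤ K →
    ∀ {V : ℝ → ℝ} {L : ℝ}, (∀ x y, |V x - V y| ≤ L * |x - y|) → ∀ x y,
    |comp (Eul m v f f1) k r V x - comp (Eul m v f f1) k r V y| ≤
      (L * Real.exp (gr M C * ∑ i ∈ Finset.range k, v (r + i))) * |x - y|
  | 0, r, _, V, L, hV, x, y => by simpa [comp] using hV x y
  | k + 1, r, hr, V, L, hV, x, y => by
    have h1 := (S.step r (by omega)).KP_lip (eul_lip S k (r + 1) (by omega) hV) x y
    have hL := lip_nonneg hV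
    have hs := S.step r (by omega)
    refine h1.trans (mul_le_mul_of_nonneg_right ?_ (abs_nonneg _))
    have h2 : 1 + v r * (M * (C + M)) ≤ Real.exp (gr M C * v r) := by
      have := Real.add_one_le_exp (gr M C * v r)
      unfold gr at *
      linarith
    have h3 := Real.exp_pos (gr M C * ∑ i ∈ Finset.range k, v (r + 1 + i))
    have h4 : ∑ i ∈ Finset.range (k + 1), v (r + i) =
        ∑ i ∈ Finset.range k, v (r + 1 + i) + v r := by
      rw [Finset.sum_range_succ']
      congr 1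
      refine Finset.sum_congr rfl fun i _ => by congr 1; omega
    rw [h4, mul_add (gr M C), Real.exp_add]
    calc L * Real.exp (gr M C * ∑ i ∈ Finset.range k, v (r + 1 + i)) *
        (1 + v r * (M * (C + M)))
        ≤ L * Real.exp (gr M C * ∑ i ∈ Finset.range k, v (r + 1 + i)) *
          Real.exp (gr M C * v r) := mul_le_mul_of_nonneg_left h2 (by positivity)
      _ = _ := by ring

theorem sum_le (S : Sched M C K h m v f f1 f2) {k r : ℕ} (hr : r + k ≤ K) :
    ∑ i ∈ Finset.range k, v (r + i) ≤ 1 := by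
  refine le_trans ?_ S.vs
  have h1 : ∑ i ∈ Finset.range k, v (r + i) = ∑ i ∈ Finset.Ico r (r + k), v i := by
    rw [Finset.sum_Ico_eq_sum_range]; congr 1; simp
  rw [h1]
  refine Finset.sum_le_sum_of_subset_of_nonneg ?_ fun i hi _ => ?_
  · intro i hi
    rw [Finset.mem_Ico] at hi
    rw [Finset.mem_range]; omega
  · rw [Finset.mem_range] at hi
    exact (S.step i hi).hv

theorem gr_nonneg (S : Sched M C K h m v f f1 f2) : 0 ≤ gr M C := by
  have h1 := S.M0
  have h2 := S.C0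
  unfold gr; positivity

theorem eul_lip' (S : Sched M C K h m v f f1 f2) {k r : ℕ} (hr : r + k ≤ K)
    {V : ℝ → ℝ} {L : ℝ} (hV : ∀ x y, |V x - V y| ≤ L * |x - y|) (x y : ℝ) :
    |comp (Eul m v f f1) k r V x - comp (Eul m v f f1) k r V y| ≤
      (L * Real.exp (gr M C)) * |x - y| := by
  refine (eul_lip S k r hr hV x y).trans (mul_le_mul_of_nonneg_right ?_ (abs_nonneg _))
  refine mul_le_mul_of_nonneg_left (Real.exp_le_exp.2 ?_) (lip_nonneg hV)
  have h1 := gr_nonneg S
  have h2 := sum_le S hr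
  nlinarith

theorem eul_BC (S : Sched M C K h m v f f1 f2) : ∀ (k r : ℕ), r + k ≤ K →
    ∀ {V : ℝ → ℝ} {L B : ℝ}, (∀ x y, |V x - V y| ≤ L * |x - y|) → (∀ x, |V x| ≤ B) →
    BC (comp (Eul m v f f1) k r V) B
  | 0, r, _, V, L, B, hV, hB => ⟨cont_of_lip hV, hB⟩
  | k + 1, r, hr, V, L, B, hV, hB =>
    KP_BC (S.step r (by omega)) (eul_lip' S (k := k) (r := r + 1) (by omega) hV)
      (eul_BC S k (r + 1) (by omega) hV hB).bd

theorem kern_BC (S : Sched M C K h m v f f1 f2) : ∀ (k r : ℕ), r + k ≤ K →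
    ∀ {V : ℝ → ℝ} {B : ℝ}, BC V B → BC (comp (Kern m v f) k r V) B
  | 0, r, _, V, B, hB => hB
  | k + 1, r, hr, V, B, hB =>
    tE_BC (S.step r (by omega)).sm.lip _ _ (kern_BC S k (r + 1) (by omega) hB)

/-- comparison of the compositions -/
theorem cmp (S : Sched M C K h m v f f1 f2) (hh : 0 ≤ h) : ∀ (k r : ℕ), r + k ≤ K →
    ∀ {V : ℝ → ℝ} {L B : ℝ}, (∀ x y, |V x - V y| ≤ L * |x - y|) → (∀ x, |V x| ≤ B) → ∀ x,
    |comp (Kern m v f) k r V x - comp (Eul m v f f1) k r V x| ≤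
      (∑ i ∈ Finset.range k, v (r + i)) * (√h * (L * Real.exp (gr M C) * K4 M C))
  | 0, r, _, V, L, B, hV, hB, x => by simp [comp]
  | k + 1, r, hr, V, L, B, hV, hB, x => by
    have hs := S.step r (by omega)
    have hL := lip_nonneg hV
    set A := comp (Kern m v f) k (r + 1) V with hA
    set E := comp (Eul m v f f1) k (r + 1) V with hE
    have bA : BC A B := kern_BC S k (r + 1) (by omega) ⟨cont_of_lip hV, hB⟩
    have bE : BC E B := eul_BC S k (r + 1) (by omega) hV hB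
    have ih := cmp S hh k (r + 1) (by omega) hV hB
    rw [← hA, ← hE] at ih
    have h1 : |Kern m v f r A x - Kern m v f r E x| ≤
        (∑ i ∈ Finset.range k, v (r + 1 + i)) * (√h * (L * Real.exp (gr M C) * K4 M C)) := by
      unfold Kern
      rw [← tE_sub hs.sm.lip _ _ bA.eg bE.eg]
      exact tE_abs_le hs.sm.lip _ _ (φ := fun y => A y - E y)
        ⟨bA.cont.sub bE.cont, ih⟩ x
    have h2 : |Kern m v f r E x - Eul m v f f1 r E x| ≤
        v r * (√h * (L * Real.exp (gr M C) * K4 M C)) := by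
      refine (hs.kernel (eul_lip' S (k := k) (r := r + 1) (by omega) hV) x).trans ?_
      rw [mul_assoc]
      refine mul_le_mul_of_nonneg_left ?_ hs.hv
      have h3 : √(v r) ≤ √h := Real.sqrt_le_sqrt (S.vh r (by omega))
      refine mul_le_mul_of_nonneg_right h3 ?_
      have := hs.K4_nonneg
      positivity
    have h4 : ∑ i ∈ Finset.range (k + 1), v (r + i) =
        ∑ i ∈ Finset.range k, v (r + 1 + i) + v r := by
      rw [Finset.sum_range_succ']
      congr 1
      refine Finset.sum_congr rfl fun i _ => by congr 1; omega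
    have e : comp (Kern m v f) (k + 1) r V x - comp (Eul m v f f1) (k + 1) r V x =
        (Kern m v f r A x - Kern m v f r E x) + (Kern m v f r E x - Eul m v f f1 r E x) := by
      show Kern m v f r A x - Eul m v f f1 r E x = _
      ring
    rw [e, h4, add_mul]
    exact (abs_add_le _ _).trans (add_le_add h1 h2)

end

/-! ### the chain on a probability space -/

/-- resampling an independent variable -/
theorem indep_int {Ω α : Type*} [MeasurableSpace Ω] [MeasurableSpace α] {P : Measure Ω}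
    [IsProbabilityMeasure P] {Y : Ω → α} {ξ : Ω → ℝ} (hY : Measurable Y) (hξ : Measurable ξ)
    (hi : IndepFun Y ξ P) (hl : P.map ξ = γ) {Ψ : α × ℝ → ℝ} (hΨ : Measurable Ψ)
    (hint : Integrable (fun ω => Ψ (Y ω, ξ ω)) P) :
    ∫ ω, Ψ (Y ω, ξ ω) ∂P = ∫ ω, (∫ t, Ψ (Y ω, t) ∂γ) ∂P := by
  have : IsProbabilityMeasure (P.map Y) := Measure.isProbabilityMeasure_map hY.aemeasurable
  have hprod : P.map (fun ω => (Y ω, ξ ω)) = (P.map Y).prod γ := by
    rw [(indepFun_iff_map_prod_eq_prod_map_map hY.aemeasurable hξ.aemeasurable).1 hi, hl]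
  have hm : Measurable (fun ω => (Y ω, ξ ω)) := hY.prodMk hξ
  have h1 : ∫ ω, Ψ (Y ω, ξ ω) ∂P = ∫ p, Ψ p ∂((P.map Y).prod γ) := by
    rw [← hprod, integral_map hm.aemeasurable hΨ.aestronglyMeasurable]
  have h2 : Integrable Ψ ((P.map Y).prod γ) := by
    rw [← hprod]
    exact (integrable_map_measure hΨ.aestronglyMeasurable hm.aemeasurable).2 hint
  rw [h1, integral_prod _ h2]
  rw [integral_map hY.aemeasurable h2.aestronglyMeasurable.integral_prod_right']

/-- the Euler chain driven by standard Gaussians `ξ` -/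
structure Chain {Ω : Type*} [MeasurableSpace Ω] (P : Measure Ω) (K : ℕ) (m v : ℕ → ℝ)
    (f f1 : ℕ → ℝ → ℝ) (x0 : ℝ) (ξ X : ℕ → Ω → ℝ) : Prop where
  meas : ∀ r < K, Measurable (ξ r)
  law : ∀ r < K, P.map (ξ r) = γ
  indep : ∀ r < K, IndepFun (fun ω (i : Fin r) => ξ i ω) (ξ r) P
  X0 : ∀ ω, X 0 ω = x0
  Xs : ∀ r < K, ∀ ω, X (r + 1) ω = xp (m r) (v r) (f (r + 1)) (f1 (r + 1)) (X r ω) (ξ r ω)

/-- the accumulated remainder -/
def NN {Ω : Type*} (m v : ℕ → ℝ) (f f1 f2 : ℕ → ℝ → ℝ) (ξ X : ℕ → Ω → ℝ) (r : ℕ) (ω : Ω) : ℝ :=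
  ∑ i ∈ Finset.range r, RR (m i) (v i) (f (i + 1)) (f1 (i + 1)) (f2 (i + 1)) (X i ω) (ξ i ω)

section

variable {Ω : Type*} [MeasurableSpace Ω] {P : Measure Ω} [IsProbabilityMeasure P]
  {M C h x0 : ℝ} {K : ℕ} {m v : ℕ → ℝ} {f f1 f2 : ℕ → ℝ → ℝ} {ξ X : ℕ → Ω → ℝ}

theorem drift_cont {M C m v : ℝ} {f f1 f2 : ℝ → ℝ} (h : Step M C m v f f1 f2) :
    Continuous (drift m v f f1) := by
  unfold drift
  exact continuous_const.mul (tE_BC h.sm.lip m v h.sm.B1).cont

theorem xp_cont {M C m v : ℝ} {f f1 f2 : ℝ → ℝ} (h : Step M C m v f f1 f2) :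
    Continuous (fun p : ℝ × ℝ => xp m v f f1 p.1 p.2) := by
  have := drift_cont h
  unfold xp
  fun_prop

theorem g2_cont {M C m v : ℝ} {f f1 f2 : ℝ → ℝ} (h : Step M C m v f f1 f2) :
    Continuous (g2 m v f f1 f2) := by
  unfold g2
  have c1 := (tE_BC h.sm.lip m v h.sm.B2).cont
  have c2 := (tE_BC h.sm.lip m v (h.sm.B1.pow 2)).cont
  have c3 := (tE_BC h.sm.lip m v h.sm.B1).cont
  fun_prop

theorem RR_cont {M C m v : ℝ} {f f1 f2 : ℝ → ℝ} (h : Step M C m v f f1 f2) :
    Continuous (fun p : ℝ × ℝ => RR m v f f1 f2 p.1 p.2) := by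
  have h1 := xp_cont h
  have h2 := g2_cont h
  have h3 := (tE_BC h.sm.lip m v h.sm.B1).cont
  have h4 := h.sm.c1
  unfold RR
  fun_prop

theorem past (S : Sched M C K h m v f f1 f2) (hc : Chain P K m v f f1 x0 ξ X) :
    ∀ r ≤ K, ∃ φ : (Fin r → ℝ) → ℝ × ℝ, Measurable φ ∧
      ∀ ω, (X r ω, NN m v f f1 f2 ξ X r ω) = φ (fun i => ξ i ω)
  | 0, _ => ⟨fun _ => (x0, 0), measurable_const, fun ω => by simp [hc.X0, NN]⟩
  | r + 1, hr => by
    obtain ⟨φ, hφ, he⟩ := past S hc r (by omega)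
    have hs := S.step r (by omega)
    refine ⟨fun w => (xp (m r) (v r) (f (r + 1)) (f1 (r + 1)) (φ (fun i => w i.castSucc)).1
      (w (Fin.last r)), (φ (fun i => w i.castSucc)).2 +
      RR (m r) (v r) (f (r + 1)) (f1 (r + 1)) (f2 (r + 1)) (φ (fun i => w i.castSucc)).1
      (w (Fin.last r))), ?_, fun ω => ?_⟩
    · have h1 : Measurable (fun w : Fin (r + 1) → ℝ => φ (fun i => w i.castSucc)) :=
        hφ.comp (measurable_pi_lambda _ fun i => measurable_pi_apply _)
      have h2 : Measurable (fun w : Fin (r + 1) → ℝ =>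
          ((φ (fun i => w i.castSucc)).1, w (Fin.last r))) :=
        (measurable_fst.comp h1).prodMk (measurable_pi_apply _)
      refine ((xp_cont hs).measurable.comp h2).prodMk ?_
      exact (measurable_snd.comp h1).add ((RR_cont hs).measurable.comp h2)
    · have e1 := he ω
      have e2 : X r ω = (φ fun i : Fin r => ξ i ω).1 := by rw [← e1]
      have e3 : NN m v f f1 f2 ξ X r ω = (φ fun i : Fin r => ξ i ω).2 := by rw [← e1]
      rw [hc.Xs r (by omega) ω]
      unfold NN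
      rw [Finset.sum_range_succ]
      have e4 : ∑ i ∈ Finset.range r, RR (m i) (v i) (f (i + 1)) (f1 (i + 1)) (f2 (i + 1))
        (X i ω) (ξ i ω) = NN m v f f1 f2 ξ X r ω := rfl
      rw [e4, e3, e2]
      simp

theorem meas_past (hc : Chain P K m v f f1 x0 ξ X) {r : ℕ} (hr : r ≤ K) :
    Measurable (fun ω (i : Fin r) => ξ i ω) :=
  measurable_pi_lambda _ fun i => hc.meas i (by have := i.2; omega)

theorem meas_XN (S : Sched M C K h m v f f1 f2) (hc : Chain P K m v f f1 x0 ξ X) {r : ℕ}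
    (hr : r ≤ K) : Measurable (fun ω => (X r ω, NN m v f f1 f2 ξ X r ω)) := by
  obtain ⟨φ, hφ, he⟩ := past S hc r hr
  have : (fun ω => (X r ω, NN m v f f1 f2 ξ X r ω)) = φ ∘ (fun ω (i : Fin r) => ξ i ω) := by
    ext1 ω; exact he ω
  rw [this]
  exact hφ.comp (meas_past hc hr)

theorem indep_XN (S : Sched M C K h m v f f1 f2) (hc : Chain P K m v f f1 x0 ξ X) {r : ℕ}
    (hr : r < K) : IndepFun (fun ω => (X r ω, NN m v f f1 f2 ξ X r ω)) (ξ r) P := by
  obtain ⟨φ, hφ, he⟩ := past S hc r hr.le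
  have : (fun ω => (X r ω, NN m v f f1 f2 ξ X r ω)) = φ ∘ (fun ω (i : Fin r) => ξ i ω) := by
    ext1 ω; exact he ω
  rw [this]
  exact (hc.indep r hr).comp hφ measurable_id

theorem meas_X (S : Sched M C K h m v f f1 f2) (hc : Chain P K m v f f1 x0 ξ X) {r : ℕ}
    (hr : r ≤ K) : Measurable (X r) := measurable_fst.comp (meas_XN S hc hr)

theorem meas_N (S : Sched M C K h m v f f1 f2) (hc : Chain P K m v f f1 x0 ξ X) {r : ℕ}
    (hr : r ≤ K) : Measurable (NN m v f f1 f2 ξ X r) := measurable_snd.comp (meas_XN S hc hr)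

/-- one step for one time marginals -/
theorem step_int (S : Sched M C K h m v f f1 f2) (hc : Chain P K m v f f1 x0 ξ X) {r : ℕ}
    (hr : r < K) {V : ℝ → ℝ} {B : ℝ} (hV : BC V B) :
    ∫ ω, V (X (r + 1) ω) ∂P = ∫ ω, Eul m v f f1 r V (X r ω) ∂P := by
  have hs := S.step r hr
  have hXm := meas_X S hc hr.le
  have hi : IndepFun (X r) (ξ r) P := (indep_XN S hc hr).comp measurable_fst measurable_id
  have hm1 : Measurable (fun p : ℝ × ℝ => V (xp (m r) (v r) (f (r + 1)) (f1 (r + 1)) p.1 p.2)) :=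
    (hV.cont.comp (xp_cont hs)).measurable
  have h1 := indep_int hXm (hc.meas r hr) hi (hc.law r hr) hm1 (by
    refine (integrable_const B).mono' ?_ (Filter.Eventually.of_forall fun ω => ?_)
    · exact (hm1.comp (hXm.prodMk (hc.meas r hr))).aestronglyMeasurable
    · rw [Real.norm_eq_abs]; exact hV.bd _)
  simp only [hc.Xs r hr]
  exact h1

theorem marg (S : Sched M C K h m v f f1 f2) (hc : Chain P K m v f f1 x0 ξ X) :
    ∀ r ≤ K, ∀ {V : ℝ → ℝ} {L B : ℝ}, (∀ x y, |V x - V y| ≤ L * |x - y|) → (∀ x, |V x| ≤ B) →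
    ∫ ω, V (X r ω) ∂P = comp (Eul m v f f1) r 0 V x0
  | 0, _, V, L, B, hV, hB => by simp [hc.X0, comp]
  | r + 1, hr, V, L, B, hV, hB => by
    have hs := S.step r (by omega)
    rw [step_int S hc (r := r) (by omega) ⟨cont_of_lip hV, hB⟩, comp_succ', zero_add]
    exact marg S hc r (by omega) (hs.KP_lip hV) (KP_BC hs hV hB).bd

/-- **one time marginals of the Euler chain** -/
theorem marg_close (S : Sched M C K h m v f f1 f2) (hh : 0 ≤ h)
    (hc : Chain P K m v f f1 x0 ξ X) {r : ℕ} (hr : r ≤ K) {V : ℝ → ℝ} {L B : ℝ}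
    (hV : ∀ x y, |V x - V y| ≤ L * |x - y|) (hB : ∀ x, |V x| ≤ B) :
    |∫ ω, V (X r ω) ∂P - comp (Kern m v f) r 0 V x0| ≤
      √h * (L * (Real.exp (gr M C) * K4 M C)) := by
  rw [marg S hc r hr hV hB, abs_sub_comm]
  refine (cmp S hh r 0 (by omega) hV hB x0).trans ?_
  have h1 := sum_le S (k := r) (r := 0) (by omega)
  have hL := lip_nonneg hV
  have h2 : 0 ≤ √h * (L * Real.exp (gr M C) * K4 M C) := by
    have : 0 ≤ K4 M C := by
      unfold K4 K1
      have := S.M0; have := S.C0; have := KT_nonneg M 2; have := EE_nonneg (K2 M C + 3)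
      positivity
    positivity
  calc (∑ i ∈ Finset.range r, v (0 + i)) * (√h * (L * Real.exp (gr M C) * K4 M C))
      ≤ 1 * (√h * (L * Real.exp (gr M C) * K4 M C)) := mul_le_mul_of_nonneg_right h1 h2
    _ = _ := by ring

/-- the constant of the strong estimate -/
def DD (M C : ℝ) : ℝ := (C * K4 M C) ^ 2 + K3 M C ^ 2 * EE 4

theorem DD_nonneg (M C : ℝ) : 0 ≤ DD M C := by
  unfold DD
  have := EE_nonneg 4
  positivity

theorem NN_sq (S : Sched M C K h m v f f1 f2) (hc : Chain P K m v f f1 x0 ξ X) :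
    ∀ r ≤ K, Integrable (fun ω => NN m v f f1 f2 ξ X r ω ^ 2) P ∧
      ∫ ω, NN m v f f1 f2 ξ X r ω ^ 2 ∂P ≤
        DD M C * h * (∑ i ∈ Finset.range r, v i) * Real.exp (∑ i ∈ Finset.range r, v i)
  | 0, _ => by simp [NN]
  | r + 1, hr => by
    obtain ⟨ih1, ih2⟩ := NN_sq S hc r (by omega)
    have hrK : r < K := by omega
    have hs := S.step r hrK
    set N := NN m v f f1 f2 ξ X r with hN
    set R : ℝ → ℝ → ℝ := RR (m r) (v r) (f (r + 1)) (f1 (r + 1)) (f2 (r + 1)) with hR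
    have hXNm := meas_XN S hc hrK.le
    have hXm := meas_X S hc hrK.le
    have hNm : Measurable N := meas_N S hc hrK.le
    have hξm := hc.meas r hrK
    have hind := indep_XN S hc hrK
    have hRc : Continuous (fun p : ℝ × ℝ => R p.1 p.2) := RR_cont hs
    have hRm : Measurable (fun ω => R (X r ω) (ξ r ω)) := hRc.measurable.comp (hXm.prodMk hξm)
    -- R is square integrable
    have hξint : ∀ a : ℝ, Integrable (fun ω => ex a (ξ r ω)) P := fun a => by
      have h1 : Integrable (ex a) (P.map (ξ r)) := by rw [hc.law r hrK]; exact ex_int a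
      exact h1.comp_measurable hξm
    have hR2i : Integrable (fun ω => R (X r ω) (ξ r ω) ^ 2) P := by
      refine ((hξint 4).const_mul (v r ^ 2 * K3 M C ^ 2)).mono'
        (hRm.pow_const 2).aestronglyMeasurable (Filter.Eventually.of_forall fun ω => ?_)
      rw [Real.norm_eq_abs, abs_pow]
      have h1 := pow_le_pow_left₀ (abs_nonneg _) (hs.RR_le (X r ω) (ξ r ω)) 2
      refine h1.trans (le_of_eq ?_)
      have : ex 4 (ξ r ω) = ex 2 (ξ r ω) * ex 2 (ξ r ω) := by rw [ex_mul]; norm_num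
      rw [this]; ring
    have hNRi : Integrable (fun ω => N ω * R (X r ω) (ξ r ω)) P := by
      refine ((ih1.add hR2i)).mono' (hNm.mul hRm).aestronglyMeasurable
        (Filter.Eventually.of_forall fun ω => ?_)
      rw [Real.norm_eq_abs, Pi.add_apply, abs_le]
      constructor <;> nlinarith [sq_nonneg (N ω - R (X r ω) (ξ r ω)),
        sq_nonneg (N ω + R (X r ω) (ξ r ω)), sq_nonneg (N ω), sq_nonneg (R (X r ω) (ξ r ω))]
    have hNe : ∀ ω, NN m v f f1 f2 ξ X (r + 1) ω = N ω + R (X r ω) (ξ r ω) := fun ω => by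
      unfold NN; rw [Finset.sum_range_succ]; rfl
    have hsq : ∀ ω, NN m v f f1 f2 ξ X (r + 1) ω ^ 2 =
        N ω ^ 2 + 2 * (N ω * R (X r ω) (ξ r ω)) + R (X r ω) (ξ r ω) ^ 2 := fun ω => by
      rw [hNe]; ring
    -- resample
    have e1 : ∫ ω, N ω * R (X r ω) (ξ r ω) ∂P = ∫ ω, N ω * ∫ t, R (X r ω) t ∂γ ∂P := by
      have hm1 : Measurable (fun p : (ℝ × ℝ) × ℝ => p.1.2 * R p.1.1 p.2) := by
        have hm0 : Measurable (fun p : (ℝ × ℝ) × ℝ => (p.1.1, p.2)) :=
          (measurable_fst.comp measurable_fst).prodMk measurable_snd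
        have hm2 : Measurable (fun p : (ℝ × ℝ) × ℝ => R p.1.1 p.2) :=
          hRc.measurable.comp hm0
        exact (measurable_snd.comp measurable_fst).mul hm2
      have h1 := indep_int hXNm hξm hind (hc.law r hrK) hm1 hNRi
      refine h1.trans ?_
      congr 1
      ext ω
      exact integral_const_mul _ _
    have e2 : ∫ ω, R (X r ω) (ξ r ω) ^ 2 ∂P = ∫ ω, (∫ t, R (X r ω) t ^ 2 ∂γ) ∂P := by
      have hm1 : Measurable (fun p : ℝ × ℝ => R p.1 p.2 ^ 2) := hRc.measurable.pow_const 2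
      exact indep_int hXm hξm (hind.comp measurable_fst measurable_id) (hc.law r hrK) hm1 hR2i
    have hv := hs.hv
    set c := C * K4 M C with hcdef
    have b1 : ∫ ω, R (X r ω) (ξ r ω) ^ 2 ∂P ≤ v r ^ 2 * (K3 M C ^ 2 * EE 4) := by
      rw [e2]
      have hm2 : StronglyMeasurable (fun x => ∫ t, R x t ^ 2 ∂γ) := by
        have : StronglyMeasurable (fun p : ℝ × ℝ => R p.1 p.2 ^ 2) :=
          (hRc.measurable.pow_const 2).stronglyMeasurable
        exact this.integral_prod_right'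
      have hb : ∀ x, ∫ t, R x t ^ 2 ∂γ ≤ v r ^ 2 * (K3 M C ^ 2 * EE 4) := fun x =>
        (hs.RR_sq x).2
      have hi : Integrable (fun ω => ∫ t, R (X r ω) t ^ 2 ∂γ) P := by
        refine (integrable_const (v r ^ 2 * (K3 M C ^ 2 * EE 4))).mono'
          (hm2.measurable.comp hXm).aestronglyMeasurable (Filter.Eventually.of_forall fun ω => ?_)
        rw [Real.norm_eq_abs, abs_of_nonneg (integral_nonneg fun t => sq_nonneg _)]
        exact hb _
      calc ∫ ω, (∫ t, R (X r ω) t ^ 2 ∂γ) ∂P ≤ ∫ _ω, v r ^ 2 * (K3 M C ^ 2 * EE 4) ∂P :=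
            integral_mono hi (integrable_const _) fun ω => hb _
        _ = _ := by simp
    have b2 : 2 * ∫ ω, N ω * R (X r ω) (ξ r ω) ∂P ≤
        v r * ∫ ω, N ω ^ 2 ∂P + v r ^ 2 * c ^ 2 := by
      rw [e1, ← integral_const_mul, ← integral_const_mul]
      have hb : ∀ x, |∫ t, R x t ∂γ| ≤ v r * √(v r) * c := fun x => (hs.RR_mean x).2
      have hpt : ∀ ω, 2 * (N ω * ∫ t, R (X r ω) t ∂γ) ≤ v r * N ω ^ 2 + v r ^ 2 * c ^ 2 := by
        intro ω
        have h1 := hb (X r ω)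
        set z := ∫ t, R (X r ω) t ∂γ with hz
        have h2 : N ω * z ≤ |N ω| * (v r * √(v r) * c) := by
          calc N ω * z ≤ |N ω * z| := le_abs_self _
            _ = |N ω| * |z| := abs_mul _ _
            _ ≤ _ := mul_le_mul_of_nonneg_left h1 (abs_nonneg _)
        have h3 : √(v r) * √(v r) = v r := hs.ss
        have h4 : 0 ≤ (√(v r) * |N ω| - v r * c) ^ 2 := sq_nonneg _
        have h5 : (√(v r) * |N ω| - v r * c) ^ 2 = v r * N ω ^ 2 -
            2 * (|N ω| * (v r * √(v r) * c)) + v r ^ 2 * c ^ 2 := by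
          rw [sub_sq, mul_pow, sq_abs, sq (√(v r)), h3]; ring
        linarith
      have hm2 : StronglyMeasurable (fun x => ∫ t, R x t ∂γ) :=
        hRc.measurable.stronglyMeasurable.integral_prod_right'
      have hi0 : Integrable (fun ω => N ω * ∫ t, R (X r ω) t ∂γ) P := by
        refine (ih1.add (integrable_const ((v r * √(v r) * c) ^ 2))).mono'
          (hNm.mul (hm2.measurable.comp hXm)).aestronglyMeasurable
          (Filter.Eventually.of_forall fun ω => ?_)
        rw [Real.norm_eq_abs, Pi.add_apply, abs_mul]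
        have h1 := hb (X r ω)
        have h2 : |N ω| * |∫ t, R (X r ω) t ∂γ| ≤ |N ω| * (v r * √(v r) * c) :=
          mul_le_mul_of_nonneg_left h1 (abs_nonneg _)
        have h3 := sq_nonneg (|N ω| - v r * √(v r) * c)
        have h4 := sq_abs (N ω)
        have h5 := sq_nonneg (|N ω|)
        nlinarith [sq_nonneg (v r * √(v r) * c)]
      calc ∫ ω, 2 * (N ω * ∫ t, R (X r ω) t ∂γ) ∂P
          ≤ ∫ ω, (v r * N ω ^ 2 + v r ^ 2 * c ^ 2) ∂P :=
            integral_mono (hi0.const_mul 2) ((ih1.const_mul _).add (integrable_const _)) hpt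
        _ = ∫ ω, v r * N ω ^ 2 ∂P + v r ^ 2 * c ^ 2 := by
            rw [integral_add (ih1.const_mul _) (integrable_const _), integral_const]
            simp
    refine ⟨?_, ?_⟩
    · simp only [hsq]
      exact (ih1.add (hNRi.const_mul 2)).add hR2i
    · simp only [hsq]
      have i1 : Integrable (fun ω => N ω ^ 2 + 2 * (N ω * R (X r ω) (ξ r ω))) P :=
        ih1.add (hNRi.const_mul 2)
      rw [integral_add i1 hR2i, integral_add ih1 (hNRi.const_mul 2), integral_const_mul]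
      set s := ∑ i ∈ Finset.range r, v i with hsdef
      set y := ∫ ω, N ω ^ 2 ∂P with hy
      have hs0 : 0 ≤ s := Finset.sum_nonneg fun i hi =>
        (S.step i (by rw [Finset.mem_range] at hi; omega)).hv
      have hD := DD_nonneg M C
      have hvh := S.vh r hrK
      have hh : 0 ≤ h := hv.trans hvh
      rw [Finset.sum_range_succ, ← hsdef]
      have hexp : 1 + v r ≤ Real.exp (v r) := by
        have := Real.add_one_le_exp (v r); linarith
      have hexp1 : 1 ≤ Real.exp (s + v r) := Real.one_le_exp (by linarith)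
      have hmain : y + 2 * ∫ ω, N ω * R (X r ω) (ξ r ω) ∂P + ∫ ω, R (X r ω) (ξ r ω) ^ 2 ∂P ≤
          (1 + v r) * y + v r ^ 2 * DD M C := by
        unfold DD
        rw [← hcdef]
        linarith
      refine hmain.trans ?_
      have t1 : (1 + v r) * y ≤ Real.exp (v r) * (DD M C * h * s * Real.exp s) :=
        mul_le_mul hexp ih2 (integral_nonneg fun ω => sq_nonneg _) (Real.exp_pos _).le
      have t2 : v r ^ 2 * DD M C ≤ DD M C * h * v r * Real.exp (s + v r) := by
        have a1 : v r ^ 2 * DD M C ≤ DD M C * h * v r := by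
          have := mul_le_mul_of_nonneg_right hvh (mul_nonneg hv hD)
          nlinarith
        have a2 : 0 ≤ DD M C * h * v r := by positivity
        nlinarith
      have e5 : Real.exp (v r) * (DD M C * h * s * Real.exp s) =
          DD M C * h * s * Real.exp (s + v r) := by rw [Real.exp_add]; ring
      rw [e5] at t1
      have e6 : DD M C * h * (s + v r) * Real.exp (s + v r) =
        DD M C * h * s * Real.exp (s + v r) + DD M C * h * v r * Real.exp (s + v r) := by ring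
      rw [e6]
      linarith

theorem NN_eq (S : Sched M C K h m v f f1 f2) (hc : Chain P K m v f f1 x0 ξ X) :
    ∀ r ≤ K, ∀ ω, NN m v f f1 f2 ξ X r ω = f1 r (X r ω) - f1 0 x0 -
      ∑ i ∈ Finset.range r, f2 i (X i ω) * (√(v i) * ξ i ω)
  | 0, _, ω => by simp [NN, hc.X0]
  | r + 1, hr, ω => by
    have ih := NN_eq S hc r (by omega) ω
    have e : NN m v f f1 f2 ξ X (r + 1) ω = NN m v f f1 f2 ξ X r ω +
        RR (m r) (v r) (f (r + 1)) (f1 (r + 1)) (f2 (r + 1)) (X r ω) (ξ r ω) := by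
      unfold NN; rw [Finset.sum_range_succ]
    rw [e, ih, Finset.sum_range_succ]
    unfold RR
    rw [← hc.Xs r (by omega) ω, ← S.f1_eq r (by omega), ← S.f2_eq r (by omega)]
    ring

/-- **strong estimate** -/
theorem strong (S : Sched M C K h m v f f1 f2) (hh : 0 ≤ h) (hc : Chain P K m v f f1 x0 ξ X)
    {r : ℕ} (hr : r ≤ K) :
    Integrable (fun ω => (f1 r (X r ω) - f1 0 x0 -
      ∑ i ∈ Finset.range r, f2 i (X i ω) * (√(v i) * ξ i ω)) ^ 2) P ∧
    ∫ ω, (f1 r (X r ω) - f1 0 x0 -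
      ∑ i ∈ Finset.range r, f2 i (X i ω) * (√(v i) * ξ i ω)) ^ 2 ∂P ≤
      DD M C * Real.exp 1 * h := by
  obtain ⟨h1, h2⟩ := NN_sq S hc r hr
  simp only [NN_eq S hc r hr] at h1 h2
  refine ⟨h1, h2.trans ?_⟩
  have h3 := sum_le S (k := r) (r := 0) (by omega)
  simp only [zero_add] at h3
  have h4 : 0 ≤ ∑ i ∈ Finset.range r, v i := Finset.sum_nonneg fun i hi =>
    (S.step i (by rw [Finset.mem_range] at hi; omega)).hv
  have hD := DD_nonneg M C
  calc DD M C * h * (∑ i ∈ Finset.range r, v i) * Real.exp (∑ i ∈ Finset.range r, v i)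
      ≤ DD M C * h * 1 * Real.exp 1 := by
        refine mul_le_mul ?_ (Real.exp_le_exp.2 h3) (Real.exp_pos _).le (by positivity)
        exact mul_le_mul_of_nonneg_left h3 (by positivity)
    _ = _ := by ring

end

end

end Crest.Agent.R339.D3
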