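import Crest.Agent.R339.B107Gen

/-!
Row 339 (helper107): the derivatives `U k` of the Parisi function inside a block as test functions,
and the derivatives of `E u_x²`, `E u_xx²`, `E x u_x`, `E u` in time.
-/

set_option autoImplicit false

namespace Crest.Agent.R339.B

open MeasureTheory ProbabilityTheory Filter Topology Set
open Crest.Agent.R164.GC
open Crest.ProbabilityR.InvariantGlass (gaussOp)

noncomputable section

/-- `U Φ m 0 v = u(v,·)`, `U Φ m k v = ∂_x^k u(v,·)` where `u(v,·) = gaussOp m v Φ` -/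
def U (Φ : ℝ → ℝ) (m : ℝ) (k : ℕ) (v x : ℝ) : ℝ := iteratedDeriv k (gaussOp m v Φ) x

theorem U_zero (Φ : ℝ → ℝ) (m v : ℝ) : U Φ m 0 v = gaussOp m v Φ := by
  funext x; simp [U]

theorem U_one (Φ : ℝ → ℝ) (m v : ℝ) : U Φ m 1 v = deriv (gaussOp m v Φ) := by
  funext x; simp [U]

theorem U_succ (Φ : ℝ → ℝ) (m : ℝ) (k : ℕ) (v : ℝ) : U Φ m (k + 1) v = deriv (U Φ m k v) := by
  funext x
  unfold U
  rw [iteratedDeriv_succ]

theorem U_two (Φ : ℝ → ℝ) (m v : ℝ) : U Φ m 2 v = deriv (deriv (gaussOp m v Φ)) := by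
  rw [U_succ, U_one]

theorem U_three (Φ : ℝ → ℝ) (m v : ℝ) :
    U Φ m 3 v = deriv (deriv (deriv (gaussOp m v Φ))) := by
  rw [U_succ, U_two]

section Usec

variable {Φ : ℝ → ℝ} (h : Prof Φ) {m : ℝ} (hm : m ≠ 0)
include h

theorem U_bd (k : ℕ) (v : ℝ) : BD (U Φ m (k + 1) v) := by
  induction k with
  | zero =>
    show BD (U Φ m 1 v)
    rw [U_one]
    exact (h.step m v).bd
  | succ k ih =>
    rw [U_succ]
    exact ih.deriv

include hm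

omit h in
theorem U0_eq (v x : ℝ) : U Φ m 0 v x = m⁻¹ * Real.log (Wk Φ m 0 v x) := by
  rw [U_zero, gaussOp_ne hm]
  unfold Wk
  rw [iteratedDeriv_zero]
  rfl

theorem W0_eq (v x : ℝ) : Wk Φ m 0 v x = Real.exp (m * U Φ m 0 v x) := by
  rw [U0_eq hm, ← mul_assoc, mul_inv_cancel₀ hm, one_mul, Real.exp_log (Wk_pos h m v x)]

theorem U1_eq (v x : ℝ) : U Φ m 1 v x = m⁻¹ * Dk Φ m 1 v x := by
  rw [U_succ]
  have e : U Φ m 0 v = fun x => m⁻¹ * Real.log (Wk Φ m 0 v x) := funext (U0_eq hm v)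
  rw [e]
  have h1 := ((Wk_dx h m 0 v x).log (Wk_pos h m v x).ne').const_mul m⁻¹
  rw [h1.deriv]
  rfl

theorem U2_eq (v x : ℝ) : U Φ m 2 v x = m⁻¹ * (Dk Φ m 2 v x - Dk Φ m 1 v x ^ 2) := by
  rw [U_succ]
  have e : U Φ m 1 v = fun x => m⁻¹ * Dk Φ m 1 v x := funext (U1_eq h hm v)
  rw [e, ((Dk_dx h m 1 v x).const_mul m⁻¹).deriv]
  ring

theorem U3_eq (v x : ℝ) : U Φ m 3 v x = m⁻¹ * (Dk Φ m 3 v x - 3 * Dk Φ m 1 v x * Dk Φ m 2 v x +
    2 * Dk Φ m 1 v x ^ 3) := by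
  rw [U_succ]
  have e : U Φ m 2 v = fun x => m⁻¹ * (Dk Φ m 2 v x - Dk Φ m 1 v x ^ 2) := funext (U2_eq h hm v)
  rw [e, (((Dk_dx h m 2 v x).fun_sub ((Dk_dx h m 1 v x).fun_pow 2)).const_mul m⁻¹).deriv]
  norm_num
  left
  ring

theorem U4_eq (v x : ℝ) : U Φ m 4 v x = m⁻¹ * (Dk Φ m 4 v x - 4 * Dk Φ m 1 v x * Dk Φ m 3 v x -
    3 * Dk Φ m 2 v x ^ 2 + 12 * Dk Φ m 1 v x ^ 2 * Dk Φ m 2 v x - 6 * Dk Φ m 1 v x ^ 4) := by
  rw [U_succ]
  have e : U Φ m 3 v = fun x => m⁻¹ * (Dk Φ m 3 v x - 3 * Dk Φ m 1 v x * Dk Φ m 2 v x +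
    2 * Dk Φ m 1 v x ^ 3) := funext (U3_eq h hm v)
  have h1 := (((Dk_dx h m 3 v x).fun_sub (((Dk_dx h m 1 v x).const_mul 3).fun_mul
    (Dk_dx h m 2 v x))).fun_add (((Dk_dx h m 1 v x).fun_pow 3).const_mul 2)).const_mul m⁻¹
  rw [e, h1.deriv]
  norm_num
  left
  ring

/-! ### test functions -/

omit hm in
theorem tb_D1sq : TB Φ m (fun v x => Dk Φ m 1 v x ^ 2)
    (fun v x => (Dk Φ m 2 v x - Dk Φ m 1 v x ^ 2) ^ 2)
    (fun v x => 2 * Dk Φ m 1 v x * (Dk Φ m 2 v x - Dk Φ m 1 v x ^ 2)) := by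
  have h1 := tb_Dk h m 1
  exact (h1.mul h1).congr (fun v x => by ring) (fun v x => by ring) (fun v x => by ring)

theorem tb_U1 : TB Φ m (U Φ m 1) (fun _ _ => 0) (U Φ m 2) :=
  ((tb_Dk h m 1).const_mul m⁻¹).congr (U1_eq h hm) (fun v x => by ring)
    (fun v x => by rw [U2_eq h hm]; ring)

theorem tb_U2 : TB Φ m (U Φ m 2) (fun v x => -m * U Φ m 2 v x ^ 2) (U Φ m 3) :=
  (((tb_Dk h m 2).sub (tb_D1sq h)).const_mul m⁻¹).congr (U2_eq h hm)
    (fun v x => by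
      rw [U2_eq h hm]
      field_simp
      ring)
    (fun v x => by rw [U3_eq h hm]; ring)

theorem tb_U3 : TB Φ m (U Φ m 3) (fun v x => -3 * m * U Φ m 2 v x * U Φ m 3 v x) (U Φ m 4) := by
  have h1 := tb_Dk h m 1
  have h2 := tb_Dk h m 2
  have h3 := tb_Dk h m 3
  have h12 := (h1.mul h2).const_mul 3
  have h13 := (h1.mul (tb_D1sq h)).const_mul 2
  refine (((h3.sub h12).add h13).const_mul m⁻¹).congr
    (fun v x => by rw [U3_eq h hm]; ring)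
    (fun v x => by
      rw [U2_eq h hm, U3_eq h hm]
      field_simp
      ring)
    (fun v x => by rw [U4_eq h hm]; ring)

/-- locally uniform growth of `u` -/
theorem U0_ug : UG (U Φ m 0) := by
  have hc : Continuous fun p : ℝ × ℝ => U Φ m 0 p.1 p.2 := by
    have e : (fun p : ℝ × ℝ => U Φ m 0 p.1 p.2) =
        fun p : ℝ × ℝ => m⁻¹ * Real.log (Wk Φ m 0 p.1 p.2) :=
      funext fun p => U0_eq hm p.1 p.2
    rw [e]
    exact continuous_const.mul ((Wk_cont h m 0).log fun p => (Wk_pos h m _ _).ne')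
  refine ⟨hc, fun d => ?_⟩
  have hc0 : Continuous fun v => U Φ m 0 v 0 :=
    hc.comp (by fun_prop : Continuous fun v : ℝ => (v, (0 : ℝ)))
  obtain ⟨C, hC⟩ := (isCompact_Icc (a := (0 : ℝ)) (b := |d|)).exists_bound_of_continuousOn
    hc0.continuousOn
  have hC0 : 0 ≤ C := (norm_nonneg _).trans (hC 0 ⟨le_rfl, abs_nonneg d⟩)
  have hb : ∀ v, v ≤ d → |U Φ m 0 v 0| ≤ C := by
    intro v hv
    by_cases h0 : 0 ≤ v
    · exact hC v ⟨h0, hv.trans (le_abs_self d)⟩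
    · have e : U Φ m 0 v 0 = U Φ m 0 0 0 := by
        rw [U0_eq hm, U0_eq hm]
        unfold Wk
        rw [Real.sqrt_eq_zero_of_nonpos (not_le.1 h0).le, Real.sqrt_zero]
      rw [e]
      exact hC 0 ⟨le_rfl, abs_nonneg d⟩
  refine ⟨C + 1, 1, by positivity, zero_le_one, fun v x hv => ?_⟩
  have hl := (h.step m v).lip
  have h1 := hl x 0
  have h2 := hl 0 x
  rw [sub_zero] at h1
  rw [zero_sub, abs_neg] at h2
  have h3 : |U Φ m 0 v x| ≤ |U Φ m 0 v 0| + |x| := by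
    rw [U_zero, abs_le]
    constructor
    · have := neg_abs_le (gaussOp m v Φ 0); linarith
    · have := le_abs_self (gaussOp m v Φ 0); linarith
  have h4 := hb v hv
  have h5 := Real.add_one_le_exp |x|
  have h6 := abs_nonneg x
  rw [one_mul]
  nlinarith

theorem tb_U0 : TB Φ m (U Φ m 0) (fun v x => m / 2 * U Φ m 1 v x ^ 2) (U Φ m 1) := by
  refine ⟨fun v x => m⁻¹ * (1 / 2 * Dk Φ m 2 v x), U Φ m 2, fun v x hv => ?_, fun v x => ?_,
    fun v x => ?_, U0_ug h hm, ((Dk_ug h m 2).const_mul _).const_mul _, (tb_U1 h hm).ug,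
    (tb_U2 h hm).ug, fun v x => ?_⟩
  · have e : (fun s => U Φ m 0 s x) = fun s => m⁻¹ * Real.log (Wk Φ m 0 s x) :=
      funext fun s => U0_eq hm s x
    rw [e]
    have h1 := ((Wk_dv h m 0 hv x).log (Wk_pos h m v x).ne').const_mul m⁻¹
    refine h1.congr_deriv ?_
    unfold Dk
    ring
  · have := (h.step m v).d1 x
    rw [U_zero, U_one]
    exact this
  · rw [U_one, U_two]
    exact (h.step m v).bd.hasDerivAt x
  · beta_reduce
    rw [U1_eq h hm, U2_eq h hm]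
    field_simp
    ring

theorem tb_U1sq : TB Φ m (fun v x => U Φ m 1 v x ^ 2) (fun v x => U Φ m 2 v x ^ 2)
    (fun v x => 2 * U Φ m 1 v x * U Φ m 2 v x) :=
  ((tb_U1 h hm).mul (tb_U1 h hm)).congr (fun v x => by ring) (fun v x => by ring)
    (fun v x => by ring)

theorem tb_U2sq : TB Φ m (fun v x => U Φ m 2 v x ^ 2)
    (fun v x => U Φ m 3 v x ^ 2 - 2 * m * U Φ m 2 v x ^ 3)
    (fun v x => 2 * U Φ m 2 v x * U Φ m 3 v x) :=
  ((tb_U2 h hm).mul (tb_U2 h hm)).congr (fun v x => by ring) (fun v x => by ring)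
    (fun v x => by ring)

theorem tb_LU2sq : TB Φ m (fun v x => U Φ m 3 v x ^ 2 - 2 * m * U Φ m 2 v x ^ 3)
    (fun v x => U Φ m 4 v x ^ 2 - 12 * m * U Φ m 2 v x * U Φ m 3 v x ^ 2 +
      6 * m ^ 2 * U Φ m 2 v x ^ 4)
    (fun v x => 2 * U Φ m 3 v x * U Φ m 4 v x - 6 * m * U Φ m 2 v x ^ 2 * U Φ m 3 v x) :=
  (((tb_U3 h hm).mul (tb_U3 h hm)).sub (((tb_U2 h hm).mul (tb_U2sq h hm)).const_mul
    (2 * m))).congr (fun v x => by ring) (fun v x => by ring) (fun v x => by ring)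

theorem tb_XU1 : TB Φ m (fun v x => x * U Φ m 1 v x)
    (fun v x => m * U Φ m 1 v x ^ 2 + U Φ m 2 v x)
    (fun v x => U Φ m 1 v x + x * U Φ m 2 v x) :=
  ((tb_id Φ m).mul (tb_U1 h hm)).congr (fun v x => by ring)
    (fun v x => by
      rw [U1_eq h hm]
      field_simp
      ring)
    (fun v x => by ring)

/-! ### derivatives of expectations -/

variable {ν : Measure ℝ} (hν : EM ν) {d τ : ℝ} (h0 : 0 < τ) (h1 : τ < d)
include hν h0 h1

/-- `d/dt E u_x² = E u_xx²` -/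
theorem dE_U1sq : HasDerivAt (EE Φ m d ν fun v x => U Φ m 1 v x ^ 2)
    (EE Φ m d ν (fun v x => U Φ m 2 v x ^ 2) τ) τ :=
  EE_deriv h m (tb_U1sq h hm) hν h0 h1

/-- `d/dt E u_xx² = E[u_xxx² - 2m u_xx³]` -/
theorem dE_U2sq : HasDerivAt (EE Φ m d ν fun v x => U Φ m 2 v x ^ 2)
    (EE Φ m d ν (fun v x => U Φ m 3 v x ^ 2 - 2 * m * U Φ m 2 v x ^ 3) τ) τ :=
  EE_deriv h m (tb_U2sq h hm) hν h0 h1

/-- second derivative -/
theorem ddE_U2sq :
    HasDerivAt (EE Φ m d ν fun v x => U Φ m 3 v x ^ 2 - 2 * m * U Φ m 2 v x ^ 3)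
    (EE Φ m d ν (fun v x => U Φ m 4 v x ^ 2 - 12 * m * U Φ m 2 v x * U Φ m 3 v x ^ 2 +
      6 * m ^ 2 * U Φ m 2 v x ^ 4) τ) τ :=
  EE_deriv h m (tb_LU2sq h hm) hν h0 h1

/-- `d/dt E x u_x = E [m u_x² + u_xx]` -/
theorem dE_XU1 : HasDerivAt (EE Φ m d ν fun v x => x * U Φ m 1 v x)
    (EE Φ m d ν (fun v x => m * U Φ m 1 v x ^ 2 + U Φ m 2 v x) τ) τ :=
  EE_deriv h m (tb_XU1 h hm) hν h0 h1

/-- `d/dt E u = (m/2) E u_x²` -/
theorem dE_U0 : HasDerivAt (EE Φ m d ν (U Φ m 0))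
    (EE Φ m d ν (fun v x => m / 2 * U Φ m 1 v x ^ 2) τ) τ :=
  EE_deriv h m (tb_U0 h hm) hν h0 h1

omit hm in
/-- total mass -/
theorem dE_one : HasDerivAt (EE Φ m d ν fun _ _ => 1) (EE Φ m d ν (fun _ _ => 0) τ) τ :=
  EE_deriv h m (TB.const 1) hν h0 h1

end Usec

end

end Crest.Agent.R339.B
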