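import Crest.Agent.R339.GLow
import Crest.Prelude.Def_SpinGlass

/-!
# Row 339, part (A): Guerra's bound for the mean-field spin glass
-/

set_option autoImplicit false

namespace Crest.Agent.R339.Guerra

open MeasureTheory ProbabilityTheory Real

noncomputable section

/-! ### covariances -/

/-- overlap along the tree -/
def qw {N : ℕ} {S : Type} : ∀ (ℓ : Lev) (_ : ℝ), Idx N S ℓ → Idx N S ℓ → ℝ
  | [], q, _, _ => q
  | x :: ℓ, q, a, b => if a.1 = b.1 then qw ℓ (q + x.2) a.2 b.2 else q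

theorem qw_self {N : ℕ} {S : Type} : ∀ (ℓ : Lev) (q : ℝ) (a : Idx N S ℓ),
    qw ℓ q a a = q + (ℓ.map Prod.snd).sum
  | [], q, _ => by simp [qw]
  | x :: ℓ, q, a => by
    simp only [qw, if_true, List.map_cons, List.sum_cons]
    rw [qw_self ℓ (q + x.2) a.2]; ring

theorem good_nonneg {β : ℝ} : ∀ {ℓ : Lev}, Good β ℓ → ∀ x ∈ ℓ, 0 ≤ x.2
  | [], _, x, hx => by simp at hx
  | y :: ℓ, h, x, hx => by
    rcases List.mem_cons.1 hx with rfl | hx
    · exact h.2.2.1
    · exact good_nonneg h.2.2.2 x hx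

theorem sum_Am {N n : ℕ} {S : Type} : ∀ (ℓ : Lev) (q : ℝ), 0 ≤ q →
    (∀ x ∈ ℓ, 0 ≤ x.2) → ∀ a b : Idx N S ℓ,
    ∑ j, Am n ℓ q a j * Am n ℓ q b j = (n / 2 : ℝ) * ((qw ℓ q a b) ^ 2 - q ^ 2)
  | [], q, _, _, a, b => by
    have : ∑ j, Am n [] q a j * Am n [] q b j = 0 :=
      Finset.sum_eq_zero fun j _ => (show Empty from j).elim
    rw [this]; simp [qw]
  | x :: ℓ, q, hq, hδ, a, b => by
    have hx : 0 ≤ x.2 := hδ x (by simp)
    have hv : 0 ≤ vv n q x.2 := by
      unfold vv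
      have : 0 ≤ (q + x.2) ^ 2 - q ^ 2 := by nlinarith
      positivity
    have ih := sum_Am (N := N) (n := n) (S := S) ℓ (q + x.2) (by linarith)
      (fun y hy => hδ y (by simp [hy])) a.2 b.2
    have e : ∑ j : JA N (x :: ℓ), Am n (x :: ℓ) q a j * Am n (x :: ℓ) q b j =
      ∑ j : Fin N ⊕ (Fin N × JA N ℓ), Am n (x :: ℓ) q a j * Am n (x :: ℓ) q b j := rfl
    rw [e, Fintype.sum_sum_type, Fintype.sum_prod_type]
    by_cases hab : a.1 = b.1
    · have h1 : ∑ c : Fin N, Am n (x :: ℓ) q a (Sum.inl c) * Am n (x :: ℓ) q b (Sum.inl c) =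
          vv n q x.2 := by
        rw [Finset.sum_eq_single a.1]
        · simp only [Am, hab, if_true]
          exact Real.mul_self_sqrt hv
        · intro c _ hc
          simp only [Am]; rw [if_neg (Ne.symm hc)]; ring
        · intro h; exact absurd (Finset.mem_univ _) h
      have h2 : ∑ c : Fin N, ∑ j : JA N ℓ, Am n (x :: ℓ) q a (Sum.inr (c, j)) *
          Am n (x :: ℓ) q b (Sum.inr (c, j)) =
          ∑ j, Am n ℓ (q + x.2) a.2 j * Am n ℓ (q + x.2) b.2 j := by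
        rw [Finset.sum_eq_single a.1]
        · simp only [Am, hab, if_true]
        · intro c _ hc
          refine Finset.sum_eq_zero fun j _ => ?_
          simp only [Am]; rw [if_neg (Ne.symm hc)]; ring
        · intro h; exact absurd (Finset.mem_univ _) h
      rw [h1, h2, ih]
      simp only [qw, hab, if_true, vv]; ring
    · have h1 : ∑ c : Fin N, Am n (x :: ℓ) q a (Sum.inl c) * Am n (x :: ℓ) q b (Sum.inl c) =
          0 := by
        refine Finset.sum_eq_zero fun c _ => ?_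
        simp only [Am]
        by_cases h : a.1 = c
        · have : ¬ b.1 = c := fun h' => hab (h.trans h'.symm)
          rw [if_neg this]; ring
        · rw [if_neg h]; ring
      have h2 : ∑ c : Fin N, ∑ j : JA N ℓ, Am n (x :: ℓ) q a (Sum.inr (c, j)) *
          Am n (x :: ℓ) q b (Sum.inr (c, j)) = 0 := by
        refine Finset.sum_eq_zero fun c _ => Finset.sum_eq_zero fun j _ => ?_
        simp only [Am]
        by_cases h : a.1 = c
        · have : ¬ b.1 = c := fun h' => hab (h.trans h'.symm)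
          rw [if_neg this]; ring
        · rw [if_neg h]; ring
      rw [h1, h2]
      simp only [qw, hab, if_false]; ring

/-- `n` times the overlap -/
def rr {n : ℕ} (σ τ : Fin n → Bool) : ℝ := ∑ i, sp i σ * sp i τ

theorem sum_Bm {N n : ℕ} : ∀ (ℓ : Lev) (q : ℝ), (∀ x ∈ ℓ, 0 ≤ x.2) →
    ∀ a b : Idx N (Fin n → Bool) ℓ,
    ∑ j, Bm sp ℓ a j * Bm sp ℓ b j = (qw ℓ q a b - q) * rr (leaf ℓ a) (leaf ℓ b)
  | [], q, _, a, b => by
    have : ∑ j, Bm (N := N) sp [] a j * Bm sp [] b j = 0 :=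
      Finset.sum_eq_zero fun j _ => (show Empty from j).elim
    rw [this]; simp [qw]
  | x :: ℓ, q, hδ, a, b => by
    have hx : 0 ≤ x.2 := hδ x (by simp)
    have ih := sum_Bm (N := N) (n := n) ℓ (q + x.2)
      (fun y hy => hδ y (by simp [hy])) a.2 b.2
    have e : ∑ j : JB N n (x :: ℓ), Bm sp (x :: ℓ) a j * Bm sp (x :: ℓ) b j =
      ∑ j : (Fin N × Fin n) ⊕ (Fin N × JB N n ℓ), Bm sp (x :: ℓ) a j * Bm sp (x :: ℓ) b j := rfl
    rw [e, Fintype.sum_sum_type, Fintype.sum_prod_type, Fintype.sum_prod_type]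
    by_cases hab : a.1 = b.1
    · have h1 : ∑ c : Fin N, ∑ i : Fin n, Bm sp (x :: ℓ) a (Sum.inl (c, i)) *
          Bm sp (x :: ℓ) b (Sum.inl (c, i)) = x.2 * rr (leaf ℓ a.2) (leaf ℓ b.2) := by
        rw [Finset.sum_eq_single a.1]
        · simp only [Bm, hab, if_true]
          unfold rr
          rw [Finset.mul_sum]
          refine Finset.sum_congr rfl fun i _ => ?_
          have := Real.mul_self_sqrt hx
          linear_combination (sp i (leaf ℓ a.2) * sp i (leaf ℓ b.2)) * this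
        · intro c _ hc
          refine Finset.sum_eq_zero fun j _ => ?_
          simp only [Bm]; rw [if_neg (Ne.symm hc)]; ring
        · intro h; exact absurd (Finset.mem_univ _) h
      have h2 : ∑ c : Fin N, ∑ j : JB N n ℓ, Bm sp (x :: ℓ) a (Sum.inr (c, j)) *
          Bm sp (x :: ℓ) b (Sum.inr (c, j)) =
          ∑ j, Bm sp ℓ a.2 j * Bm sp ℓ b.2 j := by
        rw [Finset.sum_eq_single a.1]
        · simp only [Bm, hab, if_true]
        · intro c _ hc
          refine Finset.sum_eq_zero fun j _ => ?_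
          simp only [Bm]; rw [if_neg (Ne.symm hc)]; ring
        · intro h; exact absurd (Finset.mem_univ _) h
      rw [h1, h2, ih]
      simp only [qw, hab, if_true, leaf]; ring
    · have h1 : ∑ c : Fin N, ∑ i : Fin n, Bm sp (x :: ℓ) a (Sum.inl (c, i)) *
          Bm sp (x :: ℓ) b (Sum.inl (c, i)) = 0 := by
        refine Finset.sum_eq_zero fun c _ => Finset.sum_eq_zero fun j _ => ?_
        simp only [Bm]
        by_cases h : a.1 = c
        · have : ¬ b.1 = c := fun h' => hab (h.trans h'.symm)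
          rw [if_neg this]; ring
        · rw [if_neg h]; ring
      have h2 : ∑ c : Fin N, ∑ j : JB N n ℓ, Bm sp (x :: ℓ) a (Sum.inr (c, j)) *
          Bm sp (x :: ℓ) b (Sum.inr (c, j)) = 0 := by
        refine Finset.sum_eq_zero fun c _ => Finset.sum_eq_zero fun j _ => ?_
        simp only [Bm]
        by_cases h : a.1 = c
        · have : ¬ b.1 = c := fun h' => hab (h.trans h'.symm)
          rw [if_neg this]; ring
        · rw [if_neg h]; ring
      rw [h1, h2]
      simp only [qw, hab, if_false]; ring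

/-- coefficients of the Hamiltonian -/
def CH {n : ℕ} (σ : Fin n → Bool) (p : Fin n × Fin n) : ℝ :=
  if p.1 < p.2 then (1 / Real.sqrt n) * (sp p.1 σ * sp p.2 σ) else 0

theorem sp_sq {n : ℕ} (i : Fin n) (σ : Fin n → Bool) : sp i σ * sp i σ = 1 := by
  unfold sp; split <;> norm_num

theorem sum_CH {n : ℕ} (hn : 0 < n) (σ τ : Fin n → Bool) :
    ∑ p, CH σ p * CH τ p = (rr σ τ) ^ 2 / (2 * n) - 1 / 2 := by
  have hn' : (0:ℝ) < n := by exact_mod_cast hn
  set u : Fin n → ℝ := fun i => sp i σ * sp i τ with hu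
  have hu2 : ∀ i, u i * u i = 1 := fun i => by
    have h1 := sp_sq i σ
    have h2 := sp_sq i τ
    simp only [hu]
    linear_combination (sp i τ * sp i τ) * h1 + h2
  have h1 : ∀ p : Fin n × Fin n, CH σ p * CH τ p = if p.1 < p.2 then (1 / (n:ℝ)) * (u p.1 * u p.2)
      else 0 := by
    intro p
    unfold CH
    split
    · have : (1 / Real.sqrt n) * (1 / Real.sqrt n) = 1 / (n:ℝ) := by
        rw [div_mul_div_comm, Real.mul_self_sqrt hn'.le, one_mul]
      simp only [hu]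
      linear_combination (sp p.1 σ * sp p.2 σ * sp p.1 τ * sp p.2 τ) * this
    · ring
  simp only [h1]
  have h2 : ∑ p : Fin n × Fin n, (if p.1 < p.2 then (1 / (n:ℝ)) * (u p.1 * u p.2) else 0) =
      (1 / (n:ℝ)) * ∑ i, ∑ j, if i < j then u i * u j else 0 := by
    rw [Fintype.sum_prod_type, Finset.mul_sum]
    refine Finset.sum_congr rfl fun i _ => ?_
    rw [Finset.mul_sum]
    refine Finset.sum_congr rfl fun j _ => ?_
    split <;> simp
  rw [h2]
  have h3 : (rr σ τ) ^ 2 = 2 * (∑ i, ∑ j, if i < j then u i * u j else 0) + n := by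
    have e1 : (rr σ τ) ^ 2 = ∑ i, ∑ j, u i * u j := by
      unfold rr
      rw [sq, Finset.sum_mul_sum]
    have e2 : ∀ i j, u i * u j = (if i < j then u i * u j else 0) +
        (if j < i then u j * u i else 0) + (if i = j then 1 else 0) := by
      intro i j
      rcases lt_trichotomy i j with h | h | h
      · simp [h, h.not_gt, h.ne]
      · subst h; simp [hu2]
      · simp [h, h.not_gt, h.ne', mul_comm]
    rw [e1]
    have e3 : ∑ i, ∑ j, u i * u j = ∑ i, ∑ j, ((if i < j then u i * u j else 0) +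
        (if j < i then u j * u i else 0) + (if i = j then 1 else 0)) :=
      Finset.sum_congr rfl fun i _ => Finset.sum_congr rfl fun j _ => e2 i j
    rw [e3]
    simp only [Finset.sum_add_distrib]
    have e4 : ∑ i, ∑ j, (if j < i then u j * u i else 0) =
        ∑ i, ∑ j, (if i < j then u i * u j else 0) := by
      rw [Finset.sum_comm]
    rw [e4]
    simp
    ring
  rw [h3]
  field_simp
  ring

/-! ### the two fields -/

/-- the field `X` (with the common shift) -/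
def AX {N n : ℕ} (ℓ : Lev) (q : ℝ) (a : Idx N (Fin n → Bool) ℓ) :
    (Fin n × Fin n) ⊕ (Unit ⊕ JA N ℓ) → ℝ :=
  Sum.elim (CH (leaf ℓ a)) (Sum.elim (fun _ => Real.sqrt (1 / 2 + (n / 2 : ℝ) * q ^ 2))
    (Am n ℓ q a))

/-- the field `Y` -/
def BY {N n : ℕ} (ℓ : Lev) (q : ℝ) (a : Idx N (Fin n → Bool) ℓ) :
    Fin n ⊕ JB N n ℓ → ℝ :=
  Sum.elim (fun i => Real.sqrt q * sp i (leaf ℓ a)) (Bm sp ℓ a)

theorem cov_AX {N n : ℕ} (hn : 0 < n) (ℓ : Lev) {q : ℝ} (hq : 0 ≤ q)
    (hδ : ∀ x ∈ ℓ, 0 ≤ x.2) (a b : Idx N (Fin n → Bool) ℓ) :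
    ∑ j, AX ℓ q a j * AX ℓ q b j =
      (rr (leaf ℓ a) (leaf ℓ b)) ^ 2 / (2 * n) + (n / 2 : ℝ) * (qw ℓ q a b) ^ 2 := by
  rw [Fintype.sum_sum_type, Fintype.sum_sum_type]
  simp only [AX, Sum.elim_inl, Sum.elim_inr]
  rw [sum_CH hn, sum_Am ℓ q hq hδ]
  have h0 : 0 ≤ 1 / 2 + (n / 2 : ℝ) * q ^ 2 := by positivity
  simp only [Finset.univ_unique, Finset.sum_const, Finset.card_singleton, one_smul]
  rw [Real.mul_self_sqrt h0]
  ring

theorem cov_BY {N n : ℕ} (ℓ : Lev) {q : ℝ} (hq : 0 ≤ q)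
    (hδ : ∀ x ∈ ℓ, 0 ≤ x.2) (a b : Idx N (Fin n → Bool) ℓ) :
    ∑ j, BY ℓ q a j * BY ℓ q b j = qw ℓ q a b * rr (leaf ℓ a) (leaf ℓ b) := by
  rw [Fintype.sum_sum_type]
  simp only [BY, Sum.elim_inl, Sum.elim_inr]
  rw [sum_Bm ℓ q hδ]
  have e : ∑ i, Real.sqrt q * sp i (leaf ℓ a) * (Real.sqrt q * sp i (leaf ℓ b)) =
      q * rr (leaf ℓ a) (leaf ℓ b) := by
    unfold rr
    rw [Finset.mul_sum]
    refine Finset.sum_congr rfl fun i _ => ?_
    have := Real.mul_self_sqrt hq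
    linear_combination (sp i (leaf ℓ a) * sp i (leaf ℓ b)) * this
  rw [e]; ring

theorem rr_self {n : ℕ} (σ : Fin n → Bool) : rr σ σ = n := by
  unfold rr
  simp [sp_sq]

instance {N : ℕ} [NeZero N] {S : Type} [Nonempty S] : ∀ ℓ, Nonempty (Idx N S ℓ)
  | [] => inferInstanceAs (Nonempty S)
  | _ :: ℓ => ⟨((0 : Fin N), (instNonemptyIdxOfNeZeroNat ℓ).some)⟩

/-- comparison of the two fields -/
theorem compareXY {β : ℝ} (hβ : 0 < β) {N n : ℕ} (hN : 0 < N) (hn : 0 < n) (ℓ : Lev)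
    (hG : Good β ℓ) {q : ℝ} (hq : 0 ≤ q) (hs : q + (ℓ.map Prod.snd).sum = 1) :
    ∫ g, (1 / mh β ℓ) * Real.log (W β ℓ (lin (AX (N := N) (n := n) ℓ q) g)) ∂(G _) ≤
    ∫ g, (1 / mh β ℓ) * Real.log (W β ℓ (lin (BY (N := N) (n := n) ℓ q) g)) ∂(G _) := by
  have hcls := inCls_W hβ hN (S := Fin n → Bool) ℓ hG
  have hm := mh_pos hβ hG
  have hδ := good_nonneg hG
  have hn' : (0:ℝ) < n := by exact_mod_cast hn
  obtain ⟨c, P, H, hc, hF, hP, hHc, hPb, hHb, hH⟩ := hcls.log hm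
  set A : Idx N (Fin n → Bool) ℓ →
      ((Fin n × Fin n) ⊕ (Unit ⊕ JA N ℓ)) ⊕ (Fin n ⊕ JB N n ℓ) → ℝ :=
    fun a => Sum.elim (AX ℓ q a) (fun _ => 0) with hA
  set B : Idx N (Fin n → Bool) ℓ →
      ((Fin n × Fin n) ⊕ (Unit ⊕ JA N ℓ)) ⊕ (Fin n ⊕ JB N n ℓ) → ℝ :=
    fun a => Sum.elim (fun _ => 0) (BY ℓ q a) with hB
  have hAA : ∀ a b, ∑ j, A a j * A b j =
      (rr (leaf ℓ a) (leaf ℓ b)) ^ 2 / (2 * n) + (n / 2 : ℝ) * (qw ℓ q a b) ^ 2 := by
    intro a b
    rw [← cov_AX hn ℓ hq hδ a b, Fintype.sum_sum_type]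
    simp [hA]
  have hBB : ∀ a b, ∑ j, B a j * B b j = qw ℓ q a b * rr (leaf ℓ a) (leaf ℓ b) := by
    intro a b
    rw [← cov_BY ℓ hq hδ a b, Fintype.sum_sum_type]
    simp [hB]
  have hk := kahane hF hP hHc hc hPb hHb hH A B (fun a b j => by
    rcases j with j | j <;> simp [hA, hB]) (fun a => by
    rw [hAA, hBB, rr_self, qw_self, hs]
    field_simp
    ring) (fun a b => by
    rw [hAA, hBB]
    have : (rr (leaf ℓ a) (leaf ℓ b)) ^ 2 / (2 * n) + (n / 2 : ℝ) * (qw ℓ q a b) ^ 2 -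
      qw ℓ q a b * rr (leaf ℓ a) (leaf ℓ b) =
      (rr (leaf ℓ a) (leaf ℓ b) - n * qw ℓ q a b) ^ 2 / (2 * n) := by
      field_simp
      ring
    have h2 : 0 ≤ (rr (leaf ℓ a) (leaf ℓ b) - n * qw ℓ q a b) ^ 2 / (2 * n) := by positivity
    linarith)
  have hA1 : ∀ g, lin A g = lin (AX ℓ q) (fun k => g (Sum.inl k)) := by
    intro g; ext a
    unfold lin
    rw [Fintype.sum_sum_type]
    simp [hA]
  have hB1 : ∀ g, lin B g = lin (BY ℓ q) (fun k => g (Sum.inr k)) := by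
    intro g; ext a
    unfold lin
    rw [Fintype.sum_sum_type]
    simp [hB]
  simp only [hA1, hB1] at hk
  have hfm : ∀ {κ : Type} [Fintype κ] (C : Idx N (Fin n → Bool) ℓ → κ → ℝ),
      AEStronglyMeasurable (fun g => (1 / mh β ℓ) * Real.log (W β ℓ (lin C g))) (G κ) := by
    intro κ _ C
    have h1 := (hcls.integrable_log (fun _ => 0) C).aestronglyMeasurable.const_mul (1 / mh β ℓ)
    simpa using h1
  rw [mp_int (mp_comp (Sum.inl : _ → ((Fin n × Fin n) ⊕ (Unit ⊕ JA N ℓ)) ⊕ (Fin n ⊕ JB N n ℓ))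
      Sum.inl_injective) (hfm (AX ℓ q)),
    mp_int (mp_comp (Sum.inr : _ → ((Fin n × Fin n) ⊕ (Unit ⊕ JA N ℓ)) ⊕ (Fin n ⊕ JB N n ℓ))
      Sum.inr_injective) (hfm (BY ℓ q))] at hk
  exact hk

/-- the Hamiltonian as a linear function of the disorder -/
def Ham {n : ℕ} (J : Fin n × Fin n → ℝ) (σ : Fin n → Bool) : ℝ := ∑ p, CH σ p * J p

/-- the `X` side -/
theorem lowerX {β : ℝ} (hβ : 0 < β) {N n : ℕ} (hN : 0 < N) (ℓ : Lev)
    (hG : Good β ℓ) (q : ℝ) :
    ∫ J, (1 / β) * Real.log (∑ σ : Fin n → Bool, Real.exp (β * Ham J σ))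
        ∂(G (Fin n × Fin n)) + lamSum n N ℓ q ≤
    ∫ g, (1 / mh β ℓ) * Real.log (W β ℓ (lin (AX (N := N) (n := n) ℓ q) g)) ∂(G _) := by
  have hcls := inCls_W hβ hN (S := Fin n → Bool) ℓ hG
  have hm := mh_pos hβ hG
  set c0 := Real.sqrt (1 / 2 + (n / 2 : ℝ) * q ^ 2) with hc0
  set Ψ : ((Fin n × Fin n) ⊕ (Unit ⊕ JA N ℓ) → ℝ) → ℝ := fun g =>
    (1 / mh β ℓ) * Real.log (W β ℓ (lin (AX (N := N) (n := n) ℓ q) g)) with hΨ
  have hΨi : Integrable Ψ (G ((Fin n × Fin n) ⊕ (Unit ⊕ JA N ℓ))) := by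
    have h1 := (hcls.integrable_log (fun _ => 0) (AX (N := N) (n := n) ℓ q)).const_mul
      (1 / mh β ℓ)
    refine h1.congr (Filter.Eventually.of_forall fun g => ?_)
    simp only [hΨ, zero_add]
  have hsum := mp_sum (ι := Fin n × Fin n) (κ := Unit ⊕ JA N ℓ)
  have hΨi2 : Integrable (fun p : (Fin n × Fin n → ℝ) × (Unit ⊕ JA N ℓ → ℝ) =>
      Ψ (Sum.elim p.1 p.2)) ((G (Fin n × Fin n)).prod (G (Unit ⊕ JA N ℓ))) :=
    hsum.integrable_comp_of_integrable hΨi
  have hgoal : ∫ g, Ψ g ∂(G ((Fin n × Fin n) ⊕ (Unit ⊕ JA N ℓ))) =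
      ∫ J, ∫ h, Ψ (Sum.elim J h) ∂(G (Unit ⊕ JA N ℓ)) ∂(G (Fin n × Fin n)) := by
    rw [← mp_int hsum hΨi.aestronglyMeasurable]
    exact integral_prod _ hΨi2
  rw [hgoal]
  have hinner : ∀ J : Fin n × Fin n → ℝ,
      (1 / β) * Real.log (∑ σ : Fin n → Bool, Real.exp (β * Ham J σ)) + lamSum n N ℓ q ≤
      ∫ h, Ψ (Sum.elim J h) ∂(G (Unit ⊕ JA N ℓ)) := by
    intro J
    have e1 : ∀ h : Unit ⊕ JA N ℓ → ℝ, Ψ (Sum.elim J h) = c0 * h (Sum.inl ()) +
        (1 / mh β ℓ) * Real.log (W β ℓ (fun a : Idx N (Fin n → Bool) ℓ => Ham J (leaf ℓ a) +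
          lin (Am n ℓ q) (fun j => h (Sum.inr j)) a)) := by
      intro h
      have e2 : lin (AX (N := N) (n := n) ℓ q) (Sum.elim J h) = fun a => c0 * h (Sum.inl ()) +
          (Ham J (leaf ℓ a) + lin (Am n ℓ q) (fun j => h (Sum.inr j)) a) := by
        ext a
        unfold lin Ham
        rw [Fintype.sum_sum_type, Fintype.sum_sum_type]
        simp only [AX, Sum.elim_inl, Sum.elim_inr, Finset.univ_unique, Finset.sum_singleton]
        rw [← hc0]
        have hdef : (default : Unit) = () := rfl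
        rw [hdef]
        ring
      simp only [hΨ]
      rw [e2, W_shift hβ hN ℓ hG, Real.log_mul (Real.exp_pos _).ne' (hcls.pos _).ne',
        Real.log_exp, mul_add]
      congr 1
      field_simp
    simp only [e1]
    have hi1 : Integrable (fun h : Unit ⊕ JA N ℓ → ℝ => c0 * h (Sum.inl ()))
      (G (Unit ⊕ JA N ℓ)) := (integrable_coord _).const_mul _
    have hmp := mp_comp (Sum.inr : JA N ℓ → Unit ⊕ JA N ℓ) Sum.inr_injective
    have hi2 : Integrable (fun h : JA N ℓ → ℝ => (1 / mh β ℓ) * Real.log (W β ℓ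
      (fun a : Idx N (Fin n → Bool) ℓ => Ham J (leaf ℓ a) + lin (Am n ℓ q) h a)))
      (G (JA N ℓ)) := (hcls.integrable_log _ _).const_mul _
    have hi3 : Integrable (fun h : Unit ⊕ JA N ℓ → ℝ => (1 / mh β ℓ) * Real.log (W β ℓ
      (fun a : Idx N (Fin n → Bool) ℓ => Ham J (leaf ℓ a) +
        lin (Am n ℓ q) (fun j => h (Sum.inr j)) a))) (G (Unit ⊕ JA N ℓ)) :=
      hmp.integrable_comp_of_integrable hi2
    rw [integral_add hi1 hi3, integral_const_mul,
      integral_coord, mul_zero, zero_add, mp_int hmp hi2.aestronglyMeasurable]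
    exact lower hβ hN (Ham J) ℓ hG q
  have hZi : Integrable (fun J => (1 / β) * Real.log (∑ σ : Fin n → Bool,
      Real.exp (β * Ham J σ))) (G (Fin n × Fin n)) := by
    have h1 := ((inCls_base (I := Fin n → Bool) β hβ).integrable_log (ι := Fin n × Fin n)
      (fun _ => 0) CH).const_mul (1 / β)
    simpa [lin, Ham] using h1
  have e3 : ∫ J, (1 / β) * Real.log (∑ σ : Fin n → Bool, Real.exp (β * Ham J σ))
        ∂(G (Fin n × Fin n)) + lamSum n N ℓ q =
      ∫ J, ((1 / β) * Real.log (∑ σ : Fin n → Bool, Real.exp (β * Ham J σ)) + lamSum n N ℓ q)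
        ∂(G (Fin n × Fin n)) := by
    rw [integral_add hZi (integrable_const _), integral_const]
    simp
  rw [e3]
  exact integral_mono (hZi.add (integrable_const _)) hΨi2.integral_prod_left hinner

/-- the `Y` side -/
theorem upperY {β : ℝ} (hβ : 0 < β) {N n : ℕ} (hN : 0 < N) (ℓ : Lev)
    (hG : Good β ℓ) (q : ℝ) :
    ∫ g, (1 / mh β ℓ) * Real.log (W β ℓ (lin (BY (N := N) (n := n) ℓ q) g)) ∂(G _) ≤
      n * ∫ y, Phi β ℓ (Real.sqrt q * y) ∂γ := by
  have hcls := inCls_W hβ hN (S := Fin n → Bool) ℓ hG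
  have hm := mh_pos hβ hG
  set Ψ : (Fin n ⊕ JB N n ℓ → ℝ) → ℝ := fun g =>
    (1 / mh β ℓ) * Real.log (W β ℓ (lin (BY (N := N) (n := n) ℓ q) g)) with hΨ
  have hΨi : Integrable Ψ (G (Fin n ⊕ JB N n ℓ)) := by
    have h1 := (hcls.integrable_log (fun _ => 0) (BY (N := N) (n := n) ℓ q)).const_mul
      (1 / mh β ℓ)
    refine h1.congr (Filter.Eventually.of_forall fun g => ?_)
    simp only [hΨ, zero_add]
  have hsum := mp_sum (ι := Fin n) (κ := JB N n ℓ)
  have hΨi2 : Integrable (fun p : (Fin n → ℝ) × (JB N n ℓ → ℝ) =>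
      Ψ (Sum.elim p.1 p.2)) ((G (Fin n)).prod (G (JB N n ℓ))) :=
    hsum.integrable_comp_of_integrable hΨi
  have hgoal : ∫ g, Ψ g ∂(G (Fin n ⊕ JB N n ℓ)) =
      ∫ y, ∫ h, Ψ (Sum.elim y h) ∂(G (JB N n ℓ)) ∂(G (Fin n)) := by
    rw [← mp_int hsum hΨi.aestronglyMeasurable]
    exact integral_prod _ hΨi2
  rw [hgoal]
  have hinner : ∀ y : Fin n → ℝ, ∫ h, Ψ (Sum.elim y h) ∂(G (JB N n ℓ)) ≤
      ∑ i, Phi β ℓ (Real.sqrt q * y i) := by
    intro y
    have e2 : ∀ h : JB N n ℓ → ℝ, lin (BY (N := N) (n := n) ℓ q) (Sum.elim y h) =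
        fun a => (∑ i, sp i (leaf ℓ a) * (Real.sqrt q * y i)) + lin (Bm sp ℓ) h a := by
      intro h
      ext a
      unfold lin
      rw [Fintype.sum_sum_type]
      simp only [BY, Sum.elim_inl, Sum.elim_inr]
      congr 1
      refine Finset.sum_congr rfl fun i _ => by ring
    simp only [hΨ, e2]
    set w : (JB N n ℓ → ℝ) → ℝ := fun h => W β ℓ (fun a : Idx N (Fin n → Bool) ℓ =>
      (∑ i, sp i (leaf ℓ a) * (Real.sqrt q * y i)) + lin (Bm sp ℓ) h a) with hw
    have hwi : Integrable w (G (JB N n ℓ)) := hcls.integrable _ _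
    have hwp : ∀ h, 0 < w h := fun h => hcls.pos _
    have hwl : Integrable (fun h => Real.log (w h)) (G (JB N n ℓ)) := hcls.integrable_log _ _
    have hup := upper hβ hN ℓ hG (fun i => Real.sqrt q * y i)
    set M := Real.exp (mh β ℓ * ∑ i, Phi β ℓ (Real.sqrt q * y i)) with hM
    have hMp : 0 < M := Real.exp_pos _
    have h1 : ∀ h, Real.log (w h) ≤ Real.log M + (M⁻¹ * w h - 1) := by
      intro h
      have h2 := Real.log_le_sub_one_of_pos (mul_pos (inv_pos.2 hMp) (hwp h))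
      rw [Real.log_mul (inv_pos.2 hMp).ne' (hwp h).ne', Real.log_inv] at h2
      linarith
    have h3 : ∫ h, Real.log (w h) ∂(G (JB N n ℓ)) ≤ Real.log M := by
      calc ∫ h, Real.log (w h) ∂(G (JB N n ℓ))
          ≤ ∫ h, (Real.log M + (M⁻¹ * w h - 1)) ∂(G (JB N n ℓ)) :=
            integral_mono hwl ((integrable_const _).add ((hwi.const_mul _).sub
              (integrable_const _))) h1
        _ = Real.log M + (M⁻¹ * ∫ h, w h ∂(G (JB N n ℓ)) - 1) := by
            have hi5 : Integrable (fun h => M⁻¹ * w h - 1) (G (JB N n ℓ)) :=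
              (hwi.const_mul _).sub (integrable_const _)
            rw [integral_add (integrable_const _) hi5,
              integral_sub (hwi.const_mul _) (integrable_const _),
              integral_const_mul, integral_const, integral_const]
            simp
        _ ≤ Real.log M := by
            have h4 : M⁻¹ * ∫ h, w h ∂(G (JB N n ℓ)) ≤ M⁻¹ * M :=
              mul_le_mul_of_nonneg_left hup (inv_pos.2 hMp).le
            rw [inv_mul_cancel₀ hMp.ne'] at h4
            linarith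
    rw [integral_const_mul]
    have h5 := mul_le_mul_of_nonneg_left h3 (by positivity : 0 ≤ 1 / mh β ℓ)
    refine h5.trans (le_of_eq ?_)
    rw [hM, Real.log_exp]
    field_simp
  have hL := lip_Phi hβ ℓ hG
  have hi1 : Integrable (fun y : ℝ => Phi β ℓ (Real.sqrt q * y)) γ := by
    simpa using hL.integrable 0 (Real.sqrt q)
  have hi : ∀ i : Fin n, Integrable (fun y : Fin n → ℝ => Phi β ℓ (Real.sqrt q * y i))
      (G (Fin n)) := fun i =>
    (measurePreserving_eval (fun _ : Fin n => γ) i).integrable_comp_of_integrable hi1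
  calc ∫ y, ∫ h, Ψ (Sum.elim y h) ∂(G (JB N n ℓ)) ∂(G (Fin n))
      ≤ ∫ y, ∑ i, Phi β ℓ (Real.sqrt q * y i) ∂(G (Fin n)) :=
        integral_mono hΨi2.integral_prod_left (integrable_finsetSum _ fun i _ => hi i) hinner
    _ = ∑ i : Fin n, ∫ y, Phi β ℓ (Real.sqrt q * y) ∂γ := by
        rw [integral_finsetSum _ fun i _ => hi i]
        refine Finset.sum_congr rfl fun i _ => ?_
        exact mp_int (measurePreserving_eval (fun _ : Fin n => γ) i) hi1.aestronglyMeasurable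
    _ = n * ∫ y, Phi β ℓ (Real.sqrt q * y) ∂γ := by simp

/-- the Parisi penalty -/
def pen : ℝ → Lev → ℝ
  | _, [] => 0
  | q, x :: ℓ => x.1 * ((q + x.2) ^ 2 - q ^ 2) + pen (q + x.2) ℓ

theorem lamSum_ge {β : ℝ} (hβ : 0 < β) (n : ℕ) : ∀ (ℓ : Lev), Good β ℓ → ∀ q : ℝ, 0 ≤ q →
    ∀ ε : ℝ, 0 < ε → ∃ N0 : ℕ, ∀ N : ℕ, N0 ≤ N → 0 < N →
      (n / 4 : ℝ) * pen q ℓ - ε ≤ lamSum n N ℓ q
  | [], _, q, _, ε, hε => ⟨0, fun N _ _ => by simp [pen, lamSum, hε.le]⟩
  | x :: ℓ, hG, q, hq, ε, hε => by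
    obtain ⟨hm, hmm, hδ, hG'⟩ := hG
    have hv : 0 ≤ vv n q x.2 := by
      unfold vv
      have : 0 ≤ (q + x.2) ^ 2 - q ^ 2 := by nlinarith
      positivity
    obtain ⟨N1, h1⟩ := lam_ge hm hv (half_pos hε)
    obtain ⟨N2, h2⟩ := lamSum_ge hβ n ℓ hG' (q + x.2) (by linarith) (ε / 2) (half_pos hε)
    refine ⟨max N1 N2, fun N hN hN0 => ?_⟩
    have h3 := h1 N (le_of_max_le_left hN) hN0
    have h4 := h2 N (le_of_max_le_right hN) hN0
    simp only [pen, lamSum]
    unfold vv at h3 ⊢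
    linarith

/-- Guerra's bound for the free energy -/
theorem guerra_free {β : ℝ} (hβ : 0 < β) {n : ℕ} (hn : 0 < n) (ℓ : Lev)
    (hG : Good β ℓ) {q : ℝ} (hq : 0 ≤ q) (hs : q + (ℓ.map Prod.snd).sum = 1) :
    ∫ J, (1 / β) * Real.log (∑ σ : Fin n → Bool, Real.exp (β * Ham J σ))
        ∂(G (Fin n × Fin n)) ≤
    n * (∫ y, Phi β ℓ (Real.sqrt q * y) ∂γ - pen q ℓ / 4) := by
  refine le_of_forall_pos_le_add fun ε hε => ?_
  obtain ⟨N0, hN0⟩ := lamSum_ge hβ n ℓ hG q hq ε hε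
  have h1 := hN0 (max N0 1) (le_max_left _ _) (by positivity)
  have hN : 0 < max N0 1 := by positivity
  have h2 := lowerX hβ (n := n) hN ℓ hG q
  have h3 := compareXY hβ hN hn ℓ hG hq hs
  have h4 := upperY hβ (n := n) hN ℓ hG q
  linarith

/-! ### translation to the statement's objects -/

open Crest.MathPhysics.SpinGlass

theorem pairEnergy_eq (n : ℕ) (J : Fin n → Fin n → ℝ) (σ : Fin n → Bool) :
    pairEnergy n J σ = Ham (fun p => J p.1 p.2) σ := by
  unfold pairEnergy Ham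
  rw [Fintype.sum_prod_type, Finset.mul_sum]
  refine Finset.sum_congr rfl fun i _ => ?_
  rw [Finset.mul_sum]
  refine Finset.sum_congr rfl fun j _ => ?_
  simp only [CH, spinSign, sp]
  by_cases h : i < j
  · rw [if_pos h, if_pos h]; ring
  · rw [if_neg h, if_neg h]; ring

theorem mp_uncurry (n : ℕ) : MeasurePreserving
    (fun J : Fin n → Fin n → ℝ => fun p : Fin n × Fin n => J p.1 p.2)
    (gaussianCouplings n) (G (Fin n × Fin n)) := by
  have hm : Measurable
      (fun J : Fin n → Fin n → ℝ => fun p : Fin n × Fin n => J p.1 p.2) := by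
    refine measurable_pi_lambda _ fun p => ?_
    exact (measurable_pi_apply p.2).comp (measurable_pi_apply p.1)
  refine ⟨hm, (Measure.pi_eq fun s hs => ?_).symm⟩
  rw [Measure.map_apply hm (MeasurableSet.univ_pi hs)]
  have : (fun J : Fin n → Fin n → ℝ => fun p : Fin n × Fin n => J p.1 p.2) ⁻¹' (Set.univ.pi s) =
      Set.univ.pi (fun i => Set.univ.pi (fun j => s (i, j))) := by
    ext J
    simp [Set.mem_pi, Prod.forall]
  rw [this, gaussianCouplings, Measure.pi_pi, Fintype.prod_prod_type]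
  refine Finset.prod_congr rfl fun i _ => ?_
  rw [Measure.pi_pi]

theorem Ham_integrable {n : ℕ} (σ : Fin n → Bool) :
    Integrable (fun J : Fin n × Fin n → ℝ => Ham J σ) (G (Fin n × Fin n)) :=
  integrable_finsetSum _ fun p _ => (integrable_coord p).const_mul _

/-- the maximal energy as a function of the uncurried couplings -/
def mx {n : ℕ} (J : Fin n × Fin n → ℝ) : ℝ :=
  Finset.univ.sup' Finset.univ_nonempty (fun σ : Fin n → Bool => Ham J σ)

theorem maxPairEnergy_eq (n : ℕ) (J : Fin n → Fin n → ℝ) :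
    maxPairEnergy n J = mx (fun p : Fin n × Fin n => J p.1 p.2) := by
  unfold maxPairEnergy mx
  congr 1
  ext σ
  exact pairEnergy_eq n J σ

theorem mx_measurable {n : ℕ} : Measurable (mx (n := n)) := by
  have h : Measurable (Finset.univ.sup' Finset.univ_nonempty
      (fun (σ : Fin n → Bool) (J : Fin n × Fin n → ℝ) => Ham J σ)) :=
    Finset.measurable_sup' _ fun σ _ => by
      unfold Ham
      fun_prop
  have e : mx (n := n) = Finset.univ.sup' Finset.univ_nonempty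
      (fun (σ : Fin n → Bool) (J : Fin n × Fin n → ℝ) => Ham J σ) := by
    ext J
    simp [mx, Finset.sup'_apply]
  rw [e]; exact h

theorem mx_integrable {n : ℕ} : Integrable (mx (n := n)) (G (Fin n × Fin n)) := by
  have hi : Integrable (fun J => ∑ σ : Fin n → Bool, |Ham J σ|) (G (Fin n × Fin n)) :=
    integrable_finsetSum _ fun σ _ => (Ham_integrable σ).abs
  refine hi.mono' mx_measurable.aestronglyMeasurable (Filter.Eventually.of_forall fun J => ?_)
  rw [Real.norm_eq_abs, abs_le]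
  have h1 : ∀ σ : Fin n → Bool, |Ham J σ| ≤ ∑ σ : Fin n → Bool, |Ham J σ| := fun σ =>
    Finset.single_le_sum (f := fun σ : Fin n → Bool => |Ham J σ|)
      (fun b _ => abs_nonneg _) (Finset.mem_univ σ)
  constructor
  · have h2 : Ham J (fun _ => true) ≤ mx J :=
      Finset.le_sup' (fun σ : Fin n → Bool => Ham J σ) (Finset.mem_univ _)
    have h3 := neg_abs_le (Ham J (fun _ => true))
    have h4 := h1 (fun _ => true)
    linarith
  · exact Finset.sup'_le _ _ fun σ _ => (le_abs_self _).trans (h1 σ)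

theorem mx_le {β : ℝ} (hβ : 0 < β) {n : ℕ} (J : Fin n × Fin n → ℝ) :
    mx J ≤ (1 / β) * Real.log (∑ σ : Fin n → Bool, Real.exp (β * Ham J σ)) := by
  refine Finset.sup'_le _ _ fun σ _ => ?_
  have h1 : Real.exp (β * Ham J σ) ≤ ∑ σ : Fin n → Bool, Real.exp (β * Ham J σ) :=
    Finset.single_le_sum (f := fun σ : Fin n → Bool => Real.exp (β * Ham J σ))
      (fun b _ => (Real.exp_pos _).le) (Finset.mem_univ σ)
  have h2 := Real.log_le_log (Real.exp_pos _) h1
  rw [Real.log_exp] at h2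
  have h3 := mul_le_mul_of_nonneg_left h2 (by positivity : 0 ≤ 1 / β)
  have e : 1 / β * (β * Ham J σ) = Ham J σ := by field_simp
  linarith

/-- **Guerra's bound** for the maximal energy. -/
theorem guerra {β : ℝ} (hβ : 0 < β) {n : ℕ} (hn : 0 < n) (ℓ : Lev)
    (hG : Good β ℓ) {q : ℝ} (hq : 0 ≤ q) (hs : q + (ℓ.map Prod.snd).sum = 1) :
    (∫ J, maxPairEnergy n J ∂(gaussianCouplings n)) / n ≤
      ∫ y, Phi β ℓ (Real.sqrt q * y) ∂γ - pen q ℓ / 4 := by
  have hn' : (0:ℝ) < n := by exact_mod_cast hn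
  rw [div_le_iff₀ hn']
  simp only [maxPairEnergy_eq]
  rw [mp_int (mp_uncurry n) mx_integrable.aestronglyMeasurable]
  have hZi : Integrable (fun J => (1 / β) * Real.log (∑ σ : Fin n → Bool,
      Real.exp (β * Ham J σ))) (G (Fin n × Fin n)) := by
    have h1 := ((inCls_base (I := Fin n → Bool) β hβ).integrable_log (ι := Fin n × Fin n)
      (fun _ => 0) CH).const_mul (1 / β)
    simpa [lin, Ham] using h1
  have h1 := guerra_free hβ hn ℓ hG hq hs
  have h2 := integral_mono mx_integrable hZi (fun J => mx_le hβ J)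
  linarith

end

end Crest.Agent.R339.Guerra
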