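/-
helper71, row 339 (S0530), part (B), variational block:
pure real-analysis lemmas turning the KKT conditions of a discretised Parisi minimiser into
uniform smallness of `G t = E Φ_x(t,X_t)^2 - t`.
-/
import Mathlib

set_option autoImplicit false

open MeasureTheory Set intervalIntegral
open scoped Interval

namespace Crest.Agent.R339.Var

/-- If `G t < G s` for `s < t`, there is an intermediate point with `g < 1`. -/
lemma exists_lt_one {G g : ℝ → ℝ} {s t : ℝ} (hst : s < t) (hc : ContinuousOn G (Icc s t))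
    (hd : ∀ x ∈ Ioo s t, HasDerivAt G (g x - 1) x) (h : G t < G s) : ∃ x ∈ Ioo s t, g x < 1 := by
  obtain ⟨x, hx, hx'⟩ := exists_hasDerivAt_eq_slope G (fun x => g x - 1) hst hc hd
  refine ⟨x, hx, ?_⟩
  have : (G t - G s) / (t - s) < 0 := div_neg_of_neg_of_pos (by linarith) (by linarith)
  linarith

/-- If `G s < G t` for `s < t`, there is an intermediate point with `g > 1`. -/
lemma exists_gt_one {G g : ℝ → ℝ} {s t : ℝ} (hst : s < t) (hc : ContinuousOn G (Icc s t))
    (hd : ∀ x ∈ Ioo s t, HasDerivAt G (g x - 1) x) (h : G s < G t) : ∃ x ∈ Ioo s t, 1 < g x := by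
  obtain ⟨x, hx, hx'⟩ := exists_hasDerivAt_eq_slope G (fun x => g x - 1) hst hc hd
  refine ⟨x, hx, ?_⟩
  have : 0 < (G t - G s) / (t - s) := div_pos (by linarith) (by linarith)
  linarith

/-- Lipschitz bound for `G` from the bound on its derivative in the interior. -/
lemma lip_of_deriv {G g : ℝ → ℝ} {a b C : ℝ} (hc : ContinuousOn G (Icc a b))
    (hd : ∀ x ∈ Ioo a b, HasDerivAt G (g x - 1) x) (hC : ∀ x ∈ Ioo a b, |g x - 1| ≤ C)
    {s t : ℝ} (hs : s ∈ Icc a b) (ht : t ∈ Icc a b) (hst : s ≤ t) :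
    |G t - G s| ≤ C * (t - s) := by
  rcases hst.eq_or_lt with rfl | hst
  · simp
  obtain ⟨x, hx, hx'⟩ := exists_hasDerivAt_eq_slope G (fun x => g x - 1) hst
    (hc.mono (Icc_subset_Icc hs.1 ht.2))
    (fun x hx => hd x ⟨lt_of_le_of_lt hs.1 hx.1, lt_of_lt_of_le hx.2 ht.2⟩)
  have hpos : 0 < t - s := by linarith
  have h1 : G t - G s = (g x - 1) * (t - s) := by
    rw [hx']; field_simp
  rw [h1, abs_mul, abs_of_pos hpos]
  exact mul_le_mul_of_nonneg_right
    (hC x ⟨lt_of_le_of_lt hs.1 hx.1, lt_of_lt_of_le hx.2 ht.2⟩) hpos.le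

/-- Lower bound of the integral of a function which is at least `y - C (t0 - t)` near `t0`. -/
lemma int_lower {G : ℝ → ℝ} {a t0 y C δ l : ℝ} (hl : 0 ≤ l) (hal : a ≤ t0 - l)
    (hc : ContinuousOn G (Icc a t0)) (h1 : ∀ t ∈ Icc a t0, -δ ≤ G t)
    (h2 : ∀ t ∈ Icc (t0 - l) t0, y - C * (t0 - t) ≤ G t) :
    -δ * (t0 - l - a) + (y * l - C * l ^ 2 / 2) ≤ ∫ t in a..t0, G t := by
  have hint1 : IntervalIntegrable G volume a (t0 - l) :=
    ContinuousOn.intervalIntegrable (by
      rw [uIcc_of_le hal]; exact hc.mono (Icc_subset_Icc le_rfl (by linarith)))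
  have hint2 : IntervalIntegrable G volume (t0 - l) t0 :=
    ContinuousOn.intervalIntegrable (by
      rw [uIcc_of_le (by linarith)]; exact hc.mono (Icc_subset_Icc hal le_rfl))
  rw [← integral_add_adjacent_intervals hint1 hint2]
  have e1 : -δ * (t0 - l - a) ≤ ∫ t in a..(t0 - l), G t := by
    have := intervalIntegral.integral_mono_on (a := a) (b := t0 - l) (f := fun _ => -δ) (g := G)
      hal (by simp) hint1 (fun t ht => h1 t ⟨ht.1, by linarith [ht.2]⟩)
    simp only [intervalIntegral.integral_const, smul_eq_mul] at this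
    linarith [mul_comm (t0 - l - a) (-δ)]
  have e2 : y * l - C * l ^ 2 / 2 ≤ ∫ t in (t0 - l)..t0, G t := by
    have hi : IntervalIntegrable (fun t => y - C * (t0 - t)) volume (t0 - l) t0 :=
      Continuous.intervalIntegrable (by fun_prop) _ _
    have := intervalIntegral.integral_mono_on (a := t0 - l) (b := t0)
      (f := fun t => y - C * (t0 - t)) (g := G) (by linarith) hi hint2 h2
    have hv : ∫ t in (t0 - l)..t0, (y - C * (t0 - t)) = y * l - C * l ^ 2 / 2 := by
      have hF : ∀ x ∈ uIcc (t0 - l) t0,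
          HasDerivAt (fun t => y * t + C * (t0 - t) ^ 2 / 2) (y - C * (t0 - x)) x := by
        intro x _
        have h3 : HasDerivAt (fun t : ℝ => t0 - t) (-1) x := by
          simpa using (hasDerivAt_id x).const_sub t0
        have h4 : HasDerivAt (fun t : ℝ => (t0 - t) ^ 2) (2 * (t0 - x) * (-1)) x := by
          simpa using h3.fun_pow 2
        have h5 : HasDerivAt (fun t : ℝ => y * t + C * (t0 - t) ^ 2 / 2)
            (y * 1 + C * (2 * (t0 - x) * (-1)) / 2) x :=
          ((hasDerivAt_id x).const_mul y).fun_add ((h4.const_mul C).div_const 2)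
        exact h5.congr_deriv (by ring)
      rw [intervalIntegral.integral_eq_sub_of_hasDerivAt hF hi]
      ring
    linarith
  linarith

/-- Upper bound on a block. -/
lemma block_upper {G g : ℝ → ℝ} {a b C δ : ℝ} (hab : a ≤ b) (hab1 : b - a ≤ 1) (hC0 : 0 < C)
    (hδ : 0 ≤ δ)
    (hc : ContinuousOn G (Icc a b)) (hd : ∀ x ∈ Ioo a b, HasDerivAt G (g x - 1) x)
    (hC : ∀ x ∈ Ioo a b, |g x - 1| ≤ C)
    (hqc : ∀ x ∈ Ioo a b, ∀ y ∈ Ioo a b, ∀ z ∈ Ioo a b, x < y → y < z → g y ≤ max (g x) (g z))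
    (hGa : -δ ≤ G a) (hGa' : G a ≤ δ) (hGb : G b ≤ δ)
    (hK : ∀ s ∈ Icc a b, ∫ t in a..s, G t ≤ δ) :
    ∀ t ∈ Icc a b, G t ≤ δ + 2 * Real.sqrt (C * δ) := by
  have hsq : 0 ≤ Real.sqrt (C * δ) := Real.sqrt_nonneg _
  obtain ⟨t0, ht0, hmax⟩ := isCompact_Icc.exists_isMaxOn (nonempty_Icc.2 hab) hc
  have hmax' : ∀ t ∈ Icc a b, G t ≤ G t0 := fun t ht => hmax ht
  intro t ht
  refine (hmax' t ht).trans ?_
  by_contra hcon
  push Not at hcon
  set y := G t0 with hy
  have hyδ : δ < y := by linarith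
  have ha0 : a < t0 := lt_of_le_of_ne ht0.1 (by rintro h; rw [← h] at hy; linarith)
  have hb0 : t0 < b := lt_of_le_of_ne ht0.2 (by rintro h; rw [h] at hy; linarith)
  -- G ≥ -δ on [a, t0]
  have hlow : ∀ s ∈ Icc a t0, -δ ≤ G s := by
    intro s hs
    by_contra hs'
    push Not at hs'
    have has : a < s := lt_of_le_of_ne hs.1 (by rintro h; rw [← h] at hs'; linarith)
    have hst0 : s < t0 := lt_of_le_of_ne hs.2 (by rintro h; rw [h] at hs'; linarith)
    obtain ⟨x1, hx1, hx1'⟩ := exists_lt_one (g := g) has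
      (hc.mono (Icc_subset_Icc le_rfl (by linarith)))
      (fun x hx => hd x ⟨hx.1, by linarith [hx.2]⟩) (by linarith)
    obtain ⟨x2, hx2, hx2'⟩ := exists_gt_one (g := g) hst0
      (hc.mono (Icc_subset_Icc hs.1 hb0.le))
      (fun x hx => hd x ⟨by linarith [hx.1], by linarith [hx.2]⟩) (by linarith)
    obtain ⟨x3, hx3, hx3'⟩ := exists_lt_one (g := g) hb0
      (hc.mono (Icc_subset_Icc ha0.le le_rfl))
      (fun x hx => hd x ⟨by linarith [hx.1], hx.2⟩) (by linarith)
    have := hqc x1 ⟨hx1.1, by linarith [hx1.2]⟩ x2 ⟨by linarith [hx2.1], by linarith [hx2.2]⟩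
      x3 ⟨by linarith [hx3.1], hx3.2⟩ (by linarith [hx1.2, hx2.1]) (by linarith [hx2.2, hx3.1])
    rcases le_max_iff.1 this with h | h <;> linarith
  have hlip : ∀ s ∈ Icc a t0, y - C * (t0 - s) ≤ G s := by
    intro s hs
    have := lip_of_deriv hc hd hC ⟨hs.1, by linarith [hs.2]⟩ ht0 hs.2
    have := (abs_le.1 this).2
    linarith
  have hl0 : 0 < (y - δ) / C := div_pos (by linarith) hC0
  have hal : a ≤ t0 - (y - δ) / C := by
    have h1 := hlip a ⟨le_rfl, ha0.le⟩
    have h2 : (y - δ) / C ≤ t0 - a := by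
      rw [div_le_iff₀ hC0]; nlinarith
    linarith
  have hI := int_lower (G := G) (a := a) (t0 := t0) (y := y) (C := C) (δ := δ) hl0.le hal
    (hc.mono (Icc_subset_Icc le_rfl hb0.le)) hlow
    (fun s hs => hlip s ⟨by linarith [hs.1], hs.2⟩)
  have hK' := hK t0 ht0
  have e1 : y * ((y - δ) / C) - C * ((y - δ) / C) ^ 2 / 2 = (y - δ) * (y + δ) / (2 * C) := by
    field_simp; ring
  rw [e1] at hI
  have e2 : -δ ≤ -δ * (t0 - (y - δ) / C - a) := by
    have : t0 - (y - δ) / C - a ≤ 1 := by linarith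
    nlinarith
  have e3 : (y - δ) ^ 2 / (2 * C) ≤ (y - δ) * (y + δ) / (2 * C) := by
    apply div_le_div_of_nonneg_right _ (by positivity)
    nlinarith
  have e4 : (y - δ) ^ 2 / (2 * C) ≤ 2 * δ := by linarith
  rw [div_le_iff₀ (by positivity)] at e4
  have e5 : (y - δ) ^ 2 ≤ (2 * Real.sqrt (C * δ)) ^ 2 := by
    rw [mul_pow, Real.sq_sqrt (by positivity)]; nlinarith
  have e6 : y - δ ≤ 2 * Real.sqrt (C * δ) := by
    exact abs_le_of_sq_le_sq' e5 (by positivity) |>.2
  linarith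

/-- Lower bound on a block, by reflection. -/
lemma block_lower {G g : ℝ → ℝ} {a b C δ : ℝ} (hab : a ≤ b) (hab1 : b - a ≤ 1) (hC0 : 0 < C)
    (hδ : 0 ≤ δ)
    (hc : ContinuousOn G (Icc a b)) (hd : ∀ x ∈ Ioo a b, HasDerivAt G (g x - 1) x)
    (hC : ∀ x ∈ Ioo a b, |g x - 1| ≤ C)
    (hqc : ∀ x ∈ Ioo a b, ∀ y ∈ Ioo a b, ∀ z ∈ Ioo a b, x < y → y < z → g y ≤ max (g x) (g z))
    (hGb : -δ ≤ G b) (hGb' : G b ≤ δ) (hGa : -δ ≤ G a)
    (hK : ∀ s ∈ Icc a b, -δ ≤ ∫ t in s..b, G t) :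
    ∀ t ∈ Icc a b, -(δ + 2 * Real.sqrt (C * δ)) ≤ G t := by
  have key := block_upper (G := fun t => -G (a + b - t)) (g := fun t => g (a + b - t))
    (a := a) (b := b) (C := C) (δ := δ) hab hab1 hC0 hδ ?_ ?_ ?_ ?_ ?_ ?_ ?_ ?_
  · intro t ht
    have := key (a + b - t) ⟨by linarith [ht.2], by linarith [ht.1]⟩
    simp only [sub_sub_cancel] at this
    linarith
  · apply ContinuousOn.neg
    apply hc.comp (by fun_prop)
    intro x hx
    exact ⟨by linarith [hx.2], by linarith [hx.1]⟩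
  · intro x hx
    have h1 := hd (a + b - x) ⟨by linarith [hx.2], by linarith [hx.1]⟩
    have h2 : HasDerivAt (fun t : ℝ => a + b - t) (-1) x := by
      simpa using (hasDerivAt_id x).const_sub (a + b)
    have h3 := (HasDerivAt.comp x h1 h2).neg
    exact h3.congr_deriv (by ring)
  · intro x hx
    exact hC (a + b - x) ⟨by linarith [hx.2], by linarith [hx.1]⟩
  · intro x hx y hy z hz hxy hyz
    have := hqc (a + b - z) ⟨by linarith [hz.2], by linarith [hz.1]⟩ (a + b - y)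
      ⟨by linarith [hy.2], by linarith [hy.1]⟩ (a + b - x)
      ⟨by linarith [hx.2], by linarith [hx.1]⟩ (by linarith) (by linarith)
    rw [max_comm] at this
    exact this
  · simp only [add_sub_cancel_left]; linarith
  · simp only [add_sub_cancel_left]; linarith
  · simp only [add_sub_cancel_right]; linarith
  · intro s hs
    have h1 : ∫ t in a..s, -G (a + b - t) = -∫ t in (a + b - s)..b, G t := by
      rw [intervalIntegral.integral_neg, intervalIntegral.integral_comp_sub_left]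
      simp
    rw [h1]
    have := hK (a + b - s) ⟨by linarith [hs.2], by linarith [hs.1]⟩
    linarith

/-- Both bounds on an interior block. -/
lemma block_abs {G g : ℝ → ℝ} {a b C δ : ℝ} (hab : a ≤ b) (hab1 : b - a ≤ 1) (hC0 : 0 < C)
    (hδ : 0 ≤ δ)
    (hc : ContinuousOn G (Icc a b)) (hd : ∀ x ∈ Ioo a b, HasDerivAt G (g x - 1) x)
    (hC : ∀ x ∈ Ioo a b, |g x - 1| ≤ C)
    (hqc : ∀ x ∈ Ioo a b, ∀ y ∈ Ioo a b, ∀ z ∈ Ioo a b, x < y → y < z → g y ≤ max (g x) (g z))
    (hGa : |G a| ≤ δ) (hGb : |G b| ≤ δ)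
    (hK1 : ∀ s ∈ Icc a b, -δ ≤ ∫ t in s..b, G t)
    (hK2 : ∀ s ∈ Icc a b, ∫ t in a..s, G t ≤ δ) :
    ∀ t ∈ Icc a b, |G t| ≤ δ + 2 * Real.sqrt (C * δ) := by
  intro t ht
  rw [abs_le] at hGa hGb ⊢
  exact ⟨block_lower hab hab1 hC0 hδ hc hd hC hqc hGb.1 hGb.2 hGa.1 hK1 t ht,
    block_upper hab hab1 hC0 hδ hc hd hC hqc hGa.1 hGa.2 hGb.2 hK2 t ht⟩

/-- Upper bound of an integral to the right of a low point. -/
lemma int_upper {G : ℝ → ℝ} {b t0 y C δ l : ℝ} (hl : 0 ≤ l) (hal : t0 + l ≤ b)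
    (hc : ContinuousOn G (Icc t0 b)) (h1 : ∀ t ∈ Icc t0 b, G t ≤ δ)
    (h2 : ∀ t ∈ Icc t0 (t0 + l), G t ≤ -y + C * (t - t0)) :
    ∫ t in t0..b, G t ≤ δ * (b - l - t0) - (y * l - C * l ^ 2 / 2) := by
  have := int_lower (G := fun t => -G (t0 + b - t)) (a := t0) (t0 := b) (y := y) (C := C) (δ := δ)
    (l := l) hl (by linarith) ?_ ?_ ?_
  · have h1 : ∫ t in t0..b, -G (t0 + b - t) = -∫ t in t0..b, G t := by
      rw [intervalIntegral.integral_neg, intervalIntegral.integral_comp_sub_left]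
      simp
    rw [h1] at this
    nlinarith
  · apply ContinuousOn.neg
    apply hc.comp (by fun_prop)
    intro x hx
    exact ⟨by linarith [hx.2], by linarith [hx.1]⟩
  · intro t ht
    have := h1 (t0 + b - t) ⟨by linarith [ht.2], by linarith [ht.1]⟩
    linarith
  · intro t ht
    have := h2 (t0 + b - t) ⟨by linarith [ht.2], by linarith [ht.1]⟩
    linarith

/-- The lowest block `γ = ε`: `g` is almost nondecreasing. -/
lemma eps_block {G g : ℝ → ℝ} {a b C δ : ℝ} (hab : a ≤ b) (hab1 : b - a ≤ 1) (hC0 : 0 < C)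
    (hδ : 0 ≤ δ)
    (hc : ContinuousOn G (Icc a b)) (hd : ∀ x ∈ Ioo a b, HasDerivAt G (g x - 1) x)
    (hC : ∀ x ∈ Ioo a b, |g x - 1| ≤ C)
    (hmono : ∀ x ∈ Ioo a b, ∀ y ∈ Ioo a b, x ≤ y → g x - δ ≤ g y)
    (hGa : G a = 0) (hGb : |G b| ≤ δ)
    (hK1 : ∀ s ∈ Icc a b, -δ ≤ ∫ t in s..b, G t) :
    ∀ t ∈ Icc a b, |G t| ≤ 2 * δ + 3 * Real.sqrt (C * δ) := by
  have hsq : 0 ≤ Real.sqrt (C * δ) := Real.sqrt_nonneg _
  have hup : ∀ t ∈ Icc a b, G t ≤ 2 * δ := by
    intro t ht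
    by_contra hcon
    push Not at hcon
    have hat : a < t := lt_of_le_of_ne ht.1 (by rintro h; rw [← h] at hcon; linarith)
    have htb : t < b := lt_of_le_of_ne ht.2 (by
      rintro h; rw [h] at hcon; linarith [(abs_le.1 hGb).2])
    obtain ⟨x, hx, hx'⟩ := exists_gt_one (g := g) hat
      (hc.mono (Icc_subset_Icc le_rfl htb.le))
      (fun x hx => hd x ⟨hx.1, by linarith [hx.2]⟩) (by linarith)
    obtain ⟨z, hz, hz'⟩ := exists_hasDerivAt_eq_slope G (fun x => g x - 1) htb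
      (hc.mono (Icc_subset_Icc hat.le le_rfl))
      (fun x hx => hd x ⟨by linarith [hx.1], hx.2⟩)
    have h1 := hmono x ⟨hx.1, by linarith [hx.2]⟩ z ⟨by linarith [hz.1], hz.2⟩
      (by linarith [hx.2, hz.1])
    have h2 : -δ ≤ (G b - G t) / (b - t) := by rw [← hz']; linarith
    rw [le_div_iff₀ (by linarith)] at h2
    have h3 := (abs_le.1 hGb).2
    nlinarith
  intro t ht
  rw [abs_le]
  refine ⟨?_, by linarith [hup t ht]⟩
  by_contra hcon
  push Not at hcon
  set y := -G t with hy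
  have hyδ : 2 * δ + 3 * Real.sqrt (C * δ) < y := by linarith
  have hlip : ∀ s ∈ Icc t b, G s ≤ -y + C * (s - t) := by
    intro s hs
    have := lip_of_deriv hc hd hC ht ⟨by linarith [ht.1, hs.1], hs.2⟩ hs.1
    have := (abs_le.1 this).2
    linarith
  have hb' := (abs_le.1 hGb).1
  have hl0 : 0 ≤ (y - δ) / C := div_nonneg (by linarith) hC0.le
  have hbl : t + (y - δ) / C ≤ b := by
    have h1 := hlip b ⟨ht.2, le_rfl⟩
    have h2 : (y - δ) / C ≤ b - t := by
      rw [div_le_iff₀ hC0]; nlinarith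
    linarith
  have hI := int_upper (G := G) (b := b) (t0 := t) (y := y) (C := C) (δ := 2 * δ) hl0 hbl
    (hc.mono (Icc_subset_Icc ht.1 le_rfl)) (fun s hs => hup s ⟨by linarith [ht.1, hs.1], hs.2⟩)
    (fun s hs => hlip s ⟨hs.1, by linarith [hs.2]⟩)
  have hK' := hK1 t ht
  have e1 : y * ((y - δ) / C) - C * ((y - δ) / C) ^ 2 / 2 = (y - δ) * (y + δ) / (2 * C) := by
    field_simp; ring
  rw [e1] at hI
  have e2 : 2 * δ * (b - (y - δ) / C - t) ≤ 2 * δ := by
    have : b - (y - δ) / C - t ≤ 1 := by linarith [ht.1]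
    nlinarith
  have e3 : (y - δ) ^ 2 / (2 * C) ≤ (y - δ) * (y + δ) / (2 * C) := by
    apply div_le_div_of_nonneg_right _ (by positivity)
    nlinarith
  have e4 : (y - δ) ^ 2 / (2 * C) ≤ 3 * δ := by linarith
  rw [div_le_iff₀ (by positivity)] at e4
  have e5 : (y - δ) ^ 2 ≤ (3 * Real.sqrt (C * δ)) ^ 2 := by
    rw [mul_pow, Real.sq_sqrt (by positivity)]; nlinarith
  have e6 : y - δ ≤ 3 * Real.sqrt (C * δ) := (abs_le_of_sq_le_sq' e5 (by positivity)).2
  linarith

/-- The last block `γ = β` is short. -/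
lemma last_block {G g : ℝ → ℝ} {a C δ β : ℝ} (hβ : 1 ≤ β) (ha : a ≤ 1) (hC0 : 0 < C)
    (hδ : 0 ≤ δ)
    (hδ1 : δ ≤ 1 / (4 * β)) (hδ2 : 4 * δ < (1 / (4 * β * (1 + C))) ^ 2)
    (hc : ContinuousOn G (Icc a 1)) (hd : ∀ x ∈ Ioo a 1, HasDerivAt G (g x - 1) x)
    (hC : ∀ x ∈ Ioo a 1, |g x - 1| ≤ C)
    (hg : ∀ x ∈ Ioo a 1, β ^ 2 * (1 - x - G x) ^ 2 ≤ g x)
    (hGa : |G a| ≤ δ) (hK2 : ∀ s ∈ Icc a 1, ∫ t in a..s, G t ≤ δ) :
    β * (1 - a) ≤ 2 := by
  by_contra hcon
  push Not at hcon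
  set l : ℝ := 1 / (4 * β * (1 + C)) with hl
  have hl0 : 0 < l := by positivity
  have hβ0 : 0 < β := by linarith
  have hla : l ≤ 1 / (4 * β) := by
    rw [hl]; apply one_div_le_one_div_of_le (by positivity); nlinarith
  have h1a : 2 / β < 1 - a := by rw [div_lt_iff₀ hβ0]; linarith
  have hal : a + l < 1 := by
    have : 1 / (4 * β) ≤ 2 / β := by
      rw [div_le_div_iff₀ (by positivity) hβ0]; nlinarith
    linarith
  have hCl : (1 + C) * l = 1 / (4 * β) := by rw [hl]; field_simp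
  have hGa' := abs_le.1 hGa
  -- derivative at least one on (a, a + l)
  have hder : ∀ x ∈ Ioo a (a + l), 1 ≤ g x - 1 := by
    intro x hx
    have hx1 : x ∈ Ioo a 1 := ⟨hx.1, by linarith [hx.2]⟩
    have h1 := (abs_le.1 (lip_of_deriv hc hd hC ⟨le_rfl, ha⟩ ⟨hx1.1.le, hx1.2.le⟩ hx1.1.le)).2
    have h2 : C * (x - a) ≤ C * l := mul_le_mul_of_nonneg_left (by linarith [hx.2]) hC0.le
    have h3 : 3 / (2 * β) ≤ 1 - x - G x := by
      have h4 : 3 / (2 * β) = 2 / β - 1 / (4 * β) - 1 / (4 * β) := by field_simp; ring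
      rw [h4]
      have : (1 + C) * l = l + C * l := by ring
      linarith [hx.2]
    have h5 := hg x hx1
    have h6 : (3 / (2 * β)) ^ 2 ≤ (1 - x - G x) ^ 2 := by
      apply pow_le_pow_left₀ (by positivity) h3
    have h7 : β ^ 2 * (3 / (2 * β)) ^ 2 = 9 / 4 := by field_simp; ring
    nlinarith [mul_le_mul_of_nonneg_left h6 (sq_nonneg β)]
  have hlow : ∀ t ∈ Icc a (a + l), -δ + (t - a) ≤ G t := by
    intro t ht
    rcases ht.1.eq_or_lt with h | h
    · rw [← h]; linarith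
    obtain ⟨x, hx, hx'⟩ := exists_hasDerivAt_eq_slope G (fun x => g x - 1) h
      (hc.mono (Icc_subset_Icc le_rfl (by linarith [ht.2])))
      (fun x hx => hd x ⟨hx.1, by linarith [hx.2, ht.2]⟩)
    have h1 := hder x ⟨hx.1, by linarith [hx.2, ht.2]⟩
    rw [hx', le_div_iff₀ (by linarith)] at h1
    linarith
  have hint : IntervalIntegrable G volume a (a + l) :=
    ContinuousOn.intervalIntegrable (by
      rw [uIcc_of_le (by linarith)]; exact hc.mono (Icc_subset_Icc le_rfl hal.le))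
  have hi : IntervalIntegrable (fun t => -δ + (t - a)) volume a (a + l) :=
    Continuous.intervalIntegrable (by fun_prop) _ _
  have h8 := intervalIntegral.integral_mono_on (a := a) (b := a + l)
    (f := fun t => -δ + (t - a)) (g := G) (by linarith) hi hint hlow
  have hv : ∫ t in a..(a + l), (-δ + (t - a)) = -δ * l + l ^ 2 / 2 := by
    have hF : ∀ x ∈ uIcc a (a + l),
        HasDerivAt (fun t => -δ * t + (t - a) ^ 2 / 2) (-δ + (x - a)) x := by
      intro x _
      have h3 : HasDerivAt (fun t : ℝ => t - a) 1 x := by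
        simpa using (hasDerivAt_id x).sub_const a
      have h4 : HasDerivAt (fun t : ℝ => (t - a) ^ 2) (2 * (x - a) * 1) x := by
        simpa using h3.fun_pow 2
      have h5 : HasDerivAt (fun t : ℝ => -δ * t + (t - a) ^ 2 / 2)
          (-δ * 1 + (2 * (x - a) * 1) / 2) x :=
        ((hasDerivAt_id x).const_mul (-δ)).fun_add (h4.div_const 2)
      exact h5.congr_deriv (by ring)
    rw [intervalIntegral.integral_eq_sub_of_hasDerivAt hF hi]
    ring
  rw [hv] at h8
  have h9 := hK2 (a + l) ⟨by linarith, hal.le⟩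
  have h10 : l ≤ 1 := by
    have : 1 / (4 * β) ≤ 1 := by rw [div_le_one (by positivity)]; linarith
    linarith
  nlinarith

/-- Landau–Kolmogorov: `G` small and `g = 1 + G'` Lipschitz imply `g` close to `1`. -/
lemma landau {G g : ℝ → ℝ} {a b L η : ℝ} (hL : 0 < L) (hη : 0 ≤ η) (hab : a < b)
    (hc : ContinuousOn G (Icc a b)) (hd : ∀ x ∈ Ioo a b, HasDerivAt G (g x - 1) x)
    (hg : ∀ x ∈ Icc a b, ∀ y ∈ Icc a b, |g x - g y| ≤ L * |x - y|)
    (hG : ∀ t ∈ Icc a b, |G t| ≤ η) :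
    ∀ t ∈ Icc a b, |g t - 1| ≤ 3 * Real.sqrt (L * η) + 8 * η / (b - a) := by
  intro t ht
  set y := |g t - 1| with hy
  by_contra hcon
  push Not at hcon
  have hsq : 0 ≤ Real.sqrt (L * η) := Real.sqrt_nonneg _
  have hba : 0 < b - a := by linarith
  have hr : 0 ≤ 8 * η / (b - a) := by positivity
  have hy0 : 0 < y := by linarith
  -- for s < s' in the block with both within l of t, the increment is at least (y - L l) (s'-s)
  have hinc : ∀ l : ℝ, ∀ s ∈ Icc a b, ∀ s' ∈ Icc a b, s < s' → (∀ x ∈ Ioo s s', |x - t| ≤ l) →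
      (y - L * l) * (s' - s) ≤ 2 * η := by
    intro l s hs s' hs' hss hl
    obtain ⟨x, hx, hx'⟩ := exists_hasDerivAt_eq_slope G (fun x => g x - 1) hss
      (hc.mono (Icc_subset_Icc hs.1 hs'.2))
      (fun x hx => hd x ⟨by linarith [hx.1, hs.1], by linarith [hx.2, hs'.2]⟩)
    have hpos : 0 < s' - s := by linarith
    have h1 : G s' - G s = (g x - 1) * (s' - s) := by rw [hx']; field_simp
    have h2 : |g x - 1| * (s' - s) ≤ 2 * η := by
      rw [← abs_of_pos hpos, ← abs_mul, ← h1]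
      have := abs_sub (G s') (G s)
      linarith [hG s hs, hG s' hs']
    have h3 := hg x ⟨by linarith [hx.1, hs.1], by linarith [hx.2, hs'.2]⟩ t ht
    have h4 : y ≤ |g x - 1| + |g x - g t| := by
      have h5 : g t - 1 = (g x - 1) - (g x - g t) := by ring
      rw [hy, h5]; exact abs_sub _ _
    have h6 : L * |x - t| ≤ L * l := mul_le_mul_of_nonneg_left (hl x hx) hL.le
    have h7 : y - L * l ≤ |g x - 1| := by linarith
    nlinarith
  have hone : ∀ l : ℝ, 0 < l → l ≤ (b - a) / 2 → (y - L * l) * l ≤ 2 * η := by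
    intro l hl hl2
    rcases le_total (t + l) b with h | h
    · have := hinc l t ht (t + l) ⟨by linarith [ht.1], h⟩ (by linarith) (fun x hx => by
        rw [abs_le]; constructor <;> linarith [hx.1, hx.2])
      simpa using this
    · have := hinc l (t - l) ⟨by linarith, by linarith [ht.2]⟩ t ht (by linarith) (fun x hx => by
        rw [abs_le]; constructor <;> linarith [hx.1, hx.2])
      simpa using this
  rcases le_total (y / (2 * L)) ((b - a) / 2) with h | h
  · have h1 := hone (y / (2 * L)) (by positivity) h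
    have h2 : (y - L * (y / (2 * L))) * (y / (2 * L)) = y ^ 2 / (4 * L) := by
      field_simp; ring
    rw [h2, div_le_iff₀ (by positivity)] at h1
    have h3 : y ^ 2 ≤ (3 * Real.sqrt (L * η)) ^ 2 := by
      rw [mul_pow, Real.sq_sqrt (by positivity)]
      nlinarith [mul_nonneg hL.le hη]
    have h4 := (abs_le_of_sq_le_sq' h3 (by positivity)).2
    linarith
  · have h1 := hone ((b - a) / 2) (by positivity) le_rfl
    have h2 : L * ((b - a) / 2) ≤ y / 2 := by
      rw [le_div_iff₀ (by positivity)] at h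
      nlinarith
    have h3 : y / 2 * ((b - a) / 2) ≤ 2 * η := by
      refine le_trans ?_ h1
      apply mul_le_mul_of_nonneg_right _ (by positivity)
      linarith
    have h4 : y ≤ 8 * η / (b - a) := by
      rw [le_div_iff₀ hba]; linarith
    linarith

end Crest.Agent.R339.Var
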