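/-
helper71, row 339 (S0530), part (B), variational block:
minimiser over the cone of nondecreasing step functions with values in [ε, β], KKT inequalities.
-/
import Crest.Agent.R339.Var71A

set_option autoImplicit false

open MeasureTheory Set intervalIntegral
open scoped Interval BigOperators

namespace Crest.Agent.R339.Var

/-- The cone of nondecreasing vectors with entries in `[ε, β]`. -/
def cone (K : ℕ) (ε β : ℝ) : Set (Fin K → ℝ) := {m | Monotone m ∧ ∀ k, ε ≤ m k ∧ m k ≤ β}

lemma cone_nonempty (K : ℕ) {ε β : ℝ} (h : ε ≤ β) : (cone K ε β).Nonempty :=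
  ⟨fun _ => ε, monotone_const, fun _ => ⟨le_rfl, h⟩⟩

lemma isCompact_cone (K : ℕ) (ε β : ℝ) : IsCompact (cone K ε β) := by
  have h1 : IsCompact (Set.pi univ fun _ : Fin K => Icc ε β) :=
    isCompact_univ_pi fun _ => isCompact_Icc
  refine h1.of_isClosed_subset ?_ ?_
  · have : cone K ε β = (⋂ (i : Fin K) (j : Fin K) (_ : i ≤ j), {m : Fin K → ℝ | m i ≤ m j}) ∩
        (⋂ (k : Fin K), {m : Fin K → ℝ | ε ≤ m k ∧ m k ≤ β}) := by
      ext m
      simp only [mem_inter_iff, mem_iInter]
      constructor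
      · rintro ⟨h1, h2⟩; exact ⟨fun i j hij => h1 hij, h2⟩
      · rintro ⟨h1, h2⟩; exact ⟨fun i j hij => h1 i j hij, h2⟩
    rw [this]
    apply IsClosed.inter
    · exact isClosed_iInter fun i => isClosed_iInter fun j => isClosed_iInter fun _ =>
        isClosed_le (continuous_apply i) (continuous_apply j)
    · refine isClosed_iInter fun k => ?_
      exact IsClosed.inter (isClosed_le continuous_const (continuous_apply k))
        (isClosed_le (continuous_apply k) continuous_const)
  · intro m hm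
    simp only [mem_pi, mem_univ, true_implies, mem_Icc]
    exact hm.2

lemma convex_cone (K : ℕ) (ε β : ℝ) : Convex ℝ (cone K ε β) := by
  intro x hx y hy a b ha hb hab
  refine ⟨?_, ?_⟩
  · intro i j hij
    simp only [Pi.add_apply, Pi.smul_apply, smul_eq_mul]
    have := hx.1 hij; have := hy.1 hij
    nlinarith [mul_le_mul_of_nonneg_left (hx.1 hij) ha, mul_le_mul_of_nonneg_left (hy.1 hij) hb]
  · intro k
    simp only [Pi.add_apply, Pi.smul_apply, smul_eq_mul]
    have e1 : ε = a * ε + b * ε := by rw [← add_mul, hab, one_mul]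
    have e2 : β = a * β + b * β := by rw [← add_mul, hab, one_mul]
    constructor
    · linarith [mul_le_mul_of_nonneg_left (hx.2 k).1 ha, mul_le_mul_of_nonneg_left (hy.2 k).1 hb]
    · linarith [mul_le_mul_of_nonneg_left (hx.2 k).2 ha, mul_le_mul_of_nonneg_left (hy.2 k).2 hb]

/-- Existence of a minimiser, from directional derivatives bounded on the cone. -/
lemma exists_minimiser {K : ℕ} {ε β B : ℝ} (hεβ : ε ≤ β) {P : (Fin K → ℝ) → ℝ}
    {D : (Fin K → ℝ) → Fin K → ℝ}
    (hderiv : ∀ m ∈ cone K ε β, ∀ η : Fin K → ℝ,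
      HasDerivAt (fun t : ℝ => P (m + t • η)) (∑ k, η k * D m k) 0)
    (hD : ∀ m ∈ cone K ε β, ∀ k, |D m k| ≤ B) :
    ∃ m ∈ cone K ε β, ∀ m' ∈ cone K ε β, P m ≤ P m' := by
  have hlip : ∀ m ∈ cone K ε β, ∀ m' ∈ cone K ε β, |P m' - P m| ≤ K * B * ‖m' - m‖ := by
    intro m hm m' hm'
    have h1 : ∀ t ∈ Icc (0:ℝ) 1, HasDerivAt (fun t : ℝ => P (m + t • (m' - m)))
        (∑ k, (m' - m) k * D (m + t • (m' - m)) k) t := by
      intro t ht
      have hmt : m + t • (m' - m) ∈ cone K ε β := by
        have := convex_cone K ε β hm hm' (a := 1 - t) (b := t) (by linarith [ht.2]) ht.1 (by ring)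
        convert this using 1
        funext k; simp; ring
      have h2 := hderiv _ hmt (m' - m)
      have h3 : HasDerivAt (fun s : ℝ => s - t) 1 t := by
        simpa using (hasDerivAt_id t).sub_const t
      have h4 : HasDerivAt (fun s : ℝ => P (m + t • (m' - m) + s • (m' - m)))
          (∑ k, (m' - m) k * D (m + t • (m' - m)) k) (t - t) := by
        rw [sub_self]; exact h2
      have h5 := HasDerivAt.comp (h := fun s : ℝ => s - t) t h4 h3
      rw [mul_one] at h5
      have h6 : (fun s : ℝ => P (m + s • (m' - m))) =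
          (fun s : ℝ => P (m + t • (m' - m) + s • (m' - m))) ∘ (fun s : ℝ => s - t) := by
        funext s
        simp only [Function.comp]
        congr 1
        funext k; simp; ring
      rw [h6]
      exact h5
    have hbound : ∀ t ∈ Icc (0:ℝ) 1,
        ‖∑ k, (m' - m) k * D (m + t • (m' - m)) k‖ ≤ K * B * ‖m' - m‖ := by
      intro t ht
      have hmt : m + t • (m' - m) ∈ cone K ε β := by
        have := convex_cone K ε β hm hm' (a := 1 - t) (b := t) (by linarith [ht.2]) ht.1 (by ring)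
        convert this using 1
        funext k; simp; ring
      calc ‖∑ k, (m' - m) k * D (m + t • (m' - m)) k‖
          ≤ ∑ k, ‖(m' - m) k * D (m + t • (m' - m)) k‖ := norm_sum_le _ _
        _ ≤ ∑ _k : Fin K, ‖m' - m‖ * B := by
            apply Finset.sum_le_sum
            intro k _
            rw [norm_mul]
            exact mul_le_mul (norm_le_pi_norm _ k) (hD _ hmt k) (norm_nonneg _) (norm_nonneg _)
        _ = K * B * ‖m' - m‖ := by
            simp; ring
    have := Convex.norm_image_sub_le_of_norm_hasDerivWithin_le (s := Icc (0:ℝ) 1)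
      (f := fun t : ℝ => P (m + t • (m' - m)))
      (f' := fun t => ∑ k, (m' - m) k * D (m + t • (m' - m)) k)
      (fun t ht => (h1 t ht).hasDerivWithinAt) hbound (convex_Icc 0 1)
      (left_mem_Icc.2 zero_le_one) (right_mem_Icc.2 zero_le_one)
    simpa using this
  have hcont : ContinuousOn P (cone K ε β) := by
    intro m hm
    rw [ContinuousWithinAt, tendsto_iff_norm_sub_tendsto_zero]
    have h0 : Filter.Tendsto (fun m' => K * B * ‖m' - m‖) (nhdsWithin m (cone K ε β))
        (nhds 0) := by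
      have : Filter.Tendsto (fun m' : Fin K → ℝ => K * B * ‖m' - m‖) (nhds m)
          (nhds (K * B * ‖m - m‖)) :=
        (Continuous.tendsto (by fun_prop) m)
      simp only [sub_self, norm_zero, mul_zero] at this
      exact this.mono_left nhdsWithin_le_nhds
    refine squeeze_zero' (Filter.Eventually.of_forall fun _ => norm_nonneg _) ?_ h0
    filter_upwards [self_mem_nhdsWithin] with m' hm'
    exact hlip m hm m' hm'
  obtain ⟨m, hm, hmin⟩ := (isCompact_cone K ε β).exists_isMinOn (cone_nonempty K hεβ) hcont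
  exact ⟨m, hm, fun m' hm' => hmin hm'⟩

/-- First-order condition in a feasible direction. -/
lemma first_order {K : ℕ} {ε β : ℝ} {P : (Fin K → ℝ) → ℝ} {m η : Fin K → ℝ} {d : ℝ}
    (hmin : ∀ m' ∈ cone K ε β, P m ≤ P m')
    (hderiv : HasDerivAt (fun t : ℝ => P (m + t • η)) d 0)
    {t0 : ℝ} (ht0 : 0 < t0) (hfeas : ∀ t, 0 < t → t ≤ t0 → m + t • η ∈ cone K ε β) : 0 ≤ d := by
  have h1 := hderiv.hasDerivWithinAt (s := Ioi 0)
  rw [hasDerivWithinAt_iff_tendsto_slope'] at h1
  · refine ge_of_tendsto h1 ?_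
    have : ∀ᶠ t in nhdsWithin (0:ℝ) (Ioi 0), t ∈ Ioc 0 t0 := by
      apply Ioc_mem_nhdsGT ht0
    filter_upwards [this] with t ht
    have h2 := hmin _ (hfeas t ht.1 ht.2)
    simp only [slope_def_field, sub_zero, zero_smul, add_zero]
    exact div_nonneg (by linarith) ht.1.le
  · simp

/-- Raising the values on the right part `[s, b)` of a constancy block. -/
lemma kkt_raise {K : ℕ} {ε β : ℝ} {P : (Fin K → ℝ) → ℝ} {m : Fin K → ℝ} {D : Fin K → ℝ}
    (hm : m ∈ cone K ε β) (hmin : ∀ m' ∈ cone K ε β, P m ≤ P m')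
    (hderiv : ∀ η : Fin K → ℝ, HasDerivAt (fun t : ℝ => P (m + t • η)) (∑ k, η k * D k) 0)
    {s b : ℕ} {v : ℝ} (hv : ∀ k : Fin K, s ≤ k → (k:ℕ) < b → m k = v)
    (hb : ∀ k : Fin K, b ≤ (k:ℕ) → v < m k) (hvβ : v < β) :
    0 ≤ ∑ k : Fin K, if s ≤ (k:ℕ) ∧ (k:ℕ) < b then D k else 0 := by
  classical
  -- a uniform gap
  obtain ⟨t0, ht0, ht0β, hgap⟩ : ∃ t0 > 0, v + t0 ≤ β ∧ ∀ k : Fin K, b ≤ (k:ℕ) → v + t0 ≤ m k := by
    by_cases hbK : b < K
    · refine ⟨min (β - v) (m ⟨b, hbK⟩ - v), lt_min (by linarith) (by linarith [hb ⟨b, hbK⟩ le_rfl]),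
        by linarith [min_le_left (β - v) (m ⟨b, hbK⟩ - v)], ?_⟩
      intro k hk
      have h1 : m ⟨b, hbK⟩ ≤ m k := hm.1 (by exact hk)
      linarith [min_le_right (β - v) (m ⟨b, hbK⟩ - v)]
    · refine ⟨β - v, by linarith, by linarith, ?_⟩
      intro k hk
      exact absurd (lt_of_le_of_lt hk k.2) hbK
  set η : Fin K → ℝ := fun k => if s ≤ (k:ℕ) ∧ (k:ℕ) < b then 1 else 0 with hη
  have h1 := first_order hmin (hderiv η) ht0 ?_
  · have : ∑ k, η k * D k = ∑ k : Fin K, if s ≤ (k:ℕ) ∧ (k:ℕ) < b then D k else 0 := by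
      apply Finset.sum_congr rfl
      intro k _
      simp only [hη]; split_ifs <;> simp
    rwa [this] at h1
  · intro t ht ht'
    refine ⟨?_, ?_⟩
    · intro i j hij
      have hij' : (i:ℕ) ≤ j := hij
      have hmij := hm.1 hij
      simp only [Pi.add_apply, Pi.smul_apply, smul_eq_mul, hη]
      split_ifs with h1 h2 h2
      · linarith
      · -- i in S, j not in S
        have hjb : b ≤ (j:ℕ) := by
          by_contra hcon
          exact h2 ⟨le_trans h1.1 hij', by omega⟩
        have := hgap j hjb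
        have := hv i h1.1 h1.2
        linarith
      · linarith
      · linarith
    · intro k
      simp only [Pi.add_apply, Pi.smul_apply, smul_eq_mul, hη]
      split_ifs with h1
      · have := hv k h1.1 h1.2
        have := (hm.2 k).1
        constructor <;> linarith
      · simpa using hm.2 k

/-- Lowering the values on the left part `[a, s)` of a constancy block. -/
lemma kkt_lower {K : ℕ} {ε β : ℝ} {P : (Fin K → ℝ) → ℝ} {m : Fin K → ℝ} {D : Fin K → ℝ}
    (hm : m ∈ cone K ε β) (hmin : ∀ m' ∈ cone K ε β, P m ≤ P m')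
    (hderiv : ∀ η : Fin K → ℝ, HasDerivAt (fun t : ℝ => P (m + t • η)) (∑ k, η k * D k) 0)
    {a s : ℕ} {v : ℝ} (haK : a < K) (hv : ∀ k : Fin K, a ≤ k → (k:ℕ) < s → m k = v)
    (ha : ∀ k : Fin K, (k:ℕ) < a → m k < v) (hvε : ε < v) :
    ∑ k : Fin K, (if a ≤ (k:ℕ) ∧ (k:ℕ) < s then D k else 0) ≤ 0 := by
  classical
  obtain ⟨t0, ht0, ht0ε, hgap⟩ : ∃ t0 > 0, ε ≤ v - t0 ∧ ∀ k : Fin K, (k:ℕ) < a → m k ≤ v - t0 := by
    rcases Nat.eq_zero_or_pos a with h0 | h0
    · refine ⟨v - ε, by linarith, by linarith, ?_⟩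
      intro k hk
      omega
    · have hlt : a - 1 < K := by omega
      refine ⟨min (v - ε) (v - m ⟨a - 1, hlt⟩),
        lt_min (by linarith) (by
          have := ha ⟨a - 1, hlt⟩ (by simp only; omega)
          linarith), by linarith [min_le_left (v - ε) (v - m ⟨a - 1, hlt⟩)], ?_⟩
      intro k hk
      have h1 : m k ≤ m ⟨a - 1, hlt⟩ := hm.1 (by
        show (k:ℕ) ≤ a - 1
        omega)
      linarith [min_le_right (v - ε) (v - m ⟨a - 1, hlt⟩)]
  set η : Fin K → ℝ := fun k => if a ≤ (k:ℕ) ∧ (k:ℕ) < s then -1 else 0 with hη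
  have h1 := first_order hmin (hderiv η) ht0 ?_
  · have : ∑ k, η k * D k = -∑ k : Fin K, if a ≤ (k:ℕ) ∧ (k:ℕ) < s then D k else 0 := by
      rw [← Finset.sum_neg_distrib]
      apply Finset.sum_congr rfl
      intro k _
      simp only [hη]; split_ifs <;> simp
    rw [this] at h1
    linarith
  · intro t ht ht'
    refine ⟨?_, ?_⟩
    · intro i j hij
      have hij' : (i:ℕ) ≤ j := hij
      have hmij := hm.1 hij
      simp only [Pi.add_apply, Pi.smul_apply, smul_eq_mul, hη]
      split_ifs with h1 h2 h2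
      · linarith
      · linarith
      · have hia : (i:ℕ) < a := by
          by_contra hcon
          exact h1 ⟨by omega, by omega⟩
        have := hgap i hia
        have := hv j h2.1 h2.2
        linarith
      · linarith
    · intro k
      simp only [Pi.add_apply, Pi.smul_apply, smul_eq_mul, hη]
      split_ifs with h1
      · have := hv k h1.1 h1.2
        have := (hm.2 k).2
        constructor <;> linarith
      · simpa using hm.2 k

/-- Sum of grid integrals. -/
lemma sum_grid_integral {K : ℕ} (hK : 0 < K) {G : ℝ → ℝ} (hG : ContinuousOn G (Icc 0 1))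
    {a b : ℕ} (hab : a ≤ b) (hb : b ≤ K) :
    (∑ k : Fin K, if a ≤ (k:ℕ) ∧ (k:ℕ) < b then
      (1/2) * ∫ t in ((k:ℕ):ℝ)/K..(((k:ℕ):ℝ)+1)/K, G t else 0) =
    (1/2) * ∫ t in (a:ℝ)/K..(b:ℝ)/K, G t := by
  have hK' : (0:ℝ) < K := by exact_mod_cast hK
  have hint : ∀ i j : ℕ, i ≤ j → j ≤ K →
      IntervalIntegrable G volume ((i:ℝ)/K) ((j:ℝ)/K) := by
    intro i j hij hj
    apply ContinuousOn.intervalIntegrable
    rw [uIcc_of_le (by
      apply div_le_div_of_nonneg_right _ hK'.le
      exact_mod_cast hij)]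
    apply hG.mono
    apply Icc_subset_Icc
    · positivity
    · rw [div_le_one hK']; exact_mod_cast hj
  rw [Fin.sum_univ_eq_sum_range (fun k : ℕ => if a ≤ k ∧ k < b then
      (1/2) * ∫ t in (k:ℝ)/K..((k:ℝ)+1)/K, G t else 0) K]
  have h1 : ∑ k ∈ Finset.range K, (if a ≤ k ∧ k < b then
      (1/2) * ∫ t in (k:ℝ)/K..((k:ℝ)+1)/K, G t else 0) =
      ∑ k ∈ Finset.Ico a b, (1/2) * ∫ t in (k:ℝ)/K..((k:ℝ)+1)/K, G t := by
    rw [← Finset.sum_filter]
    congr 1
    ext k
    simp only [Finset.mem_filter, Finset.mem_range, Finset.mem_Ico]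
    omega
  rw [h1, ← Finset.mul_sum]
  congr 1
  have h2 := intervalIntegral.sum_integral_adjacent_intervals_Ico (f := G) (μ := volume)
    (a := fun k : ℕ => (k:ℝ)/K) hab (fun k hk => by
      have := hint k (k+1) (by omega) (by have := hk.2; omega)
      simpa using this)
  simp only [Nat.cast_add, Nat.cast_one] at h2
  exact h2

/-- A downward closed predicate on `Fin K` is an initial segment. -/
lemma initial_segment {K : ℕ} (p : Fin K → Prop) (hp : ∀ i j : Fin K, i ≤ j → p j → p i) :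
    ∃ a ≤ K, ∀ k : Fin K, (k:ℕ) < a ↔ p k := by
  classical
  by_cases hall : ∀ k, p k
  · exact ⟨K, le_rfl, fun k => ⟨fun _ => hall k, fun _ => k.2⟩⟩
  · push Not at hall
    have hex : ∃ n : ℕ, ∃ h : n < K, ¬ p ⟨n, h⟩ := by
      obtain ⟨k, hk⟩ := hall
      exact ⟨k, k.2, hk⟩
    refine ⟨Nat.find hex, ?_, ?_⟩
    · obtain ⟨h, _⟩ := Nat.find_spec hex
      exact h.le
    · intro k
      constructor
      · intro hk
        by_contra hcon
        exact Nat.find_min hex hk ⟨k.2, hcon⟩
      · intro hk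
        by_contra hcon
        push Not at hcon
        obtain ⟨h, h'⟩ := Nat.find_spec hex
        exact h' (hp ⟨Nat.find hex, h⟩ k hcon hk)

end Crest.Agent.R339.Var
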