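/-
helper71, row 339 (S0530), part (B), variational block:
for a minimiser of the discretised Parisi functional, `G t = E Φ_x(t,X_t)^2 - t` is uniformly small
on `[0, a*]` and the top block `[a*, 1]` (where `γ = β`) is short.
-/
import Crest.Agent.R339.Var71B

set_option autoImplicit false

open MeasureTheory Set intervalIntegral
open scoped Interval BigOperators

namespace Crest.Agent.R339.Var

/-- quasi-convexity on an open interval -/
def QC (g : ℝ → ℝ) (a b : ℝ) : Prop :=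
  ∀ x ∈ Ioo a b, ∀ y ∈ Ioo a b, ∀ z ∈ Ioo a b, x < y → y < z → g y ≤ max (g x) (g z)

/-- Data of a (candidate) minimiser. -/
structure Data (K : ℕ) (ε β C δ : ℝ) (P : (Fin K → ℝ) → ℝ) (m : Fin K → ℝ) (G g : ℝ → ℝ) :
    Prop where
  hK : 0 < K
  hε : 0 < ε
  hεβ : ε < β
  hβ : 1 ≤ β
  hm : m ∈ cone K ε β
  hmin : ∀ m' ∈ cone K ε β, P m ≤ P m'
  hderiv : ∀ η : Fin K → ℝ, HasDerivAt (fun t : ℝ => P (m + t • η))
    (∑ k, η k * ((1/2) * ∫ t in ((k:ℕ):ℝ)/K..(((k:ℕ):ℝ)+1)/K, G t)) 0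
  hG0 : G 0 = 0
  hG1 : ∀ t ∈ Icc (0:ℝ) 1, G t ≤ 1 - t
  hGl : ∀ t ∈ Icc (0:ℝ) 1, -t ≤ G t
  hGc : ContinuousOn G (Icc 0 1)
  hd : ∀ x ∈ Ioo (0:ℝ) 1, HasDerivAt G (g x - 1) x
  hC : ∀ x ∈ Ioo (0:ℝ) 1, |g x - 1| ≤ C
  hC1 : 1 ≤ C
  hqc : ∀ a b : ℕ, a < b → b ≤ K → ∀ v, ε < v → v < β →
    (∀ k : Fin K, a ≤ (k:ℕ) → (k:ℕ) < b → m k = v) → QC g ((a:ℝ)/K) ((b:ℝ)/K)
  heps : ∀ b : ℕ, b ≤ K → (∀ k : Fin K, (k:ℕ) < b → m k = ε) →
    ∀ x ∈ Ioo (0:ℝ) ((b:ℝ)/K), ∀ y ∈ Ioo (0:ℝ) ((b:ℝ)/K), x ≤ y → g x - δ ≤ g y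
  hlast : ∀ a : ℕ, a ≤ K → (∀ k : Fin K, a ≤ (k:ℕ) → m k = β) →
    ∀ x ∈ Ioo ((a:ℝ)/K) 1, β ^ 2 * (1 - x - G x) ^ 2 ≤ g x
  hδ : C / K ≤ δ
  hδ1 : δ ≤ 1 / (4 * β)
  hδ2 : 4 * δ < (1 / (4 * β * (1 + C))) ^ 2

namespace Data

variable {K : ℕ} {ε β C δ : ℝ} {P : (Fin K → ℝ) → ℝ} {m : Fin K → ℝ} {G g : ℝ → ℝ}

lemma Kpos (D : Data K ε β C δ P m G g) : (0:ℝ) < K := by exact_mod_cast D.hK

lemma δnn (D : Data K ε β C δ P m G g) : 0 ≤ δ := by
  have h1 := D.hδ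
  have h2 : 0 ≤ C / K := div_nonneg (by linarith [D.hC1]) D.Kpos.le
  linarith

lemma Cpos (D : Data K ε β C δ P m G g) : 0 < C := by linarith [D.hC1]

lemma grid_mem (D : Data K ε β C δ P m G g) {a : ℕ} (ha : a ≤ K) : ((a:ℝ)/K) ∈ Icc (0:ℝ) 1 := by
  have hK := D.Kpos
  refine ⟨by positivity, ?_⟩
  rw [div_le_one hK]; exact_mod_cast ha

lemma lip (D : Data K ε β C δ P m G g) {s t : ℝ} (hs : s ∈ Icc (0:ℝ) 1) (ht : t ∈ Icc (0:ℝ) 1)
    (hst : s ≤ t) : |G t - G s| ≤ C * (t - s) :=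
  lip_of_deriv D.hGc D.hd D.hC hs ht hst

lemma ii (D : Data K ε β C δ P m G g) {s t : ℝ} (hs : s ∈ Icc (0:ℝ) 1) (ht : t ∈ Icc (0:ℝ) 1) :
    IntervalIntegrable G volume s t := by
  apply ContinuousOn.intervalIntegrable
  apply D.hGc.mono
  exact (ordConnected_Icc.uIcc_subset hs ht)

lemma int_small_le (D : Data K ε β C δ P m G g) {s t : ℝ} (hs : s ∈ Icc (0:ℝ) 1)
    (ht : t ∈ Icc (0:ℝ) 1) (hst : s ≤ t) (h1 : t - s ≤ 1 / K) :
    |∫ x in s..t, G x| ≤ δ := by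
  have hb : ∀ x ∈ Ι s t, ‖G x‖ ≤ 1 := by
    intro x hx
    rw [uIoc_of_le hst] at hx
    have hx1 : x ∈ Icc (0:ℝ) 1 := ⟨by linarith [hx.1, hs.1], by linarith [hx.2, ht.2]⟩
    rw [Real.norm_eq_abs, abs_le]
    constructor <;> linarith [D.hG1 x hx1, D.hGl x hx1, hx1.1, hx1.2]
  have := intervalIntegral.norm_integral_le_of_norm_le_const hb
  rw [Real.norm_eq_abs, one_mul, abs_of_nonneg (a := t - s) (by linarith)] at this
  have h2 : (1:ℝ) / K ≤ C / K := div_le_div_of_nonneg_right D.hC1 D.Kpos.le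
  linarith [D.hδ]

/-- discrete K1 -/
lemma raise (D : Data K ε β C δ P m G g) {s b : ℕ} {v : ℝ} (hsb : s ≤ b) (hbK : b ≤ K)
    (hv : ∀ k : Fin K, s ≤ (k:ℕ) → (k:ℕ) < b → m k = v)
    (hb : ∀ k : Fin K, b ≤ (k:ℕ) → v < m k) (hvβ : v < β) :
    0 ≤ ∫ t in (s:ℝ)/K..(b:ℝ)/K, G t := by
  have h1 := kkt_raise D.hm D.hmin D.hderiv hv hb hvβ
  have h2 := sum_grid_integral D.hK D.hGc hsb hbK
  rw [h2] at h1
  linarith

/-- discrete K2 -/
lemma lower (D : Data K ε β C δ P m G g) {a s : ℕ} {v : ℝ} (has : a ≤ s) (hsK : s ≤ K)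
    (hv : ∀ k : Fin K, a ≤ (k:ℕ) → (k:ℕ) < s → m k = v)
    (ha : ∀ k : Fin K, (k:ℕ) < a → m k < v) (hvε : ε < v) :
    ∫ t in (a:ℝ)/K..(s:ℝ)/K, G t ≤ 0 := by
  rcases Nat.lt_or_ge a K with haK | haK
  · have h1 := kkt_lower D.hm D.hmin D.hderiv haK hv ha hvε
    have h2 := sum_grid_integral D.hK D.hGc has hsK
    rw [h2] at h1
    linarith
  · have : a = s := by omega
    rw [this]; simp

/-- K1 for all real times -/
lemma raise' (D : Data K ε β C δ P m G g) {a b : ℕ} {v : ℝ} (hbK : b ≤ K)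
    (hv : ∀ k : Fin K, a ≤ (k:ℕ) → (k:ℕ) < b → m k = v)
    (hb : ∀ k : Fin K, b ≤ (k:ℕ) → v < m k) (hvβ : v < β) :
    ∀ s ∈ Icc ((a:ℝ)/K) ((b:ℝ)/K), -δ ≤ ∫ t in s..(b:ℝ)/K, G t := by
  intro s hs
  have hK := D.Kpos
  have hs0 : 0 ≤ s := le_trans (by positivity) hs.1
  have hsK : 0 ≤ s * K := by positivity
  set j := ⌈s * K⌉₊ with hj
  have hj1 : s * K ≤ j := Nat.le_ceil _
  have hj2 : (j:ℝ) < s * K + 1 := Nat.ceil_lt_add_one hsK
  have hjb : j ≤ b := by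
    rw [hj, Nat.ceil_le]
    have := hs.2
    rwa [le_div_iff₀ hK] at this
  have haj : a ≤ j := by
    have h1 : (a:ℝ) ≤ s * K := by
      have := hs.1
      rwa [div_le_iff₀ hK] at this
    exact_mod_cast h1.trans hj1
  have hsj : s ≤ (j:ℝ)/K := by rw [le_div_iff₀ hK]; exact hj1
  have hjs : (j:ℝ)/K - s ≤ 1/K := by
    rw [sub_le_iff_le_add, div_le_iff₀ hK, add_mul, div_mul_cancel₀ _ hK.ne']
    linarith
  have hs1 : s ∈ Icc (0:ℝ) 1 := ⟨hs0, hs.2.trans (D.grid_mem hbK).2⟩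
  have hjm := D.grid_mem (hjb.trans hbK)
  have h1 := D.raise hjb hbK (fun k hk => hv k (by omega)) hb hvβ
  have h2 := D.int_small_le hs1 hjm hsj hjs
  rw [← intervalIntegral.integral_add_adjacent_intervals (D.ii hs1 hjm)
    (D.ii hjm (D.grid_mem hbK))]
  have h3 := (abs_le.1 h2).1
  linarith

/-- K2 for all real times -/
lemma lower' (D : Data K ε β C δ P m G g) {a b : ℕ} {v : ℝ} (hbK : b ≤ K)
    (hv : ∀ k : Fin K, a ≤ (k:ℕ) → (k:ℕ) < b → m k = v)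
    (ha : ∀ k : Fin K, (k:ℕ) < a → m k < v) (hvε : ε < v) :
    ∀ s ∈ Icc ((a:ℝ)/K) ((b:ℝ)/K), ∫ t in (a:ℝ)/K..s, G t ≤ δ := by
  intro s hs
  have hK := D.Kpos
  have hs0 : 0 ≤ s := le_trans (by positivity) hs.1
  have hsK : 0 ≤ s * K := by positivity
  set j := ⌊s * K⌋₊ with hj
  have hj1 : (j:ℝ) ≤ s * K := Nat.floor_le hsK
  have hj2 : s * K < j + 1 := Nat.lt_floor_add_one _
  have hsb : s * K ≤ b := by
    have := hs.2
    rwa [le_div_iff₀ hK] at this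
  have hjb : j ≤ b := by exact_mod_cast hj1.trans hsb
  have haj : a ≤ j := by
    rw [hj, Nat.le_floor_iff hsK]
    have := hs.1
    rwa [div_le_iff₀ hK] at this
  have hsj : (j:ℝ)/K ≤ s := by rw [div_le_iff₀ hK]; exact hj1
  have hjs : s - (j:ℝ)/K ≤ 1/K := by
    rw [sub_le_iff_le_add, ← add_div, le_div_iff₀ hK]
    linarith
  have hs1 : s ∈ Icc (0:ℝ) 1 := ⟨hs0, hs.2.trans (D.grid_mem hbK).2⟩
  have hjm := D.grid_mem (hjb.trans hbK)
  have ham := D.grid_mem (haj.trans (hjb.trans hbK))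
  have h1 := D.lower haj (hjb.trans hbK) (fun k hk hk' => hv k hk (by omega)) ha hvε
  have h2 := D.int_small_le hjm hs1 hsj hjs
  rw [← intervalIntegral.integral_add_adjacent_intervals (D.ii ham hjm) (D.ii hjm hs1)]
  have h3 := (abs_le.1 h2).2
  linarith

/-- lower bound at the right end of a block -/
lemma bdry_low (D : Data K ε β C δ P m G g) {b : ℕ} {v : ℝ} (hb0 : 0 < b) (hbK : b ≤ K)
    (hv : ∀ k : Fin K, b - 1 ≤ (k:ℕ) → (k:ℕ) < b → m k = v)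
    (hb : ∀ k : Fin K, b ≤ (k:ℕ) → v < m k) (hvβ : v < β) : -δ ≤ G ((b:ℝ)/K) := by
  have h1 := D.raise (Nat.sub_le b 1) hbK hv hb hvβ
  have hK := D.Kpos
  by_contra hcon
  push Not at hcon
  have hcast : ((b - 1 : ℕ) : ℝ) = (b:ℝ) - 1 := by
    rw [Nat.cast_sub (by omega)]; simp
  have hb1 := D.grid_mem (show b - 1 ≤ K by omega)
  have hbm := D.grid_mem hbK
  have hlt : ((b - 1 : ℕ) : ℝ)/K < (b:ℝ)/K := by
    apply div_lt_div_of_pos_right _ hK; rw [hcast]; linarith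
  have hneg : ∀ x ∈ Icc (((b - 1 : ℕ) : ℝ)/K) ((b:ℝ)/K), G x ≤ G ((b:ℝ)/K) + δ := by
    intro x hx
    have hx1 : x ∈ Icc (0:ℝ) 1 := ⟨by linarith [hx.1, hb1.1], by linarith [hx.2, hbm.2]⟩
    have h2 := (abs_le.1 (D.lip hx1 hbm hx.2)).1
    have h3 : (b:ℝ)/K - x ≤ 1/K := by
      have := hx.1
      rw [hcast, sub_div] at this
      linarith
    have h4 : C * ((b:ℝ)/K - x) ≤ C / K := by
      calc C * ((b:ℝ)/K - x) ≤ C * (1/K) := mul_le_mul_of_nonneg_left h3 D.Cpos.le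
        _ = C / K := by ring
    linarith [D.hδ]
  have h5 := intervalIntegral.integral_mono_on (a := ((b - 1 : ℕ) : ℝ)/K) (b := (b:ℝ)/K)
    (f := G) (g := fun _ => G ((b:ℝ)/K) + δ) hlt.le (D.ii hb1 hbm) (by simp) hneg
  simp only [intervalIntegral.integral_const, smul_eq_mul] at h5
  have h6 : ((b:ℝ)/K - ((b - 1 : ℕ) : ℝ)/K) * (G ((b:ℝ)/K) + δ) < 0 :=
    mul_neg_of_pos_of_neg (by linarith) (by linarith)
  linarith

/-- upper bound at the left end of a block -/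
lemma bdry_up (D : Data K ε β C δ P m G g) {a : ℕ} {v : ℝ} (haK : a < K)
    (hv : ∀ k : Fin K, a ≤ (k:ℕ) → (k:ℕ) < a + 1 → m k = v)
    (ha : ∀ k : Fin K, (k:ℕ) < a → m k < v) (hvε : ε < v) : G ((a:ℝ)/K) ≤ δ := by
  have h1 := D.lower (Nat.le_succ a) haK hv ha hvε
  have hK := D.Kpos
  by_contra hcon
  push Not at hcon
  have hcast : ((a + 1 : ℕ) : ℝ) = (a:ℝ) + 1 := by push_cast; ring
  have ha1 := D.grid_mem (show a + 1 ≤ K by omega)
  have ham := D.grid_mem haK.le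
  have hlt : (a:ℝ)/K < ((a + 1 : ℕ) : ℝ)/K := by
    apply div_lt_div_of_pos_right _ hK; rw [hcast]; linarith
  have hpos : ∀ x ∈ Icc ((a:ℝ)/K) (((a + 1 : ℕ) : ℝ)/K), G ((a:ℝ)/K) - δ ≤ G x := by
    intro x hx
    have hx1 : x ∈ Icc (0:ℝ) 1 := ⟨by linarith [hx.1, ham.1], by linarith [hx.2, ha1.2]⟩
    have h2 := (abs_le.1 (D.lip ham hx1 hx.1)).1
    have h3 : x - (a:ℝ)/K ≤ 1/K := by
      have := hx.2
      rw [hcast, add_div] at this
      linarith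
    have h4 : C * (x - (a:ℝ)/K) ≤ C / K := by
      calc C * (x - (a:ℝ)/K) ≤ C * (1/K) := mul_le_mul_of_nonneg_left h3 D.Cpos.le
        _ = C / K := by ring
    linarith [D.hδ]
  have h5 := intervalIntegral.integral_mono_on (a := (a:ℝ)/K) (b := ((a + 1 : ℕ) : ℝ)/K)
    (f := fun _ => G ((a:ℝ)/K) - δ) (g := G) hlt.le (by simp) (D.ii ham ha1) hpos
  simp only [intervalIntegral.integral_const, smul_eq_mul] at h5
  have h6 : 0 < (((a + 1 : ℕ) : ℝ)/K - (a:ℝ)/K) * (G ((a:ℝ)/K) - δ) :=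
    mul_pos (by linarith) (by linarith)
  linarith

/-- MAIN: uniform smallness of `G` below the top block, the top block is short. -/
theorem main (D : Data K ε β C δ P m G g) :
    ∃ a : ℕ, a ≤ K ∧ (∀ k : Fin K, (k:ℕ) < a ↔ m k < β) ∧ β * (1 - (a:ℝ)/K) ≤ 2 ∧
      (∀ t ∈ Icc (0:ℝ) ((a:ℝ)/K), |G t| ≤ 2 * δ + 3 * Real.sqrt (C * δ)) ∧
      ∫ t in (a:ℝ)/K..1, G t ≤ 0 := by
  have hK := D.Kpos
  have hδ := D.δnn
  have hsq : 0 ≤ Real.sqrt (C * δ) := Real.sqrt_nonneg _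
  have hmono := D.hm.1
  obtain ⟨A, hAK, hA⟩ := initial_segment (fun k => m k < β)
    (fun i j hij hj => lt_of_le_of_lt (hmono hij) hj)
  have hmtop : ∀ k : Fin K, A ≤ (k:ℕ) → m k = β := by
    intro k hk
    have h1 : ¬ (m k < β) := fun h => absurd ((hA k).2 h) (by omega)
    exact le_antisymm (D.hm.2 k).2 (not_lt.1 h1)
  have hKK : ((K:ℕ):ℝ)/K = 1 := div_self hK.ne'
  -- upper bound at any block boundary
  have hbup : ∀ b : ℕ, b ≤ K → (∀ k : Fin K, (k:ℕ) < b → ∀ l : Fin K, b ≤ (l:ℕ) → m k < m l) →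
      0 < b → G ((b:ℝ)/K) ≤ δ := by
    intro b hb hsep hb0
    rcases hb.lt_or_eq with hlt | rfl
    · have hprev : m ⟨b - 1, by omega⟩ < m ⟨b, hlt⟩ :=
        hsep ⟨b - 1, by omega⟩ (by simp only; omega) ⟨b, hlt⟩ le_rfl
      refine D.bdry_up hlt (v := m ⟨b, hlt⟩) ?_ ?_ ?_
      · intro k hk hk'
        have : k = ⟨b, hlt⟩ := Fin.ext (by simp only; omega)
        rw [this]
      · intro k hk
        exact hsep k hk ⟨b, hlt⟩ le_rfl
      · exact lt_of_le_of_lt (D.hm.2 _).1 hprev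
    · rw [hKK]
      have := D.hG1 1 ⟨zero_le_one, le_rfl⟩
      linarith
  have hblow : ∀ b : ℕ, b ≤ K → (∀ k : Fin K, (k:ℕ) < b → ∀ l : Fin K, b ≤ (l:ℕ) → m k < m l) →
      0 < b → (∀ k : Fin K, (k:ℕ) < b → m k < β) → -δ ≤ G ((b:ℝ)/K) := by
    intro b hb hsep hb0 hβ
    refine D.bdry_low hb0 hb (v := m ⟨b - 1, by omega⟩) ?_ ?_ ?_
    · intro k hk hk'
      have : k = ⟨b - 1, by omega⟩ := Fin.ext (by simp only; omega)
      rw [this]
    · intro k hk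
      exact hsep _ (by simp only; omega) k hk
    · exact hβ _ (by simp only; omega)
  have hlastint : ∫ t in (A:ℝ)/K..1, G t ≤ 0 := by
    have := D.lower hAK le_rfl (fun k hk _ => hmtop k hk) (fun k hk => (hA k).1 hk) D.hεβ
    rwa [hKK] at this
  have hAsep : ∀ k : Fin K, (k:ℕ) < A → ∀ l : Fin K, A ≤ (l:ℕ) → m k < m l := by
    intro k hk l hl
    rw [hmtop l hl]; exact (hA k).1 hk
  refine ⟨A, hAK, hA, ?_, ?_, hlastint⟩
  · -- the top block is short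
    have hGA : |G ((A:ℝ)/K)| ≤ δ := by
      rcases Nat.eq_zero_or_pos A with h0 | h0
      · rw [h0]; simp [D.hG0, hδ]
      · rw [abs_le]
        exact ⟨hblow A hAK hAsep h0 (fun k hk => (hA k).1 hk), hbup A hAK hAsep h0⟩
    have hAm := D.grid_mem hAK
    refine last_block D.hβ hAm.2 D.Cpos hδ D.hδ1 D.hδ2
      (D.hGc.mono (Icc_subset_Icc hAm.1 le_rfl)) ?_ ?_ (D.hlast A hAK hmtop) hGA ?_
    · intro x hx; exact D.hd x ⟨lt_of_le_of_lt hAm.1 hx.1, hx.2⟩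
    · intro x hx; exact D.hC x ⟨lt_of_le_of_lt hAm.1 hx.1, hx.2⟩
    · intro s hs
      refine D.lower' (a := A) (b := K) (v := β) le_rfl (fun k hk _ => hmtop k hk)
        (fun k hk => (hA k).1 hk) D.hεβ s ?_
      rw [hKK]; exact hs
  · intro t ht
    rcases ht.1.eq_or_lt with h0 | h0
    · rw [← h0, D.hG0]; simp; positivity
    -- index of the grid interval
    have htK : 0 < t * K := by positivity
    obtain ⟨i, hi⟩ : ∃ i : ℕ, ⌈t * K⌉₊ = i + 1 :=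
      Nat.exists_eq_succ_of_ne_zero (Nat.ceil_pos.2 htK).ne'
    have hi1 : t * K ≤ i + 1 := by
      have := Nat.le_ceil (t * K)
      rw [hi] at this; exact_mod_cast this
    have hi2 : (i:ℝ) < t * K := by
      have := Nat.ceil_lt_add_one htK.le
      rw [hi] at this; push_cast at this; linarith
    have htA : t * K ≤ A := by
      have := ht.2; rwa [le_div_iff₀ hK] at this
    have hiA : i < A := by
      have : (i:ℝ) < A := lt_of_lt_of_le hi2 htA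
      exact_mod_cast this
    have hiK : i < K := lt_of_lt_of_le hiA hAK
    set v := m ⟨i, hiK⟩ with hv
    have hvβ : v < β := (hA ⟨i, hiK⟩).1 hiA
    obtain ⟨a, haK, ha⟩ := initial_segment (fun k => m k < v)
      (fun i j hij hj => lt_of_le_of_lt (hmono hij) hj)
    obtain ⟨b, hbK, hb⟩ := initial_segment (fun k => m k ≤ v)
      (fun i j hij hj => le_trans (hmono hij) hj)
    have hai : a ≤ i := by
      by_contra hcon
      push Not at hcon
      have := (ha ⟨i, hiK⟩).1 hcon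
      exact lt_irrefl _ this
    have hib : i < b := (hb ⟨i, hiK⟩).2 le_rfl
    have hblk : ∀ k : Fin K, a ≤ (k:ℕ) → (k:ℕ) < b → m k = v := by
      intro k hk hk'
      have h1 := (hb k).1 hk'
      have h2 : ¬ m k < v := fun h => absurd ((ha k).2 h) (by omega)
      exact le_antisymm h1 (not_lt.1 h2)
    have habove : ∀ k : Fin K, b ≤ (k:ℕ) → v < m k := by
      intro k hk
      by_contra hcon
      exact absurd ((hb k).2 (not_lt.1 hcon)) (by omega)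
    have hbelow : ∀ k : Fin K, (k:ℕ) < a → m k < v := fun k hk => (ha k).1 hk
    have hbA : b ≤ A := by
      by_contra hcon
      push Not at hcon
      have hAK' : A < K := by omega
      have := (hb ⟨A, hAK'⟩).1 hcon
      rw [hmtop ⟨A, hAK'⟩ le_rfl] at this
      linarith
    have hbsep : ∀ k : Fin K, (k:ℕ) < b → ∀ l : Fin K, b ≤ (l:ℕ) → m k < m l :=
      fun k hk l hl => lt_of_le_of_lt ((hb k).1 hk) (habove l hl)
    have hasep : ∀ k : Fin K, (k:ℕ) < a → ∀ l : Fin K, a ≤ (l:ℕ) → m k < m l := by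
      intro k hk l hl
      refine lt_of_lt_of_le ((ha k).1 hk) ?_
      by_contra hcon
      exact absurd ((ha l).2 (not_le.1 hcon)) (by omega)
    have hGb : |G ((b:ℝ)/K)| ≤ δ := by
      rw [abs_le]
      exact ⟨hblow b hbK hbsep (by omega) (fun k hk => lt_of_le_of_lt ((hb k).1 hk) hvβ),
        hbup b hbK hbsep (by omega)⟩
    have ham := D.grid_mem haK
    have hbm := D.grid_mem hbK
    have hab : (a:ℝ)/K ≤ (b:ℝ)/K := by
      apply div_le_div_of_nonneg_right _ hK.le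
      exact_mod_cast (by omega : a ≤ b)
    have htmem : t ∈ Icc ((a:ℝ)/K) ((b:ℝ)/K) := by
      constructor
      · rw [div_le_iff₀ hK]
        have : (a:ℝ) ≤ i := by exact_mod_cast hai
        linarith
      · rw [le_div_iff₀ hK]
        have : (i:ℝ) + 1 ≤ b := by exact_mod_cast hib
        linarith
    have hGc' := D.hGc.mono (Icc_subset_Icc ham.1 hbm.2)
    have hd' : ∀ x ∈ Ioo ((a:ℝ)/K) ((b:ℝ)/K), HasDerivAt G (g x - 1) x :=
      fun x hx => D.hd x ⟨lt_of_le_of_lt ham.1 hx.1, lt_of_lt_of_le hx.2 hbm.2⟩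
    have hC' : ∀ x ∈ Ioo ((a:ℝ)/K) ((b:ℝ)/K), |g x - 1| ≤ C :=
      fun x hx => D.hC x ⟨lt_of_le_of_lt ham.1 hx.1, lt_of_lt_of_le hx.2 hbm.2⟩
    have hlen : (b:ℝ)/K - (a:ℝ)/K ≤ 1 := by linarith [ham.1, hbm.2]
    have hK1 := D.raise' hbK hblk habove hvβ
    rcases (D.hm.2 ⟨i, hiK⟩).1.eq_or_lt with hvε | hvε
    · -- the ε-block
      have ha0 : a = 0 := by
        by_contra hcon
        have h1 := hbelow ⟨0, by omega⟩ (by simp only; omega)
        have h2 := (D.hm.2 ⟨0, by omega⟩).1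
        rw [hv, ← hvε] at h1
        linarith
      subst ha0
      simp only [Nat.cast_zero, zero_div] at *
      refine eps_block hab hlen D.Cpos hδ hGc' hd' hC' ?_ D.hG0 hGb hK1 t htmem
      refine D.heps b hbK ?_
      intro k hk
      rw [hblk k (Nat.zero_le _) hk, hv, ← hvε]
    · have hGa : |G ((a:ℝ)/K)| ≤ δ := by
        rcases Nat.eq_zero_or_pos a with h0 | h0
        · rw [h0]; simp [D.hG0, hδ]
        · rw [abs_le]
          exact ⟨hblow a haK hasep h0 (fun k hk => lt_trans ((ha k).1 hk) hvβ),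
            hbup a haK hasep h0⟩
      have := block_abs hab hlen D.Cpos hδ hGc' hd' hC'
        (D.hqc a b (by omega) hbK v hvε hvβ hblk) hGa hGb hK1
        (D.lower' hbK hblk hbelow hvε) t htmem
      linarith

end Data

end Crest.Agent.R339.Var
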