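import Crest.Agent.R339.B107Prof

/-!
Row 339 (helper107): the Parisi recursion as a list recursion from the terminal side, with all the
invariants: `Prof`, evenness, exponential lower bound and upper bound of the second derivative, (P1).
-/

set_option autoImplicit false

namespace Crest.Agent.R339.B

open MeasureTheory ProbabilityTheory Filter Topology Set
open Crest.Agent.R164.GC
open Crest.ProbabilityR.InvariantGlass (gaussOp)

noncomputable section

/-- terminal function -/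
def phi0 (β x : ℝ) : ℝ := Real.log (2 * Real.cosh (β * x)) / β

theorem phi0_hasDerivAt {β : ℝ} (hβ : 0 < β) (x : ℝ) :
    HasDerivAt (phi0 β) (Real.sinh (β * x) / Real.cosh (β * x)) x := by
  unfold phi0
  have h1 : HasDerivAt (fun x : ℝ => β * x) β x := by
    simpa using (hasDerivAt_id x).const_mul β
  have h2 := (h1.cosh.const_mul 2).log (by positivity)
  have h3 := h2.div_const β
  refine h3.congr_deriv ?_
  have := (Real.cosh_pos (β * x)).ne'
  field_simp

/-- the hyperbolic tangent of `β x` -/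
def th (β x : ℝ) : ℝ := Real.sinh (β * x) / Real.cosh (β * x)

theorem th_hasDerivAt (β x : ℝ) : HasDerivAt (th β) (β * (1 - th β x ^ 2)) x := by
  unfold th
  have h1 : HasDerivAt (fun x : ℝ => β * x) β x := by
    simpa using (hasDerivAt_id x).const_mul β
  have h2 := h1.sinh.fun_div h1.cosh (Real.cosh_pos (β * x)).ne'
  refine h2.congr_deriv ?_
  have := (Real.cosh_pos (β * x)).ne'
  field_simp

theorem one_sub_th_sq (β x : ℝ) : 1 - th β x ^ 2 = 1 / Real.cosh (β * x) ^ 2 := by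
  unfold th
  have h := (Real.cosh_pos (β * x)).ne'
  have h2 := Real.cosh_sq_sub_sinh_sq (β * x)
  field_simp
  linarith

theorem th_abs_le (β x : ℝ) : |th β x| ≤ 1 := by
  have h : th β x ^ 2 ≤ 1 := by
    have := one_sub_th_sq β x
    have h2 : 0 ≤ 1 / Real.cosh (β * x) ^ 2 := by positivity
    linarith
  exact abs_le_one_iff_mul_self_le_one.2 (by nlinarith)

theorem phi0_deriv {β : ℝ} (hβ : 0 < β) : deriv (phi0 β) = th β :=
  funext fun x => (phi0_hasDerivAt hβ x).deriv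

theorem th_deriv (β : ℝ) : deriv (th β) = fun x => β * (1 - th β x ^ 2) :=
  funext fun x => (th_hasDerivAt β x).deriv

theorem th_bd (β : ℝ) : BD (th β) := by
  intro n
  have hd : Differentiable ℝ (th β) := fun x => (th_hasDerivAt β x).differentiableAt
  induction n with
  | zero => exact ⟨hd.continuous, 1, th_abs_le β⟩
  | succ n ih =>
    refine ⟨hd, ⟨1, th_abs_le β⟩, ?_⟩
    rw [th_deriv]
    have h1 := (BDn.const β n).mul ((BDn.const 1 n).add ((BDn.const (-1) n).mul (ih.mul ih)))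
    exact h1.congr fun x => by ring

theorem phi0_prof {β : ℝ} (hβ : 0 < β) : Prof (phi0 β) := by
  refine ⟨fun x => (phi0_hasDerivAt hβ x).differentiableAt, fun x => ?_, ?_⟩
  · rw [phi0_deriv hβ]; exact th_abs_le β x
  · rw [phi0_deriv hβ]; exact th_bd β

theorem phi0_even (β x : ℝ) : phi0 β (-x) = phi0 β x := by
  unfold phi0
  rw [mul_neg, Real.cosh_neg]

theorem phi0_deriv2 {β : ℝ} (hβ : 0 < β) :
    deriv (deriv (phi0 β)) = fun x => β * (1 - th β x ^ 2) := by
  rw [phi0_deriv hβ, th_deriv]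

theorem phi0_low {β : ℝ} (hβ : 0 < β) : Low (deriv (deriv (phi0 β))) := by
  rw [phi0_deriv2 hβ]
  refine ⟨β, 2 * β, hβ, by positivity, fun x => ?_⟩
  simp only
  rw [one_sub_th_sq]
  refine mul_le_mul_of_nonneg_left ?_ hβ.le
  have h1 : Real.cosh (β * x) ≤ Real.exp (β * |x|) := by
    rw [Real.cosh_eq]
    have a1 : Real.exp (β * x) ≤ Real.exp (β * |x|) :=
      Real.exp_le_exp.2 (mul_le_mul_of_nonneg_left (le_abs_self x) hβ.le)
    have a2 : Real.exp (-(β * x)) ≤ Real.exp (β * |x|) := by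
      refine Real.exp_le_exp.2 ?_
      have := neg_abs_le x
      nlinarith
    linarith
  have h2 : Real.cosh (β * x) ^ 2 ≤ Real.exp (2 * β * |x|) := by
    have : Real.exp (2 * β * |x|) = Real.exp (β * |x|) ^ 2 := by
      rw [← Real.exp_nat_mul]; congr 1; push_cast; ring
    rw [this]
    exact pow_le_pow_left₀ (Real.cosh_pos _).le h1 2
  rw [Real.exp_neg, ← one_div]
  exact one_div_le_one_div_of_le (by positivity) h2

theorem phi0_up {β : ℝ} (hβ : 0 < β) (x : ℝ) :
    deriv (deriv (phi0 β)) x ≤ β * (1 - deriv (phi0 β) x ^ 2) := by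
  rw [phi0_deriv2 hβ, phi0_deriv hβ]

theorem phi0_P1 {β : ℝ} (hβ : 0 < β) : P1 β (phi0 β) := by
  have h3 : deriv (deriv (deriv (phi0 β))) =
      fun x => -(2 * β * th β x) * (β * (1 - th β x ^ 2)) := by
    rw [phi0_deriv2 hβ]
    funext x
    have h1 := ((((th_hasDerivAt β x).fun_pow 2).const_sub 1).const_mul β)
    rw [h1.deriv]
    norm_num
    ring
  have e : (fun x => 2 * β * deriv (phi0 β) x +
      deriv (deriv (deriv (phi0 β))) x / deriv (deriv (phi0 β)) x) = fun _ => 0 := by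
    funext x
    rw [h3, phi0_deriv2 hβ, phi0_deriv hβ]
    simp only
    have h4 : β * (1 - th β x ^ 2) ≠ 0 := by
      rw [one_sub_th_sq]
      positivity
    rw [mul_div_cancel_right₀ _ h4]
    ring
  unfold P1
  rw [e]
  exact antitone_const

/-- the Parisi recursion; the head of the list is the block nearest to time `0`, an entry is
`(m, d)`: level `m`, length `d` -/
def PhiL (β : ℝ) : List (ℝ × ℝ) → ℝ → ℝ
  | [] => phi0 β
  | p :: l => gaussOp p.1 p.2 (PhiL β l)

/-- the level at the head -/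
def headLv (β : ℝ) : List (ℝ × ℝ) → ℝ
  | [] => β
  | p :: _ => p.1

/-- admissible lists of blocks: `0 < m_1 ≤ m_2 ≤ … ≤ β`, lengths `≥ 0` -/
def Adm (β : ℝ) : List (ℝ × ℝ) → Prop
  | [] => True
  | p :: l => 0 < p.1 ∧ p.1 ≤ headLv β l ∧ 0 ≤ p.2 ∧ Adm β l

theorem Adm.head_le {β : ℝ} : ∀ {l : List (ℝ × ℝ)}, Adm β l → headLv β l ≤ β
  | [], _ => le_rfl
  | _ :: _, h => h.2.1.trans h.2.2.2.head_le

theorem Adm.head_pos {β : ℝ} (hβ : 0 < β) : ∀ {l : List (ℝ × ℝ)}, Adm β l → 0 < headLv β l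
  | [], _ => hβ
  | _ :: _, h => h.1

/-- all invariants of the Parisi recursion -/
structure Inv (β m : ℝ) (Φ : ℝ → ℝ) : Prop where
  prof : Prof Φ
  even : ∀ x, Φ (-x) = Φ x
  low : Low (deriv (deriv Φ))
  up : ∀ x, deriv (deriv Φ) x ≤ β * (1 - deriv Φ x ^ 2)
  p1 : P1 m Φ

theorem Inv.mono {β m m' : ℝ} {Φ : ℝ → ℝ} (h : Inv β m Φ) (hm : m' ≤ m) : Inv β m' Φ :=
  ⟨h.prof, h.even, h.low, h.up, h.p1.mono h.prof h.low hm⟩

theorem Inv.step {β m : ℝ} {Φ : ℝ → ℝ} (h : Inv β m Φ) (hm : 0 < m) (hmβ : m ≤ β) (v : ℝ) :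
    Inv β m (gaussOp m v Φ) :=
  ⟨h.prof.step m v, gaussOp_even h.even m v, h.prof.low h.low hm.le v, h.prof.up h.up hmβ v,
    h.p1.step h.prof h.low hm v⟩

theorem phi0_inv {β : ℝ} (hβ : 0 < β) : Inv β β (phi0 β) :=
  ⟨phi0_prof hβ, phi0_even β, phi0_low hβ, phi0_up hβ, phi0_P1 hβ⟩

theorem PhiL_inv {β : ℝ} (hβ : 0 < β) : ∀ {l : List (ℝ × ℝ)}, Adm β l →
    Inv β (headLv β l) (PhiL β l)
  | [], _ => phi0_inv hβ
  | p :: _, h => by
    have ih := PhiL_inv hβ h.2.2.2
    exact (ih.mono h.2.1).step h.1 (h.2.1.trans h.2.2.2.head_le) p.2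

/-- consequences of evenness and positivity -/
theorem Inv.odd {β m : ℝ} {Φ : ℝ → ℝ} (h : Inv β m Φ) (x : ℝ) : deriv Φ (-x) = -deriv Φ x :=
  deriv_neg_of_even h.even x

theorem Inv.d0 {β m : ℝ} {Φ : ℝ → ℝ} (h : Inv β m Φ) : deriv Φ 0 = 0 := by
  have := h.odd 0
  rw [neg_zero] at this
  linarith

theorem Inv.strictMono {β m : ℝ} {Φ : ℝ → ℝ} (h : Inv β m Φ) : StrictMono (deriv Φ) :=
  strictMono_of_hasDerivAt_pos h.prof.bd.hasDerivAt h.low.pos

theorem Inv.nonneg {β m : ℝ} {Φ : ℝ → ℝ} (h : Inv β m Φ) {x : ℝ} (hx : 0 ≤ x) :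
    0 ≤ deriv Φ x := by
  have := h.strictMono.monotone hx
  rwa [h.d0] at this

end

end Crest.Agent.R339.B
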