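/-
helper71, row 339 (S0530), part (B), variational block (V1):
derivative of the Cole–Hopf recursion with respect to the levels `m_k`.
-/
import Crest.Agent.R339.B107PhiL

set_option autoImplicit false

namespace Crest.Agent.R339.Var

open MeasureTheory ProbabilityTheory Filter Topology Set
open Crest.Agent.R164.GC Crest.Agent.R339.B
open Crest.ProbabilityR.InvariantGlass (gaussOp)

noncomputable section

/-- derivative of `m ↦ gaussOp m v f x` at fixed `f` -/
def Dm (m v : ℝ) (f : ℝ → ℝ) (x : ℝ) : ℝ := m⁻¹ * (tE m v f f x - gaussOp m v f x)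

/-- One Cole–Hopf step with `t`-dependent level and `t`-dependent terminal function. -/
theorem step_hasDerivAt {f A : ℝ → ℝ → ℝ} {m η v C r : ℝ} {t : ℝ} (hr : |t| < r)
    (hm : ∀ s, |s| < r → 0 < m + s * η)
    (hf : ∀ s, |s| < r → Lip1 (f s))
    (hA : ∀ s, |s| < r → ∀ x, HasDerivAt (fun s => f s x) (A s x) s)
    (hAb : ∀ s, |s| < r → ∀ x, |A s x| ≤ C)
    (hAc : ∀ s, |s| < r → Continuous (A s)) (x : ℝ) :
    HasDerivAt (fun s => gaussOp (m + s * η) v (f s) x)
      (η * Dm (m + t * η) v (f t) x + tE (m + t * η) v (f t) (A t) x) t := by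
  set γ := gaussianReal 0 1 with hγ
  have hC0 : 0 ≤ C := (abs_nonneg _).trans (hAb t hr 0)
  have hr0 : 0 < r := (abs_nonneg t).trans_lt hr
  -- bound on f s y, uniformly in s
  have hfb : ∀ s, |s| < r → ∀ y, |f s y| ≤ |f 0 0| + C * r + |y| := by
    intro s hs y
    have h1 : |f s y - f s 0| ≤ |y| := by
      rw [abs_le]
      have e1 := hf s hs y 0
      have e2 := hf s hs 0 y
      rw [sub_zero] at e1
      rw [zero_sub, abs_neg] at e2
      constructor <;> linarith
    have h2 : |f s 0 - f 0 0| ≤ C * |s - 0| := by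
      have h3 : ∀ u ∈ Ioo (-r) r, HasDerivWithinAt (fun u => f u 0) (A u 0) (Ioo (-r) r) u :=
        fun u hu => (hA u (abs_lt.2 hu) 0).hasDerivWithinAt
      have h4 := Convex.norm_image_sub_le_of_norm_hasDerivWithin_le (f := fun u => f u 0)
        (f' := fun u => A u 0) (C := C) (s := Ioo (-r) r) (x := 0) (y := s) h3
        (fun u hu => hAb u (abs_lt.2 hu) 0) (convex_Ioo _ _)
        ⟨by linarith, hr0⟩ (abs_lt.1 hs)
      simpa [Real.norm_eq_abs] using h4
    have h3 : C * |s - 0| ≤ C * r := by
      rw [sub_zero]; exact mul_le_mul_of_nonneg_left hs.le hC0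
    have h4 : f s y = (f s y - f s 0) + (f s 0 - f 0 0) + f 0 0 := by ring
    calc |f s y| = |(f s y - f s 0) + (f s 0 - f 0 0) + f 0 0| := by rw [← h4]
      _ ≤ |f s y - f s 0| + |f s 0 - f 0 0| + |f 0 0| := by
          refine (abs_add_le _ _).trans ?_
          gcongr
          exact abs_add_le _ _
      _ ≤ _ := by linarith
  set B := |f 0 0| + C * r with hB
  have hB0 : 0 ≤ B := by positivity
  set M := |m| + r * |η| with hM
  have hM0 : 0 ≤ M := by positivity
  have hmM : ∀ s, |s| < r → |m + s * η| ≤ M := by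
    intro s hs
    refine (abs_add_le _ _).trans ?_
    rw [abs_mul]
    have := mul_le_mul_of_nonneg_right hs.le (abs_nonneg η)
    linarith
  have hfc : ∀ s, |s| < r → Continuous (f s) := fun s hs =>
    (EG.lip (hf s hs)).cont
  -- the partition function
  set N : ℝ → ℝ := fun s => ∫ g, Real.exp ((m + s * η) * f s (x + Real.sqrt v * g)) ∂γ with hN
  have hball : Metric.ball t (r - |t|) ∈ 𝓝 t := Metric.ball_mem_nhds t (by linarith)
  have hin : ∀ s ∈ Metric.ball t (r - |t|), |s| < r := by
    intro s hs
    rw [Metric.mem_ball, Real.dist_eq] at hs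
    have := abs_sub_abs_le_abs_sub s t
    linarith
  have hexpb : ∀ s, |s| < r → ∀ g : ℝ, Real.exp ((m + s * η) * f s (x + Real.sqrt v * g)) ≤
      Real.exp (M * (B + |x|)) * Real.exp ((M * Real.sqrt v) * |g|) := by
    intro s hs g
    rw [← Real.exp_add]
    apply Real.exp_le_exp.2
    have h1 := hfb s hs (x + Real.sqrt v * g)
    have h2 : |x + Real.sqrt v * g| ≤ |x| + Real.sqrt v * |g| := by
      refine (abs_add_le _ _).trans ?_
      rw [abs_mul, abs_of_nonneg (Real.sqrt_nonneg v)]
    have h3 : (m + s * η) * f s (x + Real.sqrt v * g) ≤ M * (B + (|x| + Real.sqrt v * |g|)) := by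
      refine (le_abs_self _).trans ?_
      rw [abs_mul]
      exact mul_le_mul (hmM s hs) (by linarith) (abs_nonneg _) hM0
    linarith
  have hNder : HasDerivAt N (∫ g, (η * f t (x + Real.sqrt v * g) +
      (m + t * η) * A t (x + Real.sqrt v * g)) *
      Real.exp ((m + t * η) * f t (x + Real.sqrt v * g)) ∂γ) t := by
    refine (hasDerivAt_integral_of_dominated_loc_of_deriv_le
      (bound := fun g => ((|η| * (B + |x|) + M * C) * (Real.exp (M * (B + |x|)) *
        Real.exp ((M * Real.sqrt v) * |g|))) + (|η| * Real.sqrt v * Real.exp (M * (B + |x|))) *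
        (|g| * Real.exp ((M * Real.sqrt v) * |g|)))
      (F' := fun s g => (η * f s (x + Real.sqrt v * g) +
        (m + s * η) * A s (x + Real.sqrt v * g)) *
        Real.exp ((m + s * η) * f s (x + Real.sqrt v * g))) hball ?_ ?_ ?_ ?_ ?_ ?_).2
    · filter_upwards [hball] with s hs
      have hc := hfc s (hin s hs)
      exact (by fun_prop : Continuous fun g : ℝ =>
        Real.exp ((m + s * η) * f s (x + Real.sqrt v * g))).aestronglyMeasurable
    · have hc := (EG.exp_lip (hf t hr) (m + t * η)).int (Real.sqrt v) x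
      exact hc
    · have hc := hfc t hr
      have hc2 := hAc t hr
      exact (by fun_prop : Continuous fun g : ℝ => (η * f t (x + Real.sqrt v * g) +
        (m + t * η) * A t (x + Real.sqrt v * g)) *
        Real.exp ((m + t * η) * f t (x + Real.sqrt v * g))).aestronglyMeasurable
    · refine Eventually.of_forall fun g s hs => ?_
      have hs' := hin s hs
      have h1 := hfb s hs' (x + Real.sqrt v * g)
      have h2 : |x + Real.sqrt v * g| ≤ |x| + Real.sqrt v * |g| := by
        refine (abs_add_le _ _).trans ?_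
        rw [abs_mul, abs_of_nonneg (Real.sqrt_nonneg v)]
      have h3 : |η * f s (x + Real.sqrt v * g) + (m + s * η) * A s (x + Real.sqrt v * g)| ≤
          |η| * (B + (|x| + Real.sqrt v * |g|)) + M * C := by
        refine (abs_add_le _ _).trans ?_
        rw [abs_mul, abs_mul]
        exact add_le_add (mul_le_mul_of_nonneg_left (by linarith) (abs_nonneg _))
          (mul_le_mul (hmM s hs') (hAb s hs' _) (abs_nonneg _) hM0)
      rw [Real.norm_eq_abs, abs_mul, abs_of_pos (Real.exp_pos _)]
      calc _ ≤ (|η| * (B + (|x| + Real.sqrt v * |g|)) + M * C) *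
          (Real.exp (M * (B + |x|)) * Real.exp ((M * Real.sqrt v) * |g|)) :=
            mul_le_mul h3 (hexpb s hs' g) (Real.exp_pos _).le (by positivity)
        _ = _ := by ring
    · refine Integrable.add ?_ ?_
      · exact ((integrable_exp_abs _).const_mul _).const_mul _
      · exact (integrable_mul_exp_abs _).const_mul _
    · refine Eventually.of_forall fun g s hs => ?_
      have h1 : HasDerivAt (fun s : ℝ => m + s * η) η s := by
        simpa using ((hasDerivAt_id s).mul_const η).const_add m
      have h2 := hA s (hin s hs) (x + Real.sqrt v * g)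
      have h3 := (h1.fun_mul h2).exp
      refine h3.congr_deriv ?_
      ring
  have hNpos : ∀ s, |s| < r → 0 < N s := fun s hs => den_pos (hf s hs) (m + s * η) (Real.sqrt v) x
  have hmt := hm t hr
  have h1 : HasDerivAt (fun s : ℝ => (m + s * η)⁻¹) (-η / (m + t * η) ^ 2) t := by
    have h2 : HasDerivAt (fun s : ℝ => m + s * η) η t := by
      simpa using ((hasDerivAt_id t).mul_const η).const_add m
    exact h2.fun_inv hmt.ne'
  have h2 := h1.fun_mul (hNder.log (hNpos t hr).ne')
  have h3 : (fun s => gaussOp (m + s * η) v (f s) x) =ᶠ[𝓝 t]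
      fun s => (m + s * η)⁻¹ * Real.log (N s) := by
    filter_upwards [hball] with s hs
    rw [gaussOp_ne (hm s (hin s hs)).ne']
    rfl
  refine (h2.congr_of_eventuallyEq h3).congr_deriv ?_
  -- algebra
  have hft := EG.lip (hf t hr)
  have hex := EG.exp_lip (hf t hr) (m + t * η)
  have hAt : EG (A t) := EG.of_bdd (hAc t hr) (hAb t hr)
  have e1 : ∫ g, (η * f t (x + Real.sqrt v * g) +
      (m + t * η) * A t (x + Real.sqrt v * g)) *
      Real.exp ((m + t * η) * f t (x + Real.sqrt v * g)) ∂γ =
      η * (tE (m + t * η) v (f t) (f t) x * N t) +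
      (m + t * η) * (tE (m + t * η) v (f t) (A t) x * N t) := by
    have i1 := (hft.mul hex).int (Real.sqrt v) x
    have i2 := (hAt.mul hex).int (Real.sqrt v) x
    have e2 : tE (m + t * η) v (f t) (f t) x * N t =
        ∫ g, f t (x + Real.sqrt v * g) * Real.exp ((m + t * η) * f t (x + Real.sqrt v * g)) ∂γ :=
      div_mul_cancel₀ _ (hNpos t hr).ne'
    have e3 : tE (m + t * η) v (f t) (A t) x * N t =
        ∫ g, A t (x + Real.sqrt v * g) * Real.exp ((m + t * η) * f t (x + Real.sqrt v * g)) ∂γ :=
      div_mul_cancel₀ _ (hNpos t hr).ne'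
    rw [e2, e3, ← integral_const_mul, ← integral_const_mul, ← integral_add (i1.const_mul η)
      (i2.const_mul _)]
    refine integral_congr_ae (Eventually.of_forall fun g => ?_)
    simp only
    ring
  rw [e1]
  have hNt := (hNpos t hr).ne'
  have e4 : gaussOp (m + t * η) v (f t) x = (m + t * η)⁻¹ * Real.log (N t) :=
    gaussOp_ne hmt.ne' _ _ _
  unfold Dm
  rw [e4]
  generalize m + t * η = μ at hmt
  generalize tE μ v (f t) (f t) x = U1
  generalize tE μ v (f t) (A t) x = U2
  generalize N t = Nt at hNt
  have hμ := hmt.ne'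
  field_simp
  ring

end

end Crest.Agent.R339.Var
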