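/-
helper71, row 339 (S0530), part (B), variational block:
semigroup property of the Gaussian average and of the Cole–Hopf step; the tilted expectation `EX`
along a list of blocks; the derivative of `PhiL` in the levels.
-/
import Crest.Agent.R339.Var71D

set_option autoImplicit false

namespace Crest.Agent.R339.Var

open MeasureTheory ProbabilityTheory Filter Topology Set
open Crest.Agent.R164.GC Crest.Agent.R339.B
open Crest.ProbabilityR.InvariantGlass (gaussOp)

noncomputable section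

/-! ### semigroup -/

theorem gm_map_sqrt (v : ℝ) (hv : 0 ≤ v) :
    (gaussianReal 0 1).map (fun g => Real.sqrt v * g) = gaussianReal 0 (Real.toNNReal v) := by
  have h := gaussianReal_map_const_mul (μ := 0) (v := 1) (Real.sqrt v)
  rw [mul_zero, mul_one] at h
  have e : NNReal.mk (Real.sqrt v ^ 2) (sq_nonneg _) = Real.toNNReal v := by
    apply NNReal.eq
    rw [Real.coe_toNNReal v hv]
    exact Real.sq_sqrt hv
  rw [← e]
  exact h

theorem H_semi {φ : ℝ → ℝ} (hφ : EG φ) {v w : ℝ} (hv : 0 ≤ v) (hw : 0 ≤ w) (x : ℝ) :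
    H (Real.sqrt v) (H (Real.sqrt w) φ) x = H (Real.sqrt (v + w)) φ x := by
  set gm := gaussianReal 0 1 with hgm
  have h1 : ∀ (u : ℝ) (hu : 0 ≤ u) (G : ℝ → ℝ), Measurable G →
      ∫ g, G (Real.sqrt u * g) ∂gm = ∫ z, G z ∂gaussianReal 0 (Real.toNNReal u) := by
    intro u hu G hG
    rw [← gm_map_sqrt u hu, integral_map (by fun_prop) hG.aestronglyMeasurable]
  have hm := hφ.cont.measurable
  have hF' : Measurable fun z => φ (x + z) := hm.comp (by fun_prop)
  show ∫ g, (∫ g', φ (x + Real.sqrt v * g + Real.sqrt w * g') ∂gm) ∂gm =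
      ∫ g, φ (x + Real.sqrt (v + w) * g) ∂gm
  rw [h1 (v + w) (add_nonneg hv hw) (fun z => φ (x + z)) hF']
  have e : gaussianReal 0 (Real.toNNReal (v + w)) =
      (gaussianReal 0 (Real.toNNReal v)) ∗ (gaussianReal 0 (Real.toNNReal w)) := by
    rw [gaussianReal_conv_gaussianReal, add_zero, Real.toNNReal_add hv hw]
  have e2 : ((gaussianReal 0 (Real.toNNReal v)) ∗ (gaussianReal 0 (Real.toNNReal w))) =
      (gm.prod gm).map (fun p : ℝ × ℝ => Real.sqrt v * p.1 + Real.sqrt w * p.2) := by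
    unfold Measure.conv
    rw [← gm_map_sqrt v hv, ← gm_map_sqrt w hw, Measure.map_prod_map _ _ (by fun_prop)
      (by fun_prop), Measure.map_map (by fun_prop) (by fun_prop)]
    rfl
  rw [e, e2, integral_map (by fun_prop) hF'.aestronglyMeasurable]
  obtain ⟨K, A, hK, hA, hb⟩ := hφ.bd
  have hint : Integrable (fun p : ℝ × ℝ => φ (x + (Real.sqrt v * p.1 + Real.sqrt w * p.2)))
      (gm.prod gm) := by
    have hbd : Integrable (fun p : ℝ × ℝ => (K * Real.exp (A * |x|) *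
        Real.exp ((A * Real.sqrt v) * |p.1|)) *
        Real.exp ((A * Real.sqrt w) * |p.2|)) (gm.prod gm) :=
      Integrable.mul_prod ((Crest.Agent.R164.GC.integrable_exp_abs (A * Real.sqrt v)).const_mul _)
        (Crest.Agent.R164.GC.integrable_exp_abs (A * Real.sqrt w))
    refine Integrable.mono' hbd (hF'.comp (by fun_prop)).aestronglyMeasurable
      (Eventually.of_forall fun p => ?_)
    rw [Real.norm_eq_abs]
    refine (hb _).trans ?_
    rw [mul_assoc, mul_assoc, ← Real.exp_add, ← Real.exp_add]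
    refine mul_le_mul_of_nonneg_left (Real.exp_le_exp.2 ?_) hK
    have h2 := abs_add_le x (Real.sqrt v * p.1 + Real.sqrt w * p.2)
    have h3 := abs_add_le (Real.sqrt v * p.1) (Real.sqrt w * p.2)
    rw [abs_mul, abs_mul, abs_of_nonneg (Real.sqrt_nonneg v),
      abs_of_nonneg (Real.sqrt_nonneg w)] at h3
    have h4 := mul_le_mul_of_nonneg_left (h2.trans (add_le_add le_rfl h3)) hA
    linarith
  rw [integral_prod _ hint]
  refine integral_congr_ae (Eventually.of_forall fun g => ?_)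
  refine integral_congr_ae (Eventually.of_forall fun g' => ?_)
  show φ _ = φ _
  rw [add_assoc]

theorem gaussOp_semi {Φ : ℝ → ℝ} (h : Prof Φ) {m : ℝ} (hm : m ≠ 0) {v w : ℝ} (hv : 0 ≤ v)
    (hw : 0 ≤ w) : gaussOp m (v + w) Φ = gaussOp m v (gaussOp m w Φ) := by
  funext x
  rw [gaussOp_ne hm, gaussOp_ne hm, ← H_semi (h.exp_egs m).eg hv hw]
  congr 3
  funext y
  exact (h.exp_gaussOp hm w y).symm

theorem gaussOp_v0 {m : ℝ} (hm : m ≠ 0) (Φ : ℝ → ℝ) : gaussOp m 0 Φ = Φ := by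
  funext x
  rw [gaussOp_ne hm, Real.sqrt_zero, H_zero, Real.log_exp]
  field_simp

theorem tE_v0 (m : ℝ) (Φ φ : ℝ → ℝ) : tE m 0 Φ φ = φ := by
  funext x
  unfold tE
  rw [Real.sqrt_zero, H_zero, H_zero]
  exact mul_div_cancel_right₀ _ (Real.exp_pos _).ne'

/-- tilted average, with the normalisation written as the exponential of the Cole–Hopf step -/
theorem tE_eq {Φ : ℝ → ℝ} (h : Prof Φ) {m : ℝ} (hm : m ≠ 0) (v : ℝ) (φ : ℝ → ℝ) (x : ℝ) :
    tE m v Φ φ x * Real.exp (m * gaussOp m v Φ x) =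
      H (Real.sqrt v) (fun y => φ y * Real.exp (m * Φ y)) x := by
  unfold tE
  rw [h.exp_gaussOp hm, div_mul_cancel₀ _ (den_pos h.lip m _ x).ne']

theorem tE_semi {Φ : ℝ → ℝ} (h : Prof Φ) {m : ℝ} (hm : m ≠ 0) {v w : ℝ} (hv : 0 ≤ v)
    (hw : 0 ≤ w) {φ : ℝ → ℝ} (hφ : EG φ) :
    tE m (v + w) Φ φ = tE m v (gaussOp m w Φ) (tE m w Φ φ) := by
  funext x
  have h1 := tE_eq h hm (v + w) φ x
  have h2 := tE_eq (h.step m w) hm v (tE m w Φ φ) x
  rw [← gaussOp_semi h hm hv hw] at h2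
  have h3 : (fun y => tE m w Φ φ y * Real.exp (m * gaussOp m w Φ y)) =
      H (Real.sqrt w) (fun y => φ y * Real.exp (m * Φ y)) :=
    funext fun y => tE_eq h hm w φ y
  rw [h3, H_semi (hφ.mul (h.exp_egs m).eg) hv hw, ← h1] at h2
  exact (mul_right_cancel₀ (Real.exp_pos _).ne' h2).symm

/-! ### the tilted expectation along a list of blocks -/

/-- profile at time `t` -/
def PhiT (β : ℝ) : List (ℝ × ℝ) → ℝ → ℝ → ℝ
  | [], _ => phi0 β
  | p :: l, t => if t ≤ p.2 then gaussOp p.1 (p.2 - t) (PhiL β l) else PhiT β l (t - p.2)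

/-- expectation of `F (X_t)`, started from `x` at time `0` -/
def EX (β : ℝ) : List (ℝ × ℝ) → ℝ → (ℝ → ℝ) → ℝ → ℝ
  | [], _, F => F
  | p :: l, t, F => if t ≤ p.2 then tE p.1 t (gaussOp p.1 (p.2 - t) (PhiL β l)) F
      else tE p.1 p.2 (PhiL β l) (EX β l (t - p.2) F)

/-- the list at parameter `t`: entries `(m, η, d)` become `(m + t η, d)` -/
def lev (t : ℝ) (L : List (ℝ × ℝ × ℝ)) : List (ℝ × ℝ) := L.map fun p => (p.1 + t * p.2.1, p.2.2)

/-- derivative of `PhiL` along `lev` -/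
def AA (β t : ℝ) : List (ℝ × ℝ × ℝ) → ℝ → ℝ
  | [], _ => 0
  | p :: L, x => p.2.1 * Dm (p.1 + t * p.2.1) p.2.2 (PhiL β (lev t L)) x +
      tE (p.1 + t * p.2.1) p.2.2 (PhiL β (lev t L)) (AA β t L) x

theorem PhiL_prof {β : ℝ} (hβ : 0 < β) : ∀ l : List (ℝ × ℝ), Prof (PhiL β l)
  | [] => phi0_prof hβ
  | p :: l => (PhiL_prof hβ l).step p.1 p.2

theorem PhiT_prof {β : ℝ} (hβ : 0 < β) : ∀ (l : List (ℝ × ℝ)) (t : ℝ), Prof (PhiT β l t)
  | [], _ => phi0_prof hβ
  | p :: l, t => by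
    unfold PhiT
    split_ifs
    · exact (PhiL_prof hβ l).step _ _
    · exact PhiT_prof hβ l _

theorem EX_BC {β : ℝ} (hβ : 0 < β) : ∀ (l : List (ℝ × ℝ)) (t : ℝ) {F : ℝ → ℝ} {K : ℝ},
    BC F K → BC (EX β l t F) K
  | [], _, _, _, h => h
  | p :: l, t, F, K, h => by
    unfold EX
    split_ifs
    · exact tE_BC ((PhiL_prof hβ l).step _ _).lip _ _ h
    · exact tE_BC (PhiL_prof hβ l).lip _ _ (EX_BC hβ l _ h)

end

end Crest.Agent.R339.Var
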