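/-
helper71, row 339 (S0530), part (B), variational block (V1):
derivative of `PhiL` along a direction in the levels, and its integral formula.
-/
import Crest.Agent.R339.Var71E

set_option autoImplicit false

namespace Crest.Agent.R339.Var

open MeasureTheory ProbabilityTheory Filter Topology Set
open scoped Interval
open Crest.Agent.R164.GC Crest.Agent.R339.B
open Crest.ProbabilityR.InvariantGlass (gaussOp)

noncomputable section

/-- the integral formula for `Dm` (entropy production along the tilted heat flow) -/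
def DmFormula : Prop := ∀ (Φ : ℝ → ℝ), Prof Φ → ∀ (m : ℝ), 0 < m → ∀ (v : ℝ), 0 ≤ v → ∀ x : ℝ,
  Dm m v Φ x = (1/2) * ∫ s in (0:ℝ)..v,
    tE m s (gaussOp m (v - s) Φ) (fun y => deriv (gaussOp m (v - s) Φ) y ^ 2) x

theorem sq_BC {Φ : ℝ → ℝ} (h : Prof Φ) : BC (fun y => deriv Φ y ^ 2) 1 := by
  have := BC.pow (φ := deriv Φ) (K := 1) ⟨h.bd.cont, h.b1⟩ 2
  simpa using this

theorem sq_nn (Φ : ℝ → ℝ) (y : ℝ) : 0 ≤ deriv Φ y ^ 2 := sq_nonneg _

theorem Dm_bound (hF : DmFormula) {Φ : ℝ → ℝ} (h : Prof Φ) {m : ℝ} (hm : 0 < m) {v : ℝ}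
    (hv : 0 ≤ v) (x : ℝ) : |Dm m v Φ x| ≤ v / 2 := by
  rw [hF Φ h m hm v hv x, abs_mul]
  have h1 : ‖∫ s in (0:ℝ)..v,
      tE m s (gaussOp m (v - s) Φ) (fun y => deriv (gaussOp m (v - s) Φ) y ^ 2) x‖ ≤
      1 * |v - 0| := by
    apply intervalIntegral.norm_integral_le_of_norm_le_const
    intro s _
    exact tE_abs_le (h.step m (v - s)).lip m s (sq_BC (h.step m (v - s))) x
  rw [Real.norm_eq_abs, one_mul, sub_zero, abs_of_nonneg hv] at h1
  rw [abs_of_pos (by norm_num : (0:ℝ) < 1/2)]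
  linarith

theorem Dm_cont {Φ : ℝ → ℝ} (h : Prof Φ) (m v : ℝ) : Continuous (Dm m v Φ) := by
  unfold Dm
  have h1 : Continuous (tE m v Φ Φ) :=
    (tE_continuous h.lip m h.egs.eg).comp (by fun_prop : Continuous fun x : ℝ => (v, x))
  have h2 : Continuous (gaussOp m v Φ) := (h.step m v).egs.eg.cont
  exact continuous_const.mul (h1.sub h2)

theorem PhiL_lev_hasDerivAt (hF : DmFormula) {β : ℝ} (hβ : 0 < β) {r : ℝ} :
    ∀ L : List (ℝ × ℝ × ℝ), (∀ p ∈ L, 0 ≤ p.2.2) →
    (∀ s, |s| < r → ∀ p ∈ L, 0 < p.1 + s * p.2.1) →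
    ∃ C, ∀ t, |t| < r → (∀ x, HasDerivAt (fun s => PhiL β (lev s L) x) (AA β t L x) t) ∧
      BC (AA β t L) C
  | [], _, _ => ⟨0, fun t _ => ⟨fun x => by
      show HasDerivAt (fun _ => phi0 β x) 0 t
      exact hasDerivAt_const _ _, ⟨continuous_const, fun x => by simp [AA]⟩⟩⟩
  | p :: L, hd, hpos => by
    obtain ⟨C, hC⟩ := PhiL_lev_hasDerivAt hF hβ (r := r) L (fun q hq => hd q (by simp [hq]))
      (fun s hs q hq => hpos s hs q (by simp [hq]))
    refine ⟨|p.2.1| * (p.2.2 / 2) + C, fun t ht => ⟨fun x => ?_, ?_, fun x => ?_⟩⟩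
    · exact step_hasDerivAt (f := fun s => PhiL β (lev s L)) (A := fun s => AA β s L) ht
        (fun s hs => hpos s hs p (by simp)) (fun s _ => (PhiL_prof hβ _).lip)
        (fun s hs x => (hC s hs).1 x) (fun s hs => (hC s hs).2.bd) (fun s hs => (hC s hs).2.cont) x
    · have h1 := Dm_cont (PhiL_prof hβ (lev t L)) (p.1 + t * p.2.1) p.2.2
      have h2 := (tE_BC (PhiL_prof hβ (lev t L)).lip (p.1 + t * p.2.1) p.2.2 (hC t ht).2).cont
      exact (continuous_const.mul h1).add h2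
    · have h1 := Dm_bound hF (PhiL_prof hβ (lev t L)) (hpos t ht p (by simp))
        (hd p (by simp)) x
      have h2 := (tE_BC (PhiL_prof hβ (lev t L)).lip (p.1 + t * p.2.1) p.2.2 (hC t ht).2).bd x
      show |p.2.1 * Dm (p.1 + t * p.2.1) p.2.2 (PhiL β (lev t L)) x +
        tE (p.1 + t * p.2.1) p.2.2 (PhiL β (lev t L)) (AA β t L) x| ≤ _
      refine (abs_add_le _ _).trans (add_le_add ?_ h2)
      rw [abs_mul]
      exact mul_le_mul_of_nonneg_left h1 (abs_nonneg _)

/-! ### joint measurability -/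

theorem meas_H {ψ : ℝ → ℝ → ℝ} (hψ : Measurable (fun p : ℝ × ℝ => ψ p.1 p.2)) {c : ℝ → ℝ}
    (hc : Measurable c) : Measurable (fun p : ℝ × ℝ => H (c p.1) (ψ p.1) p.2) := by
  unfold H
  have h1 : Measurable (fun q : (ℝ × ℝ) × ℝ => ψ q.1.1 (q.1.2 + c q.1.1 * q.2)) :=
    hψ.comp (by fun_prop : Measurable fun q : (ℝ × ℝ) × ℝ => (q.1.1, q.1.2 + c q.1.1 * q.2))
  exact (h1.stronglyMeasurable.integral_prod_right (ν := gaussianReal 0 1)).measurable

theorem meas_tE {f F : ℝ → ℝ → ℝ} (hf : Measurable (fun p : ℝ × ℝ => f p.1 p.2))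
    (hF : Measurable (fun p : ℝ × ℝ => F p.1 p.2)) (m : ℝ) {c : ℝ → ℝ}
    (hc : Measurable c) : Measurable (fun p : ℝ × ℝ => tE m (c p.1) (f p.1) (F p.1) p.2) := by
  unfold tE
  have h1 : Measurable (fun p : ℝ × ℝ => F p.1 p.2 * Real.exp (m * f p.1 p.2)) := by fun_prop
  have h2 : Measurable (fun p : ℝ × ℝ => Real.exp (m * f p.1 p.2)) := by fun_prop
  exact (meas_H (ψ := fun s y => F s y * Real.exp (m * f s y)) h1
    (c := fun s => Real.sqrt (c s)) (by fun_prop)).div
    (meas_H (ψ := fun s y => Real.exp (m * f s y)) h2 (c := fun s => Real.sqrt (c s)) (by fun_prop))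

theorem cont_gaussOp {Φ : ℝ → ℝ} (h : Prof Φ) {m : ℝ} (hm : m ≠ 0) :
    Continuous (fun p : ℝ × ℝ => gaussOp m p.1 Φ p.2) := by
  have e : (fun p : ℝ × ℝ => gaussOp m p.1 Φ p.2) = fun p : ℝ × ℝ =>
      m⁻¹ * Real.log (H (Real.sqrt p.1) (fun y => Real.exp (m * Φ y)) p.2) := by
    funext p
    exact gaussOp_ne hm _ _ _
  rw [e]
  have h1 := H_continuous (h.exp_egs m).eg
  have hs : Continuous (fun p : ℝ × ℝ => (Real.sqrt p.1, p.2)) := by fun_prop
  exact continuous_const.mul ((h1.comp hs).log fun p => (den_pos h.lip m _ _).ne')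

theorem cont_deriv_gaussOp {Φ : ℝ → ℝ} (h : Prof Φ) (m : ℝ) :
    Continuous (fun p : ℝ × ℝ => deriv (gaussOp m p.1 Φ) p.2) := by
  have e : (fun p : ℝ × ℝ => deriv (gaussOp m p.1 Φ) p.2) = fun p : ℝ × ℝ =>
      tE m p.1 Φ (deriv Φ) p.2 := by
    funext p
    rw [h.gaussOp_deriv]
  rw [e]
  exact tE_continuous h.lip m h.bd.eg

theorem meas_EX {β : ℝ} (hβ : 0 < β) : ∀ (l : List (ℝ × ℝ)), (∀ p ∈ l, 0 < p.1) →
    ∀ {F : ℝ → ℝ → ℝ}, Measurable (fun p : ℝ × ℝ => F p.1 p.2) →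
    Measurable (fun p : ℝ × ℝ => EX β l p.1 (F p.1) p.2)
  | [], _, _, hF => hF
  | p :: l, hl, F, hF => by
    have e : (fun q : ℝ × ℝ => EX β (p :: l) q.1 (F q.1) q.2) = fun q : ℝ × ℝ =>
        if q.1 ≤ p.2 then tE p.1 q.1 (gaussOp p.1 (p.2 - q.1) (PhiL β l)) (F q.1) q.2
        else tE p.1 p.2 (PhiL β l) (EX β l (q.1 - p.2) (F q.1)) q.2 := by
      funext q
      show (if q.1 ≤ p.2 then tE p.1 q.1 (gaussOp p.1 (p.2 - q.1) (PhiL β l)) (F q.1)
        else tE p.1 p.2 (PhiL β l) (EX β l (q.1 - p.2) (F q.1))) q.2 = _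
      split_ifs <;> rfl
    rw [e]
    refine Measurable.ite (measurableSet_le measurable_fst measurable_const) ?_ ?_
    · have hg : Measurable (fun q : ℝ × ℝ => gaussOp p.1 (p.2 - q.1) (PhiL β l) q.2) :=
        ((cont_gaussOp (PhiL_prof hβ l) (hl p (by simp)).ne').comp
          (by fun_prop : Continuous fun q : ℝ × ℝ => (p.2 - q.1, q.2))).measurable
      exact meas_tE (f := fun s => gaussOp p.1 (p.2 - s) (PhiL β l)) hg hF p.1 (c := fun s => s)
        measurable_id
    · have h1 : Measurable (fun q : ℝ × ℝ => F (q.1 + p.2) q.2) :=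
        hF.comp (by fun_prop : Measurable fun q : ℝ × ℝ => (q.1 + p.2, q.2))
      have h2 := meas_EX hβ l (fun q hq => hl q (by simp [hq])) (F := fun s => F (s + p.2)) h1
      have h3 : Measurable (fun q : ℝ × ℝ => EX β l (q.1 - p.2) (F q.1) q.2) := by
        have h4 := h2.comp (by fun_prop : Measurable fun q : ℝ × ℝ => (q.1 - p.2, q.2))
        simp only [Function.comp_def, sub_add_cancel] at h4
        exact h4
      exact meas_tE (f := fun _ => PhiL β l) (F := fun s => EX β l (s - p.2) (F s))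
        ((PhiL_prof hβ l).egs.eg.cont.measurable.comp measurable_snd) h3 p.1
        (c := fun _ => p.2) measurable_const

theorem meas_PhiT {β : ℝ} (hβ : 0 < β) : ∀ (l : List (ℝ × ℝ)),
    Measurable (fun p : ℝ × ℝ => deriv (PhiT β l p.1) p.2)
  | [] => by
    show Measurable (fun p : ℝ × ℝ => deriv (phi0 β) p.2)
    exact ((phi0_prof hβ).bd.cont).measurable.comp measurable_snd
  | p :: l => by
    have e : (fun q : ℝ × ℝ => deriv (PhiT β (p :: l) q.1) q.2) = fun q : ℝ × ℝ =>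
        if q.1 ≤ p.2 then deriv (gaussOp p.1 (p.2 - q.1) (PhiL β l)) q.2
        else deriv (PhiT β l (q.1 - p.2)) q.2 := by
      funext q
      show deriv (if q.1 ≤ p.2 then gaussOp p.1 (p.2 - q.1) (PhiL β l)
        else PhiT β l (q.1 - p.2)) q.2 = _
      split_ifs <;> rfl
    rw [e]
    refine Measurable.ite (measurableSet_le measurable_fst measurable_const) ?_ ?_
    · exact ((cont_deriv_gaussOp (PhiL_prof hβ l) p.1).comp
          (by fun_prop : Continuous fun q : ℝ × ℝ => (p.2 - q.1, q.2))).measurable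
    · exact (meas_PhiT hβ l).comp (by fun_prop : Measurable fun q : ℝ × ℝ => (q.1 - p.2, q.2))

/-- `E Φ_x(s, X_s)²` started from `x` -/
def QQ (β : ℝ) (l : List (ℝ × ℝ)) (s x : ℝ) : ℝ :=
  EX β l s (fun y => deriv (PhiT β l s) y ^ 2) x

theorem meas_QQ {β : ℝ} (hβ : 0 < β) (l : List (ℝ × ℝ)) (hl : ∀ p ∈ l, 0 < p.1) :
    Measurable (fun p : ℝ × ℝ => QQ β l p.1 p.2) :=
  meas_EX hβ l hl (F := fun s y => deriv (PhiT β l s) y ^ 2) ((meas_PhiT hβ l).pow_const 2)

theorem QQ_BC {β : ℝ} (hβ : 0 < β) (l : List (ℝ × ℝ)) (s : ℝ) : BC (QQ β l s) 1 :=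
  EX_BC hβ l s (sq_BC (PhiT_prof hβ l s))

theorem QQ_nonneg {β : ℝ} (hβ : 0 < β) (l : List (ℝ × ℝ)) (s x : ℝ) : 0 ≤ QQ β l s x := by
  have key : ∀ (l : List (ℝ × ℝ)) (t : ℝ) (F : ℝ → ℝ), BC F 1 → (∀ y, 0 ≤ F y) →
      ∀ x, 0 ≤ EX β l t F x := by
    intro l
    induction l with
    | nil => intro t F _ hF x; exact hF x
    | cons p l ih =>
      intro t F hF hF0 x
      unfold EX
      split_ifs
      · have := tE_mono ((PhiL_prof hβ l).step p.1 (p.2 - t)).lip p.1 t (EG.const 0) hF.eg hF0 x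
        rwa [tE_const ((PhiL_prof hβ l).step p.1 (p.2 - t)).lip] at this
      · have := tE_mono (PhiL_prof hβ l).lip p.1 p.2 (EG.const 0) (EX_BC hβ l (t - p.2) hF).eg
          (ih (t - p.2) F hF hF0) x
        rwa [tE_const (PhiL_prof hβ l).lip] at this
  exact key l s _ (sq_BC (PhiT_prof hβ l s)) (fun y => sq_nonneg _) x

/-- Fubini for the tilted average -/
theorem tE_integral {Φ : ℝ → ℝ} (h : Prof Φ) (m v : ℝ) {q : ℝ → ℝ → ℝ}
    (hq : Measurable (fun p : ℝ × ℝ => q p.1 p.2)) {K : ℝ} (hb : ∀ s y, |q s y| ≤ K) (a b x : ℝ) :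
    tE m v Φ (fun y => ∫ s in a..b, q s y) x = ∫ s in a..b, tE m v Φ (q s) x := by
  unfold tE
  rw [intervalIntegral.integral_div]
  congr 1
  unfold H
  have hint : Integrable (fun p : ℝ × ℝ => q p.1 (x + Real.sqrt v * p.2) *
      Real.exp (m * Φ (x + Real.sqrt v * p.2)))
      ((volume.restrict (Ι a b)).prod (gaussianReal 0 1)) := by
    have h1 : Integrable (fun p : ℝ × ℝ => (1:ℝ) * Real.exp (m * Φ (x + Real.sqrt v * p.2)))
        ((volume.restrict (Ι a b)).prod (gaussianReal 0 1)) := by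
      have hfin : IsFiniteMeasure ((volume : Measure ℝ).restrict (Ι a b)) := by
        rw [uIoc]; infer_instance
      have hc1 : Integrable (fun _ : ℝ => (1:ℝ)) ((volume : Measure ℝ).restrict (Ι a b)) :=
        integrable_const 1
      exact Integrable.mul_prod hc1 ((h.exp_egs m).eg.int (Real.sqrt v) x)
    refine (h1.const_mul K).mono' ?_ (Eventually.of_forall fun p => ?_)
    · have h2 : Measurable fun p : ℝ × ℝ => q p.1 (x + Real.sqrt v * p.2) :=
        hq.comp (by fun_prop : Measurable fun p : ℝ × ℝ => (p.1, x + Real.sqrt v * p.2))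
      have h3 : Measurable Φ := h.egs.eg.cont.measurable
      exact (h2.mul (by fun_prop)).aestronglyMeasurable
    · rw [Real.norm_eq_abs, abs_mul, abs_of_pos (Real.exp_pos _), one_mul]
      exact mul_le_mul_of_nonneg_right (hb _ _) (Real.exp_pos _).le
  have key := intervalIntegral_integral_swap (a := a) (b := b)
    (μ := gaussianReal 0 1) (f := fun s g => q s (x + Real.sqrt v * g) *
      Real.exp (m * Φ (x + Real.sqrt v * g))) hint
  rw [key]
  refine integral_congr_ae (Eventually.of_forall fun g => ?_)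
  show (∫ s in a..b, q s (x + Real.sqrt v * g)) * Real.exp (m * Φ (x + Real.sqrt v * g)) = _
  rw [← intervalIntegral.integral_mul_const]

/-! ### the weighted sum of integrals -/

/-- `Σ_k η_k (1/2) ∫_{t_k}^{t_{k+1}} q` -/
def wsum (q : ℝ → ℝ) : ℝ → List (ℝ × ℝ × ℝ) → ℝ
  | _, [] => 0
  | t, p :: L => p.2.1 * ((1/2) * ∫ s in t..(t + p.2.2), q s) + wsum q (t + p.2.2) L

theorem tE_wsum {Φ : ℝ → ℝ} (h : Prof Φ) (m v : ℝ) {q : ℝ → ℝ → ℝ}
    (hq : Measurable (fun p : ℝ × ℝ => q p.1 p.2)) {K : ℝ} (hb : ∀ s y, |q s y| ≤ K)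
    (hc : ∀ a b, Continuous fun y => ∫ s in a..b, q s y) (x : ℝ) :
    ∀ (L : List (ℝ × ℝ × ℝ)) (t : ℝ), tE m v Φ (fun y => wsum (fun s => q s y) t L) x =
      wsum (fun s => tE m v Φ (q s) x) t L
  | [], t => tE_const h.lip m v 0 x
  | p :: L, t => by
    have e : (fun y => wsum (fun s => q s y) t (p :: L)) = fun y =>
      (p.2.1 * (1/2)) * (∫ s in t..(t + p.2.2), q s y) + wsum (fun s => q s y) (t + p.2.2) L := by
      funext y
      show p.2.1 * ((1/2) * _) + _ = _
      ring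
    have hbd : ∀ a b, EG fun y => ∫ s in a..b, q s y := by
      intro a b
      refine EG.of_bdd (hc a b) (K := K * |b - a|) fun y => ?_
      have := intervalIntegral.norm_integral_le_of_norm_le_const (a := a) (b := b)
        (f := fun s => q s y) (C := K) (fun s _ => hb s y)
      simpa [Real.norm_eq_abs] using this
    have hw : ∀ (L : List (ℝ × ℝ × ℝ)) (t : ℝ), EG fun y => wsum (fun s => q s y) t L := by
      intro L
      induction L with
      | nil => intro t; exact EG.const 0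
      | cons p L ih =>
        intro t
        exact ((hbd t (t + p.2.2)).const_mul (1/2)).const_mul p.2.1 |>.add (ih _)
    rw [e, tE_add h.lip m v ((hbd _ _).const_mul _) (hw _ _), tE_const_mul,
      tE_integral h m v hq hb, tE_wsum h m v hq hb hc x L]
    show _ = p.2.1 * ((1/2) * _) + _
    ring

theorem wsum_shift (q : ℝ → ℝ) (d : ℝ) : ∀ (L : List (ℝ × ℝ × ℝ)) (t : ℝ),
    wsum (fun s => q (s + d)) t L = wsum q (t + d) L
  | [], _ => rfl
  | p :: L, t => by
    show p.2.1 * ((1/2) * ∫ s in t..(t + p.2.2), q (s + d)) + _ =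
      p.2.1 * ((1/2) * ∫ s in (t + d)..(t + d + p.2.2), q s) + _
    rw [intervalIntegral.integral_comp_add_right, wsum_shift q d L]
    have e : t + p.2.2 + d = t + d + p.2.2 := by ring
    rw [e]

theorem wsum_congr {q q' : ℝ → ℝ} {c : ℝ} (h : ∀ s, c < s → q s = q' s) :
    ∀ (L : List (ℝ × ℝ × ℝ)), (∀ p ∈ L, 0 ≤ p.2.2) → ∀ (t : ℝ), c ≤ t → wsum q t L = wsum q' t L
  | [], _, _, _ => rfl
  | p :: L, hd, t, ht => by
    have hp := hd p (by simp)
    show p.2.1 * ((1/2) * ∫ s in t..(t + p.2.2), q s) + _ =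
      p.2.1 * ((1/2) * ∫ s in t..(t + p.2.2), q' s) + _
    rw [wsum_congr h L (fun r hr => hd r (by simp [hr])) (t + p.2.2) (by linarith)]
    congr 3
    apply intervalIntegral.integral_congr_ae
    refine Eventually.of_forall fun s hs => ?_
    rw [uIoc_of_le (by linarith)] at hs
    exact h s (by linarith [hs.1])

theorem lev_zero_fst (L : List (ℝ × ℝ × ℝ)) : lev 0 L = L.map fun p => (p.1, p.2.2) := by
  unfold lev; simp

/-- the integral formula for the derivative -/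
theorem AA_eq (hF : DmFormula) {β : ℝ} (hβ : 0 < β) :
    ∀ L : List (ℝ × ℝ × ℝ), (∀ p ∈ L, 0 ≤ p.2.2) → (∀ p ∈ L, 0 < p.1) → ∀ x,
    AA β 0 L x = wsum (fun s => QQ β (lev 0 L) s x) 0 L
  | [], _, _, _ => rfl
  | p :: L, hd, hpos, x => by
    have hp := hd p (by simp)
    have hp1 := hpos p (by simp)
    have ih := AA_eq hF hβ L (fun r hr => hd r (by simp [hr])) (fun r hr => hpos r (by simp [hr]))
    have hlpos : ∀ q ∈ lev 0 L, 0 < q.1 := by
      intro q hq
      rw [lev_zero_fst, List.mem_map] at hq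
      obtain ⟨r, hr, rfl⟩ := hq
      exact hpos r (by simp [hr])
    have hlev : lev 0 (p :: L) = (p.1, p.2.2) :: lev 0 L := by
      unfold lev; simp
    set ℓ := lev 0 L with hℓ
    have hprof := PhiL_prof hβ ℓ
    show p.2.1 * Dm (p.1 + 0 * p.2.1) p.2.2 (PhiL β ℓ) x +
      tE (p.1 + 0 * p.2.1) p.2.2 (PhiL β ℓ) (AA β 0 L) x = _
    have e0 : p.1 + 0 * p.2.1 = p.1 := by ring
    rw [e0]
    have e1 : AA β 0 L = fun y => wsum (fun s => QQ β ℓ s y) 0 L := funext ih
    have hm := meas_QQ hβ ℓ hlpos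
    have hb : ∀ s y, |QQ β ℓ s y| ≤ 1 := fun s y => (QQ_BC hβ ℓ s).bd y
    have hcont : ∀ a b, Continuous fun y => ∫ s in a..b, QQ β ℓ s y := by
      intro a b
      refine intervalIntegral.continuous_of_dominated_interval (bound := fun _ => 1) ?_ ?_ ?_ ?_
      · intro y
        exact (hm.comp (by fun_prop : Measurable fun s : ℝ => (s, y))).aestronglyMeasurable
      · intro y
        exact Eventually.of_forall fun s _ => hb s y
      · simp
      · exact Eventually.of_forall fun s _ => (QQ_BC hβ ℓ s).cont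
    rw [e1, tE_wsum hprof p.1 p.2.2 hm hb hcont x L 0, hlev]
    show _ = p.2.1 * ((1/2) * ∫ s in (0:ℝ)..(0 + p.2.2), QQ β ((p.1, p.2.2) :: ℓ) s x) +
      wsum (fun s => QQ β ((p.1, p.2.2) :: ℓ) s x) (0 + p.2.2) L
    congr 1
    · rw [hF (PhiL β ℓ) hprof p.1 hp1 p.2.2 hp x, zero_add]
      congr 2
      apply intervalIntegral.integral_congr_ae
      refine Eventually.of_forall fun s hs => ?_
      rw [uIoc_of_le hp] at hs
      have hs2 : s ≤ p.2.2 := hs.2
      unfold QQ EX PhiT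
      simp only [hs2, if_true]
    · rw [← wsum_shift]
      refine wsum_congr (c := 0) ?_ L (fun r hr => hd r (by simp [hr])) 0 le_rfl
      intro s hs
      have hs2 : ¬ (s + p.2.2 ≤ p.2.2) := by linarith
      unfold QQ EX PhiT
      simp only [hs2, if_false, add_sub_cancel_right]
      cases ℓ <;> rfl

end

end Crest.Agent.R339.Var
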