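/-
helper71, row 339 (S0530), part (B), variational block (V1):
the discretised Parisi functional on the cone and its directional derivatives.
-/
import Crest.Agent.R339.Var71F
import Crest.Agent.R339.Var71C
import Crest.Agent.R339.Guerra

set_option autoImplicit false

namespace Crest.Agent.R339.Var

open MeasureTheory ProbabilityTheory Filter Topology Set
open scoped Interval
open Crest.Agent.R164.GC Crest.Agent.R339.B
open Crest.ProbabilityR.InvariantGlass (gaussOp)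
open Crest.Agent.R339.Guerra (pen Good mh Phi T)

noncomputable section

/-! ### bridge between the two recursions -/

theorem gaussOp_eq_T {m : ℝ} (hm : m ≠ 0) (d : ℝ) (f : ℝ → ℝ) : gaussOp m d f = T m d f := by
  funext x
  rw [gaussOp_ne hm]
  unfold H T
  rw [one_div]

theorem headLv_eq_mh (β : ℝ) (l : List (ℝ × ℝ)) : headLv β l = mh β l := by
  cases l <;> rfl

theorem good_of_adm {β : ℝ} : ∀ {l : List (ℝ × ℝ)}, Adm β l → Good β l
  | [], _ => trivial
  | p :: l, h => ⟨h.1, by rw [← headLv_eq_mh]; exact h.2.1, h.2.2.1, good_of_adm h.2.2.2⟩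

theorem PhiL_eq_Phi {β : ℝ} : ∀ {l : List (ℝ × ℝ)}, (∀ p ∈ l, 0 < p.1) → PhiL β l = Phi β l
  | [], _ => rfl
  | p :: l, h => by
    show gaussOp p.1 p.2 (PhiL β l) = T p.1 p.2 (Phi β l)
    rw [PhiL_eq_Phi (fun q hq => h q (by simp [hq])), gaussOp_eq_T (h p (by simp)).ne']

/-! ### the functional -/

/-- the discretised Parisi functional of a list of blocks (start at time `0`) -/
def PL (β : ℝ) (l : List (ℝ × ℝ)) : ℝ := PhiL β l 0 - pen 0 l / 4

/-- the list of blocks of a vector of levels on the uniform grid -/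
def grid {K : ℕ} (m : Fin K → ℝ) : List (ℝ × ℝ) := List.ofFn fun k => (m k, 1 / (K:ℝ))

def PF (β : ℝ) {K : ℕ} (m : Fin K → ℝ) : ℝ := PL β (grid m)

theorem pen_lev_hasDerivAt : ∀ (L : List (ℝ × ℝ × ℝ)) (q t : ℝ),
    HasDerivAt (fun t => -(pen q (lev t L)) / 4) (wsum (fun s => -s) q L) t
  | [], q, t => by
    show HasDerivAt (fun _ => -(0:ℝ) / 4) 0 t
    exact hasDerivAt_const _ _
  | p :: L, q, t => by
    have ih := pen_lev_hasDerivAt L (q + p.2.2) t
    have h1 : HasDerivAt (fun t : ℝ => p.1 + t * p.2.1) p.2.1 t := by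
      simpa using ((hasDerivAt_id t).mul_const p.2.1).const_add p.1
    have h2 := ((h1.mul_const ((q + p.2.2) ^ 2 - q ^ 2)).fun_neg.div_const 4).fun_add ih
    have e1 : (fun t => -(pen q (lev t (p :: L))) / 4) = fun t =>
        -((p.1 + t * p.2.1) * ((q + p.2.2) ^ 2 - q ^ 2)) / 4 + -(pen (q + p.2.2) (lev t L)) / 4 := by
      funext t
      show -((p.1 + t * p.2.1) * ((q + p.2.2) ^ 2 - q ^ 2) + pen (q + p.2.2) (lev t L)) / 4 = _
      ring
    rw [e1]
    refine h2.congr_deriv ?_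
    show _ = p.2.1 * ((1/2) * ∫ s in q..(q + p.2.2), -s) + _
    rw [intervalIntegral.integral_neg, integral_id]
    ring

theorem wsum_add {q q' : ℝ → ℝ} (hq : ∀ a b, IntervalIntegrable q volume a b)
    (hq' : ∀ a b, IntervalIntegrable q' volume a b) : ∀ (L : List (ℝ × ℝ × ℝ)) (t : ℝ),
    wsum q t L + wsum q' t L = wsum (fun s => q s + q' s) t L
  | [], _ => by show (0:ℝ) + 0 = 0; ring
  | p :: L, t => by
    show (p.2.1 * ((1/2) * ∫ s in t..(t + p.2.2), q s) + wsum q (t + p.2.2) L) +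
      (p.2.1 * ((1/2) * ∫ s in t..(t + p.2.2), q' s) + wsum q' (t + p.2.2) L) =
      p.2.1 * ((1/2) * ∫ s in t..(t + p.2.2), (q s + q' s)) + _
    rw [intervalIntegral.integral_add (hq _ _) (hq' _ _), ← wsum_add hq hq' L]
    ring

theorem lev_zero_pos {L : List (ℝ × ℝ × ℝ)} (h : ∀ p ∈ L, 0 < p.1) :
    ∀ q ∈ lev 0 L, 0 < q.1 := by
  intro q hq
  rw [lev_zero_fst, List.mem_map] at hq
  obtain ⟨r, hr, rfl⟩ := hq
  exact h r hr

theorem exists_radius : ∀ L : List (ℝ × ℝ × ℝ), (∀ p ∈ L, 0 < p.1) →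
    ∃ r > 0, ∀ s, |s| < r → ∀ p ∈ L, 0 < p.1 + s * p.2.1
  | [], _ => ⟨1, one_pos, fun s _ p hp => by simp at hp⟩
  | p :: L, h => by
    obtain ⟨r, hr, hr'⟩ := exists_radius L (fun q hq => h q (by simp [hq]))
    have hp := h p (by simp)
    refine ⟨min r (p.1 / (|p.2.1| + 1)), lt_min hr (by positivity), fun s hs q hq => ?_⟩
    rcases List.mem_cons.1 hq with rfl | hq
    · have h1 : |s| < q.1 / (|q.2.1| + 1) := lt_of_lt_of_le hs (min_le_right _ _)
      rw [lt_div_iff₀ (by positivity)] at h1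
      have h2 : |s * q.2.1| ≤ |s| * (|q.2.1| + 1) := by
        rw [abs_mul]
        exact mul_le_mul_of_nonneg_left (by linarith) (abs_nonneg _)
      have h3 := (abs_le.1 (h2.trans h1.le)).1
      have h4 := neg_abs_le (s * q.2.1)
      linarith
    · exact hr' s (lt_of_lt_of_le hs (min_le_left _ _)) q hq

theorem QQ_ii {β : ℝ} (hβ : 0 < β) (l : List (ℝ × ℝ)) (hl : ∀ p ∈ l, 0 < p.1) (x a b : ℝ) :
    IntervalIntegrable (fun s => QQ β l s x) volume a b := by
  have hm : Measurable fun s => QQ β l s x :=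
    (meas_QQ hβ l hl).comp (by fun_prop : Measurable fun s : ℝ => (s, x))
  have h1 : IntervalIntegrable (fun _ : ℝ => (1:ℝ)) volume a b := by simp
  refine h1.mono_fun hm.aestronglyMeasurable (Eventually.of_forall fun s => ?_)
  show |QQ β l s x| ≤ |(1:ℝ)|
  rw [abs_one]
  exact (QQ_BC hβ l s).bd x

theorem PL_lev_hasDerivAt (hF : DmFormula) {β : ℝ} (hβ : 0 < β) (L : List (ℝ × ℝ × ℝ))
    (hd : ∀ p ∈ L, 0 ≤ p.2.2) (hpos : ∀ p ∈ L, 0 < p.1) :
    HasDerivAt (fun t => PL β (lev t L)) (wsum (fun s => QQ β (lev 0 L) s 0 - s) 0 L) 0 := by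
  obtain ⟨r, hr, hr'⟩ := exists_radius L hpos
  obtain ⟨C, hC⟩ := PhiL_lev_hasDerivAt hF hβ L hd hr'
  have h1 := (hC 0 (by simpa using hr)).1 0
  rw [AA_eq hF hβ L hd hpos 0] at h1
  have h2 := h1.fun_add (pen_lev_hasDerivAt L 0 0)
  rw [wsum_add (QQ_ii hβ _ (lev_zero_pos hpos) 0)
    (fun a b => (by fun_prop : Continuous fun s : ℝ => -s).intervalIntegrable a b)] at h2
  have e : (fun t => PL β (lev t L)) = fun t => PhiL β (lev t L) 0 + -(pen 0 (lev t L)) / 4 := by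
    funext t
    unfold PL
    ring
  rw [e]
  exact h2

/-! ### the functional on the cone -/

def trip {K : ℕ} (d : ℝ) (m η : Fin K → ℝ) : List (ℝ × ℝ × ℝ) := List.ofFn fun k => (m k, η k, d)

theorem lev_trip {K : ℕ} (d t : ℝ) (m η : Fin K → ℝ) :
    lev t (trip d m η) = List.ofFn fun k => ((m + t • η) k, d) := by
  unfold lev trip
  rw [List.map_ofFn]
  rfl

theorem wsum_trip (q : ℝ → ℝ) (d : ℝ) : ∀ {K : ℕ} (m η : Fin K → ℝ) (t : ℝ),
    wsum q t (trip d m η) =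
      ∑ k : Fin K, η k * ((1/2) * ∫ s in (t + (k:ℕ) * d)..(t + ((k:ℕ) + 1) * d), q s)
  | 0, _, _, _ => by simp [trip, wsum]
  | K + 1, m, η, t => by
    have e : trip d m η = (m 0, η 0, d) :: trip d (fun k => m k.succ) (fun k => η k.succ) := by
      unfold trip
      rw [List.ofFn_succ]
    rw [e, Fin.sum_univ_succ]
    show η 0 * ((1/2) * ∫ s in t..(t + d), q s) +
      wsum q (t + d) (trip d (fun k => m k.succ) (fun k => η k.succ)) = _
    rw [wsum_trip q d]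
    congr 1
    · simp
    · apply Finset.sum_congr rfl
      intro k _
      have e1 : t + d + (k:ℕ) * d = t + ((k.succ : Fin (K+1)) : ℕ) * d := by
        rw [Fin.val_succ]; push_cast; ring
      have e2 : t + d + ((k:ℕ) + 1) * d = t + (((k.succ : Fin (K+1)) : ℕ) + 1) * d := by
        rw [Fin.val_succ]; push_cast; ring
      rw [e1, e2]

theorem PF_hasDerivAt (hF : DmFormula) {β : ℝ} (hβ : 0 < β) {K : ℕ} {m : Fin K → ℝ}
    (hm : ∀ k, 0 < m k) (η : Fin K → ℝ) :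
    HasDerivAt (fun t : ℝ => PF β (m + t • η))
      (∑ k : Fin K, η k * ((1/2) * ∫ s in ((k:ℕ):ℝ)/K..(((k:ℕ):ℝ)+1)/K,
        (QQ β (grid m) s 0 - s))) 0 := by
  have h := PL_lev_hasDerivAt hF hβ (trip (1 / (K:ℝ)) m η)
    (by
      intro p hp
      unfold trip at hp
      rw [List.mem_ofFn] at hp
      obtain ⟨k, rfl⟩ := hp
      show 0 ≤ 1 / (K:ℝ)
      positivity)
    (by
      intro p hp
      unfold trip at hp
      rw [List.mem_ofFn] at hp
      obtain ⟨k, rfl⟩ := hp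
      exact hm k)
  rw [wsum_trip] at h
  have e0 : lev 0 (trip (1 / (K:ℝ)) m η) = grid m := by
    rw [lev_trip]
    unfold grid
    simp
  rw [e0] at h
  have e1 : (fun t : ℝ => PF β (m + t • η)) = fun t => PL β (lev t (trip (1 / (K:ℝ)) m η)) := by
    funext t
    rw [lev_trip]
    rfl
  rw [e1]
  refine h.congr_deriv ?_
  apply Finset.sum_congr rfl
  intro k _
  have e2 : (0:ℝ) + (k:ℕ) * (1 / (K:ℝ)) = ((k:ℕ):ℝ)/K := by ring
  have e3 : (0:ℝ) + ((k:ℕ) + 1) * (1 / (K:ℝ)) = (((k:ℕ):ℝ)+1)/K := by ring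
  rw [e2, e3]

/-- the coefficients are bounded on the positive cone -/
theorem coeff_bound {β : ℝ} (hβ : 0 < β) {K : ℕ} {m : Fin K → ℝ} (hm : ∀ k, 0 < m k)
    (k : Fin K) :
    |(1/2) * ∫ s in ((k:ℕ):ℝ)/K..(((k:ℕ):ℝ)+1)/K, (QQ β (grid m) s 0 - s)| ≤ 1 := by
  have hK : (0:ℝ) < K := by exact_mod_cast (Nat.zero_le _).trans_lt k.2
  have hk1 : (((k:ℕ):ℝ)+1)/K ≤ 1 := by
    rw [div_le_one hK]; exact_mod_cast k.2
  have hk0 : 0 ≤ ((k:ℕ):ℝ)/K := by positivity
  have hle : ((k:ℕ):ℝ)/K ≤ (((k:ℕ):ℝ)+1)/K :=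
    div_le_div_of_nonneg_right (by linarith) hK.le
  have h1 : ‖∫ s in ((k:ℕ):ℝ)/K..(((k:ℕ):ℝ)+1)/K, (QQ β (grid m) s 0 - s)‖ ≤
      2 * |(((k:ℕ):ℝ)+1)/K - ((k:ℕ):ℝ)/K| := by
    apply intervalIntegral.norm_integral_le_of_norm_le_const
    intro s hs
    rw [uIoc_of_le hle] at hs
    rw [Real.norm_eq_abs, abs_le]
    have h2 := abs_le.1 ((QQ_BC hβ (grid m) s).bd 0)
    constructor <;> linarith [hs.1, hs.2]
  rw [abs_mul, abs_of_pos (by norm_num : (0:ℝ) < 1/2)]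
  rw [Real.norm_eq_abs, abs_of_nonneg (by linarith : 0 ≤ (((k:ℕ):ℝ)+1)/K - ((k:ℕ):ℝ)/K)] at h1
  linarith

/-- existence of the minimiser -/
theorem exists_min (hF : DmFormula) {β ε : ℝ} (hβ : 0 < β) (hε : 0 < ε) (hεβ : ε ≤ β) (K : ℕ) :
    ∃ m ∈ cone K ε β, ∀ m' ∈ cone K ε β, PF β m ≤ PF β m' :=
  exists_minimiser (B := 1) hεβ
    (fun m hm η => PF_hasDerivAt hF hβ (fun k => lt_of_lt_of_le hε (hm.2 k).1) η)
    (fun m hm k => coeff_bound hβ (fun k => lt_of_lt_of_le hε (hm.2 k).1) k)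

end

end Crest.Agent.R339.Var
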