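/-
helper55, row 339 (S0530), part (B): the value identity (V4) of the discretised Parisi functional.
-/
import Crest.Agent.R339.Var71G
import Crest.Agent.R339.B107U

set_option autoImplicit false

namespace Crest.Agent.R339.V4

open MeasureTheory ProbabilityTheory Filter Topology Set
open scoped Interval
open Crest.Agent.R164.GC Crest.Agent.R339.B Crest.Agent.R339.Var
open Crest.ProbabilityR.InvariantGlass (gaussOp)
open Crest.Agent.R339.Guerra (pen)

noncomputable section

/-! ### the block expectation started at a point, and `tE` -/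

theorem EE_dirac {Φ : ℝ → ℝ} (h : Prof Φ) {m : ℝ} (hm : m ≠ 0) {d τ : ℝ} (h0 : 0 ≤ τ)
    (h1 : τ ≤ d) (F : ℝ → ℝ → ℝ) (x : ℝ) :
    EE Φ m d (Measure.dirac x) F τ =
      tE m τ (gaussOp m (d - τ) Φ) (F (d - τ)) x * Wk Φ m 0 d x := by
  have hW : ∀ v y, Wk Φ m 0 v y = Real.exp (m * gaussOp m v Φ y) := by
    intro v y
    rw [W0_eq h hm, U_zero]
  unfold EE
  rw [integral_dirac]
  rw [hW d x]
  have e : gaussOp m d Φ = gaussOp m τ (gaussOp m (d - τ) Φ) := by
    rw [← gaussOp_semi h hm h0 (sub_nonneg.2 h1)]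
    congr 1
    ring
  rw [e, tE_eq (h.step m (d - τ)) hm]
  congr 1
  funext y
  rw [hW]
  ring

/-- the identity of a block for `u - x u_x` -/
theorem block_value {Φ : ℝ → ℝ} (h : Prof Φ) {m : ℝ} (hm : 0 < m) {d : ℝ} (hd : 0 ≤ d) (x : ℝ) :
    gaussOp m d Φ x - x * deriv (gaussOp m d Φ) x =
      tE m d Φ (fun y => Φ y - y * deriv Φ y) x +
      ∫ s in (0:ℝ)..d, tE m s (gaussOp m (d - s) Φ)
        (fun y => m / 2 * deriv (gaussOp m (d - s) Φ) y ^ 2 +
          deriv (deriv (gaussOp m (d - s) Φ)) y) x := by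
  have hm0 := hm.ne'
  set F : ℝ → ℝ → ℝ := fun v y => U Φ m 0 v y - y * U Φ m 1 v y with hF
  set LF : ℝ → ℝ → ℝ := fun v y => m / 2 * U Φ m 1 v y ^ 2 - (m * U Φ m 1 v y ^ 2 + U Φ m 2 v y)
    with hLF
  have tb := (tb_U0 h hm0).sub (tb_XU1 h hm0)
  have hν := EM.dirac x
  have hcF : Continuous (EE Φ m d (Measure.dirac x) F) := EE_cont h m tb.ug hν d
  have hcL : Continuous (EE Φ m d (Measure.dirac x) LF) := EE_cont h m (tb.ugL h) hν d
  have hW : 0 < Wk Φ m 0 d x := Wk_pos h m d x
  have key : ∫ s in (0:ℝ)..d, EE Φ m d (Measure.dirac x) LF s =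
      EE Φ m d (Measure.dirac x) F d - EE Φ m d (Measure.dirac x) F 0 :=
    intervalIntegral.integral_eq_sub_of_hasDerivAt_of_le hd hcF.continuousOn
      (fun s hs => EE_deriv h m tb hν hs.1 hs.2) (hcL.intervalIntegrable _ _)
  have e1 : EE Φ m d (Measure.dirac x) F d =
      tE m d Φ (fun y => Φ y - y * deriv Φ y) x * Wk Φ m 0 d x := by
    rw [EE_dirac h hm0 hd le_rfl, sub_self, gaussOp_v0 hm0]
    congr 2
    funext y
    rw [hF]
    simp only
    rw [U_zero, U_one, gaussOp_v0 hm0]
  have e0 : EE Φ m d (Measure.dirac x) F 0 =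
      (gaussOp m d Φ x - x * deriv (gaussOp m d Φ) x) * Wk Φ m 0 d x := by
    rw [EE_dirac h hm0 le_rfl hd, sub_zero, tE_v0]
    simp only [hF]
    rw [U_zero, U_one]
  have e2 : ∫ s in (0:ℝ)..d, EE Φ m d (Measure.dirac x) LF s =
      (∫ s in (0:ℝ)..d, tE m s (gaussOp m (d - s) Φ)
        (fun y => -(m / 2 * deriv (gaussOp m (d - s) Φ) y ^ 2 +
          deriv (deriv (gaussOp m (d - s) Φ)) y)) x) * Wk Φ m 0 d x := by
    rw [← intervalIntegral.integral_mul_const]
    apply intervalIntegral.integral_congr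
    intro s hs
    rw [uIcc_of_le hd] at hs
    simp only
    rw [EE_dirac h hm0 hs.1 hs.2]
    congr 2
    funext y
    rw [hLF]
    simp only
    rw [U_one, U_two]
    ring
  rw [e1, e0, e2, ← sub_mul] at key
  have key2 := mul_right_cancel₀ hW.ne' key
  have e3 : ∀ s, tE m s (gaussOp m (d - s) Φ)
        (fun y => -(m / 2 * deriv (gaussOp m (d - s) Φ) y ^ 2 +
          deriv (deriv (gaussOp m (d - s) Φ)) y)) x =
      - tE m s (gaussOp m (d - s) Φ)
        (fun y => (m / 2 * deriv (gaussOp m (d - s) Φ) y ^ 2 +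
          deriv (deriv (gaussOp m (d - s) Φ)) y)) x := by
    intro s
    have := tE_const_mul m s (gaussOp m (d - s) Φ)
      (fun y => (m / 2 * deriv (gaussOp m (d - s) Φ) y ^ 2 +
          deriv (deriv (gaussOp m (d - s) Φ)) y)) (-1) x
    simp only [neg_mul, one_mul] at this
    exact this
  simp only [e3] at key2
  rw [intervalIntegral.integral_neg] at key2
  linarith

/-! ### second derivatives along the list -/

theorem cont_deriv2_gaussOp {Φ : ℝ → ℝ} (h : Prof Φ) {m : ℝ} (hm : m ≠ 0) :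
    Continuous (fun p : ℝ × ℝ => deriv (deriv (gaussOp m p.1 Φ)) p.2) := by
  have e : (fun p : ℝ × ℝ => deriv (deriv (gaussOp m p.1 Φ)) p.2) = fun p : ℝ × ℝ =>
      U Φ m 2 p.1 p.2 := by
    funext p
    rw [U_two]
  rw [e]
  exact (tb_U2 h hm).ug.cont

theorem meas_PhiT2 {β : ℝ} (hβ : 0 < β) : ∀ (l : List (ℝ × ℝ)), (∀ p ∈ l, 0 < p.1) →
    Measurable (fun p : ℝ × ℝ => deriv (deriv (PhiT β l p.1)) p.2)
  | [], _ => by
    show Measurable (fun p : ℝ × ℝ => deriv (deriv (phi0 β)) p.2)
    exact ((phi0_prof hβ).bd.deriv.cont).measurable.comp measurable_snd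
  | p :: l, hl => by
    have e : (fun q : ℝ × ℝ => deriv (deriv (PhiT β (p :: l) q.1)) q.2) = fun q : ℝ × ℝ =>
        if q.1 ≤ p.2 then deriv (deriv (gaussOp p.1 (p.2 - q.1) (PhiL β l))) q.2
        else deriv (deriv (PhiT β l (q.1 - p.2))) q.2 := by
      funext q
      show deriv (deriv (if q.1 ≤ p.2 then gaussOp p.1 (p.2 - q.1) (PhiL β l)
        else PhiT β l (q.1 - p.2))) q.2 = _
      split_ifs <;> rfl
    rw [e]
    refine Measurable.ite (measurableSet_le measurable_fst measurable_const) ?_ ?_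
    · exact ((cont_deriv2_gaussOp (PhiL_prof hβ l) (hl p (by simp)).ne').comp
          (by fun_prop : Continuous fun q : ℝ × ℝ => (p.2 - q.1, q.2))).measurable
    · exact (meas_PhiT2 hβ l (fun q hq => hl q (by simp [hq]))).comp
        (by fun_prop : Measurable fun q : ℝ × ℝ => (q.1 - p.2, q.2))

theorem PhiT_inv {β : ℝ} (hβ : 0 < β) : ∀ {l : List (ℝ × ℝ)}, Adm β l → ∀ t : ℝ,
    ∃ m, 0 < m ∧ m ≤ β ∧ Inv β m (PhiT β l t)
  | [], _, t => ⟨β, hβ, le_rfl, phi0_inv hβ⟩
  | p :: l, h, t => by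
    have hle : p.1 ≤ β := h.2.1.trans h.2.2.2.head_le
    unfold PhiT
    split_ifs with ht
    · exact ⟨p.1, h.1, hle, ((PhiL_inv hβ h.2.2.2).mono h.2.1).step h.1 hle _⟩
    · exact PhiT_inv hβ h.2.2.2 _

theorem d2_BC {β m : ℝ} (hβ : 0 < β) {Φ : ℝ → ℝ} (h : Inv β m Φ) : BC (deriv (deriv Φ)) β := by
  refine ⟨h.prof.bd.deriv.cont, fun x => ?_⟩
  rw [abs_of_pos (h.low.pos x)]
  refine (h.up x).trans ?_
  have := sq_nonneg (deriv Φ x)
  nlinarith

/-- `E Φ_xx(s, X_s)` started from `x` -/
def XX (β : ℝ) (l : List (ℝ × ℝ)) (s x : ℝ) : ℝ :=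
  EX β l s (fun y => deriv (deriv (PhiT β l s)) y) x

theorem Adm.pos {β : ℝ} : ∀ {l : List (ℝ × ℝ)}, Adm β l → ∀ p ∈ l, 0 < p.1
  | [], _, p, hp => by simp at hp
  | q :: l, h, p, hp => by
    rcases List.mem_cons.1 hp with rfl | hp
    · exact h.1
    · exact Adm.pos h.2.2.2 p hp

theorem Adm.len_nonneg {β : ℝ} : ∀ {l : List (ℝ × ℝ)}, Adm β l → ∀ p ∈ l, 0 ≤ p.2
  | [], _, p, hp => by simp at hp
  | q :: l, h, p, hp => by
    rcases List.mem_cons.1 hp with rfl | hp
    · exact h.2.2.1
    · exact Adm.len_nonneg h.2.2.2 p hp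

theorem meas_XX {β : ℝ} (hβ : 0 < β) (l : List (ℝ × ℝ)) (hl : ∀ p ∈ l, 0 < p.1) :
    Measurable (fun p : ℝ × ℝ => XX β l p.1 p.2) :=
  meas_EX hβ l hl (F := fun s y => deriv (deriv (PhiT β l s)) y) (meas_PhiT2 hβ l hl)

theorem XX_BC {β : ℝ} (hβ : 0 < β) {l : List (ℝ × ℝ)} (hl : Adm β l) (s : ℝ) :
    BC (XX β l s) β := by
  obtain ⟨m, _, _, hm⟩ := PhiT_inv hβ hl s
  exact EX_BC hβ l s (d2_BC hβ hm)

/-- terminal tilted expectation -/
def EE1 (β : ℝ) : List (ℝ × ℝ) → (ℝ → ℝ) → ℝ → ℝ
  | [], F => F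
  | p :: l, F => tE p.1 p.2 (PhiL β l) (EE1 β l F)

theorem EE1_BC {β : ℝ} (hβ : 0 < β) : ∀ (l : List (ℝ × ℝ)) {F : ℝ → ℝ} {K : ℝ},
    BC F K → BC (EE1 β l F) K
  | [], _, _, h => h
  | _ :: l, _, _, h => tE_BC (PhiL_prof hβ l).lip _ _ (EE1_BC hβ l h)

theorem EE1_bounds {β : ℝ} (hβ : 0 < β) : ∀ (l : List (ℝ × ℝ)) {F : ℝ → ℝ} {a b K : ℝ},
    BC F K → (∀ y, a ≤ F y) → (∀ y, F y ≤ b) → ∀ x, a ≤ EE1 β l F x ∧ EE1 β l F x ≤ b
  | [], _, _, _, _, _, h1, h2, x => ⟨h1 x, h2 x⟩
  | p :: l, F, a, b, K, h, h1, h2, x => by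
    have ih := EE1_bounds hβ l h h1 h2
    have hb := (EE1_BC hβ l h).eg
    have hl := (PhiL_prof hβ l).lip
    constructor
    · have := tE_mono hl p.1 p.2 (EG.const a) hb (fun y => (ih y).1) x
      rwa [tE_const hl] at this
    · have := tE_mono hl p.1 p.2 hb (EG.const b) (fun y => (ih y).2) x
      rwa [tE_const hl] at this

/-- total length -/
def len (l : List (ℝ × ℝ)) : ℝ := (l.map Prod.snd).sum

theorem len_nil : len [] = 0 := rfl
theorem len_cons (p : ℝ × ℝ) (l : List (ℝ × ℝ)) : len (p :: l) = p.2 + len l := by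
  simp [len]

theorem Adm.len0 {β : ℝ} : ∀ {l : List (ℝ × ℝ)}, Adm β l → 0 ≤ len l
  | [], _ => le_rfl
  | p :: l, h => by
    rw [len_cons]
    have := Adm.len0 h.2.2.2
    linarith [h.2.2.1]

/-- the triples with direction = level -/
def dup (l : List (ℝ × ℝ)) : List (ℝ × ℝ × ℝ) := l.map fun p => (p.1, p.1, p.2)

/-! ### the entropy of the terminal spin -/

theorem phi0_ent {β : ℝ} (hβ : 0 < β) (y : ℝ) : 0 ≤ phi0 β y - y * th β y ∧
    phi0 β y - y * th β y ≤ Real.log 2 / β := by
  -- the function z ↦ log (2 cosh z) - z tanh z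
  have hc : ∀ z : ℝ, 0 < Real.cosh z := Real.cosh_pos
  have e : phi0 β y - y * th β y =
      (Real.log (2 * Real.cosh (β * y)) - (β * y) * (Real.sinh (β * y) / Real.cosh (β * y))) / β := by
    unfold phi0 th
    field_simp
  rw [e]
  generalize β * y = z
  have h1 : 0 ≤ Real.log (2 * Real.cosh z) - z * (Real.sinh z / Real.cosh z) := by
    have h2 : |z| ≤ Real.log (2 * Real.cosh z) := by
      rw [Real.le_log_iff_exp_le (by have := hc z; positivity), Real.cosh_eq]
      rcases le_total 0 z with h | h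
      · rw [abs_of_nonneg h]
        have := Real.exp_pos (-z)
        linarith
      · rw [abs_of_nonpos h]
        have := Real.exp_pos z
        linarith
    have h3 : z * (Real.sinh z / Real.cosh z) ≤ |z| := by
      have h4 : |Real.sinh z / Real.cosh z| ≤ 1 := by
        have := th_abs_le 1 z
        unfold th at this
        rwa [one_mul] at this
      calc z * (Real.sinh z / Real.cosh z) ≤ |z * (Real.sinh z / Real.cosh z)| := le_abs_self _
        _ = |z| * |Real.sinh z / Real.cosh z| := abs_mul _ _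
        _ ≤ |z| * 1 := mul_le_mul_of_nonneg_left h4 (abs_nonneg _)
        _ = |z| := mul_one _
    linarith
  have h2 : Real.log (2 * Real.cosh z) - z * (Real.sinh z / Real.cosh z) ≤ Real.log 2 := by
    -- F z = z tanh z - log cosh z is minimal at 0
    have hder : ∀ w : ℝ, HasDerivAt (fun w => w * (Real.sinh w / Real.cosh w) -
        Real.log (Real.cosh w)) (w / Real.cosh w ^ 2) w := by
      intro w
      have hw := (hc w).ne'
      have d1 := (Real.hasDerivAt_sinh w).fun_div (Real.hasDerivAt_cosh w) hw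
      have d2 := (hasDerivAt_id' w).fun_mul d1
      have d3 := (Real.hasDerivAt_cosh w).log hw
      refine (d2.fun_sub d3).congr_deriv ?_
      have hs := Real.cosh_sq w
      have hs2 : Real.cosh w * Real.cosh w - Real.sinh w * Real.sinh w = 1 := by nlinarith
      rw [hs2]
      ring
    have key : ∀ w, 0 ≤ w → 0 ≤ w * (Real.sinh w / Real.cosh w) - Real.log (Real.cosh w) := by
      intro w hw
      have hm : MonotoneOn (fun w => w * (Real.sinh w / Real.cosh w) - Real.log (Real.cosh w))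
          (Set.Ici 0) := by
        apply monotoneOn_of_deriv_nonneg (convex_Ici 0)
        · exact fun x _ => (hder x).continuousAt.continuousWithinAt
        · exact fun x _ => (hder x).differentiableAt.differentiableWithinAt
        · intro x hx
          rw [interior_Ici] at hx
          rw [(hder x).deriv]
          have := hc x
          have hx' : (0:ℝ) < x := hx
          positivity
      have := hm (Set.self_mem_Ici) (Set.mem_Ici.2 hw) hw
      simpa using this
    have hz : 0 ≤ z * (Real.sinh z / Real.cosh z) - Real.log (Real.cosh z) := by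
      rcases le_total 0 z with h | h
      · exact key z h
      · have := key (-z) (by linarith)
        rw [Real.sinh_neg, Real.cosh_neg] at this
        have e2 : -z * (-Real.sinh z / Real.cosh z) = z * (Real.sinh z / Real.cosh z) := by ring
        rwa [e2] at this
    rw [Real.log_mul two_ne_zero (hc z).ne']
    linarith
  exact ⟨div_nonneg h1 hβ.le, div_le_div_of_nonneg_right h2 hβ.le⟩

/-- the terminal function `Φ - y Φ'` -/
def ent (β y : ℝ) : ℝ := phi0 β y - y * deriv (phi0 β) y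

theorem ent_bd {β : ℝ} (hβ : 0 < β) (y : ℝ) : 0 ≤ ent β y ∧ ent β y ≤ Real.log 2 / β := by
  unfold ent
  rw [phi0_deriv hβ]
  exact phi0_ent hβ y

theorem ent_BC {β : ℝ} (hβ : 0 < β) : BC (ent β) (Real.log 2 / β) := by
  refine ⟨?_, fun y => ?_⟩
  · unfold ent
    exact (phi0_prof hβ).egs.eg.cont.sub (continuous_id.mul (phi0_prof hβ).bd.cont)
  · obtain ⟨h1, h2⟩ := ent_bd hβ y
    rw [abs_of_nonneg h1]
    exact h2

/-! ### the induction -/

theorem value_aux {β : ℝ} (hβ : 0 < β) : ∀ {l : List (ℝ × ℝ)}, Adm β l → ∀ x : ℝ,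
    PhiL β l x - x * deriv (PhiL β l) x =
      EE1 β l (ent β) x + wsum (fun s => QQ β l s x) 0 (dup l) +
      ∫ s in (0:ℝ)..len l, XX β l s x
  | [], _, x => by
    show phi0 β x - x * deriv (phi0 β) x = ent β x + 0 + ∫ s in (0:ℝ)..0, _
    rw [intervalIntegral.integral_same]
    unfold ent
    ring
  | p :: l, hA, x => by
    have ih := value_aux hβ hA.2.2.2
    have hp := hA.2.2.1
    have hp1 := hA.1
    have hlpos := Adm.pos hA.2.2.2
    set Φ := PhiL β l with hΦ
    have hprof : Prof Φ := PhiL_prof hβ l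
    have hT := Adm.len0 hA.2.2.2
    -- block identity
    have hb := block_value hprof hp1 hp x
    show gaussOp p.1 p.2 Φ x - x * deriv (gaussOp p.1 p.2 Φ) x = _
    rw [hb]
    -- integrals along `l`
    have hmQ := meas_QQ hβ l hlpos
    have hbQ : ∀ s y, |QQ β l s y| ≤ 1 := fun s y => (QQ_BC hβ l s).bd y
    have hmX := meas_XX hβ l hlpos
    have hbX : ∀ s y, |XX β l s y| ≤ β := fun s y => (XX_BC hβ hA.2.2.2 s).bd y
    have hcQ : ∀ a b, Continuous fun y => ∫ s in a..b, QQ β l s y := by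
      intro a b
      refine intervalIntegral.continuous_of_dominated_interval (bound := fun _ => 1) ?_ ?_ ?_ ?_
      · intro y
        exact (hmQ.comp (by fun_prop : Measurable fun s : ℝ => (s, y))).aestronglyMeasurable
      · intro y
        exact Eventually.of_forall fun s _ => hbQ s y
      · simp
      · exact Eventually.of_forall fun s _ => (QQ_BC hβ l s).cont
    have hcX : ∀ a b, Continuous fun y => ∫ s in a..b, XX β l s y := by
      intro a b
      refine intervalIntegral.continuous_of_dominated_interval (bound := fun _ => β) ?_ ?_ ?_ ?_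
      · intro y
        exact (hmX.comp (by fun_prop : Measurable fun s : ℝ => (s, y))).aestronglyMeasurable
      · intro y
        exact Eventually.of_forall fun s _ => hbX s y
      · simp
      · exact Eventually.of_forall fun s _ => (XX_BC hβ hA.2.2.2 s).cont
    have hegX : EG fun y => ∫ s in (0:ℝ)..len l, XX β l s y := by
      refine EG.of_bdd (hcX _ _) (K := β * |len l - 0|) fun y => ?_
      have := intervalIntegral.norm_integral_le_of_norm_le_const (a := 0) (b := len l)
        (f := fun s => XX β l s y) (C := β) (fun s _ => hbX s y)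
      simpa [Real.norm_eq_abs] using this
    have hegQ : ∀ (L : List (ℝ × ℝ × ℝ)) (t : ℝ), EG fun y => wsum (fun s => QQ β l s y) t L := by
      intro L
      induction L with
      | nil => intro t; exact EG.const 0
      | cons r L ihL =>
        intro t
        have hbd : EG fun y => ∫ s in t..(t + r.2.2), QQ β l s y := by
          refine EG.of_bdd (hcQ _ _) (K := 1 * |(t + r.2.2) - t|) fun y => ?_
          have := intervalIntegral.norm_integral_le_of_norm_le_const (a := t) (b := t + r.2.2)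
            (f := fun s => QQ β l s y) (C := 1) (fun s _ => hbQ s y)
          simpa [Real.norm_eq_abs] using this
        exact ((hbd.const_mul (1/2)).const_mul r.2.1).add (ihL _)
    have hegE : EG (EE1 β l (ent β)) := (EE1_BC hβ l (ent_BC hβ)).eg
    -- tE of the induction hypothesis
    have e1 : tE p.1 p.2 Φ (fun y => Φ y - y * deriv Φ y) x =
        tE p.1 p.2 Φ (EE1 β l (ent β)) x +
        wsum (fun s => tE p.1 p.2 Φ (QQ β l s) x) 0 (dup l) +
        ∫ s in (0:ℝ)..len l, tE p.1 p.2 Φ (XX β l s) x := by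
      have e2 : (fun y => Φ y - y * deriv Φ y) = fun y => (EE1 β l (ent β) y +
          wsum (fun s => QQ β l s y) 0 (dup l)) + ∫ s in (0:ℝ)..len l, XX β l s y := funext ih
      rw [e2, tE_add hprof.lip _ _ (hegE.add (hegQ _ _)) hegX,
        tE_add hprof.lip _ _ hegE (hegQ _ _),
        tE_wsum hprof p.1 p.2 hmQ hbQ hcQ x (dup l) 0,
        tE_integral hprof p.1 p.2 hmX hbX]
    rw [e1]
    -- the block part
    have hblock : ∫ s in (0:ℝ)..p.2, tE p.1 s (gaussOp p.1 (p.2 - s) Φ)
        (fun y => p.1 / 2 * deriv (gaussOp p.1 (p.2 - s) Φ) y ^ 2 +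
          deriv (deriv (gaussOp p.1 (p.2 - s) Φ)) y) x =
        ∫ s in (0:ℝ)..p.2, (p.1 / 2 * QQ β (p :: l) s x + XX β (p :: l) s x) := by
      apply intervalIntegral.integral_congr
      intro s hs
      rw [uIcc_of_le hp] at hs
      have hs2 : s ≤ p.2 := hs.2
      have hI : Inv β p.1 (gaussOp p.1 (p.2 - s) Φ) :=
        ((PhiL_inv hβ hA.2.2.2).mono hA.2.1).step hp1 (hA.2.1.trans hA.2.2.2.head_le) _
      show tE p.1 s (gaussOp p.1 (p.2 - s) Φ)
        (fun y => p.1 / 2 * deriv (gaussOp p.1 (p.2 - s) Φ) y ^ 2 +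
          deriv (deriv (gaussOp p.1 (p.2 - s) Φ)) y) x = _
      rw [tE_add hI.prof.lip _ _ ((sq_BC hI.prof).eg.const_mul _) (d2_BC hβ hI).eg, tE_const_mul]
      unfold QQ XX EX PhiT
      simp only [hs2, if_true]
      rfl
    have hQi : IntervalIntegrable (fun s => QQ β (p :: l) s x) volume 0 p.2 :=
      QQ_ii hβ _ (Adm.pos hA) x _ _
    have hXi : ∀ a b, IntervalIntegrable (fun s => XX β (p :: l) s x) volume a b := by
      intro a b
      have hm : Measurable fun s => XX β (p :: l) s x :=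
        (meas_XX hβ (p :: l) (Adm.pos hA)).comp (by fun_prop : Measurable fun s : ℝ => (s, x))
      have h1 : IntervalIntegrable (fun _ : ℝ => β) volume a b := by simp
      refine h1.mono_fun hm.aestronglyMeasurable (Eventually.of_forall fun s => ?_)
      show |XX β (p :: l) s x| ≤ |β|
      rw [abs_of_pos hβ]
      exact (XX_BC hβ hA s).bd x
    rw [hblock, intervalIntegral.integral_add (hQi.const_mul _) (hXi _ _),
      intervalIntegral.integral_const_mul]
    -- the rest
    have hrest : wsum (fun s => tE p.1 p.2 Φ (QQ β l s) x) 0 (dup l) =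
        wsum (fun s => QQ β (p :: l) s x) (0 + p.2) (dup l) := by
      rw [← wsum_shift]
      refine wsum_congr (c := 0) ?_ (dup l) ?_ 0 le_rfl
      · intro s hs
        have hs2 : ¬ (s + p.2 ≤ p.2) := by linarith
        unfold QQ EX PhiT
        simp only [hs2, if_false, add_sub_cancel_right]
        cases l <;> rfl
      · intro r hr
        unfold dup at hr
        rw [List.mem_map] at hr
        obtain ⟨q, hq, rfl⟩ := hr
        exact Adm.len_nonneg hA.2.2.2 q hq
    have hrestX : ∫ s in (0:ℝ)..len l, tE p.1 p.2 Φ (XX β l s) x =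
        ∫ s in p.2..(len (p :: l)), XX β (p :: l) s x := by
      have e3 : ∫ s in p.2..(len (p :: l)), XX β (p :: l) s x =
          ∫ s in (0:ℝ)..len l, XX β (p :: l) (s + p.2) x := by
        rw [intervalIntegral.integral_comp_add_right (fun s => XX β (p :: l) s x), zero_add,
          len_cons, add_comm (len l)]
      rw [e3]
      apply intervalIntegral.integral_congr_ae
      refine Eventually.of_forall fun s hs => ?_
      rw [uIoc_of_le hT] at hs
      have hs2 : ¬ (s + p.2 ≤ p.2) := by linarith [hs.1]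
      unfold XX EX PhiT
      simp only [hs2, if_false, add_sub_cancel_right]
      cases l <;> rfl
    have hsplit : ∫ s in (0:ℝ)..(len (p :: l)), XX β (p :: l) s x =
        (∫ s in (0:ℝ)..p.2, XX β (p :: l) s x) + ∫ s in p.2..(len (p :: l)), XX β (p :: l) s x :=
      (intervalIntegral.integral_add_adjacent_intervals (hXi _ _) (hXi _ _)).symm
    rw [hrest, hrestX, hsplit]
    show _ = tE p.1 p.2 Φ (EE1 β l (ent β)) x + (p.1 * ((1/2) * ∫ s in (0:ℝ)..(0 + p.2),
      QQ β (p :: l) s x) + wsum (fun s => QQ β (p :: l) s x) (0 + p.2) (dup l)) + _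
    rw [zero_add]
    ring

theorem wsum_pen : ∀ (l : List (ℝ × ℝ)) (t : ℝ),
    wsum (fun s => -s) t (dup l) = -(pen t l) / 4
  | [], t => by
    show (0:ℝ) = -0 / 4
    norm_num
  | p :: l, t => by
    show p.1 * ((1/2) * ∫ s in t..(t + p.2), -s) + wsum (fun s => -s) (t + p.2) (dup l) =
      -(p.1 * ((t + p.2) ^ 2 - t ^ 2) + pen (t + p.2) l) / 4
    rw [wsum_pen l, intervalIntegral.integral_neg, integral_id]
    ring

/-- **Value identity (V4)**, list form. -/
theorem PL_value {β : ℝ} (hβ : 0 < β) {l : List (ℝ × ℝ)} (hA : Adm β l) :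
    ∃ r, 0 ≤ r ∧ r ≤ Real.log 2 / β ∧
      PL β l = (∫ s in (0:ℝ)..len l, XX β l s 0) + wsum (fun s => QQ β l s 0 - s) 0 (dup l) + r := by
  obtain ⟨h1, h2⟩ := EE1_bounds hβ l (ent_BC hβ) (fun y => (ent_bd hβ y).1)
    (fun y => (ent_bd hβ y).2) 0
  refine ⟨EE1 β l (ent β) 0, h1, h2, ?_⟩
  have h := value_aux hβ hA 0
  rw [zero_mul, sub_zero] at h
  have e : wsum (fun s => QQ β l s 0 - s) 0 (dup l) =
      wsum (fun s => QQ β l s 0) 0 (dup l) + -(pen 0 l) / 4 := by
    rw [← wsum_pen l 0, wsum_add (QQ_ii hβ _ (Adm.pos hA) 0)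
      (fun a b => (by fun_prop : Continuous fun s : ℝ => -s).intervalIntegrable a b)]
    rfl
  unfold PL
  rw [e, h]
  ring

end

end Crest.Agent.R339.V4
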