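/-
helper55, row 339 (S0530), part (B): the value identity on the uniform grid, and the upper bound of
the Parisi functional by the integral of `E Φ_xx` up to the top block.
-/
import Crest.Agent.R339.V455

set_option autoImplicit false

namespace Crest.Agent.R339.V4

open MeasureTheory ProbabilityTheory Filter Topology Set
open scoped Interval
open Crest.Agent.R164.GC Crest.Agent.R339.B Crest.Agent.R339.Var
open Crest.ProbabilityR.InvariantGlass (gaussOp)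
open Crest.Agent.R339.Guerra (pen)

noncomputable section

/-- `E Φ_xx(s, X_s)²` started from `x` -/
def gg (β : ℝ) (l : List (ℝ × ℝ)) (s x : ℝ) : ℝ :=
  EX β l s (fun y => deriv (deriv (PhiT β l s)) y ^ 2) x

theorem meas_gg {β : ℝ} (hβ : 0 < β) (l : List (ℝ × ℝ)) (hl : ∀ p ∈ l, 0 < p.1) :
    Measurable (fun p : ℝ × ℝ => gg β l p.1 p.2) :=
  meas_EX hβ l hl (F := fun s y => deriv (deriv (PhiT β l s)) y ^ 2) ((meas_PhiT2 hβ l hl).pow_const 2)

theorem gg_BC {β : ℝ} (hβ : 0 < β) {l : List (ℝ × ℝ)} (hl : Adm β l) (s : ℝ) :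
    BC (gg β l s) (β ^ 2) := by
  obtain ⟨m, _, _, hm⟩ := PhiT_inv hβ hl s
  exact EX_BC hβ l s ((d2_BC hβ hm).pow 2)

theorem EX_mono {β : ℝ} (hβ : 0 < β) : ∀ (l : List (ℝ × ℝ)) (t : ℝ) {F G : ℝ → ℝ} {K L : ℝ},
    BC F K → BC G L → (∀ y, F y ≤ G y) → ∀ x, EX β l t F x ≤ EX β l t G x
  | [], _, _, _, _, _, _, _, h, x => h x
  | p :: l, t, F, G, K, L, hF, hG, h, x => by
    unfold EX
    split_ifs
    · exact tE_mono ((PhiL_prof hβ l).step p.1 (p.2 - t)).lip p.1 t hF.eg hG.eg h x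
    · exact tE_mono (PhiL_prof hβ l).lip p.1 p.2 (EX_BC hβ l (t - p.2) hF).eg
        (EX_BC hβ l (t - p.2) hG).eg (EX_mono hβ l (t - p.2) hF hG h) x

theorem EX_sq_le {β : ℝ} (hβ : 0 < β) : ∀ (l : List (ℝ × ℝ)) (t : ℝ) {F : ℝ → ℝ} {K : ℝ},
    BC F K → ∀ x, (EX β l t F x) ^ 2 ≤ EX β l t (fun y => F y ^ 2) x
  | [], _, _, _, _, x => le_rfl
  | p :: l, t, F, K, hF, x => by
    unfold EX
    split_ifs
    · exact tE_sq_le ((PhiL_prof hβ l).step p.1 (p.2 - t)).lip p.1 t hF.eg x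
    · refine (tE_sq_le (PhiL_prof hβ l).lip p.1 p.2 (EX_BC hβ l (t - p.2) hF).eg x).trans ?_
      exact tE_mono (PhiL_prof hβ l).lip p.1 p.2 ((EX_BC hβ l (t - p.2) hF).pow 2).eg
        (EX_BC hβ l (t - p.2) (hF.pow 2)).eg (EX_sq_le hβ l (t - p.2) hF) x

theorem XX_sq_le {β : ℝ} (hβ : 0 < β) {l : List (ℝ × ℝ)} (hl : Adm β l) (s x : ℝ) :
    (XX β l s x) ^ 2 ≤ gg β l s x := by
  obtain ⟨m, _, _, hm⟩ := PhiT_inv hβ hl s
  exact EX_sq_le hβ l s (d2_BC hβ hm) x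

theorem XX_nonneg {β : ℝ} (hβ : 0 < β) {l : List (ℝ × ℝ)} (hl : Adm β l) (s x : ℝ) :
    0 ≤ XX β l s x := by
  obtain ⟨m, _, _, hm⟩ := PhiT_inv hβ hl s
  have h0 : BC (fun _ : ℝ => (0:ℝ)) 0 := ⟨continuous_const, fun _ => by simp⟩
  have := EX_mono hβ l s h0 (d2_BC hβ hm) (fun y => (hm.low.pos y).le) x
  have e : ∀ (l : List (ℝ × ℝ)) (s x : ℝ), EX β l s (fun _ => 0) x = 0 := by
    intro l
    induction l with
    | nil => intro s x; rfl
    | cons p l ih =>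
      intro s x
      unfold EX
      split_ifs
      · exact tE_const ((PhiL_prof hβ l).step p.1 (p.2 - s)).lip _ _ _ _
      · have e2 : EX β l (s - p.2) (fun _ => 0) = fun _ => 0 := funext (ih _)
        rw [e2]
        exact tE_const (PhiL_prof hβ l).lip _ _ _ _
  rwa [e] at this

theorem gg_nonneg {β : ℝ} (hβ : 0 < β) {l : List (ℝ × ℝ)} (hl : Adm β l) (s x : ℝ) :
    0 ≤ gg β l s x := (sq_nonneg _).trans (XX_sq_le hβ hl s x)

/-! ### the grid -/

theorem adm_ofFn {β d : ℝ} (hd : 0 ≤ d) : ∀ {K : ℕ} {m : Fin K → ℝ}, Monotone m → (∀ k, 0 < m k) →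
    (∀ k, m k ≤ β) → Adm β (List.ofFn fun k => (m k, d))
  | 0, m, _, _, _ => by simp [Adm]
  | K + 1, m, hm, h0, hβ => by
    rw [List.ofFn_succ]
    refine ⟨h0 0, ?_, hd, adm_ofFn hd (m := fun k => m k.succ) (fun i j hij =>
      hm (Fin.succ_le_succ_iff.2 hij)) (fun k => h0 _) (fun k => hβ _)⟩
    rcases K with _ | K
    · simp only [List.ofFn_zero]
      exact hβ 0
    · rw [List.ofFn_succ]
      exact hm (Fin.zero_le _)

theorem adm_grid {K : ℕ} {ε β : ℝ} (hε : 0 < ε) {m : Fin K → ℝ} (hm : m ∈ cone K ε β) :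
    Adm β (grid m) :=
  adm_ofFn (by positivity) hm.1 (fun k => hε.trans_le (hm.2 k).1) (fun k => (hm.2 k).2)

theorem dup_grid {K : ℕ} (m : Fin K → ℝ) : dup (grid m) = trip (1 / (K:ℝ)) m m := by
  unfold dup grid trip
  rw [List.map_ofFn]
  rfl

theorem len_grid {K : ℕ} (hK : 0 < K) (m : Fin K → ℝ) : len (grid m) = 1 := by
  unfold len grid
  rw [List.map_ofFn]
  have : (Prod.snd ∘ fun k : Fin K => (m k, 1 / (K:ℝ))) = fun _ => 1 / (K:ℝ) := rfl
  rw [this, List.sum_ofFn]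
  have hK' : (K:ℝ) ≠ 0 := by positivity
  simp [hK']

/-- **Value identity (V4)** on the grid. -/
theorem PF_value {β : ℝ} (hβ : 0 < β) {K : ℕ} (hK : 0 < K) {m : Fin K → ℝ}
    (hA : Adm β (grid m)) : ∃ r, 0 ≤ r ∧ r ≤ Real.log 2 / β ∧
      PF β m = (∫ s in (0:ℝ)..1, XX β (grid m) s 0) +
        (∑ k : Fin K, m k * ((1/2) * ∫ s in ((k:ℕ):ℝ)/K..(((k:ℕ):ℝ)+1)/K,
          (QQ β (grid m) s 0 - s))) + r := by
  obtain ⟨r, h1, h2, h3⟩ := PL_value hβ hA
  refine ⟨r, h1, h2, ?_⟩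
  rw [dup_grid, wsum_trip, len_grid hK] at h3
  unfold PF
  rw [h3]
  congr 2
  apply Finset.sum_congr rfl
  intro k _
  have e2 : (0:ℝ) + (k:ℕ) * (1 / (K:ℝ)) = ((k:ℕ):ℝ)/K := by ring
  have e3 : (0:ℝ) + ((k:ℕ) + 1) * (1 / (K:ℝ)) = (((k:ℕ):ℝ)+1)/K := by ring
  rw [e2, e3]

theorem XX_ii {β : ℝ} (hβ : 0 < β) {l : List (ℝ × ℝ)} (hl : Adm β l) (x a b : ℝ) :
    IntervalIntegrable (fun s => XX β l s x) volume a b := by
  have hm : Measurable fun s => XX β l s x :=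
    (meas_XX hβ l (Adm.pos hl)).comp (by fun_prop : Measurable fun s : ℝ => (s, x))
  have h1 : IntervalIntegrable (fun _ : ℝ => β) volume a b := by simp
  refine h1.mono_fun hm.aestronglyMeasurable (Eventually.of_forall fun s => ?_)
  show |XX β l s x| ≤ |β|
  rw [abs_of_pos hβ]
  exact (XX_BC hβ hl s).bd x

theorem gg_ii {β : ℝ} (hβ : 0 < β) {l : List (ℝ × ℝ)} (hl : Adm β l) (x a b : ℝ) :
    IntervalIntegrable (fun s => gg β l s x) volume a b := by
  have hm : Measurable fun s => gg β l s x :=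
    (meas_gg hβ l (Adm.pos hl)).comp (by fun_prop : Measurable fun s : ℝ => (s, x))
  have h1 : IntervalIntegrable (fun _ : ℝ => β ^ 2) volume a b := by simp
  refine h1.mono_fun hm.aestronglyMeasurable (Eventually.of_forall fun s => ?_)
  show |gg β l s x| ≤ |β ^ 2|
  rw [abs_of_nonneg (sq_nonneg β)]
  exact (gg_BC hβ hl s).bd x

/-- Cauchy–Schwarz on the last block -/
theorem XX_tail {β : ℝ} (hβ : 0 < β) {l : List (ℝ × ℝ)} (hl : Adm β l) {a b : ℝ} (hab : a ≤ b)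
    {x : ℝ} (hg : ∫ t in a..b, gg β l t x ≤ 1) :
    ∫ t in a..b, XX β l t x ≤ √(b - a) := by
  rcases hab.eq_or_lt with rfl | hlt
  · simp
  have hL : 0 < b - a := by linarith
  have hs : 0 < √(b - a) := Real.sqrt_pos.2 hL
  set c := √(b - a) with hc
  have hcc : c * c = b - a := Real.mul_self_sqrt hL.le
  have hpt : ∀ t, XX β l t x ≤ 1 / (2 * c) + (c / 2) * gg β l t x := by
    intro t
    have h1 := XX_sq_le hβ hl t x
    have h2 : XX β l t x ≤ 1 / (2 * c) + (c / 2) * (XX β l t x) ^ 2 := by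
      have h3 := sq_nonneg (c * XX β l t x - 1)
      have h4 : 0 ≤ (c * XX β l t x - 1) ^ 2 / (2 * c) := by positivity
      have h5 : (c * XX β l t x - 1) ^ 2 / (2 * c) =
          1 / (2 * c) + (c / 2) * (XX β l t x) ^ 2 - XX β l t x := by
        field_simp
        ring
      linarith
    have h6 := mul_le_mul_of_nonneg_left h1 (by positivity : 0 ≤ c / 2)
    linarith
  have hi := XX_ii hβ hl x a b
  have hgi := gg_ii hβ hl x a b
  have hci : IntervalIntegrable (fun _ : ℝ => 1 / (2 * c)) volume a b := by simp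
  calc ∫ t in a..b, XX β l t x ≤ ∫ t in a..b, (1 / (2 * c) + (c / 2) * gg β l t x) :=
        intervalIntegral.integral_mono_on hab hi (hci.add (hgi.const_mul _)) (fun t _ => hpt t)
    _ = (b - a) * (1 / (2 * c)) + (c / 2) * ∫ t in a..b, gg β l t x := by
        rw [intervalIntegral.integral_add hci (hgi.const_mul _),
          intervalIntegral.integral_const_mul, intervalIntegral.integral_const, smul_eq_mul]
    _ ≤ (b - a) * (1 / (2 * c)) + (c / 2) * 1 := by gcongr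
    _ = c := by
        rw [← hcc]
        field_simp
        ring

/-- upper bound of the functional at (approximate) stationary points -/
theorem PF_le {β : ℝ} (hβ : 0 < β) {K : ℕ} (hK : 0 < K) {m : Fin K → ℝ}
    (hA : Adm β (grid m)) (hmβ : ∀ k, m k ≤ β) {a : ℕ} (ha : a ≤ K)
    (htop : ∀ k : Fin K, a ≤ (k:ℕ) → m k = β)
    (hGc : ContinuousOn (fun t => QQ β (grid m) t 0 - t) (Icc 0 1)) {η : ℝ}
    (hη : ∀ t ∈ Icc (0:ℝ) ((a:ℝ)/K), |QQ β (grid m) t 0 - t| ≤ η)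
    (hlast : ∫ t in (a:ℝ)/K..1, (QQ β (grid m) t 0 - t) ≤ 0)
    (hg : ∫ t in (a:ℝ)/K..1, gg β (grid m) t 0 ≤ 1) :
    PF β m ≤ (∫ s in (0:ℝ)..(a:ℝ)/K, XX β (grid m) s 0) + √(1 - (a:ℝ)/K) + β * η / 2 +
      Real.log 2 / β := by
  have hK' : (0:ℝ) < K := by exact_mod_cast hK
  have haK : (a:ℝ)/K ≤ 1 := by
    rw [div_le_one hK']; exact_mod_cast ha
  have ha0 : (0:ℝ) ≤ (a:ℝ)/K := by positivity
  have hη0 : 0 ≤ η := (abs_nonneg _).trans (hη 0 ⟨le_rfl, ha0⟩)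
  obtain ⟨r, _, hr, hPF⟩ := PF_value hβ hK hA
  have hsplit := intervalIntegral.integral_add_adjacent_intervals
    (XX_ii hβ hA 0 0 ((a:ℝ)/K)) (XX_ii hβ hA 0 ((a:ℝ)/K) 1)
  have htail := XX_tail hβ hA haK hg
  have hsum : (∑ k : Fin K, m k * ((1/2) * ∫ s in ((k:ℕ):ℝ)/K..(((k:ℕ):ℝ)+1)/K,
          (QQ β (grid m) s 0 - s))) ≤ β * η / 2 := by
    have h1 : (∑ k : Fin K, m k * ((1/2) * ∫ s in ((k:ℕ):ℝ)/K..(((k:ℕ):ℝ)+1)/K,
          (QQ β (grid m) s 0 - s))) ≤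
        ∑ k : Fin K, (β * η / (2 * K) + β * (if a ≤ (k:ℕ) ∧ (k:ℕ) < K then
          ((1/2) * ∫ s in ((k:ℕ):ℝ)/K..(((k:ℕ):ℝ)+1)/K, (QQ β (grid m) s 0 - s)) else 0)) := by
      apply Finset.sum_le_sum
      intro k _
      by_cases hk : a ≤ (k:ℕ)
      · rw [if_pos ⟨hk, k.2⟩, htop k hk]
        have : 0 ≤ β * η / (2 * K) := by positivity
        linarith
      · rw [if_neg (fun h => hk h.1), mul_zero, add_zero]
        push Not at hk
        have hkK : (((k:ℕ):ℝ)+1)/K ≤ (a:ℝ)/K := by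
          apply div_le_div_of_nonneg_right _ hK'.le
          exact_mod_cast hk
        have hk0 : (0:ℝ) ≤ ((k:ℕ):ℝ)/K := by positivity
        have hle : ((k:ℕ):ℝ)/K ≤ (((k:ℕ):ℝ)+1)/K :=
          div_le_div_of_nonneg_right (by linarith) hK'.le
        have h2 : ‖∫ s in ((k:ℕ):ℝ)/K..(((k:ℕ):ℝ)+1)/K, (QQ β (grid m) s 0 - s)‖ ≤
            η * |(((k:ℕ):ℝ)+1)/K - ((k:ℕ):ℝ)/K| := by
          apply intervalIntegral.norm_integral_le_of_norm_le_const
          intro s hs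
          rw [uIoc_of_le hle] at hs
          exact hη s ⟨by linarith [hs.1], by linarith [hs.2]⟩
        have e : (((k:ℕ):ℝ)+1)/K - ((k:ℕ):ℝ)/K = 1/K := by ring
        rw [e, abs_of_pos (by positivity), Real.norm_eq_abs] at h2
        have hmk : 0 < m k := Adm.pos hA (m k, 1/(K:ℝ)) (by
          unfold grid
          rw [List.mem_ofFn]
          exact ⟨k, rfl⟩)
        calc m k * ((1/2) * ∫ s in ((k:ℕ):ℝ)/K..(((k:ℕ):ℝ)+1)/K, (QQ β (grid m) s 0 - s))
            ≤ m k * ((1/2) * (η * (1/K))) := by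
              gcongr
              exact (le_abs_self _).trans h2
          _ ≤ β * ((1/2) * (η * (1/K))) := by
              gcongr
              exact hmβ k
          _ = β * η / (2 * K) := by ring
    refine h1.trans ?_
    rw [Finset.sum_add_distrib, ← Finset.mul_sum, sum_grid_integral hK hGc ha le_rfl,
      Finset.sum_const, Finset.card_univ, Fintype.card_fin, nsmul_eq_mul]
    have e1 : (K:ℝ) * (β * η / (2 * K)) = β * η / 2 := by field_simp
    have e2 : ((K:ℕ):ℝ)/K = 1 := div_self hK'.ne'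
    rw [e1, e2]
    have h3 : β * ((1/2) * ∫ t in (a:ℝ)/K..1, (QQ β (grid m) t 0 - t)) ≤ 0 := by
      apply mul_nonpos_of_nonneg_of_nonpos hβ.le
      linarith
    linarith
  rw [hPF, ← hsplit]
  linarith

end

end Crest.Agent.R339.V4
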