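/-
helper55, row 339 (S0530): the third derivative of the Parisi profiles is bounded by `2β²`,
uniformly in the list of blocks.
-/
import Crest.Agent.R339.V455b

set_option autoImplicit false

namespace Crest.Agent.R339.Ref

open MeasureTheory ProbabilityTheory Filter Topology Set
open scoped Interval
open Crest.Agent.R164.GC Crest.Agent.R339.B Crest.Agent.R339.Var Crest.Agent.R339.V4
open Crest.ProbabilityR.InvariantGlass (gaussOp)

noncomputable section

/-- lower bound with prescribed exponential rate -/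
def LowA (A : ℝ) (f : ℝ → ℝ) : Prop := ∃ c : ℝ, 0 < c ∧ ∀ x, c * Real.exp (-(A * |x|)) ≤ f x

theorem LowA.tE {A : ℝ} (hA : 0 ≤ A) {Φ : ℝ → ℝ} (h : Lip1 Φ) (a v : ℝ) {φ : ℝ → ℝ} (hφ : EG φ)
    (hl : LowA A φ) : LowA A (tE a v Φ φ) := by
  obtain ⟨c, hc, hl⟩ := hl
  set t := Real.sqrt v
  set I1 := ∫ g, Real.exp (-((A + |a|) * |t| * |g|)) ∂gaussianReal 0 1 with hI1
  set I2 := ∫ g, Real.exp (|a| * |t| * |g|) ∂gaussianReal 0 1 with hI2
  have hi1 : Integrable (fun g : ℝ => Real.exp (-((A + |a|) * |t| * |g|))) (gaussianReal 0 1) := by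
    have := integrable_exp_abs (-((A + |a|) * |t|))
    refine this.congr (Eventually.of_forall fun g => ?_)
    show Real.exp _ = Real.exp _
    congr 1
    ring
  have hi2 : Integrable (fun g : ℝ => Real.exp (|a| * |t| * |g|)) (gaussianReal 0 1) :=
    integrable_exp_abs _
  have p1 : 0 < I1 := by
    rw [hI1, integral_pos_iff_support_of_nonneg (fun _ => (Real.exp_pos _).le) hi1]
    have : Function.support (fun g : ℝ => Real.exp (-((A + |a|) * |t| * |g|))) = univ := by
      ext g
      simp [(Real.exp_pos _).ne']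
    rw [this, measure_univ]
    exact one_pos
  have p2 : 0 < I2 := by
    rw [hI2, integral_pos_iff_support_of_nonneg (fun _ => (Real.exp_pos _).le) hi2]
    have : Function.support (fun g : ℝ => Real.exp (|a| * |t| * |g|)) = univ := by
      ext g
      simp [(Real.exp_pos _).ne']
    rw [this, measure_univ]
    exact one_pos
  refine ⟨c * I1 / I2, by positivity, fun x => ?_⟩
  have hE := EG.exp_lip h a
  have hphi : ∀ y, |Φ y - Φ x| ≤ |y - x| := by
    intro y
    have h1 := h y x
    have h2 := h x y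
    rw [abs_sub_comm] at h2
    rw [abs_le]
    constructor <;> linarith
  have hnum : c * Real.exp (-(A * |x|)) * Real.exp (a * Φ x) * I1 ≤
      H t (fun y => φ y * Real.exp (a * Φ y)) x := by
    unfold H
    rw [hI1, ← integral_const_mul]
    refine integral_mono (hi1.const_mul _) ((hφ.mul hE).int t x) fun g => ?_
    have e1 : Real.exp (-(A * |x|)) * Real.exp (a * Φ x) * Real.exp (-((A + |a|) * |t| * |g|)) ≤
        Real.exp (-(A * |x + t * g|)) * Real.exp (a * Φ (x + t * g)) := by
      rw [← Real.exp_add, ← Real.exp_add, ← Real.exp_add]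
      refine Real.exp_le_exp.2 ?_
      have h3 : |x + t * g| ≤ |x| + |t| * |g| := by
        refine (abs_add_le _ _).trans ?_
        rw [abs_mul]
      have h4 := hphi (x + t * g)
      have h5 : x + t * g - x = t * g := by ring
      rw [h5, abs_mul] at h4
      have h6 : |a * (Φ (x + t * g) - Φ x)| ≤ |a| * (|t| * |g|) := by
        rw [abs_mul]
        exact mul_le_mul_of_nonneg_left h4 (abs_nonneg _)
      have h7 := (abs_le.1 h6).1
      have h8 := mul_le_mul_of_nonneg_left h3 hA
      nlinarith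
    have e2 := hl (x + t * g)
    calc c * Real.exp (-(A * |x|)) * Real.exp (a * Φ x) * Real.exp (-((A + |a|) * |t| * |g|)) =
        c * (Real.exp (-(A * |x|)) * Real.exp (a * Φ x) *
          Real.exp (-((A + |a|) * |t| * |g|))) := by ring
      _ ≤ c * (Real.exp (-(A * |x + t * g|)) * Real.exp (a * Φ (x + t * g))) :=
          mul_le_mul_of_nonneg_left e1 hc.le
      _ = (c * Real.exp (-(A * |x + t * g|))) * Real.exp (a * Φ (x + t * g)) := by ring
      _ ≤ φ (x + t * g) * Real.exp (a * Φ (x + t * g)) :=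
          mul_le_mul_of_nonneg_right e2 (Real.exp_pos _).le
  have hden : H t (fun y => Real.exp (a * Φ y)) x ≤ Real.exp (a * Φ x) * I2 := by
    unfold H
    rw [hI2, ← integral_const_mul]
    refine integral_mono (hE.int t x) (hi2.const_mul _) fun g => ?_
    simp only
    rw [← Real.exp_add]
    refine Real.exp_le_exp.2 ?_
    have h4 := hphi (x + t * g)
    have h5 : x + t * g - x = t * g := by ring
    rw [h5, abs_mul] at h4
    have h6 : |a * (Φ (x + t * g) - Φ x)| ≤ |a| * (|t| * |g|) := by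
      rw [abs_mul]
      exact mul_le_mul_of_nonneg_left h4 (abs_nonneg _)
    have h7 := (abs_le.1 h6).2
    nlinarith
  have hd0 := den_pos h a t x
  unfold Crest.Agent.R164.GC.tE
  rw [le_div_iff₀ hd0]
  calc c * I1 / I2 * Real.exp (-(A * |x|)) * H t (fun y => Real.exp (a * Φ y)) x
      ≤ c * I1 / I2 * Real.exp (-(A * |x|)) * (Real.exp (a * Φ x) * I2) :=
        mul_le_mul_of_nonneg_left hden (by positivity)
    _ = c * Real.exp (-(A * |x|)) * Real.exp (a * Φ x) * I1 := by
        field_simp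
    _ ≤ _ := hnum

theorem LowA.add_nonneg {A : ℝ} {f g : ℝ → ℝ} (h : LowA A f) (hg : ∀ x, 0 ≤ g x) :
    LowA A fun x => f x + g x := by
  obtain ⟨c, hc, h⟩ := h
  exact ⟨c, hc, fun x => by have := h x; have := hg x; linarith⟩

theorem LowA.step {A : ℝ} (hA : 0 ≤ A) {Φ : ℝ → ℝ} (h : Prof Φ) (hl : LowA A (deriv (deriv Φ)))
    {a : ℝ} (ha : 0 ≤ a) (v : ℝ) : LowA A (deriv (deriv (gaussOp a v Φ))) := by
  rw [h.gaussOp_deriv2]
  refine (LowA.tE hA h.lip a v h.bd.deriv.eg hl).add_nonneg fun x => ?_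
  exact mul_nonneg ha (var_nonneg h.lip a v h.bd.eg x)

theorem phi0_lowA {β : ℝ} (hβ : 0 < β) : LowA (2 * β) (deriv (deriv (phi0 β))) := by
  rw [phi0_deriv2 hβ]
  refine ⟨β, hβ, fun x => ?_⟩
  simp only
  rw [one_sub_th_sq]
  refine mul_le_mul_of_nonneg_left ?_ hβ.le
  have h1 : Real.cosh (β * x) ≤ Real.exp (β * |x|) := by
    rw [Real.cosh_eq]
    have a1 : Real.exp (β * x) ≤ Real.exp (β * |x|) :=
      Real.exp_le_exp.2 (mul_le_mul_of_nonneg_left (le_abs_self x) hβ.le)
    have a2 : Real.exp (-(β * x)) ≤ Real.exp (β * |x|) := by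
      refine Real.exp_le_exp.2 ?_
      have := neg_abs_le x
      nlinarith
    linarith
  have h2 : Real.cosh (β * x) ^ 2 ≤ Real.exp (2 * β * |x|) := by
    have : Real.exp (2 * β * |x|) = Real.exp (β * |x|) ^ 2 := by
      rw [← Real.exp_nat_mul]; congr 1; push_cast; ring
    rw [this]
    exact pow_le_pow_left₀ (Real.cosh_pos _).le h1 2
  rw [Real.exp_neg, ← one_div]
  exact one_div_le_one_div_of_le (by positivity) h2

theorem PhiL_lowA {β : ℝ} (hβ : 0 < β) : ∀ {l : List (ℝ × ℝ)}, Adm β l →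
    LowA (2 * β) (deriv (deriv (PhiL β l)))
  | [], _ => phi0_lowA hβ
  | _ :: l, h => LowA.step (by positivity) (PhiL_prof hβ l) (PhiL_lowA hβ h.2.2.2) h.1.le _

theorem PhiT_lowA {β : ℝ} (hβ : 0 < β) : ∀ {l : List (ℝ × ℝ)}, Adm β l → ∀ t,
    LowA (2 * β) (deriv (deriv (PhiT β l t)))
  | [], _, _ => phi0_lowA hβ
  | p :: l, h, t => by
    unfold PhiT
    split_ifs
    · exact LowA.step (by positivity) (PhiL_prof hβ l) (PhiL_lowA hβ h.2.2.2) h.1.le _
    · exact PhiT_lowA hβ h.2.2.2 _

/-- the third derivative is bounded by `2β` times the second -/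
theorem third_le {β m : ℝ} (hβ : 0 < β) (hm : 0 < m) {Φ : ℝ → ℝ} (h : Inv β m Φ)
    (hl : LowA (2 * β) (deriv (deriv Φ))) (x : ℝ) :
    |deriv (deriv (deriv Φ)) x| ≤ 2 * β * deriv (deriv Φ) x := by
  have h2pos := h.low.pos
  have hbd := h.prof.bd
  have odd1 : ∀ x, deriv Φ (-x) = -deriv Φ x := h.odd
  have even2 : ∀ x, deriv (deriv Φ) (-x) = deriv (deriv Φ) x := deriv_neg_of_odd odd1
  have odd3 : ∀ x, deriv (deriv (deriv Φ)) (-x) = -deriv (deriv (deriv Φ)) x :=
    deriv_neg_of_even even2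
  -- it is enough to treat `x ≥ 0`
  suffices key : ∀ x, 0 ≤ x → |deriv (deriv (deriv Φ)) x| ≤ 2 * β * deriv (deriv Φ) x by
    rcases le_total 0 x with hx | hx
    · exact key x hx
    · have := key (-x) (by linarith)
      rwa [odd3, abs_neg, even2] at this
  intro x0 hx0
  set b : ℝ → ℝ := fun x => -(deriv (deriv (deriv Φ)) x / deriv (deriv Φ) x) with hb
  have hbm : ∀ x y, x ≤ y → b x - 2 * m * deriv Φ x ≤ b y - 2 * m * deriv Φ y := by
    intro x y hxy
    have := h.p1 hxy
    simp only at this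
    simp only [hb]
    linarith
  have hb0 : b 0 = 0 := by
    have : deriv (deriv (deriv Φ)) 0 = 0 := by
      have := odd3 0
      rw [neg_zero] at this
      linarith
    simp only [hb, this, zero_div, neg_zero]
  have hbnn : ∀ x, 0 ≤ x → 0 ≤ b x := by
    intro x hx
    have h1 := hbm 0 x hx
    rw [hb0, h.d0] at h1
    have h2 := h.nonneg hx
    have : 0 ≤ 2 * m * deriv Φ x := by positivity
    linarith
  have hbmono : ∀ x y, x ≤ y → b x ≤ b y := by
    intro x y hxy
    have h1 := hbm x y hxy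
    have h2 := h.strictMono.monotone hxy
    have : 2 * m * deriv Φ x ≤ 2 * m * deriv Φ y := by gcongr
    linarith
  have h3 : ∀ x, deriv (deriv (deriv Φ)) x = -(b x) * deriv (deriv Φ) x := by
    intro x
    simp only [hb]
    have := (h2pos x).ne'
    field_simp
  have hle : b x0 ≤ 2 * β := by
    by_contra hcon
    push Not at hcon
    obtain ⟨c, hc, hlow⟩ := hl
    set b0 := b x0 with hb0'
    -- Φ'' e^{b0 x} is nonincreasing on [x0, ∞)
    have hder : ∀ x, HasDerivAt (fun x => deriv (deriv Φ) x * Real.exp (b0 * x))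
        ((b0 - b x) * deriv (deriv Φ) x * Real.exp (b0 * x)) x := by
      intro x
      have d1 := hbd.deriv.hasDerivAt x
      have d2 : HasDerivAt (fun x : ℝ => Real.exp (b0 * x)) (Real.exp (b0 * x) * b0) x := by
        have := ((hasDerivAt_id x).const_mul b0).exp
        simpa using this
      refine (d1.fun_mul d2).congr_deriv ?_
      rw [h3]
      ring
    have hanti : AntitoneOn (fun x => deriv (deriv Φ) x * Real.exp (b0 * x)) (Set.Ici x0) := by
      apply antitoneOn_of_deriv_nonpos (convex_Ici x0)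
      · exact fun x _ => (hder x).continuousAt.continuousWithinAt
      · exact fun x _ => (hder x).differentiableAt.differentiableWithinAt
      · intro x hx
        rw [interior_Ici] at hx
        rw [(hder x).deriv]
        have h5 : b0 ≤ b x := hbmono x0 x (le_of_lt hx)
        have h6 := (h2pos x)
        have h7 := Real.exp_pos (b0 * x)
        have : (b0 - b x) ≤ 0 := by linarith
        exact mul_nonpos_of_nonpos_of_nonneg
          (mul_nonpos_of_nonpos_of_nonneg this h6.le) h7.le
    set M0 := deriv (deriv Φ) x0 * Real.exp (b0 * x0) with hM0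
    have hbound : ∀ x, x0 ≤ x → c * Real.exp ((b0 - 2 * β) * x) ≤ M0 := by
      intro x hx
      have h5 := hanti (Set.mem_Ici.2 le_rfl) (Set.mem_Ici.2 hx) hx
      simp only at h5
      have h6 := hlow x
      have hx' : 0 ≤ x := hx0.trans hx
      rw [abs_of_nonneg hx'] at h6
      have h7 := mul_le_mul_of_nonneg_right h6 (Real.exp_pos (b0 * x)).le
      rw [mul_assoc, ← Real.exp_add] at h7
      have e : -(2 * β * x) + b0 * x = (b0 - 2 * β) * x := by ring
      rw [e] at h7
      exact h7.trans h5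
    have hk : 0 < b0 - 2 * β := by linarith
    -- take x large
    have h8 := hbound (max x0 (M0 / (c * (b0 - 2 * β)))) (le_max_left _ _)
    have h9 : M0 / (c * (b0 - 2 * β)) ≤ max x0 (M0 / (c * (b0 - 2 * β))) := le_max_right _ _
    set X := max x0 (M0 / (c * (b0 - 2 * β))) with hX
    have h10 := Real.add_one_le_exp ((b0 - 2 * β) * X)
    have h11 : M0 ≤ c * ((b0 - 2 * β) * X) := by
      rw [div_le_iff₀ (by positivity)] at h9
      linarith
    have h12 : c * ((b0 - 2 * β) * X + 1) ≤ c * Real.exp ((b0 - 2 * β) * X) := by gcongr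
    nlinarith
  rw [h3, abs_mul, abs_neg, abs_of_nonneg (hbnn x0 hx0), abs_of_pos (h2pos x0)]
  exact mul_le_mul_of_nonneg_right hle (h2pos x0).le

/-- uniform bounds along the list -/
theorem PhiT_third {β : ℝ} (hβ : 0 < β) {l : List (ℝ × ℝ)} (hl : Adm β l) (t x : ℝ) :
    |deriv (deriv (deriv (PhiT β l t))) x| ≤ 2 * β ^ 2 := by
  obtain ⟨m, hm, _, hI⟩ := PhiT_inv hβ hl t
  have h1 := third_le hβ hm hI (PhiT_lowA hβ hl t) x
  have h2 := (abs_le.1 ((d2_BC hβ hI).bd x)).2
  have h3 : 2 * β * deriv (deriv (PhiT β l t)) x ≤ 2 * β * β := by gcongr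
  calc _ ≤ _ := h1
    _ ≤ _ := h3
    _ = _ := by ring

theorem PhiT_second_lip {β : ℝ} (hβ : 0 < β) {l : List (ℝ × ℝ)} (hl : Adm β l) (t x y : ℝ) :
    |deriv (deriv (PhiT β l t)) x - deriv (deriv (PhiT β l t)) y| ≤ 2 * β ^ 2 * |x - y| := by
  obtain ⟨m, hm, _, hI⟩ := PhiT_inv hβ hl t
  have h1 := Convex.norm_image_sub_le_of_norm_hasDerivWithin_le
    (f := deriv (deriv (PhiT β l t))) (f' := deriv (deriv (deriv (PhiT β l t))))
    (C := 2 * β ^ 2) (s := Set.univ)
    (fun x _ => (hI.prof.bd.deriv.hasDerivAt x).hasDerivWithinAt)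
    (fun x _ => PhiT_third hβ hl t x) convex_univ (Set.mem_univ y) (Set.mem_univ x)
  simpa [Real.norm_eq_abs] using h1

end

end Crest.Agent.R339.Ref
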