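/-
helper55, row 339 (S0530): Lipschitz continuity in time of `E Φ_xx²`, monotonicity of `E Φ_xx`,
the refined schedule and its identification with the tilted expectations `EX`.
-/
import Crest.Agent.R339.Refine55A
import Crest.Agent.R339.D3Chain

set_option autoImplicit false

namespace Crest.Agent.R339.Ref

open MeasureTheory ProbabilityTheory Filter Topology Set
open scoped Interval
open Crest.Agent.R164.GC hiding Adm
open Crest.Agent.R339.B Crest.Agent.R339.Var Crest.Agent.R339.V4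
open Crest.ProbabilityR.InvariantGlass (gaussOp)

noncomputable section

/-! ### values at the junctions -/

theorem PhiT_zero {β : ℝ} {l : List (ℝ × ℝ)} (hl : ∀ q ∈ l, 0 < q.1 ∧ 0 ≤ q.2) :
    PhiT β l 0 = PhiL β l := by
  cases l with
  | nil => rfl
  | cons q l =>
    have hq := hl q (by simp)
    unfold PhiT
    rw [if_pos hq.2, sub_zero]
    rfl

theorem EX_zero {β : ℝ} {l : List (ℝ × ℝ)} (hl : ∀ q ∈ l, 0 < q.1 ∧ 0 ≤ q.2) (F : ℝ → ℝ) :
    EX β l 0 F = F := by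
  cases l with
  | nil => rfl
  | cons q l =>
    have hq := hl q (by simp)
    unfold EX
    rw [if_pos hq.2, tE_v0]

theorem PhiT_le {β : ℝ} {p : ℝ × ℝ} {l : List (ℝ × ℝ)} {t : ℝ} (h : t ≤ p.2) :
    PhiT β (p :: l) t = gaussOp p.1 (p.2 - t) (PhiL β l) := by
  unfold PhiT; rw [if_pos h]

theorem EX_le {β : ℝ} {p : ℝ × ℝ} {l : List (ℝ × ℝ)} {t : ℝ} (h : t ≤ p.2) (F : ℝ → ℝ) :
    EX β (p :: l) t F = tE p.1 t (gaussOp p.1 (p.2 - t) (PhiL β l)) F := by
  unfold EX; rw [if_pos h]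

theorem PhiT_ge {β : ℝ} {p : ℝ × ℝ} {l : List (ℝ × ℝ)} (hp : 0 < p.1)
    (hl : ∀ q ∈ l, 0 < q.1 ∧ 0 ≤ q.2) {t : ℝ} (h : p.2 ≤ t) :
    PhiT β (p :: l) t = PhiT β l (t - p.2) := by
  rcases h.eq_or_lt with rfl | h
  · rw [PhiT_le le_rfl, sub_self, gaussOp_v0 hp.ne', PhiT_zero hl]
  · conv_lhs => unfold PhiT
    rw [if_neg (not_le.2 h)]

theorem EX_ge {β : ℝ} {p : ℝ × ℝ} {l : List (ℝ × ℝ)} (hp : 0 < p.1)
    (hl : ∀ q ∈ l, 0 < q.1 ∧ 0 ≤ q.2) {t : ℝ} (h : p.2 ≤ t) (F : ℝ → ℝ) :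
    EX β (p :: l) t F = tE p.1 p.2 (PhiL β l) (EX β l (t - p.2) F) := by
  rcases h.eq_or_lt with rfl | h
  · rw [EX_le le_rfl, sub_self, gaussOp_v0 hp.ne', EX_zero hl]
  · conv_lhs => unfold EX
    rw [if_neg (not_le.2 h)]

theorem adm_both {β : ℝ} {l : List (ℝ × ℝ)} (h : Adm β l) : ∀ q ∈ l, 0 < q.1 ∧ 0 ≤ q.2 :=
  fun q hq => ⟨V4.Adm.pos h q hq, V4.Adm.len_nonneg h q hq⟩

/-! ### one block -/

theorem blk_lip {β m : ℝ} (hβ : 0 < β) (hm : 0 < m) (hmβ : m ≤ β) {Φ : ℝ → ℝ} (h : Inv β m Φ)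
    (hl : LowA (2 * β) (deriv (deriv Φ))) {d : ℝ} (hd : 0 ≤ d) (x : ℝ) :
    |tE m d Φ (fun y => deriv (deriv Φ) y ^ 2) x - deriv (deriv (gaussOp m d Φ)) x ^ 2| ≤
      4 * β ^ 4 * d := by
  have hp := h.prof
  have hm0 := hm.ne'
  set F : ℝ → ℝ → ℝ := fun v y => U Φ m 2 v y ^ 2 with hF
  set LF : ℝ → ℝ → ℝ := fun v y => U Φ m 3 v y ^ 2 - 2 * m * U Φ m 2 v y ^ 3 with hLF
  have tb := tb_U2sq hp hm0
  have hν := EM.dirac x
  have hcF : Continuous (EE Φ m d (Measure.dirac x) F) := EE_cont hp m tb.ug hν d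
  have hcL : Continuous (EE Φ m d (Measure.dirac x) LF) := EE_cont hp m (tb.ugL hp) hν d
  have hW : 0 < Wk Φ m 0 d x := Wk_pos hp m d x
  have key : ∫ s in (0:ℝ)..d, EE Φ m d (Measure.dirac x) LF s =
      EE Φ m d (Measure.dirac x) F d - EE Φ m d (Measure.dirac x) F 0 :=
    intervalIntegral.integral_eq_sub_of_hasDerivAt_of_le hd hcF.continuousOn
      (fun s hs => EE_deriv hp m tb hν hs.1 hs.2) (hcL.intervalIntegrable _ _)
  have e1 : EE Φ m d (Measure.dirac x) F d =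
      tE m d Φ (fun y => deriv (deriv Φ) y ^ 2) x * Wk Φ m 0 d x := by
    rw [EE_dirac hp hm0 hd le_rfl, sub_self, gaussOp_v0 hm0]
    congr 2
    funext y
    rw [hF]
    simp only
    rw [U_two, gaussOp_v0 hm0]
  have e0 : EE Φ m d (Measure.dirac x) F 0 =
      (deriv (deriv (gaussOp m d Φ)) x ^ 2) * Wk Φ m 0 d x := by
    rw [EE_dirac hp hm0 le_rfl hd, sub_zero, tE_v0]
    simp only [hF]
    rw [U_two]
  have hbound : ∀ s ∈ Ι (0:ℝ) d, ‖EE Φ m d (Measure.dirac x) LF s‖ ≤ 4 * β ^ 4 * Wk Φ m 0 d x := by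
    intro s hs
    rw [uIoc_of_le hd] at hs
    rw [EE_dirac hp hm0 hs.1.le hs.2, Real.norm_eq_abs, abs_mul, abs_of_pos hW]
    refine mul_le_mul_of_nonneg_right ?_ hW.le
    have hI : Inv β m (gaussOp m (d - s) Φ) := h.step hm hmβ _
    have hL : LowA (2 * β) (deriv (deriv (gaussOp m (d - s) Φ))) :=
      LowA.step (by positivity) hp hl hm.le _
    have hbc : BC (LF (d - s)) (4 * β ^ 4) := by
      refine ⟨?_, fun y => ?_⟩
      · have c3 : Continuous (U Φ m 3 (d - s)) := (U_bd hp (m := m) 2 (d - s)).cont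
        have c2 : Continuous (U Φ m 2 (d - s)) := (U_bd hp (m := m) 1 (d - s)).cont
        simp only [hLF]
        fun_prop
      · simp only [hLF]
        rw [U_three, U_two]
        have h3 := third_le hβ hm hI hL y
        have h2 := hI.low.pos y
        have h2' := (abs_le.1 ((d2_BC hβ hI).bd y)).2
        set u2 := deriv (deriv (gaussOp m (d - s) Φ)) y
        set u3 := deriv (deriv (deriv (gaussOp m (d - s) Φ))) y
        have h4 : |u3| ≤ 2 * β ^ 2 := by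
          calc |u3| ≤ 2 * β * u2 := h3
            _ ≤ 2 * β * β := by gcongr
            _ = 2 * β ^ 2 := by ring
        have h5 : u3 ^ 2 ≤ 4 * β ^ 4 := by
          have : u3 ^ 2 = |u3| ^ 2 := (sq_abs _).symm
          rw [this]
          calc |u3| ^ 2 ≤ (2 * β ^ 2) ^ 2 := pow_le_pow_left₀ (abs_nonneg _) h4 2
            _ = 4 * β ^ 4 := by ring
        have h6 : 2 * m * u2 ^ 3 ≤ 2 * β ^ 4 := by
          calc 2 * m * u2 ^ 3 ≤ 2 * β * β ^ 3 := by gcongr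
            _ = 2 * β ^ 4 := by ring
        have h7 : 0 ≤ 2 * m * u2 ^ 3 := by positivity
        have h8 := sq_nonneg u3
        have h9 : 0 ≤ β ^ 4 := by positivity
        rw [abs_le]
        constructor <;> linarith
    exact tE_abs_le hI.prof.lip m s hbc x
  have hnorm := intervalIntegral.norm_integral_le_of_norm_le_const hbound
  rw [key, e1, e0, ← sub_mul, Real.norm_eq_abs, abs_mul, abs_of_pos hW, sub_zero,
    abs_of_nonneg hd] at hnorm
  have : 4 * β ^ 4 * Wk Φ m 0 d x * d = (4 * β ^ 4 * d) * Wk Φ m 0 d x := by ring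
  rw [this] at hnorm
  exact le_of_mul_le_mul_right hnorm hW

theorem blk_anti {m : ℝ} (hm : 0 ≤ m) {Φ : ℝ → ℝ} (h : Prof Φ) (d x : ℝ) :
    tE m d Φ (deriv (deriv Φ)) x ≤ deriv (deriv (gaussOp m d Φ)) x := by
  rw [h.gaussOp_deriv2]
  have := mul_nonneg hm (var_nonneg h.lip m d h.bd.eg x)
  simp only
  linarith

/-! ### along the list -/

theorem gg_le {β : ℝ} {p : ℝ × ℝ} {l : List (ℝ × ℝ)} {t : ℝ} (h : t ≤ p.2) (x : ℝ) :
    gg β (p :: l) t x = tE p.1 t (gaussOp p.1 (p.2 - t) (PhiL β l))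
      (fun y => deriv (deriv (gaussOp p.1 (p.2 - t) (PhiL β l))) y ^ 2) x := by
  unfold gg
  rw [EX_le h, PhiT_le h]

theorem gg_ge {β : ℝ} {p : ℝ × ℝ} {l : List (ℝ × ℝ)} (hp : 0 < p.1)
    (hl : ∀ q ∈ l, 0 < q.1 ∧ 0 ≤ q.2) {t : ℝ} (h : p.2 ≤ t) (x : ℝ) :
    gg β (p :: l) t x = tE p.1 p.2 (PhiL β l) (gg β l (t - p.2)) x := by
  unfold gg
  rw [EX_ge hp hl h, PhiT_ge hp hl h]

theorem XX_le {β : ℝ} {p : ℝ × ℝ} {l : List (ℝ × ℝ)} {t : ℝ} (h : t ≤ p.2) (x : ℝ) :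
    XX β (p :: l) t x = tE p.1 t (gaussOp p.1 (p.2 - t) (PhiL β l))
      (deriv (deriv (gaussOp p.1 (p.2 - t) (PhiL β l)))) x := by
  unfold XX
  rw [EX_le h, PhiT_le h]

theorem XX_ge {β : ℝ} {p : ℝ × ℝ} {l : List (ℝ × ℝ)} (hp : 0 < p.1)
    (hl : ∀ q ∈ l, 0 < q.1 ∧ 0 ≤ q.2) {t : ℝ} (h : p.2 ≤ t) (x : ℝ) :
    XX β (p :: l) t x = tE p.1 p.2 (PhiL β l) (XX β l (t - p.2)) x := by
  unfold XX
  rw [EX_ge hp hl h, PhiT_ge hp hl h]

/-- **`E Φ_xx²` is Lipschitz in time**, with a constant depending on `β` only -/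
theorem gg_lip_le {β : ℝ} (hβ : 0 < β) : ∀ {l : List (ℝ × ℝ)}, Adm β l → ∀ {t t' : ℝ}, 0 ≤ t →
    t ≤ t' → ∀ x, |gg β l t' x - gg β l t x| ≤ 4 * β ^ 4 * (t' - t)
  | [], _, t, t', _, htt, x => by
    have e : gg β [] t' x - gg β [] t x = 0 := by
      unfold gg EX PhiT
      exact sub_self _
    rw [e, abs_zero]
    have : 0 ≤ t' - t := by linarith
    positivity
  | p :: l, hA, t, t', ht, htt, x => by
    have hmβ : p.1 ≤ β := hA.2.1.trans hA.2.2.2.head_le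
    have hInv : Inv β p.1 (PhiL β l) := (PhiL_inv hβ hA.2.2.2).mono hA.2.1
    have hLow := PhiL_lowA hβ hA.2.2.2
    have hprof := PhiL_prof hβ l
    have hb := adm_both hA.2.2.2
    -- both in the first block
    have hblock : ∀ {s s' : ℝ}, 0 ≤ s → s ≤ s' → s' ≤ p.2 →
        |gg β (p :: l) s' x - gg β (p :: l) s x| ≤ 4 * β ^ 4 * (s' - s) := by
      intro s s' hs hss hs'
      set f := gaussOp p.1 (p.2 - s') (PhiL β l) with hf
      have hIf : Inv β p.1 f := hInv.step hA.1 hmβ _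
      have hLf : LowA (2 * β) (deriv (deriv f)) := LowA.step (by positivity) hprof hLow hA.1.le _
      have e1 : gaussOp p.1 (p.2 - s) (PhiL β l) = gaussOp p.1 (s' - s) f := by
        rw [hf, ← gaussOp_semi hprof hA.1.ne' (by linarith) (by linarith)]
        congr 1
        ring
      rw [gg_le hs', gg_le (hss.trans hs'), ← hf, e1]
      have e2 : tE p.1 s' f (fun y => deriv (deriv f) y ^ 2) =
          tE p.1 s (gaussOp p.1 (s' - s) f)
            (tE p.1 (s' - s) f (fun y => deriv (deriv f) y ^ 2)) := by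
        rw [← tE_semi hIf.prof hA.1.ne' hs (by linarith) ((d2_BC hβ hIf).pow 2).eg]
        congr 1
        ring
      rw [e2]
      have hI' : Inv β p.1 (gaussOp p.1 (s' - s) f) := hIf.step hA.1 hmβ _
      have hb1 : BC (tE p.1 (s' - s) f (fun y => deriv (deriv f) y ^ 2)) (β ^ 2) :=
        tE_BC hIf.prof.lip _ _ ((d2_BC hβ hIf).pow 2)
      have hb2 := (d2_BC hβ hI').pow 2
      rw [← tE_sub hI'.prof.lip _ _ hb1.eg hb2.eg]
      have hbc : BC (fun y => tE p.1 (s' - s) f (fun y => deriv (deriv f) y ^ 2) y -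
          deriv (deriv (gaussOp p.1 (s' - s) f)) y ^ 2) (4 * β ^ 4 * (s' - s)) :=
        ⟨hb1.cont.sub hb2.cont, fun y => blk_lip hβ hA.1 hmβ hIf hLf (by linarith) y⟩
      exact tE_abs_le hI'.prof.lip _ _ hbc x
    have hrest : ∀ {s s' : ℝ}, p.2 ≤ s → s ≤ s' →
        |gg β (p :: l) s' x - gg β (p :: l) s x| ≤ 4 * β ^ 4 * (s' - s) := by
      intro s s' hs hss
      rw [gg_ge hA.1 hb (hs.trans hss), gg_ge hA.1 hb hs]
      have b1 := gg_BC hβ hA.2.2.2 (s' - p.2)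
      have b2 := gg_BC hβ hA.2.2.2 (s - p.2)
      rw [← tE_sub hprof.lip _ _ b1.eg b2.eg]
      have hbc : BC (fun y => gg β l (s' - p.2) y - gg β l (s - p.2) y) (4 * β ^ 4 * (s' - s)) := by
        refine ⟨b1.cont.sub b2.cont, fun y => ?_⟩
        have := gg_lip_le hβ hA.2.2.2 (t := s - p.2) (t' := s' - p.2) (by linarith) (by linarith) y
        have e : s' - p.2 - (s - p.2) = s' - s := by ring
        rwa [e] at this
      exact tE_abs_le hprof.lip _ _ hbc x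
    rcases le_total t' p.2 with h1 | h1
    · exact hblock ht htt h1
    · rcases le_total p.2 t with h2 | h2
      · exact hrest h2 htt
      · have h3 := hblock ht h2 le_rfl
        have h4 := hrest le_rfl h1
        have h5 := abs_sub_le (gg β (p :: l) t' x) (gg β (p :: l) p.2 x) (gg β (p :: l) t x)
        linarith

theorem gg_lip {β : ℝ} (hβ : 0 < β) {l : List (ℝ × ℝ)} (hA : Adm β l) {t t' : ℝ} (ht : 0 ≤ t)
    (ht' : 0 ≤ t') (x : ℝ) : |gg β l t x - gg β l t' x| ≤ 4 * β ^ 4 * |t - t'| := by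
  rcases le_total t t' with h | h
  · rw [abs_sub_comm, abs_sub_comm t t', abs_of_nonneg (by linarith : 0 ≤ t' - t)]
    exact gg_lip_le hβ hA ht h x
  · rw [abs_of_nonneg (by linarith : 0 ≤ t - t')]
    exact gg_lip_le hβ hA ht' h x

/-- **`E Φ_xx` is nonincreasing in time** -/
theorem XX_anti {β : ℝ} (hβ : 0 < β) : ∀ {l : List (ℝ × ℝ)}, Adm β l → ∀ {t t' : ℝ}, 0 ≤ t →
    t ≤ t' → ∀ x, XX β l t' x ≤ XX β l t x
  | [], _, t, t', _, htt, x => by
    unfold XX EX PhiT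
    exact le_rfl
  | p :: l, hA, t, t', ht, htt, x => by
    have hmβ : p.1 ≤ β := hA.2.1.trans hA.2.2.2.head_le
    have hInv : Inv β p.1 (PhiL β l) := (PhiL_inv hβ hA.2.2.2).mono hA.2.1
    have hprof := PhiL_prof hβ l
    have hb := adm_both hA.2.2.2
    have hblock : ∀ {s s' : ℝ}, 0 ≤ s → s ≤ s' → s' ≤ p.2 →
        XX β (p :: l) s' x ≤ XX β (p :: l) s x := by
      intro s s' hs hss hs'
      set f := gaussOp p.1 (p.2 - s') (PhiL β l) with hf
      have hIf : Inv β p.1 f := hInv.step hA.1 hmβ _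
      have e1 : gaussOp p.1 (p.2 - s) (PhiL β l) = gaussOp p.1 (s' - s) f := by
        rw [hf, ← gaussOp_semi hprof hA.1.ne' (by linarith) (by linarith)]
        congr 1
        ring
      rw [XX_le hs', XX_le (hss.trans hs'), ← hf, e1]
      have e2 : tE p.1 s' f (deriv (deriv f)) =
          tE p.1 s (gaussOp p.1 (s' - s) f) (tE p.1 (s' - s) f (deriv (deriv f))) := by
        rw [← tE_semi hIf.prof hA.1.ne' hs (by linarith) (d2_BC hβ hIf).eg]
        congr 1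
        ring
      rw [e2]
      have hI' : Inv β p.1 (gaussOp p.1 (s' - s) f) := hIf.step hA.1 hmβ _
      have hb1 : BC (tE p.1 (s' - s) f (deriv (deriv f))) β :=
        tE_BC hIf.prof.lip _ _ (d2_BC hβ hIf)
      exact tE_mono hI'.prof.lip _ _ hb1.eg (d2_BC hβ hI').eg
        (fun y => blk_anti hA.1.le hIf.prof _ y) x
    have hrest : ∀ {s s' : ℝ}, p.2 ≤ s → s ≤ s' → XX β (p :: l) s' x ≤ XX β (p :: l) s x := by
      intro s s' hs hss
      rw [XX_ge hA.1 hb (hs.trans hss), XX_ge hA.1 hb hs]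
      exact tE_mono hprof.lip _ _ (XX_BC hβ hA.2.2.2 _).eg (XX_BC hβ hA.2.2.2 _).eg
        (fun y => XX_anti hβ hA.2.2.2 (by linarith) (by linarith) y) x
    rcases le_total t' p.2 with h1 | h1
    · exact hblock ht htt h1
    · rcases le_total p.2 t with h2 | h2
      · exact hrest h2 htt
      · exact (hrest le_rfl h1).trans (hblock ht h2 le_rfl)

/-- comparison with the left Riemann sum -/
theorem XX_riemann {β : ℝ} (hβ : 0 < β) {l : List (ℝ × ℝ)} (hA : Adm β l) {d : ℝ} (hd : 0 ≤ d)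
    (x : ℝ) : ∀ R : ℕ, ∫ s in (0:ℝ)..(R:ℝ) * d, XX β l s x ≤
      d * ∑ r ∈ Finset.range R, XX β l ((r:ℝ) * d) x
  | 0 => by simp
  | R + 1 => by
    have ih := XX_riemann hβ hA hd x R
    have hR : (0:ℝ) ≤ (R:ℝ) * d := by positivity
    have hle : (R:ℝ) * d ≤ ((R + 1 : ℕ) : ℝ) * d := by
      push_cast; nlinarith
    rw [← intervalIntegral.integral_add_adjacent_intervals (XX_ii hβ hA x 0 ((R:ℝ) * d))
      (XX_ii hβ hA x ((R:ℝ) * d) (((R + 1 : ℕ) : ℝ) * d)), Finset.sum_range_succ, mul_add]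
    refine add_le_add ih ?_
    have h1 : ∫ s in ((R:ℝ) * d)..(((R + 1 : ℕ) : ℝ) * d), XX β l s x ≤
        ∫ s in ((R:ℝ) * d)..(((R + 1 : ℕ) : ℝ) * d), XX β l ((R:ℝ) * d) x := by
      apply intervalIntegral.integral_mono_on hle (XX_ii hβ hA x _ _) (by simp)
      intro s hs
      exact XX_anti hβ hA hR hs.1 x
    refine h1.trans ?_
    rw [intervalIntegral.integral_const, smul_eq_mul]
    push_cast
    have : ((R:ℝ) + 1) * d - (R:ℝ) * d = d := by ring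
    rw [this]

/-! ### sub-blocks -/

/-- `[t, t+d]` lies in one block of level `μ` -/
def InBlk : List (ℝ × ℝ) → ℝ → ℝ → ℝ → Prop
  | [], _, _, _ => False
  | p :: l, t, d, μ => (t + d ≤ p.2 ∧ μ = p.1) ∨ (p.2 ≤ t ∧ InBlk l (t - p.2) d μ)

theorem InBlk.pos {β : ℝ} : ∀ {l : List (ℝ × ℝ)} {t d μ : ℝ}, InBlk l t d μ → Adm β l →
    0 < μ ∧ μ ≤ β
  | [], _, _, _, h, _ => h.elim
  | p :: l, t, d, μ, h, hA => by
    rcases h with ⟨_, rfl⟩ | ⟨_, h⟩
    · exact ⟨hA.1, hA.2.1.trans hA.2.2.2.head_le⟩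
    · exact h.pos hA.2.2.2

theorem PhiT_blk {β : ℝ} (hβ : 0 < β) : ∀ {l : List (ℝ × ℝ)} {t d μ : ℝ}, Adm β l → 0 ≤ t → 0 ≤ d →
    InBlk l t d μ → PhiT β l t = gaussOp μ d (PhiT β l (t + d))
  | [], _, _, _, _, _, _, h => h.elim
  | p :: l, t, d, μ, hA, ht, hd, h => by
    rcases h with ⟨h1, rfl⟩ | ⟨h1, h2⟩
    · rw [PhiT_le (by linarith), PhiT_le h1,
        ← gaussOp_semi (PhiL_prof hβ l) hA.1.ne' hd (by linarith)]
      congr 1
      ring
    · have hb := adm_both hA.2.2.2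
      rw [PhiT_ge hA.1 hb h1, PhiT_ge hA.1 hb (by linarith),
        PhiT_blk hβ hA.2.2.2 (by linarith) hd h2]
      congr 2
      ring

theorem EX_blk {β : ℝ} (hβ : 0 < β) : ∀ {l : List (ℝ × ℝ)} {t d μ : ℝ}, Adm β l → 0 ≤ t → 0 ≤ d →
    InBlk l t d μ → ∀ {F : ℝ → ℝ}, EG F →
    EX β l (t + d) F = EX β l t (tE μ d (PhiT β l (t + d)) F)
  | [], _, _, _, _, _, _, h, _, _ => h.elim
  | p :: l, t, d, μ, hA, ht, hd, h, F, hF => by
    rcases h with ⟨h1, rfl⟩ | ⟨h1, h2⟩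
    · have hprof := PhiL_prof hβ l
      rw [EX_le h1, EX_le (by linarith), PhiT_le h1,
        tE_semi (hprof.step p.1 (p.2 - (t + d))) hA.1.ne' ht hd hF,
        ← gaussOp_semi hprof hA.1.ne' hd (by linarith)]
      have e : d + (p.2 - (t + d)) = p.2 - t := by ring
      rw [e]
    · have hb := adm_both hA.2.2.2
      have e : t + d - p.2 = t - p.2 + d := by ring
      rw [EX_ge hA.1 hb h1, EX_ge hA.1 hb (by linarith), PhiT_ge hA.1 hb (by linarith), e,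
        EX_blk hβ hA.2.2.2 (by linarith) hd h2 hF]

theorem ofFn_blk {D d s : ℝ} (hs : 0 ≤ s) (hsd : s + d ≤ D) (hD : 0 ≤ D) : ∀ {K : ℕ}
    (m : Fin K → ℝ) (k : Fin K), InBlk (List.ofFn fun k => (m k, D)) ((k:ℕ) * D + s) d (m k)
  | 0, _, k => k.elim0
  | K + 1, m, k => by
    rw [List.ofFn_succ]
    refine Fin.cases ?_ (fun j => ?_) k
    · left
      constructor
      · simp only [Fin.val_zero, Nat.cast_zero]
        linarith
      · rfl
    · right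
      have e : ((j.succ : Fin (K + 1)) : ℕ) * D + s - D = (j : ℕ) * D + s := by
        rw [Fin.val_succ]; push_cast; ring
      refine ⟨?_, ?_⟩
      · show D ≤ _
        rw [Fin.val_succ]
        push_cast
        have : (0:ℝ) ≤ (j:ℕ) := Nat.cast_nonneg _
        nlinarith
      · show InBlk _ (((j.succ : Fin (K + 1)) : ℕ) * D + s - D) d _
        rw [e]
        exact ofFn_blk hs hsd hD (fun k => m k.succ) j

/-- the level at the refined step `r` -/
def mm {K : ℕ} (β : ℝ) (m : Fin K → ℝ) (N r : ℕ) : ℝ := if h : r / N < K then m ⟨r / N, h⟩ else β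

theorem grid_blk {K N : ℕ} (hN : 0 < N) {β : ℝ} (m : Fin K → ℝ) {r : ℕ} (hr : r < K * N) :
    InBlk (grid m) ((r:ℝ) * (1 / ((K:ℝ) * N))) (1 / ((K:ℝ) * N)) (mm β m N r) := by
  have hK : 0 < K := by
    rcases Nat.eq_zero_or_pos K with h | h
    · subst h; simp at hr
    · exact h
  have hK' : (0:ℝ) < K := by exact_mod_cast hK
  have hN' : (0:ℝ) < N := by exact_mod_cast hN
  have hdiv : r / N < K := (Nat.div_lt_iff_lt_mul hN).2 hr
  unfold mm
  rw [dif_pos hdiv]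
  have hmod : r % N < N := Nat.mod_lt _ hN
  have hcast : (r:ℝ) = (N:ℝ) * ((r / N : ℕ) : ℝ) + ((r % N : ℕ) : ℝ) := by
    exact_mod_cast (Nat.div_add_mod r N).symm
  have e : (r:ℝ) * (1 / ((K:ℝ) * N)) =
      (((⟨r / N, hdiv⟩ : Fin K) : ℕ) : ℝ) * (1 / (K:ℝ)) + ((r % N : ℕ) : ℝ) * (1 / ((K:ℝ) * N)) := by
    show _ = ((r / N : ℕ) : ℝ) * (1 / (K:ℝ)) + _
    conv_lhs => rw [hcast]
    field_simp
  rw [e]
  refine ofFn_blk (by positivity) ?_ (by positivity) m ⟨r / N, hdiv⟩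
  have h1 : ((r % N : ℕ) : ℝ) + 1 ≤ N := by exact_mod_cast hmod
  have h2 : ((r % N : ℕ) : ℝ) * (1 / ((K:ℝ) * N)) + 1 / ((K:ℝ) * N) =
      (((r % N : ℕ) : ℝ) + 1) * (1 / ((K:ℝ) * N)) := by ring
  rw [h2]
  calc (((r % N : ℕ) : ℝ) + 1) * (1 / ((K:ℝ) * N)) ≤ (N:ℝ) * (1 / ((K:ℝ) * N)) := by gcongr
    _ = 1 / (K:ℝ) := by field_simp

/-- the refined profile -/
def fr {K : ℕ} (β : ℝ) (m : Fin K → ℝ) (N r : ℕ) : ℝ → ℝ :=
  PhiT β (grid m) ((r:ℝ) * (1 / ((K:ℝ) * N)))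

/-- the constant of the schedule -/
def CC (β : ℝ) : ℝ := max β (2 * β ^ 2)

theorem fr_sm {K : ℕ} {β : ℝ} (hβ : 0 < β) {m : Fin K → ℝ} (hA : Adm β (grid m)) (N r : ℕ) :
    Sm (fr β m N r) (deriv (fr β m N r)) (deriv (deriv (fr β m N r))) (CC β) := by
  obtain ⟨μ, _, _, hI⟩ := PhiT_inv hβ hA ((r:ℝ) * (1 / ((K:ℝ) * N)))
  exact ⟨hI.prof.d1, hI.prof.bd.hasDerivAt, hI.prof.bd.deriv.cont, hI.prof.b1,
    fun x => ((d2_BC hβ hI).bd x).trans (le_max_left _ _)⟩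

theorem fr_succ {K : ℕ} {β : ℝ} (hβ : 0 < β) {m : Fin K → ℝ} (hA : Adm β (grid m)) {N : ℕ}
    (hN : 0 < N) {r : ℕ} (hr : r < K * N) :
    fr β m N r = gaussOp (mm β m N r) (1 / ((K:ℝ) * N)) (fr β m N (r + 1)) := by
  unfold fr
  rw [PhiT_blk hβ hA (by positivity) (by positivity) (grid_blk hN (β := β) m hr)]
  congr 2
  push_cast
  ring

/-- **the refined schedule** -/
theorem sched {K : ℕ} {β : ℝ} (hβ : 0 < β) {m : Fin K → ℝ} (hA : Adm β (grid m)) {N : ℕ}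
    (hN : 0 < N) {R : ℕ} (hR : R ≤ K * N) :
    D3.Sched β (CC β) R (1 / ((K:ℝ) * N)) (mm β m N) (fun _ => 1 / ((K:ℝ) * N)) (fr β m N)
      (fun r => deriv (fr β m N r)) (fun r => deriv (deriv (fr β m N r))) := by
  have hprof : ∀ r, Prof (fr β m N r) := fun r => PhiT_prof hβ _ _
  refine ⟨hβ.le, hβ.le.trans (le_max_left _ _), fun r hr => ?_, fun r hr => ?_, fun r hr => ?_,
    fun r _ => le_rfl, ?_⟩
  · have hpos := (grid_blk hN (β := β) m (hr.trans_le hR)).pos hA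
    refine ⟨hpos.1, hpos.2, by positivity, ?_, fr_sm hβ hA N (r + 1), fun x y => ?_⟩
    · have hK : 0 < K := by
        rcases Nat.eq_zero_or_pos K with h | h
        · subst h; omega
        · exact h
      have : (1:ℝ) ≤ (K:ℝ) * N := by exact_mod_cast Nat.mul_pos hK hN
      rw [div_le_one (by linarith)]
      exact this
    · refine (PhiT_second_lip hβ hA _ x y).trans ?_
      exact mul_le_mul_of_nonneg_right (le_max_right _ _) (abs_nonneg _)
  · conv_lhs => rw [fr_succ hβ hA hN (hr.trans_le hR)]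
    exact (hprof (r + 1)).gaussOp_deriv _ _
  · conv_lhs => rw [fr_succ hβ hA hN (hr.trans_le hR)]
    rw [(hprof (r + 1)).gaussOp_deriv2]
    funext x
    unfold g2
    have e : (fun y => deriv (fr β m N (r + 1)) y * deriv (fr β m N (r + 1)) y) =
        fun y => deriv (fr β m N (r + 1)) y ^ 2 := by
      funext y; ring
    rw [e]
    ring
  · rw [Finset.sum_const, Finset.card_range, nsmul_eq_mul]
    rcases Nat.eq_zero_or_pos K with h | hK
    · subst h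
      simp at hR
      subst hR
      simp
    · have hK' : (0:ℝ) < K := by exact_mod_cast hK
      have hN' : (0:ℝ) < N := by exact_mod_cast hN
      rw [mul_one_div, div_le_one (by positivity)]
      exact_mod_cast hR

/-- the composed kernels of the schedule are the tilted expectations -/
theorem comp_eq {K : ℕ} {β : ℝ} (hβ : 0 < β) {m : Fin K → ℝ} (hA : Adm β (grid m)) {N : ℕ}
    (hN : 0 < N) : ∀ {r : ℕ}, r ≤ K * N → ∀ {V : ℝ → ℝ} {B : ℝ}, BC V B →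
    D3.comp (D3.Kern (mm β m N) (fun _ => 1 / ((K:ℝ) * N)) (fr β m N)) r 0 V =
      EX β (grid m) ((r:ℝ) * (1 / ((K:ℝ) * N))) V
  | 0, _, V, B, _ => by
    rw [Nat.cast_zero, zero_mul, EX_zero (adm_both hA)]
    rfl
  | r + 1, hr, V, B, hV => by
    have hstep := EX_blk hβ hA (by positivity) (by positivity)
      (grid_blk hN (β := β) m (show r < K * N by omega)) hV.eg
    have e : ((r + 1 : ℕ) : ℝ) * (1 / ((K:ℝ) * N)) =
        (r:ℝ) * (1 / ((K:ℝ) * N)) + 1 / ((K:ℝ) * N) := by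
      push_cast; ring
    rw [D3.comp_succ', zero_add, e, hstep]
    have hbc : BC (D3.Kern (mm β m N) (fun _ => 1 / ((K:ℝ) * N)) (fr β m N) r V) B :=
      tE_BC (PhiT_prof hβ _ _).lip _ _ hV
    rw [comp_eq hβ hA hN (by omega) hbc]
    unfold D3.Kern fr
    rw [e]

theorem comp_XX {K : ℕ} {β : ℝ} (hβ : 0 < β) {m : Fin K → ℝ} (hA : Adm β (grid m)) {N : ℕ}
    (hN : 0 < N) {r : ℕ} (hr : r ≤ K * N) :
    D3.comp (D3.Kern (mm β m N) (fun _ => 1 / ((K:ℝ) * N)) (fr β m N)) r 0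
      (deriv (deriv (fr β m N r))) 0 = XX β (grid m) ((r:ℝ) * (1 / ((K:ℝ) * N))) 0 := by
  rw [comp_eq hβ hA hN hr ⟨(fr_sm hβ hA N r).c2, (fr_sm hβ hA N r).b2⟩]
  rfl

theorem comp_gg {K : ℕ} {β : ℝ} (hβ : 0 < β) {m : Fin K → ℝ} (hA : Adm β (grid m)) {N : ℕ}
    (hN : 0 < N) {r : ℕ} (hr : r ≤ K * N) :
    D3.comp (D3.Kern (mm β m N) (fun _ => 1 / ((K:ℝ) * N)) (fr β m N)) r 0
      (fun y => deriv (deriv (fr β m N r)) y ^ 2) 0 =
      gg β (grid m) ((r:ℝ) * (1 / ((K:ℝ) * N))) 0 := by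
  have hbc : BC (deriv (deriv (fr β m N r))) (CC β) :=
    ⟨(fr_sm hβ hA N r).c2, (fr_sm hβ hA N r).b2⟩
  rw [comp_eq hβ hA hN hr (hbc.pow 2)]
  rfl

/-- parities and positivity -/
theorem fr_parity {K : ℕ} {β : ℝ} (hβ : 0 < β) {m : Fin K → ℝ} (hA : Adm β (grid m)) (N r : ℕ) :
    (∀ x, deriv (fr β m N r) (-x) = -deriv (fr β m N r) x) ∧
    (∀ x, deriv (deriv (fr β m N r)) (-x) = deriv (deriv (fr β m N r)) x) ∧
    (∀ x, 0 < deriv (deriv (fr β m N r)) x) := by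
  obtain ⟨μ, _, _, hI⟩ := PhiT_inv hβ hA ((r:ℝ) * (1 / ((K:ℝ) * N)))
  exact ⟨hI.odd, deriv_neg_of_odd hI.odd, hI.low.pos⟩

end

end Crest.Agent.R339.Ref
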