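import Crest.Agent.R339.Trig716c

/-!
# Row 339, part (C)/(K): trigonometric schemes

A `TrigScheme m` is the interface between the classical and the quantum part: the messages are odd
real trigonometric polynomials of the labels, the final rotation angle `Th` as well.  `value` is the
energy of the final state.  The theorem `exists_trigScheme` approximates every bounded continuous
odd causal scheme with nondegenerate covariance.
-/

set_option autoImplicit false
set_option linter.unusedSectionVars false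

namespace Crest.Agent.R339.Trig

open MeasureTheory ProbabilityTheory Filter Topology Matrix
open Crest.Agent.R339.Guerra (G lin dual)

noncomputable section

/-- a scheme of trigonometric messages -/
structure TrigScheme (m : ℕ) where
  /-- the messages -/
  T : Fin m → TP (Fin (m + 1))
  /-- the final rotation angle -/
  Th : TP (Fin (m + 1))
  /-- message `i` depends only on the labels `0, …, i` -/
  causal : ∀ i k j, i.castSucc < j → (T i).a k j = 0

namespace TrigScheme

variable {m : ℕ} (S : TrigScheme m)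

/-- the messages as functions -/
def msg (i : Fin m) : (Fin (m + 1) → ℝ) → ℝ := (S.T i).ev

/-- the covariance of the labels -/
def Q : Matrix (Fin (m + 1)) (Fin (m + 1)) ℝ := cov S.msg

/-- the final magnetisation `sin Θ` -/
def out (x : Fin (m + 1) → ℝ) : ℝ := Real.sin (S.Th.ev x)

/-- the partial derivatives of the final magnetisation -/
def dout (j : Fin (m + 1)) (x : Fin (m + 1) → ℝ) : ℝ := Real.cos (S.Th.ev x) * S.Th.d j x

/-- the energy of the final state -/
def value : ℝ := ∑ j : Fin m, (∫ x, S.dout j.succ x ∂gl S.Q) * (∫ x, S.msg j x * S.out x ∂gl S.Q)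

theorem adm : ∃ C, Adm S.msg C := by
  refine ⟨∑ i, ∑ k, |(S.T i).c k|, fun i => (TP.continuous_ev _).stronglyMeasurable, fun i x => ?_,
    fun i => ?_⟩
  · refine ((S.T i).abs_ev_le x).trans ?_
    exact Finset.single_le_sum (f := fun i => ∑ k, |(S.T i).c k|)
      (fun i _ => Finset.sum_nonneg fun k _ => abs_nonneg _) (Finset.mem_univ i)
  · intro x y hxy
    unfold msg TP.ev
    refine Finset.sum_congr rfl fun k _ => ?_
    have h : ∑ j, (S.T i).a k j * x j = ∑ j, (S.T i).a k j * y j := by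
      refine Finset.sum_congr rfl fun j _ => ?_
      by_cases hj : j ≤ i.castSucc
      · rw [hxy j hj]
      · rw [S.causal i k j (not_le.1 hj), zero_mul, zero_mul]
    rw [h]

theorem posSemidef_Q : S.Q.PosSemidef := by
  obtain ⟨C, h⟩ := S.adm
  exact cov_posSemidef h

theorem step_Q : step S.msg S.Q = S.Q := by
  obtain ⟨C, h⟩ := S.adm
  exact step_cov h

@[simp] theorem Q_zero_zero : S.Q 0 0 = 1 := by
  rw [← S.step_Q]; rfl

@[simp] theorem Q_zero_succ (j : Fin m) : S.Q 0 j.succ = 0 := by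
  rw [← S.step_Q]; rfl

@[simp] theorem Q_succ_zero (j : Fin m) : S.Q j.succ 0 = 0 := by
  rw [← S.step_Q]; rfl

theorem Q_succ_succ (i j : Fin m) : S.Q i.succ j.succ = ∫ x, S.msg i x * S.msg j x ∂gl S.Q := by
  conv_lhs => rw [← S.step_Q]
  rfl

/-- uniqueness of the covariance -/
theorem eq_Q {Q : Matrix (Fin (m + 1)) (Fin (m + 1)) ℝ} (h00 : Q 0 0 = 1)
    (h0 : ∀ j : Fin m, Q 0 j.succ = 0) (h0' : ∀ j : Fin m, Q j.succ 0 = 0)
    (h : ∀ i j : Fin m, Q i.succ j.succ = ∫ x, S.msg i x * S.msg j x ∂gl Q) : Q = S.Q := by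
  obtain ⟨C, hC⟩ := S.adm
  refine eq_cov hC ?_
  ext i j
  refine Fin.cases ?_ (fun i' => ?_) i
  · refine Fin.cases ?_ (fun j' => ?_) j
    · rw [step_zero_zero, h00]
    · rw [step_zero_succ, h0]
  · refine Fin.cases ?_ (fun j' => ?_) j
    · rw [step_succ_zero, h0']
    · rw [step_succ_succ, h]

theorem continuous_out : Continuous S.out := Real.continuous_sin.comp S.Th.continuous_ev

theorem continuous_dout (j : Fin (m + 1)) : Continuous (S.dout j) :=
  (Real.continuous_cos.comp S.Th.continuous_ev).mul (S.Th.continuous_d j)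

theorem abs_out_le (x : Fin (m + 1) → ℝ) : |S.out x| ≤ 1 := Real.abs_sin_le_one _

/-- Gaussian integration by parts for the final magnetisation -/
theorem ibp_out (i : Fin (m + 1)) :
    ∫ x, x i * S.out x ∂gl S.Q = ∑ j, S.Q i j * ∫ x, S.dout j x ∂gl S.Q := by
  refine ibp_gl S.posSemidef_Q (f := S.out) (p := S.dout)
    (C := 1 + ∑ j, ∑ k, |S.Th.c k * S.Th.a k j|) (fun x => S.Th.hasFDerivAt_sin x)
    S.continuous_dout (fun x => ?_) (fun j x => ?_) i
  · have : 0 ≤ ∑ j, ∑ k, |S.Th.c k * S.Th.a k j| :=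
      Finset.sum_nonneg fun j _ => Finset.sum_nonneg fun k _ => abs_nonneg _
    linarith [S.abs_out_le x]
  · have h1 : |S.dout j x| ≤ ∑ k, |S.Th.c k * S.Th.a k j| := by
      unfold dout
      rw [abs_mul]
      refine le_trans (mul_le_of_le_one_left (abs_nonneg _) (Real.abs_cos_le_one _)) ?_
      exact S.Th.abs_d_le j x
    have h2 := Finset.single_le_sum (f := fun j => ∑ k, |S.Th.c k * S.Th.a k j|)
      (fun j _ => Finset.sum_nonneg fun k _ => abs_nonneg _) (Finset.mem_univ j)
    linarith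

end TrigScheme

/-- the value of a general scheme in the derivative-free form -/
def genValue {m : ℕ} (F : Fin m → (Fin (m + 1) → ℝ) → ℝ) (out : (Fin (m + 1) → ℝ) → ℝ)
    (Q : Matrix (Fin (m + 1)) (Fin (m + 1)) ℝ) : ℝ :=
  ∑ j : Fin m, (Q⁻¹ *ᵥ fun i => ∫ x, x i * out x ∂gl Q) j.succ * ∫ x, F j x * out x ∂gl Q

theorem tendsto_inv_mulVec {ι : Type*} [Fintype ι] [DecidableEq ι] {Qn : ℕ → Matrix ι ι ℝ}
    {Q : Matrix ι ι ℝ} (hQ : IsUnit Q.det)
    (h : ∀ i j, Tendsto (fun n => Qn n i j) atTop (𝓝 (Q i j))) {v : ℕ → ι → ℝ} {v0 : ι → ℝ}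
    (hv : ∀ i, Tendsto (fun n => v n i) atTop (𝓝 (v0 i))) (i : ι) :
    Tendsto (fun n => ((Qn n)⁻¹ *ᵥ v n) i) atTop (𝓝 ((Q⁻¹ *ᵥ v0) i)) := by
  have h1 : Tendsto Qn atTop (𝓝 Q) := tendsto_pi_nhds.2 fun i => tendsto_pi_nhds.2 fun j => h i j
  have h2 : Tendsto (fun n => (Qn n)⁻¹) atTop (𝓝 Q⁻¹) := by
    simp_rw [Matrix.inv_def, Ring.inverse_eq_inv']
    refine Tendsto.smul ?_ ?_
    · refine Tendsto.inv₀ ?_ hQ.ne_zero
      exact (continuous_id.matrix_det.tendsto Q).comp h1
    · exact (continuous_id.matrix_adjugate.tendsto Q).comp h1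
  refine tendsto_finsetSum _ fun j _ => ?_
  exact (tendsto_pi_nhds.1 (tendsto_pi_nhds.1 h2 i) j).mul (hv j)

/-- **Approximation of a bounded continuous odd causal scheme by trigonometric schemes.** -/
theorem exists_trigScheme {m : ℕ} {F : Fin m → (Fin (m + 1) → ℝ) → ℝ} {C : ℝ} (hA : Adm F C)
    (hF : ∀ i, Continuous (F i)) (hFo : ∀ i x, F i (-x) = - F i x)
    {g : (Fin (m + 1) → ℝ) → ℝ} (hg : Continuous g) (hgo : ∀ x, g (-x) = - g x)
    (hg1 : ∀ x, |g x| ≤ 1) (hQ : IsUnit (cov F).det) {ε : ℝ} (hε : 0 < ε) :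
    ∃ S : TrigScheme m, genValue F g (cov F) - ε ≤ S.value := by
  -- the messages
  have h1 := fun i : Fin m => exists_TP_seq (hF i) (hFo i) (hA.bdd i)
    (fun j => j ≤ i.castSucc) (hA.causal i)
  choose T hT1 hT2 hT3 using h1
  -- the angle
  have hθc : Continuous fun x => Real.arcsin (g x) := Real.continuous_arcsin.comp hg
  have hθo : ∀ x, Real.arcsin (g (-x)) = - Real.arcsin (g x) := by
    intro x; rw [hgo, Real.arcsin_neg]
  have hθb : ∀ x, |Real.arcsin (g x)| ≤ Real.pi / 2 := fun x =>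
    abs_le.2 ⟨Real.neg_pi_div_two_le_arcsin _, Real.arcsin_le_pi_div_two _⟩
  obtain ⟨Θ, hΘ1, hΘ2, -⟩ := exists_TP_seq hθc hθo hθb (fun _ => True) (fun x y hxy => by
    have : x = y := funext fun i => hxy i trivial
    rw [this])
  let S : ℕ → TrigScheme m := fun n =>
    ⟨fun i => T i n, Θ n, fun i k j hj => hT3 i n k j (not_le.2 hj)⟩
  have hAn : ∀ n, Adm (S n).msg (C + 1) := fun n =>
    ⟨fun i => (TP.continuous_ev _).stronglyMeasurable, fun i x => hT1 i n x,
      (Classical.choose_spec (S n).adm).causal⟩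
  have hA0 : Adm F (C + 1) := ⟨hA.meas, fun i x => (hA.bdd i x).trans (by linarith), hA.causal⟩
  have hcov : ∀ i j, Tendsto (fun n => (S n).Q i j) atTop (𝓝 (cov F i j)) :=
    tendsto_cov hAn hA0 hT2
  have hout : CC (fun n => (S n).out) g := by
    intro xn x hx
    have h := (Real.continuous_sin.tendsto _).comp (hΘ2 xn x hx)
    rw [Real.sin_arcsin (abs_le.1 (hg1 x)).1 (abs_le.1 (hg1 x)).2] at h
    exact h
  have hPn : ∀ n, ((S n).Q).PosSemidef := fun n => (S n).posSemidef_Q
  have hP0 : (cov F).PosSemidef := cov_posSemidef hA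
  -- convergence of the first moments
  have hE : ∀ i, Tendsto (fun n => ∫ x, x i * (S n).out x ∂gl (S n).Q) atTop
      (𝓝 (∫ x, x i * g x ∂gl (cov F))) := by
    intro i
    refine tendsto_integral_gl hPn hP0 hcov (C := 1)
      (fun n => ((continuous_apply i).mul (S n).continuous_out).stronglyMeasurable)
      ((continuous_apply i).mul hg).stronglyMeasurable (fun n x => ?_) (fun xn x hx => ?_)
    · rw [abs_mul, one_mul]
      have h1 : |x i| ≤ ‖x‖ := norm_le_pi_norm x i
      have h2 := (S n).abs_out_le x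
      have h3 : |x i| * |(S n).out x| ≤ |x i| * 1 := by gcongr
      linarith
    · exact ((tendsto_pi_nhds.1 hx) i).mul (hout xn x hx)
  -- the derivatives
  have hD : ∀ j, Tendsto (fun n => ∫ x, (S n).dout j x ∂gl (S n).Q) atTop
      (𝓝 (((cov F)⁻¹ *ᵥ fun i => ∫ x, x i * g x ∂gl (cov F)) j)) := by
    intro j
    have h1 := tendsto_inv_mulVec hQ hcov hE j
    refine h1.congr' ?_
    have hdet : Tendsto (fun n => ((S n).Q).det) atTop (𝓝 (cov F).det) := by
      have h1 : Tendsto (fun n => (S n).Q) atTop (𝓝 (cov F)) :=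
        tendsto_pi_nhds.2 fun i => tendsto_pi_nhds.2 fun j => hcov i j
      exact (continuous_id.matrix_det.tendsto _).comp h1
    filter_upwards [hdet.eventually_ne hQ.ne_zero] with n hn
    have h2 : (fun i => ∫ x, x i * (S n).out x ∂gl (S n).Q) =
        (S n).Q *ᵥ fun j => ∫ x, (S n).dout j x ∂gl (S n).Q := by
      funext i
      exact (S n).ibp_out i
    rw [h2, Matrix.mulVec_mulVec, Matrix.nonsing_inv_mul _ (isUnit_iff_ne_zero.2 hn),
      Matrix.one_mulVec]
  have hM : ∀ j, Tendsto (fun n => ∫ x, (S n).msg j x * (S n).out x ∂gl (S n).Q) atTop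
      (𝓝 (∫ x, F j x * g x ∂gl (cov F))) := by
    intro j
    refine tendsto_integral_gl hPn hP0 hcov (C := C + 1)
      (fun n => ((TP.continuous_ev _).mul (S n).continuous_out).stronglyMeasurable)
      ((hF j).mul hg).stronglyMeasurable (fun n x => ?_) (fun xn x hx => ?_)
    · rw [abs_mul]
      have h0 := (hA.nonneg j)
      have h1 := (hAn n).bdd j x
      have h2 := (S n).abs_out_le x
      calc |(S n).msg j x| * |(S n).out x| ≤ (C + 1) * 1 :=
            mul_le_mul h1 h2 (abs_nonneg _) (by linarith)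
        _ ≤ (C + 1) * (1 + ‖x‖) := by
            have := norm_nonneg x
            nlinarith
    · exact (hT2 j xn x hx).mul (hout xn x hx)
  have hV : Tendsto (fun n => (S n).value) atTop (𝓝 (genValue F g (cov F))) := by
    unfold TrigScheme.value genValue
    exact tendsto_finsetSum _ fun j _ => (hD j.succ).mul (hM j)
  obtain ⟨n, hn⟩ := ((tendsto_order.1 hV).1 _ (sub_lt_self _ hε)).exists
  exact ⟨S n, hn.le⟩

end

end Crest.Agent.R339.Trig
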