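import Crest.Agent.R339.B107Red

/-!
# R339, part (B): class (G) is preserved (helper350)

`GW R` : `R` even, positive, superexponentially decaying, `r = -R'/R ≥ 0` and `r/x` nonincreasing
on `x > 0`.  We prove that it is stable under the heat flow, by one Chebyshev inequality.
-/

set_option autoImplicit false

namespace Crest.Agent.R339.B

open MeasureTheory ProbabilityTheory Filter Topology Set
open Crest.Agent.R164.GC
open Crest.ProbabilityR.InvariantGlass (gaussOp)

noncomputable section

/-! ### Elementary inequalities for `sinh` -/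

theorem sinh_mul_mono {a b : ℝ} (ha : 0 ≤ a) (hab : a ≤ b) :
    b * Real.sinh a ≤ a * Real.sinh b := by
  rcases ha.eq_or_lt with rfl | ha
  · simp
  have hb : 0 < b := ha.trans_le hab
  have hpos : ∀ t : ℝ, 0 ≤ t → 0 ≤ t * Real.cosh t - Real.sinh t := by
    have hm : MonotoneOn (fun t : ℝ => t * Real.cosh t - Real.sinh t) (Ici 0) := by
      have hd : ∀ t : ℝ, HasDerivAt (fun t : ℝ => t * Real.cosh t - Real.sinh t)
          (t * Real.sinh t) t := by
        intro t
        refine (((hasDerivAt_id' t).mul (Real.hasDerivAt_cosh t)).sub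
          (Real.hasDerivAt_sinh t)).congr_deriv ?_
        ring
      refine monotoneOn_of_deriv_nonneg (convex_Ici 0)
        (fun t _ => (hd t).continuousAt.continuousWithinAt)
        (fun t _ => (hd t).differentiableAt.differentiableWithinAt) fun t ht => ?_
      rw [interior_Ici] at ht
      rw [(hd t).deriv]
      exact mul_nonneg (mem_Ioi.1 ht).le (Real.sinh_nonneg_iff.2 (mem_Ioi.1 ht).le)
    intro t ht
    have := hm (mem_Ici.2 le_rfl) (mem_Ici.2 ht) ht
    simpa using this
  have hm : MonotoneOn (fun t : ℝ => Real.sinh t / t) (Ioi 0) := by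
    have hd : ∀ t : ℝ, 0 < t → HasDerivAt (fun t : ℝ => Real.sinh t / t)
        ((Real.cosh t * t - Real.sinh t * 1) / t ^ 2) t := fun t ht =>
      (Real.hasDerivAt_sinh t).fun_div (hasDerivAt_id' t) ht.ne'
    refine monotoneOn_of_deriv_nonneg (convex_Ioi 0)
      (fun t ht => (hd t ht).continuousAt.continuousWithinAt)
      (fun t ht => ?_) fun t ht => ?_
    · rw [interior_Ioi] at ht
      exact (hd t ht).differentiableAt.differentiableWithinAt
    · rw [interior_Ioi] at ht
      rw [(hd t ht).deriv]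
      have := hpos t (mem_Ioi.1 ht).le
      exact div_nonneg (by linarith) (by positivity)
  have h := hm (mem_Ioi.2 ha) (mem_Ioi.2 hb) hab
  simp only at h
  rw [div_le_div_iff₀ ha hb] at h
  linarith

theorem cosh_sinh_mono {h y z : ℝ} (hh : 0 ≤ h) (hz : 0 ≤ z) (hzy : z ≤ y) :
    0 ≤ y * (Real.cosh (h * y) * Real.sinh (h * z)) -
      z * (Real.cosh (h * z) * Real.sinh (h * y)) := by
  have h1 : 0 ≤ h * (y - z) := mul_nonneg hh (by linarith)
  have h2 : h * (y - z) ≤ h * (y + z) := mul_le_mul_of_nonneg_left (by linarith) hh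
  have h3 := sinh_mul_mono h1 h2
  rcases hh.eq_or_lt with rfl | hh
  · simp
  have h4 : (y + z) * Real.sinh (h * (y - z)) ≤ (y - z) * Real.sinh (h * (y + z)) := by
    have h5 : h * ((y + z) * Real.sinh (h * (y - z))) ≤ h * ((y - z) * Real.sinh (h * (y + z))) := by
      linarith
    exact le_of_mul_le_mul_left h5 hh
  have e1 : Real.sinh (h * (y + z)) = Real.sinh (h * y) * Real.cosh (h * z) +
      Real.cosh (h * y) * Real.sinh (h * z) := by rw [mul_add, Real.sinh_add]
  have e2 : Real.sinh (h * (y - z)) = Real.sinh (h * y) * Real.cosh (h * z) -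
      Real.cosh (h * y) * Real.sinh (h * z) := by rw [mul_sub, Real.sinh_sub]
  rw [e1, e2] at h4
  linarith

/-! ### The Chebyshev inequality in integrated form -/

theorem cheb {fa fb fc fd : ℝ → ℝ} (ia : Integrable fa) (ib : Integrable fb)
    (ic : Integrable fc) (id : Integrable fd)
    (h : ∀ y z, 0 ≤ -(fa y * fb z) - fa z * fb y + fc y * fd z + fc z * fd y) :
    0 ≤ (∫ y, fc y) * (∫ y, fd y) - (∫ y, fa y) * (∫ y, fb y) := by
  have h1 : ∀ z, 0 ≤ -((∫ y, fa y) * fb z) - fa z * (∫ y, fb y) + (∫ y, fc y) * fd z +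
      fc z * (∫ y, fd y) := by
    intro z
    have i1 : Integrable fun y => -(fa y * fb z) := (ia.mul_const _).neg
    have i2 : Integrable fun y => fa z * fb y := ib.const_mul _
    have i3 : Integrable fun y => fc y * fd z := ic.mul_const _
    have i4 : Integrable fun y => fc z * fd y := id.const_mul _
    have i5 : Integrable fun y => -(fa y * fb z) - fa z * fb y := i1.sub i2
    have i6 : Integrable fun y => -(fa y * fb z) - fa z * fb y + fc y * fd z := i5.add i3
    have e : ∫ y, (-(fa y * fb z) - fa z * fb y + fc y * fd z + fc z * fd y) =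
        -((∫ y, fa y) * fb z) - fa z * (∫ y, fb y) + (∫ y, fc y) * fd z +
          fc z * (∫ y, fd y) := by
      rw [integral_add i6 i4, integral_add i5 i3,
        integral_sub i1 i2, integral_neg, integral_mul_const, integral_const_mul,
        integral_mul_const, integral_const_mul]
    rw [← e]
    exact integral_nonneg fun y => h y z
  have h2 : 0 ≤ ∫ z, (-((∫ y, fa y) * fb z) - fa z * (∫ y, fb y) + (∫ y, fc y) * fd z +
      fc z * (∫ y, fd y)) := integral_nonneg fun z => h1 z
  have i1 : Integrable fun z => -((∫ y, fa y) * fb z) := (ib.const_mul _).neg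
  have i2 : Integrable fun z => fa z * (∫ y, fb y) := ia.mul_const _
  have i3 : Integrable fun z => (∫ y, fc y) * fd z := id.const_mul _
  have i4 : Integrable fun z => fc z * (∫ y, fd y) := ic.mul_const _
  have i5 : Integrable fun z => -((∫ y, fa y) * fb z) - fa z * (∫ y, fb y) := i1.sub i2
  have i6 : Integrable fun z => -((∫ y, fa y) * fb z) - fa z * (∫ y, fb y) +
      (∫ y, fc y) * fd z := i5.add i3
  rw [integral_add i6 i4, integral_add i5 i3,
    integral_sub i1 i2, integral_neg, integral_const_mul, integral_mul_const,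
    integral_const_mul, integral_mul_const] at h2
  linarith

/-! ### Parity decomposition of the heat flow -/

/-- the Gaussian factor -/
def ge (τ y : ℝ) : ℝ := Real.exp (-y ^ 2 / (2 * τ))

theorem ge_pos (τ y : ℝ) : 0 < ge τ y := Real.exp_pos _

theorem ge_neg (τ y : ℝ) : ge τ (-y) = ge τ y := by unfold ge; rw [neg_sq]

theorem ge_cont (τ : ℝ) : Continuous (ge τ) := by unfold ge; fun_prop

theorem gd_sub {τ : ℝ} (hτ : 0 < τ) (x y : ℝ) :
    gd τ (y - x) = gd τ x * (ge τ y * Real.exp (x / τ * y)) := by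
  unfold gd ge
  have e : -(y - x) ^ 2 / (2 * τ) = -x ^ 2 / (2 * τ) + (-y ^ 2 / (2 * τ) + x / τ * y) := by
    field_simp
    ring
  rw [e, Real.exp_add, Real.exp_add]
  ring

theorem ge_exp_sd {τ : ℝ} (hτ : 0 < τ) (a : ℝ) : SD fun y => ge τ y * Real.exp (a * y) := by
  have h1 : SD (ge τ) := by
    refine SD.of_gauss (ge_cont τ) (K := 1) (c := 1 / (2 * τ)) zero_le_one (by positivity)
      fun y => ?_
    rw [abs_of_pos (ge_pos τ y), one_mul]
    refine le_of_eq ?_
    unfold ge
    congr 1
    field_simp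
  refine h1.mul ⟨by fun_prop, 1, |a|, zero_le_one, abs_nonneg a, fun x => ?_⟩
  rw [abs_of_pos (Real.exp_pos _), one_mul]
  refine Real.exp_le_exp.2 ?_
  calc a * x ≤ |a * x| := le_abs_self _
    _ = |a| * |x| := abs_mul _ _

theorem ge_cosh_sd {τ : ℝ} (hτ : 0 < τ) (a : ℝ) : SD fun y => ge τ y * Real.cosh (a * y) := by
  have h1 := ((ge_exp_sd hτ a).mul (EG.const (1 / 2))).add
    ((ge_exp_sd hτ (-a)).mul (EG.const (1 / 2)))
  have e : (fun y => ge τ y * Real.cosh (a * y)) =
      fun x => ge τ x * Real.exp (a * x) * (1 / 2) + ge τ x * Real.exp (-a * x) * (1 / 2) := by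
    funext y
    rw [Real.cosh_eq, neg_mul]
    ring
  rw [e]
  exact h1

theorem ge_sinh_sd {τ : ℝ} (hτ : 0 < τ) (a : ℝ) : SD fun y => ge τ y * Real.sinh (a * y) := by
  have h1 := ((ge_exp_sd hτ a).mul (EG.const (1 / 2))).add
    ((ge_exp_sd hτ (-a)).mul (EG.const (-(1 / 2))))
  have e : (fun y => ge τ y * Real.sinh (a * y)) =
      fun x => ge τ x * Real.exp (a * x) * (1 / 2) + ge τ x * Real.exp (-a * x) * (-(1 / 2)) := by
    funext y
    rw [Real.sinh_eq, neg_mul]
    ring
  rw [e]
  exact h1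

theorem H_odd {τ : ℝ} (hτ : 0 < τ) {φ : ℝ → ℝ} (hφ : EG φ) (ho : ∀ y, φ (-y) = -φ y) (x : ℝ) :
    H (√τ) φ x = gd τ x * ∫ y, ge τ y * Real.sinh (x / τ * y) * φ y := by
  rw [H_eq_gd φ hτ x]
  have e1 : (fun y => gd τ (y - x) * φ y) =
      fun y => gd τ x * (ge τ y * Real.exp (x / τ * y) * φ y) := by
    funext y
    rw [gd_sub hτ]
    ring
  rw [e1, integral_const_mul]
  congr 1
  have i1 : Integrable fun y => ge τ y * Real.sinh (x / τ * y) * φ y :=
    ((ge_sinh_sd hτ _).mul hφ).integrable
  have i2 : Integrable fun y => ge τ y * Real.cosh (x / τ * y) * φ y :=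
    ((ge_cosh_sd hτ _).mul hφ).integrable
  have e2 : (fun y => ge τ y * Real.exp (x / τ * y) * φ y) = fun y =>
      ge τ y * Real.cosh (x / τ * y) * φ y + ge τ y * Real.sinh (x / τ * y) * φ y := by
    funext y
    rw [← Real.cosh_add_sinh]
    ring
  rw [e2, integral_add i2 i1]
  have h0 : ∫ y, ge τ y * Real.cosh (x / τ * y) * φ y = 0 := by
    have h1 := integral_neg_eq_self (fun y => ge τ y * Real.cosh (x / τ * y) * φ y) volume
    have h2 : (fun y => ge τ (-y) * Real.cosh (x / τ * -y) * φ (-y)) =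
        fun y => -(ge τ y * Real.cosh (x / τ * y) * φ y) := by
      funext y
      rw [ge_neg, ho, show x / τ * -y = -(x / τ * y) by ring, Real.cosh_neg]
      ring
    rw [h2, integral_neg] at h1
    linarith
  rw [h0, zero_add]

theorem H_even {τ : ℝ} (hτ : 0 < τ) {φ : ℝ → ℝ} (hφ : EG φ) (ho : ∀ y, φ (-y) = φ y) (x : ℝ) :
    H (√τ) φ x = gd τ x * ∫ y, ge τ y * Real.cosh (x / τ * y) * φ y := by
  rw [H_eq_gd φ hτ x]
  have e1 : (fun y => gd τ (y - x) * φ y) =
      fun y => gd τ x * (ge τ y * Real.exp (x / τ * y) * φ y) := by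
    funext y
    rw [gd_sub hτ]
    ring
  rw [e1, integral_const_mul]
  congr 1
  have i1 : Integrable fun y => ge τ y * Real.sinh (x / τ * y) * φ y :=
    ((ge_sinh_sd hτ _).mul hφ).integrable
  have i2 : Integrable fun y => ge τ y * Real.cosh (x / τ * y) * φ y :=
    ((ge_cosh_sd hτ _).mul hφ).integrable
  have e2 : (fun y => ge τ y * Real.exp (x / τ * y) * φ y) = fun y =>
      ge τ y * Real.cosh (x / τ * y) * φ y + ge τ y * Real.sinh (x / τ * y) * φ y := by
    funext y
    rw [← Real.cosh_add_sinh]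
    ring
  rw [e2, integral_add i2 i1]
  have h0 : ∫ y, ge τ y * Real.sinh (x / τ * y) * φ y = 0 := by
    have h1 := integral_neg_eq_self (fun y => ge τ y * Real.sinh (x / τ * y) * φ y) volume
    have h2 : (fun y => ge τ (-y) * Real.sinh (x / τ * -y) * φ (-y)) =
        fun y => -(ge τ y * Real.sinh (x / τ * y) * φ y) := by
      funext y
      rw [ge_neg, ho, show x / τ * -y = -(x / τ * y) by ring, Real.sinh_neg]
      ring
    rw [h2, integral_neg] at h1
    linarith
  rw [h0, add_zero]

/-- Stein's identity in terms of `H`. -/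
theorem H_id_mul {φ : ℝ → ℝ} (h : EGS φ) (t x : ℝ) :
    H t (fun y => y * φ y) x = x * H t φ x + t ^ 2 * H t (deriv φ) x := by
  have h1 := stein h.eg h.deriv.eg h.hasDerivAt t x
  have i1 := h.eg.int t x
  have i2 : Integrable (fun g => t * (g * φ (x + t * g))) (gaussianReal 0 1) :=
    (h.eg.int_mul t x).const_mul t
  have e : H t (fun y => y * φ y) x =
      ∫ g, (x * φ (x + t * g) + t * (g * φ (x + t * g))) ∂gaussianReal 0 1 := by
    unfold H
    refine integral_congr_ae (Eventually.of_forall fun g => ?_)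
    show (x + t * g) * φ (x + t * g) = _
    ring
  rw [e, integral_add (i1.const_mul x) i2, integral_const_mul, integral_const_mul, h1]
  unfold H
  ring

/-! ### The class `GW` -/

section GWs

variable {R : ℝ → ℝ}

theorem GW.odd (h : GW R) (x : ℝ) : deriv R (-x) = -deriv R x := deriv_neg_of_even h.even x

theorem GW.d0 (h : GW R) : deriv R 0 = 0 := by
  have := h.odd 0
  rw [neg_zero] at this
  linarith

theorem GW.dnonpos (h : GW R) {x : ℝ} (hx : 0 ≤ x) : deriv R x ≤ 0 := by
  rcases hx.eq_or_lt with rfl | hx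
  · rw [h.d0]
  have h1 := h.r0 x hx
  have h2 := h.pos x
  by_contra hc
  push Not at hc
  have : -deriv R x / R x < 0 := div_neg_of_neg_of_pos (by linarith) h2
  linarith

theorem GW.cross (h : GW R) {y z : ℝ} (hz : 0 ≤ z) (hzy : z ≤ y) :
    0 ≤ z * (deriv R y * R z) - y * (R y * deriv R z) := by
  rcases hz.eq_or_lt with rfl | hz
  · rw [h.d0]; simp
  have hy : 0 < y := hz.trans_le hzy
  have h1 := h.r1 (mem_Ioi.2 hz) (mem_Ioi.2 hy) hzy
  simp only at h1
  have h2 := h.pos y
  have h3 := h.pos z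
  rw [div_div, div_div, div_le_div_iff₀ (by positivity) (by positivity)] at h1
  linarith

/-- the pointwise Chebyshev inequality -/
theorem GW.prod (h : GW R) {a : ℝ} (ha : 0 ≤ a) (y z : ℝ) :
    0 ≤ (y * (Real.cosh (a * y) * Real.sinh (a * z)) -
      z * (Real.cosh (a * z) * Real.sinh (a * y))) *
      (z * (deriv R y * R z) - y * (R y * deriv R z)) := by
  -- nonnegative arguments
  have key : ∀ y z : ℝ, 0 ≤ y → 0 ≤ z → 0 ≤ (y * (Real.cosh (a * y) * Real.sinh (a * z)) -
      z * (Real.cosh (a * z) * Real.sinh (a * y))) *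
      (z * (deriv R y * R z) - y * (R y * deriv R z)) := by
    intro y z hy hz
    rcases le_total z y with hzy | hyz
    · exact mul_nonneg (cosh_sinh_mono ha hz hzy) (h.cross hz hzy)
    · have h1 := mul_nonneg (cosh_sinh_mono ha hy hyz) (h.cross hy hyz)
      have e : (y * (Real.cosh (a * y) * Real.sinh (a * z)) -
          z * (Real.cosh (a * z) * Real.sinh (a * y))) *
          (z * (deriv R y * R z) - y * (R y * deriv R z)) =
          (z * (Real.cosh (a * z) * Real.sinh (a * y)) -
          y * (Real.cosh (a * y) * Real.sinh (a * z))) *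
          (y * (deriv R z * R y) - z * (R z * deriv R y)) := by ring
      rw [e]
      exact h1
  have key2 : ∀ y z : ℝ, 0 ≤ z → 0 ≤ (y * (Real.cosh (a * y) * Real.sinh (a * z)) -
      z * (Real.cosh (a * z) * Real.sinh (a * y))) *
      (z * (deriv R y * R z) - y * (R y * deriv R z)) := by
    intro y z hz
    rcases le_total 0 y with hy | hy
    · exact key y z hy hz
    · have h1 := key (-y) z (by linarith) hz
      rw [mul_neg, Real.cosh_neg, Real.sinh_neg, h.odd, h.even] at h1
      refine h1.trans (le_of_eq ?_)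
      ring
  rcases le_total 0 z with hz | hz
  · exact key2 y z hz
  · have h1 := key2 y (-z) (by linarith)
    rw [mul_neg, Real.cosh_neg, Real.sinh_neg, h.odd, h.even] at h1
    refine h1.trans (le_of_eq ?_)
    ring

theorem H_deriv2 {φ : ℝ → ℝ} (h : EGS φ) (t : ℝ) :
    deriv (deriv (H t φ)) = H t (deriv (deriv φ)) := by
  rw [H_deriv h, H_deriv h.deriv]

/-- the key inequality -/
theorem GW.key (h : GW R) {τ : ℝ} (hτ : 0 < τ) {x : ℝ} (hx : 0 ≤ x) :
    0 ≤ x * (H (√τ) R x * H (√τ) (deriv (deriv R)) x - H (√τ) (deriv R) x ^ 2) -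
      H (√τ) R x * H (√τ) (deriv R) x := by
  have ht2 : √τ ^ 2 = τ := Real.sq_sqrt hτ.le
  have hE := h.sds.egs
  have hyR : EGS fun y => y * R y := id_egs.mul hE
  -- the moments
  set A0 := H (√τ) R x with hA0
  set A1 := H (√τ) (fun y => y * R y) x with hA1
  set A2 := H (√τ) (fun y => y * (y * R y)) x with hA2
  set B0 := H (√τ) (deriv R) x with hB0
  set B1 := H (√τ) (fun y => y * deriv R y) x with hB1
  set T2 := H (√τ) (deriv (deriv R)) x with hT2
  have r1 : A1 = x * A0 + τ * B0 := by rw [hA1, H_id_mul hE, ht2]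
  have r2 : B1 = x * B0 + τ * T2 := by rw [hB1, H_id_mul hE.deriv, ht2]
  have r3 : A2 = x * A1 + τ * (A0 + B1) := by
    rw [hA2, H_id_mul hyR, ht2]
    congr 2
    have e : deriv (fun y => y * R y) = fun y => R y + y * deriv R y := by
      funext y
      have := (hasDerivAt_id' y).fun_mul (hE.hasDerivAt y)
      rw [this.deriv]
      ring
    rw [e, H_add hE.eg (id_egs.mul hE.deriv).eg]
  -- reduction to the moment inequality
  have hred : τ * (x * (A0 * T2 - B0 ^ 2) - A0 * B0) = A1 * B1 - A2 * B0 := by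
    have e1 : τ * T2 = B1 - x * B0 := by linarith
    have e2 : τ * (x * (A0 * T2 - B0 ^ 2) - A0 * B0) =
        x * A0 * (τ * T2) - x * τ * B0 ^ 2 - τ * A0 * B0 := by ring
    rw [e2, e1, r3, r1]
    ring
  have hcheb : 0 ≤ A1 * B1 - A2 * B0 := by
    have hx' : 0 ≤ x / τ := div_nonneg hx hτ.le
    have oA1 : A1 = gd τ x * ∫ y, ge τ y * Real.sinh (x / τ * y) * (y * R y) :=
      H_odd hτ hyR.eg (fun y => by rw [h.even]; ring) x
    have oA2 : A2 = gd τ x * ∫ y, ge τ y * Real.cosh (x / τ * y) * (y * (y * R y)) :=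
      H_even hτ (id_egs.mul hyR).eg (fun y => by rw [h.even]; ring) x
    have oB0 : B0 = gd τ x * ∫ y, ge τ y * Real.sinh (x / τ * y) * deriv R y :=
      H_odd hτ hE.deriv.eg (fun y => h.odd y) x
    have oB1 : B1 = gd τ x * ∫ y, ge τ y * Real.cosh (x / τ * y) * (y * deriv R y) :=
      H_even hτ (id_egs.mul hE.deriv).eg (fun y => by rw [h.odd]; ring) x
    have hc := cheb (fa := fun y => ge τ y * Real.cosh (x / τ * y) * (y * (y * R y)))
      (fb := fun y => ge τ y * Real.sinh (x / τ * y) * deriv R y)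
      (fc := fun y => ge τ y * Real.cosh (x / τ * y) * (y * deriv R y))
      (fd := fun y => ge τ y * Real.sinh (x / τ * y) * (y * R y))
      ((ge_cosh_sd hτ _).mul (id_egs.mul hyR).eg).integrable
      ((ge_sinh_sd hτ _).mul hE.deriv.eg).integrable
      ((ge_cosh_sd hτ _).mul (id_egs.mul hE.deriv).eg).integrable
      ((ge_sinh_sd hτ _).mul hyR.eg).integrable
      (fun y z => by
        have h1 := mul_nonneg (mul_pos (ge_pos τ y) (ge_pos τ z)).le (h.prod hx' y z)
        refine h1.trans (le_of_eq ?_)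
        ring)
    rw [oA1, oA2, oB0, oB1]
    have hg : 0 ≤ gd τ x ^ 2 := sq_nonneg _
    have := mul_nonneg hg hc
    refine this.trans (le_of_eq ?_)
    ring
  rw [← hred] at hcheb
  by_contra hneg
  push Not at hneg
  have := mul_neg_of_pos_of_neg hτ hneg
  linarith

/-- **Class (G) is preserved by the heat flow.** -/
theorem GW.heat (h : GW R) {τ : ℝ} (hτ : 0 < τ) : GW (H (√τ) R) := by
  have hE := h.sds.egs
  have hpos : ∀ x, 0 < H (√τ) R x := H_pos hE.eg h.pos _
  have hev : ∀ x, H (√τ) R (-x) = H (√τ) R x := by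
    intro x
    rw [H_neg]
    congr 1
    funext y
    exact h.even y
  have hd1 : ∀ x, HasDerivAt (H (√τ) R) (H (√τ) (deriv R) x) x := H_hasDerivAt hE _
  have hd2 : ∀ x, HasDerivAt (H (√τ) (deriv R)) (H (√τ) (deriv (deriv R)) x) x :=
    H_hasDerivAt hE.deriv _
  refine ⟨h.sds.heat _, hpos, hev, fun x hx => ?_, ?_⟩
  · rw [(hd1 x).deriv]
    refine div_nonneg ?_ (hpos x).le
    rw [H_odd hτ hE.deriv.eg (fun y => h.odd y) x]
    have h1 : ∫ y, ge τ y * Real.sinh (x / τ * y) * deriv R y ≤ 0 := by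
      refine integral_nonpos fun y => ?_
      have hxt : 0 ≤ x / τ := div_nonneg hx.le hτ.le
      rcases le_total 0 y with hy | hy
      · have h2 : 0 ≤ Real.sinh (x / τ * y) := Real.sinh_nonneg_iff.2 (mul_nonneg hxt hy)
        exact mul_nonpos_of_nonneg_of_nonpos (mul_nonneg (ge_pos τ y).le h2) (h.dnonpos hy)
      · have h2 : Real.sinh (x / τ * y) ≤ 0 :=
          Real.sinh_nonpos_iff.2 (mul_nonpos_of_nonneg_of_nonpos hxt hy)
        have h3 : 0 ≤ deriv R y := by
          have := h.dnonpos (x := -y) (by linarith)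
          rw [h.odd] at this
          linarith
        exact mul_nonpos_of_nonpos_of_nonneg
          (mul_nonpos_of_nonneg_of_nonpos (ge_pos τ y).le h2) h3
    have h2 := mul_nonpos_of_nonneg_of_nonpos (gd_pos hτ x).le h1
    linarith
  · have hd : ∀ x : ℝ, 0 < x → HasDerivAt
        (fun x => (-deriv (H (√τ) R) x / H (√τ) R x) / x)
        ((((-H (√τ) (deriv (deriv R)) x) * H (√τ) R x - (-H (√τ) (deriv R) x) *
          H (√τ) (deriv R) x) / H (√τ) R x ^ 2 * x - (-H (√τ) (deriv R) x / H (√τ) R x) * 1) /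
          x ^ 2) x := by
      intro x hx
      rw [H_deriv hE]
      exact (((hd2 x).fun_neg).fun_div (hd1 x) (hpos x).ne').fun_div (hasDerivAt_id' x) hx.ne'
    refine antitoneOn_of_deriv_nonpos (convex_Ioi 0)
      (fun x hx => (hd x hx).continuousAt.continuousWithinAt) (fun x hx => ?_) fun x hx => ?_
    · rw [interior_Ioi] at hx
      exact (hd x hx).differentiableAt.differentiableWithinAt
    · rw [interior_Ioi] at hx
      have hx0 : 0 < x := mem_Ioi.1 hx
      rw [(hd x hx0).deriv]
      have hk := h.key hτ hx0.le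
      have hp := hpos x
      have e : (((-H (√τ) (deriv (deriv R)) x) * H (√τ) R x - (-H (√τ) (deriv R) x) *
          H (√τ) (deriv R) x) / H (√τ) R x ^ 2 * x - (-H (√τ) (deriv R) x / H (√τ) R x) * 1) /
          x ^ 2 = -((x * (H (√τ) R x * H (√τ) (deriv (deriv R)) x - H (√τ) (deriv R) x ^ 2) -
          H (√τ) R x * H (√τ) (deriv R) x) / (H (√τ) R x ^ 2 * x ^ 2)) := by
        have := hp.ne'
        have := hx0.ne'
        field_simp
        ring
      rw [e, neg_nonpos]
      exact div_nonneg hk (by positivity)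

end GWs

end

end Crest.Agent.R339.B
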