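import Crest.Agent.R339.B107GC
import Crest.Agent.R339.GW350

/-!
Row 339 (helper107): the no-gap input of the gluing, complete (with helper350's `GW.heat`).
-/

set_option autoImplicit false

namespace Crest.Agent.R339.B

open MeasureTheory ProbabilityTheory Filter Topology Set

theorem heatGW : HeatGW := fun _ hR _ hτ => hR.heat hτ

/-- **the structure used by the gluing** -/
theorem gclass (β : ℝ) : Var.GClass β GC := gclass_of_heat heatGW β

/-- **No gap**, every block after the first one. -/
theorem conv_next {β m : ℝ} {Φ : ℝ → ℝ} (h : Inv β m Φ) (hm : 0 < m) (hmβ : m ≤ β) {R : ℝ → ℝ}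
    (hR : GW R) (d : ℝ) :
    ConvexOn ℝ (Icc 0 d) (EE Φ m d (dens R) fun v x => U Φ m 2 v x ^ 2) :=
  conv_dens h hm hmβ hR.sds.sd (fun x => (hR.pos x).le) (fun _ hτ => hR.heat hτ) d

end Crest.Agent.R339.B
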