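/-
helper71, row 339 (S0530), part (B), variational block:
`DmFormula` from the block calculus of helper107; relation between `tE` and the block expectations.
-/
import Crest.Agent.R339.Var71G
import Crest.Agent.R339.B107U

set_option autoImplicit false

namespace Crest.Agent.R339.Var

open MeasureTheory ProbabilityTheory Filter Topology Set
open scoped Interval
open Crest.Agent.R164.GC Crest.Agent.R339.B
open Crest.ProbabilityR.InvariantGlass (gaussOp)

noncomputable section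

theorem Wk0_eq (Φ : ℝ → ℝ) (m v : ℝ) :
    Wk Φ m 0 v = H (Real.sqrt v) (fun y => Real.exp (m * Φ y)) := by
  funext x
  unfold Wk
  rw [iteratedDeriv_zero]
  rfl

theorem Wk0_exp {Φ : ℝ → ℝ} (h : Prof Φ) {m : ℝ} (hm : m ≠ 0) (v x : ℝ) :
    Wk Φ m 0 v x = Real.exp (m * gaussOp m v Φ x) := by
  rw [Wk0_eq, h.exp_gaussOp hm]

/-- the block average in terms of the tilted average -/
theorem HW_eq {Φ : ℝ → ℝ} (h : Prof Φ) {m : ℝ} (hm : m ≠ 0) {d τ : ℝ} (h0 : 0 ≤ τ) (h1 : τ ≤ d)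
    (φ : ℝ → ℝ) (x : ℝ) :
    H (Real.sqrt τ) (fun y => Wk Φ m 0 (d - τ) y * φ y) x =
      tE m τ (gaussOp m (d - τ) Φ) φ x * Wk Φ m 0 d x := by
  have e1 := tE_eq (h.step m (d - τ)) hm τ φ x
  rw [← gaussOp_semi h hm h0 (by linarith : 0 ≤ d - τ)] at e1
  have e2 : τ + (d - τ) = d := by ring
  rw [e2] at e1
  rw [Wk0_exp h hm, e1]
  congr 1
  funext y
  rw [Wk0_exp h hm, mul_comm]

theorem dmFormula : DmFormula := by
  intro Φ h m hm v hv x
  have hm' := hm.ne'
  set E0 : ℝ → ℝ := fun τ => H (Real.sqrt τ) (fun y => Wk Φ m 0 (v - τ) y * U Φ m 0 (v - τ) y) x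
    with hE0
  set E1 : ℝ → ℝ := fun τ => H (Real.sqrt τ)
    (fun y => Wk Φ m 0 (v - τ) y * (m / 2 * U Φ m 1 (v - τ) y ^ 2)) x with hE1
  have hc0 : Continuous E0 := by
    have := heat_cont ((Wk_ug h m 0).mul (tb_U0 h hm').ug) v
    exact this.comp (by fun_prop : Continuous fun τ : ℝ => (τ, x))
  have hc1 : Continuous E1 := by
    have := heat_cont ((Wk_ug h m 0).mul ((tb_U0 h hm').ugL h)) v
    exact this.comp (by fun_prop : Continuous fun τ : ℝ => (τ, x))
  have hder : ∀ τ ∈ Ioo 0 v, HasDerivAt E0 (E1 τ) τ := fun τ hτ =>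
    EX_deriv h m (tb_U0 h hm') hτ.1 hτ.2 x
  have hFTC := intervalIntegral.integral_eq_sub_of_hasDerivAt_of_le hv hc0.continuousOn hder
    (hc1.intervalIntegrable _ _)
  have hWpos := Wk_pos h m v x
  have e1 : E0 v = tE m v Φ Φ x * Wk Φ m 0 v x := by
    have := HW_eq h hm' hv le_rfl (U Φ m 0 0) x
    rw [sub_self, gaussOp_v0 hm', U_zero, gaussOp_v0 hm'] at this
    rw [← this]
    show H (Real.sqrt v) (fun y => Wk Φ m 0 (v - v) y * U Φ m 0 (v - v) y) x = _
    rw [sub_self, U_zero, gaussOp_v0 hm']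
  have e2 : E0 0 = gaussOp m v Φ x * Wk Φ m 0 v x := by
    show H (Real.sqrt 0) (fun y => Wk Φ m 0 (v - 0) y * U Φ m 0 (v - 0) y) x = _
    rw [Real.sqrt_zero, H_zero, sub_zero, U_zero, mul_comm]
  have e3 : ∫ s in (0:ℝ)..v, E1 s = ∫ s in (0:ℝ)..v, (m / 2 * Wk Φ m 0 v x) *
      tE m s (gaussOp m (v - s) Φ) (fun y => deriv (gaussOp m (v - s) Φ) y ^ 2) x := by
    apply intervalIntegral.integral_congr
    intro s hs
    rw [uIcc_of_le hv] at hs
    show H (Real.sqrt s) (fun y => Wk Φ m 0 (v - s) y * (m / 2 * U Φ m 1 (v - s) y ^ 2)) x = _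
    rw [HW_eq h hm' hs.1 hs.2 (fun y => m / 2 * U Φ m 1 (v - s) y ^ 2) x, tE_const_mul, U_one]
    ring
  rw [e3, intervalIntegral.integral_const_mul, e1, e2] at hFTC
  unfold Dm
  have h3 : tE m v Φ Φ x - gaussOp m v Φ x = m / 2 * ∫ s in (0:ℝ)..v,
      tE m s (gaussOp m (v - s) Φ) (fun y => deriv (gaussOp m (v - s) Φ) y ^ 2) x := by
    have h4 := hWpos.ne'
    apply mul_right_cancel₀ h4
    rw [sub_mul, ← hFTC]
    ring
  rw [h3]
  field_simp

end

end Crest.Agent.R339.Var
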