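/-
helper71, row 339 (S0530), part (B), variational block:
bounds and local structure of `E Φ_xx²` along the whole list.
-/
import Crest.Agent.R339.Var71I

set_option autoImplicit false

namespace Crest.Agent.R339.Var

open MeasureTheory ProbabilityTheory Filter Topology Set
open scoped Interval
open Crest.Agent.R164.GC Crest.Agent.R339.B
open Crest.ProbabilityR.InvariantGlass (gaussOp)

noncomputable section

/-! ### monotonicity of `EX` -/

theorem EX_mono {β : ℝ} (hβ : 0 < β) : ∀ (l : List (ℝ × ℝ)) (t : ℝ) {F F' : ℝ → ℝ} {K K' : ℝ},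
    BC F K → BC F' K' → (∀ y, F y ≤ F' y) → ∀ x, EX β l t F x ≤ EX β l t F' x
  | [], _, _, _, _, _, _, _, h, x => h x
  | p :: l, t, F, F', K, K', hF, hF', h, x => by
    unfold EX
    split_ifs
    · exact tE_mono ((PhiL_prof hβ l).step p.1 (p.2 - t)).lip p.1 t hF.eg hF'.eg h x
    · exact tE_mono (PhiL_prof hβ l).lip p.1 p.2 (EX_BC hβ l (t - p.2) hF).eg
        (EX_BC hβ l (t - p.2) hF').eg (EX_mono hβ l (t - p.2) hF hF' h) x

theorem EX_const {β : ℝ} (hβ : 0 < β) : ∀ (l : List (ℝ × ℝ)) (t c x : ℝ),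
    EX β l t (fun _ => c) x = c
  | [], _, _, _ => rfl
  | p :: l, t, c, x => by
    unfold EX
    split_ifs
    · exact tE_const ((PhiL_prof hβ l).step p.1 (p.2 - t)).lip p.1 t c x
    · have e : EX β l (t - p.2) (fun _ => c) = fun _ => c := funext fun y => EX_const hβ l _ c y
      rw [e]
      exact tE_const (PhiL_prof hβ l).lip p.1 p.2 c x

theorem EX_sq {β : ℝ} (hβ : 0 < β) : ∀ (l : List (ℝ × ℝ)) (t : ℝ) {F : ℝ → ℝ} {K : ℝ},
    BC F K → ∀ x, (EX β l t F x) ^ 2 ≤ EX β l t (fun y => F y ^ 2) x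
  | [], _, _, _, _, x => le_rfl
  | p :: l, t, F, K, hF, x => by
    unfold EX
    split_ifs
    · exact tE_sq_le ((PhiL_prof hβ l).step p.1 (p.2 - t)).lip p.1 t hF.eg x
    · refine (tE_sq_le (PhiL_prof hβ l).lip p.1 p.2 (EX_BC hβ l (t - p.2) hF).eg x).trans ?_
      exact tE_mono (PhiL_prof hβ l).lip p.1 p.2 ((EX_BC hβ l (t - p.2) hF).pow 2).eg
        (EX_BC hβ l (t - p.2) (hF.pow 2)).eg (EX_sq hβ l (t - p.2) hF) x

theorem EX_add {β : ℝ} (hβ : 0 < β) : ∀ (l : List (ℝ × ℝ)) (t : ℝ) {F F' : ℝ → ℝ} {K K' : ℝ},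
    BC F K → BC F' K' → ∀ x, EX β l t (fun y => F y + F' y) x = EX β l t F x + EX β l t F' x
  | [], _, _, _, _, _, _, _, x => rfl
  | p :: l, t, F, F', K, K', hF, hF', x => by
    unfold EX
    split_ifs
    · exact tE_add ((PhiL_prof hβ l).step p.1 (p.2 - t)).lip p.1 t hF.eg hF'.eg x
    · have e : EX β l (t - p.2) (fun y => F y + F' y) =
          fun y => EX β l (t - p.2) F y + EX β l (t - p.2) F' y :=
        funext fun y => EX_add hβ l (t - p.2) hF hF' y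
      rw [e]
      exact tE_add (PhiL_prof hβ l).lip p.1 p.2 (EX_BC hβ l (t - p.2) hF).eg
        (EX_BC hβ l (t - p.2) hF').eg x

theorem EX_const_mul {β : ℝ} (hβ : 0 < β) : ∀ (l : List (ℝ × ℝ)) (t c : ℝ) (F : ℝ → ℝ) (x : ℝ),
    EX β l t (fun y => c * F y) x = c * EX β l t F x
  | [], _, _, _, _ => rfl
  | p :: l, t, c, F, x => by
    unfold EX
    split_ifs
    · exact tE_const_mul _ _ _ _ _ _
    · have e : EX β l (t - p.2) (fun y => c * F y) =
          fun y => c * EX β l (t - p.2) F y :=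
        funext fun y => EX_const_mul hβ l (t - p.2) c F y
      rw [e]
      exact tE_const_mul _ _ _ _ _ _

/-! ### invariants of the profile -/

theorem PhiT_inv {β : ℝ} (hβ : 0 < β) : ∀ (l : List (ℝ × ℝ)), Adm β l → ∀ t,
    ∃ m, 0 < m ∧ m ≤ β ∧ Inv β m (PhiT β l t)
  | [], _, _ => ⟨β, hβ, le_rfl, phi0_inv hβ⟩
  | p :: l, hA, t => by
    unfold PhiT
    split_ifs
    · exact ⟨p.1, hA.1, hA.2.1.trans hA.2.2.2.head_le,
        ((PhiL_inv hβ hA.2.2.2).mono hA.2.1).step hA.1 (hA.2.1.trans hA.2.2.2.head_le) _⟩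
    · exact PhiT_inv hβ l hA.2.2.2 (t - p.2)

theorem Inv.d2_le {β m : ℝ} {Φ : ℝ → ℝ} (h : Inv β m Φ) (hβ : 0 < β) (x : ℝ) :
    deriv (deriv Φ) x ≤ β := by
  have h1 := h.up x
  have h2 : β * (1 - deriv Φ x ^ 2) ≤ β * 1 :=
    mul_le_mul_of_nonneg_left (by linarith [sq_nonneg (deriv Φ x)]) hβ.le
  linarith

/-! ### mass -/

/-- total mass -/
def mass (β : ℝ) (l : List (ℝ × ℝ)) (ν : Measure ℝ) : ℝ :=
  ∫ x, Real.exp (headLv β l * PhiL β l x) ∂ν

theorem PsiF_one {β : ℝ} (hβ : 0 < β) (l : List (ℝ × ℝ)) (ν : Measure ℝ) (t : ℝ) :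
    PsiF Gone β l ν t = mass β l ν := by
  unfold PsiF mass
  congr 1
  funext x
  have : Gone (PhiT β l t) = fun _ => (1:ℝ) := rfl
  rw [this, EX_const hβ, one_mul]

theorem mass_next {β : ℝ} (hβ : 0 < β) {p : ℝ × ℝ} {l : List (ℝ × ℝ)} (hp : 0 < p.1)
    (hp2 : 0 ≤ p.2) (hl : ∀ q ∈ l, 0 < q.1 ∧ 0 ≤ q.2) {ν ν' : Measure ℝ} (hN : Nx β p l ν ν') :
    mass β l ν' = mass β (p :: l) ν := by
  rw [← PsiF_one hβ l ν' 0, ← PsiF_junction bfn_Gone hβ hp hp2 hl hN, PsiF_one hβ]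

theorem mass_nonneg (β : ℝ) (l : List (ℝ × ℝ)) (ν : Measure ℝ) : 0 ≤ mass β l ν :=
  integral_nonneg fun _ => (Real.exp_pos _).le

theorem int_weight {β : ℝ} (hβ : 0 < β) (l : List (ℝ × ℝ)) {ν : Measure ℝ} (hν : EM ν)
    {F : ℝ → ℝ} {K : ℝ} (hF : BC F K) :
    Integrable (fun x => F x * Real.exp (headLv β l * PhiL β l x)) ν :=
  hν.of_eg (hF.eg.mul ((PhiL_prof hβ l).exp_egs (headLv β l)).eg)

/-- pointwise inequality of functionals along the list -/
theorem PsiF_le {G G' : (ℝ → ℝ) → ℝ → ℝ} (hG : BFn G) (hG' : BFn G') {β : ℝ} (hβ : 0 < β)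
    {l : List (ℝ × ℝ)} {ν : Measure ℝ} (hν : EM ν) {t : ℝ}
    (h : ∀ y, G (PhiT β l t) y ≤ G' (PhiT β l t) y) : PsiF G β l ν t ≤ PsiF G' β l ν t := by
  obtain ⟨K, hK⟩ := hG.bc _ (PhiT_prof hβ l t)
  obtain ⟨K', hK'⟩ := hG'.bc _ (PhiT_prof hβ l t)
  unfold PsiF
  refine integral_mono (int_weight hβ l hν (EX_BC hβ l t hK))
    (int_weight hβ l hν (EX_BC hβ l t hK')) fun x => ?_
  exact mul_le_mul_of_nonneg_right (EX_mono hβ l t hK hK' h x) (Real.exp_pos _).le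

/-- `C * Gone` -/
theorem PsiF_const {β : ℝ} (hβ : 0 < β) (l : List (ℝ × ℝ)) (ν : Measure ℝ) (t c : ℝ) :
    PsiF (fun _ _ => c) β l ν t = c * mass β l ν := by
  unfold PsiF mass
  rw [← integral_const_mul]
  congr 1
  funext x
  rw [EX_const hβ]

theorem bfn_const (c : ℝ) : BFn (fun _ _ => c) :=
  ⟨fun _ _ => ⟨|c|, BC.const c⟩, fun _ _ _ _ => UG.const c⟩

theorem bfn_add {G G' : (ℝ → ℝ) → ℝ → ℝ} (hG : BFn G) (hG' : BFn G') :
    BFn (fun Φ y => G Φ y + G' Φ y) := by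
  refine ⟨fun Φ h => ?_, fun Φ h m hm => (hG.ug Φ h m hm).add (hG'.ug Φ h m hm)⟩
  obtain ⟨K, hK⟩ := hG.bc Φ h
  obtain ⟨K', hK'⟩ := hG'.bc Φ h
  exact ⟨K + K', hK.add hK'⟩

theorem PsiF_add {G G' : (ℝ → ℝ) → ℝ → ℝ} (hG : BFn G) (hG' : BFn G') {β : ℝ} (hβ : 0 < β)
    {l : List (ℝ × ℝ)} {ν : Measure ℝ} (hν : EM ν) (t : ℝ) :
    PsiF (fun Φ y => G Φ y + G' Φ y) β l ν t = PsiF G β l ν t + PsiF G' β l ν t := by
  obtain ⟨K, hK⟩ := hG.bc _ (PhiT_prof hβ l t)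
  obtain ⟨K', hK'⟩ := hG'.bc _ (PhiT_prof hβ l t)
  unfold PsiF
  rw [← integral_add (int_weight hβ l hν (EX_BC hβ l t hK))
    (int_weight hβ l hν (EX_BC hβ l t hK'))]
  congr 1
  funext x
  have := EX_add hβ l t hK hK' x
  simp only at this ⊢
  rw [this]
  ring

/-! ### the bound of `E Φ_xxx²` -/

theorem monotoneOn_of_block {f f' : ℝ → ℝ} {a b : ℝ} (hc : ContinuousOn f (Icc a b))
    (hd : ∀ t ∈ Ioo a b, HasDerivAt f (f' t) t) (h : ∀ t ∈ Ioo a b, 0 ≤ f' t) :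
    MonotoneOn f (Icc a b) := by
  apply monotoneOn_of_deriv_nonneg (convex_Icc a b) hc
  · intro t ht
    rw [interior_Icc] at ht
    exact (hd t ht).differentiableAt.differentiableWithinAt
  · intro t ht
    rw [interior_Icc] at ht
    rw [(hd t ht).deriv]
    exact h t ht

theorem EE_mono {Φ : ℝ → ℝ} (h : Prof Φ) (m d : ℝ) {ν : Measure ℝ} (hν : EM ν)
    {F F' : ℝ → ℝ → ℝ} (hF : UG F) (hF' : UG F') {τ : ℝ}
    (hle : ∀ y, F (d - τ) y ≤ F' (d - τ) y) : EE Φ m d ν F τ ≤ EE Φ m d ν F' τ := by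
  unfold EE
  have u1 := (Wk_ug h m 0).mul hF
  have u2 := (Wk_ug h m 0).mul hF'
  refine integral_mono (hν.of_eg (heat_eg u1 d τ)) (hν.of_eg (heat_eg u2 d τ)) fun x => ?_
  exact H_mono (u1.eg (d - τ)) (u2.eg (d - τ))
    (fun y => mul_le_mul_of_nonneg_left (hle y) (Wk_pos h m _ _).le) _ _

theorem EE_const_mul {Φ : ℝ → ℝ} (m d : ℝ) (ν : Measure ℝ) (F : ℝ → ℝ → ℝ) (c τ : ℝ) :
    EE Φ m d ν (fun v x => c * F v x) τ = c * EE Φ m d ν F τ := by
  unfold EE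
  rw [← integral_const_mul]
  congr 1
  funext x
  rw [← H_const_mul]
  congr 1
  funext y
  ring

theorem G33_bound {β : ℝ} (hβ : 0 < β) {GC : Measure ℝ → Prop} (hC : GClass β GC) :
    ∀ (l : List (ℝ × ℝ)), Adm β l → (∀ p ∈ l, 0 < p.2) → ∀ ν, GC ν → ∀ t ∈ Icc 0 (TT l),
    PsiF G33 β l ν t ≤ Real.exp (6 * β ^ 2 * (TT l - t)) * (4 * β ^ 4 * mass β l ν)
  | [], _, _, ν, hν, t, ht => by
    have e : t = 0 := by
      unfold TT at ht
      simp at ht
      exact ht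
    have e2 : TT [] = 0 := by unfold TT; simp
    rw [e, e2, sub_zero, mul_zero, Real.exp_zero, one_mul, ← PsiF_const hβ [] ν 0]
    refine PsiF_le bfn_G33 (bfn_const _) hβ (hC.em ν hν) fun y => ?_
    show deriv (deriv (deriv (phi0 β))) y ^ 2 ≤ 4 * β ^ 4
    have h3 : deriv (deriv (deriv (phi0 β))) =
        fun x => -(2 * β * th β x) * (β * (1 - th β x ^ 2)) := by
      rw [phi0_deriv2 hβ]
      funext x
      have h1 := ((((th_hasDerivAt β x).fun_pow 2).const_sub 1).const_mul β)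
      rw [h1.deriv]
      norm_num
      ring
    rw [h3]
    simp only
    have h4 := th_abs_le β y
    have h5 : th β y ^ 2 ≤ 1 := by
      rw [← sq_abs]
      exact pow_le_one₀ (abs_nonneg _) h4
    have h6 : 0 ≤ th β y ^ 2 := sq_nonneg _
    have e3 : (-(2 * β * th β y) * (β * (1 - th β y ^ 2))) ^ 2 =
        4 * β ^ 4 * (th β y ^ 2 * (1 - th β y ^ 2) ^ 2) := by ring
    rw [e3]
    have h7 : th β y ^ 2 * (1 - th β y ^ 2) ^ 2 ≤ 1 := by
      have : (1 - th β y ^ 2) ^ 2 ≤ 1 := by nlinarith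
      nlinarith
    have h8 : 0 ≤ 4 * β ^ 4 := by positivity
    nlinarith
  | p :: l, hA, hl, ν, hν, t, ht => by
    obtain ⟨ν', hν', hN⟩ := hC.nx hβ hA (hl p (by simp)) hν
    have hp2 := hl p (by simp)
    have hlA := Adm.pos hA.2.2.2
    have hT : 0 ≤ TT l := TT_nonneg fun q hq => (hl q (by simp [hq])).le
    have ih := G33_bound hβ hC l hA.2.2.2 (fun q hq => hl q (by simp [hq])) ν' hν'
    have hmass := mass_next hβ hA.1 hp2.le hlA hN
    rw [TT_cons] at ht ⊢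
    rcases le_total t p.2 with h | h
    · -- inside the block
      have hinv := PhiL_inv hβ hA.2.2.2
      have hprof := hinv.prof
      have hpβ : p.1 ≤ β := hA.2.1.trans hA.2.2.2.head_le
      have hm' := hA.1.ne'
      have hEM := hC.em ν hν
      set Φ := PhiL β l with hΦ
      have htb := (tb_U3 hprof hm').mul (tb_U3 hprof hm')
      set f : ℝ → ℝ := EE Φ p.1 p.2 ν (fun v x => U Φ p.1 3 v x * U Φ p.1 3 v x) with hf
      set f' : ℝ → ℝ := EE Φ p.1 p.2 ν (fun v x => U Φ p.1 3 v x * (-3 * p.1 * U Φ p.1 2 v x *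
        U Φ p.1 3 v x) + U Φ p.1 3 v x * (-3 * p.1 * U Φ p.1 2 v x * U Φ p.1 3 v x) +
        U Φ p.1 4 v x * U Φ p.1 4 v x) with hf'
      have hder : ∀ τ ∈ Ioo 0 p.2, HasDerivAt f (f' τ) τ := fun τ hτ =>
        EE_deriv hprof p.1 htb hEM hτ.1 hτ.2
      have hcf : Continuous f := EE_cont hprof p.1 htb.ug hEM p.2
      have hlow : ∀ τ ∈ Ioo 0 p.2, -(6 * β ^ 2) * f τ ≤ f' τ := by
        intro τ hτ
        rw [hf, ← EE_const_mul]
        refine EE_mono hprof p.1 p.2 hEM (htb.ug.const_mul _) (htb.ugL hprof) fun y => ?_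
        have hinv2 := (hinv.mono hA.2.1).step hA.1 hpβ (p.2 - τ)
        have h2 : U Φ p.1 2 (p.2 - τ) y ≤ β := by
          rw [U_two]; exact Inv.d2_le hinv2 hβ y
        have h3 : 0 ≤ U Φ p.1 2 (p.2 - τ) y := by
          rw [U_two]; exact (hinv2.low.pos y).le
        have h4 : p.1 * U Φ p.1 2 (p.2 - τ) y ≤ β * β :=
          mul_le_mul hpβ h2 h3 hβ.le
        have h5 : 0 ≤ U Φ p.1 3 (p.2 - τ) y * U Φ p.1 3 (p.2 - τ) y := mul_self_nonneg _
        have h6 : 0 ≤ U Φ p.1 4 (p.2 - τ) y * U Φ p.1 4 (p.2 - τ) y := mul_self_nonneg _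
        nlinarith [mul_le_mul_of_nonneg_right h4 h5]
      have hmono : MonotoneOn (fun τ => Real.exp (6 * β ^ 2 * τ) * f τ) (Icc 0 p.2) := by
        refine monotoneOn_of_block (f' := fun τ => (Real.exp (6 * β ^ 2 * τ) * (6 * β ^ 2)) * f τ +
          Real.exp (6 * β ^ 2 * τ) * f' τ) ?_ ?_ ?_
        · exact (Continuous.mul (by fun_prop) hcf).continuousOn
        · intro τ hτ
          have h1 : HasDerivAt (fun τ : ℝ => Real.exp (6 * β ^ 2 * τ))
              (Real.exp (6 * β ^ 2 * τ) * (6 * β ^ 2)) τ := by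
            have h2 : HasDerivAt (fun τ : ℝ => 6 * β ^ 2 * τ) (6 * β ^ 2) τ := by
              simpa using (hasDerivAt_id τ).const_mul (6 * β ^ 2)
            exact h2.exp
          exact h1.fun_mul (hder τ hτ)
        · intro τ hτ
          have h1 := hlow τ hτ
          have h2 := Real.exp_pos (6 * β ^ 2 * τ)
          have h3 : 0 ≤ Real.exp (6 * β ^ 2 * τ) * (f' τ - -(6 * β ^ 2) * f τ) :=
            mul_nonneg h2.le (by linarith)
          linarith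
      have hGf : ∀ τ ∈ Icc 0 p.2, PsiF G33 β (p :: l) ν τ = f τ := by
        intro τ hτ
        rw [PsiF_block hβ hA.1 ν hτ.1 hτ.2, G33_eq, hf]
        congr 1
        funext v x
        ring
      have h1 := hmono ⟨ht.1, h⟩ ⟨hp2.le, le_rfl⟩ h
      simp only at h1
      rw [← hGf t ⟨ht.1, h⟩, ← hGf p.2 ⟨hp2.le, le_rfl⟩,
        PsiF_junction bfn_G33 hβ hA.1 hp2.le hlA hN] at h1
      have h2 := ih 0 ⟨le_rfl, hT⟩
      rw [hmass, sub_zero] at h2
      have h3 : Real.exp (6 * β ^ 2 * t) * PsiF G33 β (p :: l) ν t ≤ Real.exp (6 * β ^ 2 * p.2) *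
          (Real.exp (6 * β ^ 2 * TT l) * (4 * β ^ 4 * mass β (p :: l) ν)) :=
        h1.trans (mul_le_mul_of_nonneg_left h2 (Real.exp_pos _).le)
      have h4 : Real.exp (6 * β ^ 2 * (p.2 + TT l - t)) = (Real.exp (6 * β ^ 2 * t))⁻¹ *
          (Real.exp (6 * β ^ 2 * p.2) * Real.exp (6 * β ^ 2 * TT l)) := by
        rw [← Real.exp_neg, ← Real.exp_add, ← Real.exp_add]
        congr 1
        ring
      rw [h4, mul_assoc, ← div_eq_inv_mul, le_div_iff₀ (Real.exp_pos _)]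
      linarith
    · have h1 := ih (t - p.2) ⟨by linarith, by linarith [ht.2]⟩
      rw [PsiF_next' bfn_G33 hβ hA.1 hp2.le hlA hN h, ← hmass]
      have e : p.2 + TT l - t = TT l - (t - p.2) := by ring
      rw [e]
      exact h1

end

end Crest.Agent.R339.Var
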