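/-
helper71, row 339 (S0530), part (B), variational block:
local structure of `g(t) = E Φ_xx²` (monotone derivative on each block), Lipschitz bound.
-/
import Crest.Agent.R339.Var71J

set_option autoImplicit false

namespace Crest.Agent.R339.Var

open MeasureTheory ProbabilityTheory Filter Topology Set
open scoped Interval
open Crest.Agent.R164.GC Crest.Agent.R339.B
open Crest.ProbabilityR.InvariantGlass (gaussOp)

noncomputable section

/-- structure inside the first block -/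
theorem first_block {β : ℝ} (hβ : 0 < β) {GC : Measure ℝ → Prop} (hC : GClass β GC)
    {p : ℝ × ℝ} {l : List (ℝ × ℝ)} (hA : Adm β (p :: l)) (hp2 : 0 < p.2) {ν : Measure ℝ}
    (hν : GC ν) : MonotoneOn (PsiF (G3 p.1) β (p :: l) ν) (Icc 0 p.2) ∧
      ∀ s ∈ Icc 0 p.2, ∀ t ∈ Icc 0 p.2, s ≤ t →
        PsiF G2 β (p :: l) ν t - PsiF G2 β (p :: l) ν s =
          ∫ u in s..t, PsiF (G3 p.1) β (p :: l) ν u := by
  have hinv := PhiL_inv hβ hA.2.2.2
  have hprof := hinv.prof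
  have hpβ : p.1 ≤ β := hA.2.1.trans hA.2.2.2.head_le
  have hm' := hA.1.ne'
  have hEM := hC.em ν hν
  have e3 : ∀ t ∈ Icc 0 p.2, PsiF (G3 p.1) β (p :: l) ν t = EE (PhiL β l) p.1 p.2 ν
      (fun v x => U (PhiL β l) p.1 3 v x ^ 2 - 2 * p.1 * U (PhiL β l) p.1 2 v x ^ 3) t := by
    intro t ht
    rw [PsiF_block hβ hA.1 ν ht.1 ht.2, G3_eq]
  have e2 : ∀ t ∈ Icc 0 p.2, PsiF G2 β (p :: l) ν t = EE (PhiL β l) p.1 p.2 ν
      (fun v x => U (PhiL β l) p.1 2 v x ^ 2) t := by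
    intro t ht
    rw [PsiF_block hβ hA.1 ν ht.1 ht.2, G2_eq]
  have c3 : Continuous (EE (PhiL β l) p.1 p.2 ν
      (fun v x => U (PhiL β l) p.1 3 v x ^ 2 - 2 * p.1 * U (PhiL β l) p.1 2 v x ^ 3)) :=
    EE_cont hprof p.1 (tb_LU2sq hprof hm').ug hEM p.2
  have c2 : Continuous (EE (PhiL β l) p.1 p.2 ν (fun v x => U (PhiL β l) p.1 2 v x ^ 2)) :=
    EE_cont hprof p.1 (tb_U2sq hprof hm').ug hEM p.2
  constructor
  · have h1 := monotoneOn_of_block (a := 0) (b := p.2) c3.continuousOn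
      (fun t ht => ddE_U2sq hprof hm' hEM ht.1 ht.2)
      (fun t ht => hC.conv ν hν (PhiL β l) p.1 p.2 t (hinv.mono hA.2.1) hA.1 hpβ ht.1 ht.2)
    intro s hs t ht hst
    rw [e3 s hs, e3 t ht]
    exact h1 hs ht hst
  · intro s hs t ht hst
    rw [e2 s hs, e2 t ht]
    have h2 := intervalIntegral.integral_eq_sub_of_hasDerivAt_of_le hst
      (c2.continuousOn (s := Icc s t)) (fun τ hτ => dE_U2sq hprof hm' hEM (d := p.2)
        (lt_of_le_of_lt hs.1 hτ.1) (lt_of_lt_of_le hτ.2 ht.2)) (c3.intervalIntegrable _ _)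
    rw [← h2]
    apply intervalIntegral.integral_congr
    intro u hu
    rw [uIcc_of_le hst] at hu
    exact (e3 u ⟨hs.1.trans hu.1, hu.2.trans ht.2⟩).symm

/-- structure on each grid interval -/
theorem local_struct {β : ℝ} (hβ : 0 < β) {GC : Measure ℝ → Prop} (hC : GClass β GC) {d : ℝ}
    (hd : 0 < d) : ∀ (l : List (ℝ × ℝ)), Adm β l → (∀ p ∈ l, p.2 = d) → ∀ ν, GC ν →
    ∀ (i : ℕ) (p : ℝ × ℝ), l[i]? = some p →
    MonotoneOn (PsiF (G3 p.1) β l ν) (Icc (i * d) ((i + 1) * d)) ∧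
      ∀ s ∈ Icc (i * d) ((i + 1) * d), ∀ t ∈ Icc (i * d) ((i + 1) * d), s ≤ t →
        PsiF G2 β l ν t - PsiF G2 β l ν s = ∫ u in s..t, PsiF (G3 p.1) β l ν u
  | [], _, _, _, _, i, p, h => by simp at h
  | q :: l, hA, hl, ν, hν, 0, p, h => by
    simp only [List.getElem?_cons_zero, Option.some.injEq] at h
    subst h
    have hq : q.2 = d := hl q (by simp)
    have h1 := first_block hβ hC hA (by rw [hq]; exact hd) hν
    rw [hq] at h1
    have e : Icc (((0:ℕ):ℝ) * d) ((((0:ℕ):ℝ) + 1) * d) = Icc 0 d := by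
      congr 1 <;> simp
    rw [e]
    exact h1
  | q :: l, hA, hl, ν, hν, i + 1, p, h => by
    simp only [List.getElem?_cons_succ] at h
    have hq : q.2 = d := hl q (by simp)
    have hq0 : 0 < q.2 := by rw [hq]; exact hd
    obtain ⟨ν', hν', hN⟩ := hC.nx hβ hA hq0 hν
    have hlA := Adm.pos hA.2.2.2
    obtain ⟨ih1, ih2⟩ := local_struct hβ hC hd l hA.2.2.2 (fun r hr => hl r (by simp [hr])) ν' hν'
      i p h
    have hcast : ((i + 1 : ℕ) : ℝ) = (i:ℝ) + 1 := by push_cast; ring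
    have hsh : ∀ t ∈ Icc (((i + 1 : ℕ) : ℝ) * d) ((((i + 1 : ℕ) : ℝ) + 1) * d),
        t - q.2 ∈ Icc ((i:ℝ) * d) (((i:ℝ) + 1) * d) ∧ q.2 ≤ t := by
      intro t ht
      rw [hcast] at ht
      have hi : 0 ≤ (i:ℝ) * d := by positivity
      rw [hq]
      refine ⟨⟨by linarith [ht.1], by linarith [ht.2]⟩, by linarith [ht.1]⟩
    have e3 : ∀ t ∈ Icc (((i + 1 : ℕ) : ℝ) * d) ((((i + 1 : ℕ) : ℝ) + 1) * d),
        PsiF (G3 p.1) β (q :: l) ν t = PsiF (G3 p.1) β l ν' (t - q.2) := fun t ht =>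
      PsiF_next' (bfn_G3 _) hβ hA.1 hq0.le hlA hN (hsh t ht).2
    have e2 : ∀ t ∈ Icc (((i + 1 : ℕ) : ℝ) * d) ((((i + 1 : ℕ) : ℝ) + 1) * d),
        PsiF G2 β (q :: l) ν t = PsiF G2 β l ν' (t - q.2) := fun t ht =>
      PsiF_next' bfn_G2 hβ hA.1 hq0.le hlA hN (hsh t ht).2
    constructor
    · intro s hs t ht hst
      rw [e3 s hs, e3 t ht]
      exact ih1 (hsh s hs).1 (hsh t ht).1 (by linarith)
    · intro s hs t ht hst
      rw [e2 s hs, e2 t ht, ih2 _ (hsh s hs).1 _ (hsh t ht).1 (by linarith)]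
      have h4 : ∫ u in s..t, PsiF (G3 p.1) β (q :: l) ν u = ∫ u in s..t,
          PsiF (G3 p.1) β l ν' (u - q.2) := by
        apply intervalIntegral.integral_congr
        intro u hu
        rw [uIcc_of_le hst] at hu
        exact e3 u ⟨hs.1.trans hu.1, hu.2.trans ht.2⟩
      rw [h4, intervalIntegral.integral_comp_sub_right (fun s => PsiF (G3 p.1) β l ν' s)]

/-- bound of the derivative -/
theorem G3_bound {β : ℝ} (hβ : 0 < β) {GC : Measure ℝ → Prop} (hC : GClass β GC)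
    {l : List (ℝ × ℝ)} (hA : Adm β l) (hl : ∀ p ∈ l, 0 < p.2) {ν : Measure ℝ} (hν : GC ν) {t : ℝ}
    (ht : t ∈ Icc 0 (TT l)) {c : ℝ} (hc0 : 0 ≤ c) (hcβ : c ≤ β) :
    |PsiF (G3 c) β l ν t| ≤ Real.exp (6 * β ^ 2 * (TT l - t)) * (4 * β ^ 4 * mass β l ν) +
      2 * β ^ 4 * mass β l ν := by
  have hEM := hC.em ν hν
  obtain ⟨m, hm0, hmβ, hinv⟩ := PhiT_inv hβ l hA t
  have h33 := G33_bound hβ hC l hA hl ν hν t ht
  have hd2 : ∀ y, 0 ≤ deriv (deriv (PhiT β l t)) y := fun y => (hinv.low.pos y).le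
  have hd2' : ∀ y, deriv (deriv (PhiT β l t)) y ≤ β := fun y => Inv.d2_le hinv hβ y
  have hcube : ∀ y, 0 ≤ 2 * c * deriv (deriv (PhiT β l t)) y ^ 3 ∧
      2 * c * deriv (deriv (PhiT β l t)) y ^ 3 ≤ 2 * β ^ 4 := by
    intro y
    have h1 : deriv (deriv (PhiT β l t)) y ^ 3 ≤ β ^ 3 := pow_le_pow_left₀ (hd2 y) (hd2' y) 3
    have h2 : 0 ≤ deriv (deriv (PhiT β l t)) y ^ 3 := pow_nonneg (hd2 y) 3
    refine ⟨by positivity, ?_⟩
    calc 2 * c * deriv (deriv (PhiT β l t)) y ^ 3 ≤ 2 * β * β ^ 3 :=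
          mul_le_mul (by linarith) h1 h2 (by positivity)
      _ = 2 * β ^ 4 := by ring
  have hmass := mass_nonneg β l ν
  rw [abs_le]
  constructor
  · have h1 := PsiF_le (bfn_const (-(2 * β ^ 4))) (bfn_G3 c) hβ (l := l) hEM (t := t) (fun y => by
      show -(2 * β ^ 4) ≤ deriv (deriv (deriv (PhiT β l t))) y ^ 2 - 2 * c * _
      have := (hcube y).2
      have := sq_nonneg (deriv (deriv (deriv (PhiT β l t))) y)
      linarith)
    rw [PsiF_const hβ] at h1
    have h2 : 0 ≤ Real.exp (6 * β ^ 2 * (TT l - t)) * (4 * β ^ 4 * mass β l ν) := by positivity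
    linarith
  · have h1 := PsiF_le (bfn_G3 c) bfn_G33 hβ (l := l) hEM (t := t) (fun y => by
      show deriv (deriv (deriv (PhiT β l t))) y ^ 2 - 2 * c * _ ≤
        deriv (deriv (deriv (PhiT β l t))) y ^ 2
      have := (hcube y).1
      linarith)
    have h2 : 0 ≤ 2 * β ^ 4 * mass β l ν := by positivity
    linarith

/-- lower bound of the derivative, at small level -/
theorem G3_low {β : ℝ} (hβ : 0 < β) {GC : Measure ℝ → Prop} (hC : GClass β GC)
    {l : List (ℝ × ℝ)} (hA : Adm β l) {ν : Measure ℝ} (hν : GC ν) {t : ℝ}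
    {c : ℝ} (hc0 : 0 ≤ c) :
    -(2 * c * β ^ 3 * mass β l ν) ≤ PsiF (G3 c) β l ν t := by
  have hEM := hC.em ν hν
  obtain ⟨m, hm0, hmβ, hinv⟩ := PhiT_inv hβ l hA t
  have hd2 : ∀ y, 0 ≤ deriv (deriv (PhiT β l t)) y := fun y => (hinv.low.pos y).le
  have hd2' : ∀ y, deriv (deriv (PhiT β l t)) y ≤ β := fun y => Inv.d2_le hinv hβ y
  have h1 := PsiF_le (bfn_const (-(2 * c * β ^ 3))) (bfn_G3 c) hβ (l := l) hEM (t := t)
    (fun y => by
      show -(2 * c * β ^ 3) ≤ deriv (deriv (deriv (PhiT β l t))) y ^ 2 - 2 * c * _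
      have h1 : deriv (deriv (PhiT β l t)) y ^ 3 ≤ β ^ 3 := pow_le_pow_left₀ (hd2 y) (hd2' y) 3
      have h2 : 2 * c * deriv (deriv (PhiT β l t)) y ^ 3 ≤ 2 * c * β ^ 3 :=
        mul_le_mul_of_nonneg_left h1 (by positivity)
      have := sq_nonneg (deriv (deriv (deriv (PhiT β l t))) y)
      linarith)
  rw [PsiF_const hβ] at h1
  linarith

/-- Lipschitz bound of `g` -/
theorem G2_lip {β : ℝ} (hβ : 0 < β) {GC : Measure ℝ → Prop} (hC : GClass β GC) {M : ℝ} :
    ∀ (l : List (ℝ × ℝ)), Adm β l → (∀ p ∈ l, 0 < p.2) → ∀ ν, GC ν →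
    (Real.exp (6 * β ^ 2 * TT l) * (4 * β ^ 4) + 2 * β ^ 4) * mass β l ν ≤ M →
    ∀ s ∈ Icc 0 (TT l), ∀ t ∈ Icc 0 (TT l), s ≤ t →
      |PsiF G2 β l ν t - PsiF G2 β l ν s| ≤ M * (t - s)
  | [], _, _, ν, _, _, s, hs, t, ht, _ => by
    have e : t = 0 := by
      unfold TT at ht; simp at ht; exact ht
    have e' : s = 0 := by
      unfold TT at hs; simp at hs; exact hs
    rw [e, e']; simp
  | p :: l, hA, hl, ν, hν, hM, s, hs, t, ht, hst => by
    obtain ⟨ν', hν', hN⟩ := hC.nx hβ hA (hl p (by simp)) hν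
    have hp2 := hl p (by simp)
    have hlA := Adm.pos hA.2.2.2
    have hT : 0 ≤ TT l := TT_nonneg fun q hq => (hl q (by simp [hq])).le
    have hmass := mass_next hβ hA.1 hp2.le hlA hN
    have hmn := mass_nonneg β (p :: l) ν
    have hM' : (Real.exp (6 * β ^ 2 * TT l) * (4 * β ^ 4) + 2 * β ^ 4) * mass β l ν' ≤ M := by
      rw [hmass]
      refine le_trans (mul_le_mul_of_nonneg_right ?_ hmn) hM
      have h1 : Real.exp (6 * β ^ 2 * TT l) ≤ Real.exp (6 * β ^ 2 * TT (p :: l)) := by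
        apply Real.exp_le_exp.2
        rw [TT_cons]
        have : 0 ≤ 6 * β ^ 2 := by positivity
        nlinarith
      have h2 : 0 ≤ 4 * β ^ 4 := by positivity
      nlinarith
    have ih := G2_lip hβ hC l hA.2.2.2 (fun q hq => hl q (by simp [hq])) ν' hν' hM'
    have hpβ : p.1 ≤ β := hA.2.1.trans hA.2.2.2.head_le
    have hTT := TT_cons p l
    -- inside the first block
    have hblock : ∀ s ∈ Icc 0 p.2, ∀ t ∈ Icc 0 p.2, s ≤ t →
        |PsiF G2 β (p :: l) ν t - PsiF G2 β (p :: l) ν s| ≤ M * (t - s) := by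
      intro s hs t ht hst
      rw [(first_block hβ hC hA hp2 hν).2 s hs t ht hst]
      have h1 : ‖∫ u in s..t, PsiF (G3 p.1) β (p :: l) ν u‖ ≤ M * |t - s| := by
        apply intervalIntegral.norm_integral_le_of_norm_le_const
        intro u hu
        rw [uIoc_of_le hst] at hu
        rw [Real.norm_eq_abs]
        have hu0 : 0 ≤ u := hs.1.trans hu.1.le
        have hu1 : u ≤ TT (p :: l) := by rw [hTT]; linarith [hu.2, ht.2]
        refine (G3_bound hβ hC hA hl hν ⟨hu0, hu1⟩ hA.1.le hpβ).trans (le_trans ?_ hM)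
        have h2 : Real.exp (6 * β ^ 2 * (TT (p :: l) - u)) ≤ Real.exp (6 * β ^ 2 * TT (p :: l)) := by
          apply Real.exp_le_exp.2
          have : 0 ≤ 6 * β ^ 2 := by positivity
          nlinarith
        have h3 : 0 ≤ 4 * β ^ 4 * mass β (p :: l) ν := by positivity
        have h4 := mul_le_mul_of_nonneg_right h2 h3
        calc _ ≤ Real.exp (6 * β ^ 2 * TT (p :: l)) * (4 * β ^ 4 * mass β (p :: l) ν) +
              2 * β ^ 4 * mass β (p :: l) ν := by linarith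
          _ = _ := by ring
      rwa [Real.norm_eq_abs, abs_of_nonneg (by linarith : 0 ≤ t - s)] at h1
    have htail : ∀ s, p.2 ≤ s → ∀ t, t ≤ TT (p :: l) → s ≤ t →
        |PsiF G2 β (p :: l) ν t - PsiF G2 β (p :: l) ν s| ≤ M * (t - s) := by
      intro s hs t ht hst
      rw [PsiF_next' bfn_G2 hβ hA.1 hp2.le hlA hN hs,
        PsiF_next' bfn_G2 hβ hA.1 hp2.le hlA hN (hs.trans hst)]
      rw [hTT] at ht
      have := ih (s - p.2) ⟨by linarith, by linarith⟩ (t - p.2) ⟨by linarith, by linarith⟩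
        (by linarith)
      have e : t - p.2 - (s - p.2) = t - s := by ring
      rwa [e] at this
    rcases le_total t p.2 with h1 | h1
    · exact hblock s ⟨hs.1, hst.trans h1⟩ t ⟨ht.1, h1⟩ hst
    · rcases le_total p.2 s with h2 | h2
      · exact htail s h2 t ht.2 hst
      · have h3 := hblock s ⟨hs.1, h2⟩ p.2 ⟨hp2.le, le_rfl⟩ h2
        have h4 := htail p.2 le_rfl t ht.2 h1
        have h5 : PsiF G2 β (p :: l) ν t - PsiF G2 β (p :: l) ν s =
            (PsiF G2 β (p :: l) ν t - PsiF G2 β (p :: l) ν p.2) +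
            (PsiF G2 β (p :: l) ν p.2 - PsiF G2 β (p :: l) ν s) := by ring
        rw [h5]
        refine (abs_add_le _ _).trans ?_
        linarith

end

end Crest.Agent.R339.Var
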