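/-
helper71, row 339 (S0530), part (B), variational block:
the minimiser of the discretised Parisi functional satisfies all hypotheses of `Data`.
-/
import Crest.Agent.R339.Var71K

set_option autoImplicit false

namespace Crest.Agent.R339.Var

open MeasureTheory ProbabilityTheory Filter Topology Set
open scoped Interval
open Crest.Agent.R164.GC Crest.Agent.R339.B
open Crest.ProbabilityR.InvariantGlass (gaussOp)

noncomputable section

/-! ### the starting measure -/

/-- start at `x = 0` -/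
def nu0 (β : ℝ) (l : List (ℝ × ℝ)) : Measure ℝ :=
  ENNReal.ofReal (Real.exp (-(headLv β l * PhiL β l 0))) • Measure.dirac 0

theorem PsiF_nu0 (G : (ℝ → ℝ) → ℝ → ℝ) (β : ℝ) (l : List (ℝ × ℝ)) (t : ℝ) :
    PsiF G β l (nu0 β l) t = EX β l t (G (PhiT β l t)) 0 := by
  unfold PsiF nu0
  rw [integral_smul_measure, integral_dirac, ENNReal.toReal_ofReal (Real.exp_pos _).le, smul_eq_mul,
    mul_comm, mul_assoc, ← Real.exp_add]
  simp

theorem mass_nu0 (β : ℝ) (l : List (ℝ × ℝ)) : mass β l (nu0 β l) = 1 := by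
  unfold mass nu0
  rw [integral_smul_measure, integral_dirac, ENNReal.toReal_ofReal (Real.exp_pos _).le, smul_eq_mul,
    ← Real.exp_add]
  simp

/-! ### the grid list -/

theorem adm_ofFn {β d : ℝ} (hd : 0 ≤ d) : ∀ {K : ℕ} {m : Fin K → ℝ}, Monotone m →
    (∀ k, 0 < m k) → (∀ k, m k ≤ β) → Adm β (List.ofFn fun k => (m k, d))
  | 0, _, _, _, _ => by simp [Adm]
  | K + 1, m, hm, h0, hβ => by
    rw [List.ofFn_succ]
    have ih := adm_ofFn (β := β) hd (m := fun k : Fin K => m k.succ)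
      (fun i j hij => hm (Fin.succ_le_succ_iff.2 hij)) (fun k => h0 _) (fun k => hβ _)
    refine ⟨h0 0, ?_, hd, ih⟩
    cases K with
    | zero => simpa [headLv] using hβ 0
    | succ K =>
      rw [List.ofFn_succ]
      exact hm (Fin.zero_le _)

theorem adm_grid {K : ℕ} {ε β : ℝ} (hε : 0 < ε) {m : Fin K → ℝ} (hm : m ∈ cone K ε β) :
    Adm β (grid m) :=
  adm_ofFn (by positivity) hm.1 (fun k => lt_of_lt_of_le hε (hm.2 k).1) (fun k => (hm.2 k).2)

theorem grid_snd {K : ℕ} (m : Fin K → ℝ) : ∀ p ∈ grid m, p.2 = 1 / (K:ℝ) := by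
  intro p hp
  unfold grid at hp
  rw [List.mem_ofFn] at hp
  obtain ⟨k, rfl⟩ := hp
  rfl

theorem TT_grid {K : ℕ} (hK : 0 < K) (m : Fin K → ℝ) : TT (grid m) = 1 := by
  unfold TT grid
  rw [List.map_ofFn]
  have : (Prod.snd ∘ fun k : Fin K => (m k, 1 / (K:ℝ))) = fun _ => 1 / (K:ℝ) := rfl
  rw [this, List.sum_ofFn]
  simp
  field_simp

theorem grid_get {K : ℕ} (m : Fin K → ℝ) {i : ℕ} (hi : i < K) :
    (grid m)[i]? = some (m ⟨i, hi⟩, 1 / (K:ℝ)) := by
  unfold grid
  rw [List.getElem?_ofFn]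
  simp [hi]

/-! ### the top block -/

/-- the profile of the top level -/
def TopEq (β : ℝ) (Φ : ℝ → ℝ) : Prop := ∀ x, deriv (deriv Φ) x = β * (1 - deriv Φ x ^ 2)

theorem TopEq.step {β : ℝ} {Φ : ℝ → ℝ} (h : Prof Φ) (hT : TopEq β Φ) (v : ℝ) :
    TopEq β (gaussOp β v Φ) := by
  intro x
  rw [h.gaussOp_deriv2, h.gaussOp_deriv]
  have e1 : deriv (deriv Φ) = fun y => β + (-β) * deriv Φ y ^ 2 := by
    funext y; rw [hT y]; ring
  have hbc := (sq_BC h).eg
  have e2 : tE β v Φ (deriv (deriv Φ)) x = β - β * tE β v Φ (fun y => deriv Φ y ^ 2) x := by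
    rw [e1, tE_add h.lip β v (EG.const β) (hbc.const_mul (-β)), tE_const h.lip, tE_const_mul]
    ring
  have e3 : (fun y => deriv Φ y * deriv Φ y) = fun y => deriv Φ y ^ 2 := by
    funext y; ring
  simp only
  rw [e2, e3]
  ring

theorem TopEq_PhiL {β : ℝ} (hβ : 0 < β) : ∀ (l : List (ℝ × ℝ)), (∀ p ∈ l, p.1 = β) →
    TopEq β (PhiL β l)
  | [], _ => by
    intro x
    show deriv (deriv (phi0 β)) x = _
    rw [phi0_deriv2 hβ]
    show β * (1 - th β x ^ 2) = β * (1 - deriv (phi0 β) x ^ 2)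
    rw [phi0_deriv hβ]
  | p :: l, h => by
    have hp := h p (by simp)
    show TopEq β (gaussOp p.1 p.2 (PhiL β l))
    rw [hp]
    exact (TopEq_PhiL hβ l fun q hq => h q (by simp [hq])).step (PhiL_prof hβ l) _

theorem TopEq_PhiT0 {β : ℝ} (hβ : 0 < β) : ∀ (l : List (ℝ × ℝ)), (∀ p ∈ l, p.1 = β) →
    ∀ t, TopEq β (PhiT β l t)
  | [], h, _ => TopEq_PhiL hβ [] h
  | p :: l, h, t => by
    have hp := h p (by simp)
    have hl := fun q hq => h q (List.mem_cons_of_mem p hq)
    unfold PhiT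
    split_ifs
    · rw [hp]
      exact (TopEq_PhiL hβ l hl).step (PhiL_prof hβ l) _
    · exact TopEq_PhiT0 hβ l hl (t - p.2)

theorem TopEq_PhiT {β d : ℝ} (hβ : 0 < β) (hd : 0 ≤ d) : ∀ (a : ℕ) (l : List (ℝ × ℝ)),
    (∀ p ∈ l, p.2 = d) → (∀ p ∈ l.drop a, p.1 = β) → ∀ t, a * d < t → TopEq β (PhiT β l t)
  | 0, l, _, h, t, _ => TopEq_PhiT0 hβ l (by simpa using h) t
  | a + 1, [], _, _, t, _ => TopEq_PhiL hβ [] (by simp)
  | a + 1, p :: l, h2, h, t, ht => by
    have hp := h2 p (by simp)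
    have hcast : ((a + 1 : ℕ) : ℝ) = (a:ℝ) + 1 := by push_cast; ring
    rw [hcast] at ht
    have had : 0 ≤ (a:ℝ) * d := by positivity
    unfold PhiT
    rw [if_neg (by rw [hp]; nlinarith)]
    refine TopEq_PhiT hβ hd a l (fun q hq => h2 q (by simp [hq])) (by simpa using h) _ ?_
    rw [hp]; linarith

/-! ### constancy blocks of the grid -/

section Grid

variable {K : ℕ} {ε β : ℝ} {m : Fin K → ℝ} {GC : Measure ℝ → Prop}

/-- structure of a constancy block -/
theorem const_block (hβ : 0 < β) (hC : GClass β GC) (hK : 0 < K) (hε : 0 < ε)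
    (hm : m ∈ cone K ε β) {ν : Measure ℝ} (hν : GC ν) (a : ℕ) : ∀ (b : ℕ), a ≤ b → b ≤ K →
    ∀ v : ℝ, (∀ k : Fin K, a ≤ (k:ℕ) → (k:ℕ) < b → m k = v) →
    MonotoneOn (PsiF (G3 v) β (grid m) ν) (Icc ((a:ℝ)/K) ((b:ℝ)/K)) ∧
      ∀ s ∈ Icc ((a:ℝ)/K) ((b:ℝ)/K), ∀ t ∈ Icc ((a:ℝ)/K) ((b:ℝ)/K), s ≤ t →
        PsiF G2 β (grid m) ν t - PsiF G2 β (grid m) ν s =
          ∫ u in s..t, PsiF (G3 v) β (grid m) ν u := by
  have hK' : (0:ℝ) < K := by exact_mod_cast hK
  have hA := adm_grid hε hm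
  have hd : (0:ℝ) < 1 / K := by positivity
  have hTT := TT_grid hK m
  intro b hab
  induction b, hab using Nat.le_induction with
  | base =>
    intro _ v _
    have : Icc ((a:ℝ)/K) ((a:ℝ)/K) = {(a:ℝ)/K} := Icc_self _
    rw [this]
    refine ⟨fun s hs t ht _ => ?_, fun s hs t ht _ => ?_⟩
    · rw [mem_singleton_iff.1 hs, mem_singleton_iff.1 ht]
    · rw [mem_singleton_iff.1 hs, mem_singleton_iff.1 ht]; simp
  | succ b hab ih =>
    intro hbK v hv
    obtain ⟨ih1, ih2⟩ := ih (by omega) v (fun k hk hk' => hv k hk (by omega))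
    have hbv : m ⟨b, by omega⟩ = v := hv ⟨b, by omega⟩ hab (by simp)
    obtain ⟨h1, h2⟩ := local_struct hβ hC hd (grid m) hA (grid_snd m) ν hν b
      (m ⟨b, by omega⟩, 1 / (K:ℝ)) (grid_get m (by omega))
    simp only [hbv] at h1 h2
    have e1 : (b:ℝ) * (1 / K) = (b:ℝ)/K := by ring
    have e2 : ((b:ℝ) + 1) * (1 / K) = ((b + 1 : ℕ) : ℝ)/K := by push_cast; ring
    rw [e1, e2] at h1 h2
    have hle1 : (a:ℝ)/K ≤ (b:ℝ)/K := div_le_div_of_nonneg_right (by exact_mod_cast hab) hK'.le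
    have hle2 : (b:ℝ)/K ≤ ((b + 1 : ℕ) : ℝ)/K :=
      div_le_div_of_nonneg_right (by push_cast; linarith) hK'.le
    have hle3 : ((b + 1 : ℕ) : ℝ)/K ≤ 1 := by
      rw [div_le_one hK']; exact_mod_cast hbK
    have hle0 : 0 ≤ (a:ℝ)/K := by positivity
    have hmono : MonotoneOn (PsiF (G3 v) β (grid m) ν) (Icc ((a:ℝ)/K) (((b + 1 : ℕ) : ℝ)/K)) := by
      have := ih1.union_right h1 (isGreatest_Icc hle1) (isLeast_Icc hle2)
      rwa [Icc_union_Icc_eq_Icc hle1 hle2] at this
    refine ⟨hmono, fun s hs t ht hst => ?_⟩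
    have hcont := PsiF_continuousOn (bfn_G3 v) hβ hC (grid m) hA
      (fun p hp => by rw [grid_snd m p hp]; exact hd) ν hν
    rw [hTT] at hcont
    rcases le_total t ((b:ℝ)/K) with h3 | h3
    · exact ih2 s ⟨hs.1, hst.trans h3⟩ t ⟨ht.1, h3⟩ hst
    · rcases le_total ((b:ℝ)/K) s with h4 | h4
      · exact h2 s ⟨h4, hs.2⟩ t ⟨h3, ht.2⟩ hst
      · have e3 := ih2 s ⟨hs.1, h4⟩ ((b:ℝ)/K) ⟨hle1, le_rfl⟩ h4
        have e4 := h2 ((b:ℝ)/K) ⟨le_rfl, hle2⟩ t ⟨h3, ht.2⟩ h3
        have i1 : IntervalIntegrable (PsiF (G3 v) β (grid m) ν) volume s ((b:ℝ)/K) := by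
          apply ContinuousOn.intervalIntegrable
          rw [uIcc_of_le h4]
          exact hcont.mono (Icc_subset_Icc (hle0.trans hs.1) (hle2.trans hle3))
        have i2 : IntervalIntegrable (PsiF (G3 v) β (grid m) ν) volume ((b:ℝ)/K) t := by
          apply ContinuousOn.intervalIntegrable
          rw [uIcc_of_le h3]
          exact hcont.mono (Icc_subset_Icc (hle0.trans hle1) (ht.2.trans hle3))
        rw [← intervalIntegral.integral_add_adjacent_intervals i1 i2, ← e3, ← e4]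
        ring

/-- the function `g = E Φ_xx²` from `x = 0` -/
def gg (β : ℝ) (l : List (ℝ × ℝ)) (t : ℝ) : ℝ := EX β l t (G2 (PhiT β l t)) 0

/-- the function `G = E Φ_x² - t` from `x = 0` -/
def GG (β : ℝ) (l : List (ℝ × ℝ)) (t : ℝ) : ℝ := QQ β l t 0 - t

theorem gg_eq (β : ℝ) (l : List (ℝ × ℝ)) (t : ℝ) : gg β l t = PsiF G2 β l (nu0 β l) t :=
  (PsiF_nu0 G2 β l t).symm

theorem QQ_eq (β : ℝ) (l : List (ℝ × ℝ)) (t : ℝ) : QQ β l t 0 = PsiF G1 β l (nu0 β l) t :=
  (PsiF_nu0 G1 β l t).symm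

theorem gg_bounds (hβ : 0 < β) {l : List (ℝ × ℝ)} (hA : Adm β l) (t : ℝ) :
    0 ≤ gg β l t ∧ gg β l t ≤ β ^ 2 := by
  obtain ⟨m, hm0, hmβ, hinv⟩ := PhiT_inv hβ l hA t
  obtain ⟨K, hK⟩ := bfn_G2.bc _ hinv.prof
  constructor
  · have := EX_mono hβ l t (BC.const 0) hK (fun y => sq_nonneg _) 0
    rwa [EX_const hβ] at this
  · have := EX_mono hβ l t hK (BC.const (β ^ 2)) (fun y => by
      show deriv (deriv (PhiT β l t)) y ^ 2 ≤ β ^ 2
      exact pow_le_pow_left₀ (hinv.low.pos y).le (Inv.d2_le hinv hβ y) 2) 0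
    rwa [EX_const hβ] at this

/-- **All hypotheses of `Data`** for the minimiser. -/
theorem data_of_min (hβ : 1 ≤ β) (hC : GClass β GC) (hK : 0 < K) (hε : 0 < ε) (hεβ : ε < β)
    (hm : m ∈ cone K ε β) (hmin : ∀ m' ∈ cone K ε β, PF β m ≤ PF β m') {δ : ℝ}
    (hδ : (β ^ 2 + 1) / K ≤ δ) (hδε : 2 * ε * β ^ 3 ≤ δ) (hδ1 : δ ≤ 1 / (4 * β))
    (hδ2 : 4 * δ < (1 / (4 * β * (1 + (β ^ 2 + 1)))) ^ 2) :
    Data K ε β (β ^ 2 + 1) δ (PF β) m (GG β (grid m)) (gg β (grid m)) := by
  have hβ0 : 0 < β := by linarith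
  have hK' : (0:ℝ) < K := by exact_mod_cast hK
  have hA := adm_grid hε hm
  have hd : (0:ℝ) < 1 / K := by positivity
  have hTT := TT_grid hK m
  have hpos : ∀ p ∈ grid m, 0 < p.2 := fun p hp => by rw [grid_snd m p hp]; exact hd
  have hν : GC (nu0 β (grid m)) := hC.dirac _ (Real.exp_pos _)
  have hmass := mass_nu0 β (grid m)
  have hc1 := PsiF_continuousOn bfn_G1 hβ0 hC (grid m) hA hpos _ hν
  have hc2 := PsiF_continuousOn bfn_G2 hβ0 hC (grid m) hA hpos _ hν
  have hint := G1_int hβ0 hC (grid m) hA hpos _ hν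
  rw [hTT] at hc1 hc2
  have hint' : ∀ t ∈ Icc (0:ℝ) 1, PsiF G1 β (grid m) (nu0 β (grid m)) t =
      PsiF G1 β (grid m) (nu0 β (grid m)) 0 +
        ∫ s in (0:ℝ)..t, PsiF G2 β (grid m) (nu0 β (grid m)) s := fun t ht =>
    hint t (by rw [hTT]; exact ht)
  have hEX0 : ∀ F, EX β (grid m) 0 F = F := by
    intro F
    cases hg : grid m with
    | nil => rfl
    | cons q l =>
      have hq := hpos q (by rw [hg]; simp)
      unfold EX
      rw [if_pos hq.le, tE_v0]
  have hPhi0 : PhiT β (grid m) 0 = PhiL β (grid m) := by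
    cases hg : grid m with
    | nil => rfl
    | cons q l =>
      have hq := hpos q (by rw [hg]; simp)
      unfold PhiT
      rw [if_pos hq.le, sub_zero]
      rfl
  refine
    { hK := hK
      hε := hε
      hεβ := hεβ
      hβ := hβ
      hm := hm
      hmin := hmin
      hderiv := fun η => PF_hasDerivAt dmFormula hβ0 (fun k => lt_of_lt_of_le hε (hm.2 k).1) η
      hG0 := ?_
      hG1 := ?_
      hGl := ?_
      hGc := ?_
      hd := ?_
      hC := ?_
      hC1 := by nlinarith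
      hqc := ?_
      heps := ?_
      hlast := ?_
      hδ := hδ
      hδ1 := hδ1
      hδ2 := hδ2 }
  · show EX β (grid m) 0 (fun y => deriv (PhiT β (grid m) 0) y ^ 2) 0 - 0 = 0
    rw [hEX0, hPhi0, (PhiL_inv hβ0 hA).d0]
    ring
  · intro t ht
    have := (abs_le.1 ((QQ_BC hβ0 (grid m) t).bd 0)).2
    show QQ β (grid m) t 0 - t ≤ 1 - t
    linarith
  · intro t ht
    have := QQ_nonneg hβ0 (grid m) t 0
    show -t ≤ QQ β (grid m) t 0 - t
    linarith
  · refine ContinuousOn.sub ?_ continuousOn_id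
    exact hc1.congr fun t _ => QQ_eq β (grid m) t
  · intro x hx
    have hnhds : Icc (0:ℝ) 1 ∈ 𝓝 x := Icc_mem_nhds hx.1 hx.2
    have hcx : ContinuousAt (PsiF G2 β (grid m) (nu0 β (grid m))) x :=
      (hc2 x ⟨hx.1.le, hx.2.le⟩).continuousAt hnhds
    have hii : IntervalIntegrable (PsiF G2 β (grid m) (nu0 β (grid m))) volume 0 x := by
      apply ContinuousOn.intervalIntegrable
      rw [uIcc_of_le hx.1.le]
      exact hc2.mono (Icc_subset_Icc le_rfl hx.2.le)
    have hsm : StronglyMeasurableAtFilter (PsiF G2 β (grid m) (nu0 β (grid m))) (𝓝 x) volume :=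
      ContinuousOn.stronglyMeasurableAtFilter isOpen_Ioo
        (hc2.mono Ioo_subset_Icc_self) x hx
    have h1 := intervalIntegral.integral_hasDerivAt_right hii hsm hcx
    have h2 : HasDerivAt (fun t => PsiF G1 β (grid m) (nu0 β (grid m)) 0 +
        (∫ s in (0:ℝ)..t, PsiF G2 β (grid m) (nu0 β (grid m)) s) - t)
        (PsiF G2 β (grid m) (nu0 β (grid m)) x - 1) x :=
      (h1.const_add _).fun_sub (hasDerivAt_id x)
    rw [gg_eq]
    refine h2.congr_of_eventuallyEq ?_
    filter_upwards [hnhds] with t ht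
    show QQ β (grid m) t 0 - t = _
    rw [QQ_eq, hint' t ht]
  · intro x _
    obtain ⟨h1, h2⟩ := gg_bounds hβ0 hA x
    rw [abs_le]
    constructor <;> nlinarith [sq_nonneg β]
  · intro a b hab hbK v _ _ hv
    obtain ⟨h1, h2⟩ := const_block hβ0 hC hK hε hm hν a b hab.le hbK v hv
    intro x hx y hy z hz hxy hyz
    rw [gg_eq, gg_eq, gg_eq]
    have hx' := Ioo_subset_Icc_self hx
    have hy' := Ioo_subset_Icc_self hy
    have hz' := Ioo_subset_Icc_self hz
    rcases le_total (PsiF (G3 v) β (grid m) (nu0 β (grid m)) y) 0 with h3 | h3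
    · have h4 := h2 x hx' y hy' hxy.le
      have h5 : ∫ u in x..y, PsiF (G3 v) β (grid m) (nu0 β (grid m)) u ≤ 0 := by
        have h6 := intervalIntegral.integral_nonneg (μ := volume)
          (f := fun u => -PsiF (G3 v) β (grid m) (nu0 β (grid m)) u) hxy.le (fun u hu => by
            have := (h1 ⟨hx'.1.trans hu.1, hu.2.trans hy'.2⟩ hy' hu.2).trans h3
            linarith)
        rw [intervalIntegral.integral_neg] at h6
        linarith
      exact le_max_of_le_left (by linarith)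
    · have h4 := h2 y hy' z hz' hyz.le
      have h5 : 0 ≤ ∫ u in y..z, PsiF (G3 v) β (grid m) (nu0 β (grid m)) u := by
        apply intervalIntegral.integral_nonneg hyz.le
        intro u hu
        exact h3.trans (h1 hy' ⟨hy'.1.trans hu.1, hu.2.trans hz'.2⟩ hu.1)
      exact le_max_of_le_right (by linarith)
  · intro b hbK hb x hx y hy hxy
    obtain ⟨h1, h2⟩ := const_block hβ0 hC hK hε hm hν 0 b (Nat.zero_le _) hbK ε
      (fun k _ hk => hb k hk)
    simp only [Nat.cast_zero, zero_div] at h1 h2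
    have hx' := Ioo_subset_Icc_self hx
    have hy' := Ioo_subset_Icc_self hy
    have h4 := h2 x hx' y hy' hxy
    have hbK' : (b:ℝ)/K ≤ 1 := by
      rw [div_le_one hK']; exact_mod_cast hbK
    have h5 : -(2 * ε * β ^ 3) * (y - x) ≤
        ∫ u in x..y, PsiF (G3 ε) β (grid m) (nu0 β (grid m)) u := by
      have hc3 := PsiF_continuousOn (bfn_G3 ε) hβ0 hC (grid m) hA hpos _ hν
      rw [hTT] at hc3
      have hii : IntervalIntegrable (PsiF (G3 ε) β (grid m) (nu0 β (grid m))) volume x y := by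
        apply ContinuousOn.intervalIntegrable
        rw [uIcc_of_le hxy]
        exact hc3.mono (Icc_subset_Icc hx'.1 (hy'.2.trans hbK'))
      have h6 := intervalIntegral.integral_mono_on (a := x) (b := y)
        (f := fun _ => -(2 * ε * β ^ 3))
        (g := PsiF (G3 ε) β (grid m) (nu0 β (grid m))) hxy (by simp) hii (fun u _ => by
          have := G3_low hβ0 hC hA hν (t := u) hε.le
          rw [hmass, mul_one] at this
          exact this)
      simp only [intervalIntegral.integral_const, smul_eq_mul] at h6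
      linarith
    rw [gg_eq, gg_eq]
    have h7 : y - x ≤ 1 := by linarith [hx'.1, hy'.2]
    have h8 : 0 ≤ 2 * ε * β ^ 3 := by positivity
    have h9 : 2 * ε * β ^ 3 * (y - x) ≤ 2 * ε * β ^ 3 * 1 := mul_le_mul_of_nonneg_left h7 h8
    linarith
  · intro a haK ha x hx
    have hdrop : ∀ p ∈ (grid m).drop a, p.1 = β := by
      intro p hp
      rw [List.mem_iff_getElem?] at hp
      obtain ⟨i, hi⟩ := hp
      rw [List.getElem?_drop] at hi
      have hlt : a + i < K := by
        by_contra hcon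
        rw [List.getElem?_eq_none (by unfold grid; simp; omega)] at hi
        exact absurd hi (by simp)
      rw [grid_get m hlt] at hi
      have := ha ⟨a + i, hlt⟩ (by simp)
      rw [← Option.some.inj hi]
      exact this
    have hax : (a:ℝ) * (1 / K) < x := by
      have := hx.1
      have e : (a:ℝ) * (1 / K) = (a:ℝ)/K := by ring
      rw [e]; exact this
    have htop := TopEq_PhiT hβ0 hd.le a (grid m) (grid_snd m) hdrop x hax
    have hprof := PhiT_prof hβ0 (grid m) x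
    have hbc : BC (fun y => 1 - deriv (PhiT β (grid m) x) y ^ 2) (|1| + 1) :=
      (BC.const 1).sub (sq_BC hprof)
    have h1 := EX_sq hβ0 (grid m) x hbc 0
    have h2 : EX β (grid m) x (fun y => 1 - deriv (PhiT β (grid m) x) y ^ 2) 0 =
        1 - QQ β (grid m) x 0 := by
      have e : (fun y => 1 - deriv (PhiT β (grid m) x) y ^ 2) =
          fun y => (fun _ => (1:ℝ)) y + (fun y => (-1) * deriv (PhiT β (grid m) x) y ^ 2) y := by
        funext y; simp only; ring
      rw [e, EX_add hβ0 (grid m) x (BC.const 1) ((sq_BC hprof).const_mul (-1)), EX_const hβ0,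
        EX_const_mul hβ0]
      unfold QQ
      ring
    have h3 : gg β (grid m) x = β ^ 2 * EX β (grid m) x
        (fun y => (1 - deriv (PhiT β (grid m) x) y ^ 2) ^ 2) 0 := by
      rw [← EX_const_mul hβ0]
      unfold gg G2
      congr 1
      funext y
      rw [htop y]
      ring
    have e4 : 1 - x - GG β (grid m) x = 1 - QQ β (grid m) x 0 := by
      unfold GG; ring
    rw [e4, h3, ← h2]
    exact mul_le_mul_of_nonneg_left h1 (sq_nonneg β)

end Grid

end

end Crest.Agent.R339.Var
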