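/-
helper71, row 339 (S0530), part (B): the no-gap theorem for the minimiser of the restricted
Parisi functional, with all parameters chosen, and the resulting upper bound of its value.
-/
import Crest.Agent.R339.Var71L
import Crest.Agent.R339.V455b
import Crest.Agent.R339.B107GC2

set_option autoImplicit false

namespace Crest.Agent.R339.Var

open MeasureTheory ProbabilityTheory Filter Topology Set
open scoped Interval
open Crest.Agent.R164.GC Crest.Agent.R339.B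
open Crest.ProbabilityR.InvariantGlass (gaussOp)

noncomputable section

/-- `gg` of this file and `V4.gg` agree. -/
theorem gg_V4 (β : ℝ) (l : List (ℝ × ℝ)) (t : ℝ) : V4.gg β l t 0 = gg β l t := rfl

/-- the Lipschitz constant of `E Φ_xx²` -/
def LC (β : ℝ) : ℝ := Real.exp (6 * β ^ 2) * (4 * β ^ 4) + 2 * β ^ 4

theorem LC_pos {β : ℝ} (hβ : 0 < β) : 0 < LC β := by unfold LC; positivity

theorem gg_lip {β : ℝ} (hβ : 0 < β) {K : ℕ} (hK : 0 < K) {ε : ℝ} (hε : 0 < ε)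
    {m : Fin K → ℝ} (hm : m ∈ cone K ε β) {s t : ℝ} (hs : s ∈ Icc (0:ℝ) 1)
    (ht : t ∈ Icc (0:ℝ) 1) : |gg β (grid m) s - gg β (grid m) t| ≤ LC β * |s - t| := by
  have hK' : (0:ℝ) < K := by exact_mod_cast hK
  have hd : (0:ℝ) < 1 / K := by positivity
  have hC : GClass β GC := gclass β
  have hA := adm_grid hε hm
  have hTT := TT_grid hK m
  have hpos : ∀ p ∈ grid m, 0 < p.2 := fun p hp => by rw [grid_snd m p hp]; exact hd
  have hν : GC (nu0 β (grid m)) := hC.dirac _ (Real.exp_pos _)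
  have hM : (Real.exp (6 * β ^ 2 * TT (grid m)) * (4 * β ^ 4) + 2 * β ^ 4) *
      mass β (grid m) (nu0 β (grid m)) ≤ LC β := by
    rw [hTT, mass_nu0, mul_one, mul_one]
    exact le_rfl
  have key : ∀ s ∈ Icc (0:ℝ) 1, ∀ t ∈ Icc (0:ℝ) 1, s ≤ t →
      |gg β (grid m) t - gg β (grid m) s| ≤ LC β * (t - s) := by
    intro s hs t ht hst
    rw [gg_eq, gg_eq]
    exact G2_lip hβ hC (grid m) hA hpos _ hν hM s (by rw [hTT]; exact hs) t
      (by rw [hTT]; exact ht) hst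
  rcases le_total s t with h | h
  · rw [abs_sub_comm, abs_sub_comm s t, abs_of_nonneg (sub_nonneg.2 h)]
    exact key s hs t ht h
  · rw [abs_of_nonneg (sub_nonneg.2 h)]
    exact key t ht s hs h

/-- all parameter choices at once -/
theorem exists_delta {β : ℝ} (hβ : 0 < β) {η : ℝ} (hη : 0 < η) : ∃ δ : ℝ, 0 < δ ∧
    δ ≤ 1 / (4 * β) ∧ 4 * δ < (1 / (4 * β * (1 + (β ^ 2 + 1)))) ^ 2 ∧
    2 * δ + 3 * Real.sqrt ((β ^ 2 + 1) * δ) ≤ η ∧
    3 * Real.sqrt (LC β * (2 * δ + 3 * Real.sqrt ((β ^ 2 + 1) * δ))) +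
      16 * (2 * δ + 3 * Real.sqrt ((β ^ 2 + 1) * δ)) ≤ η := by
  have h1 : Tendsto (fun δ : ℝ => 4 * δ) (𝓝[>] 0) (𝓝 0) := by
    have : ContinuousAt (fun δ : ℝ => 4 * δ) 0 := by fun_prop
    have h2 := this.tendsto.mono_left (nhdsWithin_le_nhds (s := Ioi 0))
    simpa using h2
  have h2 : Tendsto (fun δ : ℝ => 2 * δ + 3 * Real.sqrt ((β ^ 2 + 1) * δ)) (𝓝[>] 0) (𝓝 0) := by
    have : ContinuousAt (fun δ : ℝ => 2 * δ + 3 * Real.sqrt ((β ^ 2 + 1) * δ)) 0 := by fun_prop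
    have h2 := this.tendsto.mono_left (nhdsWithin_le_nhds (s := Ioi 0))
    simpa using h2
  have h3 : Tendsto (fun δ : ℝ => 3 * Real.sqrt (LC β * (2 * δ + 3 * Real.sqrt ((β ^ 2 + 1) * δ))) +
      16 * (2 * δ + 3 * Real.sqrt ((β ^ 2 + 1) * δ))) (𝓝[>] 0) (𝓝 0) := by
    have : ContinuousAt (fun δ : ℝ =>
      3 * Real.sqrt (LC β * (2 * δ + 3 * Real.sqrt ((β ^ 2 + 1) * δ))) +
      16 * (2 * δ + 3 * Real.sqrt ((β ^ 2 + 1) * δ))) 0 := by fun_prop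
    have h2 := this.tendsto.mono_left (nhdsWithin_le_nhds (s := Ioi 0))
    simpa using h2
  have hid : Tendsto (fun δ : ℝ => δ) (𝓝[>] 0) (𝓝 0) := tendsto_id.mono_left nhdsWithin_le_nhds
  have e0 : ∀ᶠ δ : ℝ in 𝓝[>] 0, 0 < δ := self_mem_nhdsWithin
  have p1 : 0 < 1 / (4 * β) := by positivity
  have p2 : 0 < (1 / (4 * β * (1 + (β ^ 2 + 1)))) ^ 2 := by positivity
  obtain ⟨δ, g0, g1, g2, g3, g4⟩ := (e0.and ((hid.eventually (gt_mem_nhds p1)).and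
    ((h1.eventually (gt_mem_nhds p2)).and ((h2.eventually (gt_mem_nhds hη)).and
      (h3.eventually (gt_mem_nhds hη)))))).exists
  exact ⟨δ, g0, g1.le, g2, g3.le, g4.le⟩

/-- **No gap**: for `β ≥ 4` and every `η > 0` there is a grid minimiser whose overlap function
satisfies `|E Φ_x² - t| ≤ η`, `|E Φ_xx² - 1| ≤ η` up to the time `a/K ≥ 1 - 2/β`, and whose
value is at most `∫_0^{a/K} E Φ_xx + √(1 - a/K) + βη/2 + log 2/β`. -/
theorem no_gap {β : ℝ} (hβ : 4 ≤ β) {η : ℝ} (hη : 0 < η) :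
    ∃ (K : ℕ) (ε : ℝ) (m : Fin K → ℝ) (a : ℕ), 0 < K ∧ 0 < ε ∧ ε < β ∧ m ∈ cone K ε β ∧
      (∀ m' ∈ cone K ε β, PF β m ≤ PF β m') ∧ a ≤ K ∧
      (∀ k : Fin K, a ≤ (k:ℕ) → m k = β) ∧ β * (1 - (a:ℝ)/K) ≤ 2 ∧
      (∀ t ∈ Icc (0:ℝ) ((a:ℝ)/K), |QQ β (grid m) t 0 - t| ≤ η) ∧
      (∀ t ∈ Icc (0:ℝ) ((a:ℝ)/K), |gg β (grid m) t - 1| ≤ η) ∧
      PF β m ≤ (∫ s in (0:ℝ)..(a:ℝ)/K, V4.XX β (grid m) s 0) + √(1 - (a:ℝ)/K) + β * η / 2 +
        Real.log 2 / β := by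
  have hβ0 : 0 < β := by linarith
  obtain ⟨δ, hδ0, hδ1, hδ2, hδ3, hδ4⟩ := exists_delta hβ0 hη
  obtain ⟨K, hKδ⟩ := exists_nat_gt ((β ^ 2 + 1) / δ)
  have hK' : (0:ℝ) < K := lt_of_le_of_lt (by positivity) hKδ
  have hK : 0 < K := by exact_mod_cast hK'
  have hδK : (β ^ 2 + 1) / K ≤ δ := by
    rw [div_lt_iff₀ hδ0] at hKδ
    rw [div_le_iff₀ hK']
    linarith
  set ε := δ / (2 * β ^ 3) with hεdef
  have hε : 0 < ε := by positivity
  have hεβ : ε < β := by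
    rw [hεdef, div_lt_iff₀ (by positivity)]
    have h1 : 1 / (4 * β) ≤ 1 := by
      rw [div_le_one (by positivity)]; linarith
    have h2 : (1:ℝ) ≤ β ^ 3 := one_le_pow₀ (by linarith)
    nlinarith
  have hδε : 2 * ε * β ^ 3 ≤ δ := by
    rw [hεdef]
    apply le_of_eq
    field_simp
  obtain ⟨m, hm, hmin⟩ := exists_min dmFormula hβ0 hε hεβ.le K
  have D := data_of_min (m := m) (by linarith : (1:ℝ) ≤ β) (gclass β) hK hε hεβ hm hmin hδK hδε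
    hδ1 hδ2
  obtain ⟨a, haK, ha, hgap, hG, hlast⟩ := D.main
  have htop : ∀ k : Fin K, a ≤ (k:ℕ) → m k = β := by
    intro k hk
    have h1 : ¬ (m k < β) := fun h => absurd ((ha k).2 h) (by omega)
    exact le_antisymm (hm.2 k).2 (not_lt.1 h1)
  have haK1 : (a:ℝ)/K ≤ 1 := by
    rw [div_le_one hK']; exact_mod_cast haK
  have ha2 : 1 / 2 ≤ (a:ℝ)/K := by
    nlinarith
  have hC0 : 0 ≤ 2 * δ + 3 * Real.sqrt ((β ^ 2 + 1) * δ) := by positivity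
  have hg1 : ∀ t ∈ Icc (0:ℝ) ((a:ℝ)/K), |gg β (grid m) t - 1| ≤ η := by
    intro t ht
    have := landau (G := GG β (grid m)) (g := gg β (grid m)) (a := 0) (b := (a:ℝ)/K)
      (L := LC β) (η := 2 * δ + 3 * Real.sqrt ((β ^ 2 + 1) * δ)) (LC_pos hβ0) hC0 (by linarith)
      (D.hGc.mono (Icc_subset_Icc le_rfl haK1))
      (fun x hx => D.hd x ⟨hx.1, hx.2.trans_le haK1⟩)
      (fun x hx y hy => gg_lip hβ0 hK hε hm ⟨hx.1, hx.2.trans haK1⟩ ⟨hy.1, hy.2.trans haK1⟩)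
      hG t ht
    refine this.trans (le_trans ?_ hδ4)
    have h8 : 8 * (2 * δ + 3 * Real.sqrt ((β ^ 2 + 1) * δ)) / ((a:ℝ)/K - 0) ≤
        16 * (2 * δ + 3 * Real.sqrt ((β ^ 2 + 1) * δ)) := by
      rw [sub_zero, div_le_iff₀ (by linarith)]
      nlinarith
    linarith
  have hGη : ∀ t ∈ Icc (0:ℝ) ((a:ℝ)/K), |QQ β (grid m) t 0 - t| ≤ η :=
    fun t ht => (hG t ht).trans hδ3
  refine ⟨K, ε, m, a, hK, hε, hεβ, hm, hmin, haK, htop, hgap, hGη, hg1, ?_⟩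
  have hA := adm_grid hε hm
  -- the integral of gg over the last block
  have hpos : ∀ p ∈ grid m, 0 < p.2 := fun p hp => by
    rw [grid_snd m p hp]; positivity
  have hν : GC (nu0 β (grid m)) := (gclass β).dirac _ (Real.exp_pos _)
  have hTT := TT_grid hK m
  have hc2 := PsiF_continuousOn bfn_G2 hβ0 (gclass β) (grid m) hA hpos _ hν
  have hint := G1_int hβ0 (gclass β) (grid m) hA hpos _ hν
  rw [hTT] at hc2
  have hgi : ∀ u ∈ Icc (0:ℝ) 1, ∀ v ∈ Icc (0:ℝ) 1,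
      IntervalIntegrable (PsiF G2 β (grid m) (nu0 β (grid m))) volume u v := by
    intro u hu v hv
    apply ContinuousOn.intervalIntegrable
    exact hc2.mono (ordConnected_Icc.uIcc_subset hu hv)
  have ha01 : (a:ℝ)/K ∈ Icc (0:ℝ) 1 := ⟨by linarith, haK1⟩
  have hI : ∫ t in (a:ℝ)/K..1, V4.gg β (grid m) t 0 ≤ 1 := by
    have e1 : ∀ t, V4.gg β (grid m) t 0 = PsiF G2 β (grid m) (nu0 β (grid m)) t := by
      intro t
      rw [gg_V4, gg_eq]
    simp_rw [e1]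
    have i1 := hint 1 (by rw [hTT]; exact ⟨zero_le_one, le_rfl⟩)
    have i2 := hint ((a:ℝ)/K) (by rw [hTT]; exact ha01)
    have i3 := intervalIntegral.integral_add_adjacent_intervals
      (hgi 0 ⟨le_rfl, zero_le_one⟩ _ ha01) (hgi _ ha01 1 ⟨zero_le_one, le_rfl⟩)
    have q1 := (abs_le.1 ((QQ_BC hβ0 (grid m) 1).bd 0)).2
    have q2 := QQ_nonneg hβ0 (grid m) ((a:ℝ)/K) 0
    rw [QQ_eq] at q1 q2
    linarith
  exact V4.PF_le hβ0 hK hA (fun k => (hm.2 k).2) haK htop D.hGc hGη hlast hI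

end

end Crest.Agent.R339.Var
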