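/-
helper55, row 339 (S0530): assembly of the classical half, and of the final statement, from the
statements that are still open (`DFStmt`: discrete IAMP from the schedule; `QStmt`: label words).
-/
import Crest.Agent.R339.Var71M
import Crest.Agent.R339.Refine55B
import Crest.Agent.R339.Trig716d
import Crest.Agent.R339.LimMain90

set_option autoImplicit false

namespace Crest.Agent.R339.Asm

open MeasureTheory ProbabilityTheory Filter Topology Set
open Crest.MathPhysics.SpinGlass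
open Crest.Agent.R339.Var Crest.Agent.R339.Ref Crest.Agent.R339.Trig Crest.Agent.R339.Site

noncomputable section

/-- output of (DF), helper833 -/
def DFStmt : Prop := ∀ (M C : ℝ), 0 < M → ∀ ε > (0:ℝ), ∃ θ > (0:ℝ), ∃ d0 > (0:ℝ),
  ∀ (R : ℕ) (d : ℝ) (m : ℕ → ℝ) (f f1 f2 : ℕ → ℝ → ℝ), 0 < d → d ≤ d0 →
    D3.Sched M C R d m (fun _ => d) f f1 f2 →
    (∀ r x, f1 r (-x) = - f1 r x) → (∀ r x, f2 r (-x) = f2 r x) → (∀ r x, 0 < f2 r x) →
    (∀ k < R, |D3.comp (D3.Kern m (fun _ => d) f) k 0 (fun y => f2 k y ^ 2) 0 - 1| ≤ θ) →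
    ∃ (F : Fin R → (Fin (R + 1) → ℝ) → ℝ) (g : (Fin (R + 1) → ℝ) → ℝ) (C' : ℝ),
      Trig.Adm F C' ∧ (∀ i, Continuous (F i)) ∧ (∀ i x, F i (-x) = - F i x) ∧ Continuous g ∧
      (∀ x, g (-x) = - g x) ∧ (∀ x, |g x| ≤ 1) ∧ IsUnit (cov F).det ∧
      d * (∑ k ∈ Finset.range R, D3.comp (D3.Kern m (fun _ => d) f) k 0 (f2 k) 0) - ε ≤
        genValue F g (cov F)

/-- output of (C2) -/
def QStmt : Prop := ∀ (M : ℕ) (S : TrigScheme M) (ε : ℝ), 0 < ε →
  ∃ (K : Type) (_ : NormedAddCommGroup K) (_ : InnerProductSpace ℂ K) (_ : CompleteSpace K)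
    (ι : Sp K →ₗᵢ[ℂ] K) (angles : List (ℝ × ℝ)), S.value - ε ≤ energy ι (wordU ι angles)

/-- `c` bounds the limiting energies of all plain words -/
def PlainBound (c : ℝ) : Prop := ∀ (K : Type) [NormedAddCommGroup K] [InnerProductSpace ℂ K]
    [CompleteSpace K] (ι : Sp K →ₗᵢ[ℂ] K) (angles : List (ℝ × ℝ)),
    energy ι (wordU ι angles) ≤ c

/-- output of (C2), in the form of an upper bound -/
def QBound : Prop := ∀ c : ℝ, PlainBound c → ∀ (M : ℕ) (S : TrigScheme M), S.value ≤ c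

theorem QStmt_of_bound (h : QBound) : QStmt := by
  intro M S ε hε
  by_contra hcon
  have hb : PlainBound (S.value - ε) := by
    intro K i1 i2 i3 ι angles
    by_contra h1
    exact hcon ⟨K, i1, i2, i3, ι, angles, (not_le.1 h1).le⟩
  have := h _ hb M S
  linarith

/-- Guerra's bound on the grid -/
theorem guerra_PF {β ε : ℝ} (hβ : 0 < β) (hε : 0 < ε) {K : ℕ} (hK : 0 < K) {m : Fin K → ℝ}
    (hm : m ∈ cone K ε β) {n : ℕ} (hn : 0 < n) :
    (∫ J, maxPairEnergy n J ∂(gaussianCouplings n)) / n ≤ PF β m := by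
  have hA := V4.adm_grid hε hm
  have hG := good_of_adm hA
  have hs : (0:ℝ) + ((grid m).map Prod.snd).sum = 1 := by
    rw [zero_add]
    exact V4.len_grid hK m
  have h := Guerra.guerra hβ hn (grid m) hG le_rfl hs
  refine h.trans (le_of_eq ?_)
  unfold PF PL
  rw [PhiL_eq_Phi (V4.Adm.pos hA)]
  simp

theorem classical (hDF : DFStmt) {ε : ℝ} (hε : 0 < ε) : ∃ (M : ℕ) (S : TrigScheme M),
    ∀ n : ℕ, 0 < n → (∫ J, maxPairEnergy n J ∂(gaussianCouplings n)) / n - ε ≤ S.value := by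
  -- the inverse temperature
  set β : ℝ := max 4 (max (128 / ε ^ 2) (8 / ε)) with hβdef
  have hβ4 : 4 ≤ β := le_max_left _ _
  have hβ0 : 0 < β := by linarith
  have hβ1 : 128 / ε ^ 2 ≤ β := (le_max_left _ _).trans (le_max_right _ _)
  have hβ2 : 8 / ε ≤ β := (le_max_right _ _).trans (le_max_right _ _)
  -- the constants of (DF)
  obtain ⟨θ, hθ, d0, hd0, hDF⟩ := hDF β (CC β) hβ0 (ε / 4) (by positivity)
  set η : ℝ := min θ (ε / (4 * β)) with hηdef
  have hη : 0 < η := lt_min hθ (by positivity)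
  obtain ⟨K, εc, m, a, hK, hεc, hεβ, hm, hmin, haK, htop, ha2, hQ, hg, hPF⟩ := no_gap hβ4 hη
  have hA := V4.adm_grid hεc hm
  have hK' : (0:ℝ) < K := by exact_mod_cast hK
  -- the refinement
  obtain ⟨N, hN⟩ := exists_nat_gt (1 / ((K:ℝ) * d0))
  have hN' : (0:ℝ) < N := lt_of_le_of_lt (by positivity) hN
  have hN0 : 0 < N := by exact_mod_cast hN'
  set d : ℝ := 1 / ((K:ℝ) * N) with hd
  have hdpos : 0 < d := by positivity
  have hdd0 : d ≤ d0 := by
    rw [div_lt_iff₀ (by positivity)] at hN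
    rw [hd, div_le_iff₀ (by positivity)]
    nlinarith
  have hR : a * N ≤ K * N := Nat.mul_le_mul_right N haK
  have hS := sched hβ0 hA hN0 hR
  have hRd : ((a * N : ℕ) : ℝ) * d = (a:ℝ) / K := by
    rw [hd]; push_cast; field_simp
  have hθ' : ∀ k < a * N, |D3.comp (D3.Kern (mm β m N) (fun _ => d) (fr β m N)) k 0
      (fun y => deriv (deriv (fr β m N k)) y ^ 2) 0 - 1| ≤ θ := by
    intro k hk
    have hkN : k ≤ K * N := hk.le.trans hR
    have e := comp_gg hβ0 hA hN0 hkN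
    rw [← hd] at e
    rw [e]
    have hk1 : (k:ℝ) * d ≤ (a:ℝ)/K := by
      rw [← hRd]
      exact mul_le_mul_of_nonneg_right (by exact_mod_cast hk.le) hdpos.le
    exact (hg _ ⟨by positivity, hk1⟩).trans (min_le_left _ _)
  obtain ⟨F, g, C', hF1, hF2, hF3, hg1, hg2, hg3, hdet, hval⟩ := hDF (a * N) d (mm β m N) (fr β m N)
    (fun r => deriv (fr β m N r)) (fun r => deriv (deriv (fr β m N r))) hdpos hdd0 hS
    (fun r x => (fr_parity hβ0 hA N r).1 x) (fun r x => (fr_parity hβ0 hA N r).2.1 x)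
    (fun r x => (fr_parity hβ0 hA N r).2.2 x) hθ'
  obtain ⟨S, hS⟩ := exists_trigScheme hF1 hF2 hF3 hg1 hg2 hg3 hdet (ε := ε / 8) (by positivity)
  refine ⟨a * N, S, fun n hn => ?_⟩
  -- the chain of inequalities
  have h1 := guerra_PF hβ0 hεc hK hm hn
  have h2 := XX_riemann hβ0 hA hdpos.le 0 (a * N)
  rw [hRd] at h2
  have h3 : (∑ k ∈ Finset.range (a * N), D3.comp (D3.Kern (mm β m N) (fun _ => d) (fr β m N)) k 0
      (deriv (deriv (fr β m N k))) 0) = ∑ r ∈ Finset.range (a * N), V4.XX β (grid m) ((r:ℝ) * d) 0 := by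
    apply Finset.sum_congr rfl
    intro k hk
    rw [Finset.mem_range] at hk
    have e := comp_XX hβ0 hA hN0 (hk.le.trans hR)
    rw [← hd] at e
    exact e
  rw [h3] at hval
  have h4 : √(1 - (a:ℝ)/K) ≤ ε / 8 := by
    rw [Real.sqrt_le_left (by positivity)]
    have h5 : 1 - (a:ℝ)/K ≤ 2 / β := by
      rw [le_div_iff₀ hβ0]; linarith
    refine h5.trans ?_
    rw [div_le_iff₀ hβ0]
    rw [div_le_iff₀ (by positivity)] at hβ1
    nlinarith
  have h6 : β * η / 2 ≤ ε / 8 := by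
    have : η ≤ ε / (4 * β) := min_le_right _ _
    rw [le_div_iff₀ (by positivity)] at this
    linarith
  have h7 : Real.log 2 / β ≤ ε / 8 := by
    have hl : Real.log 2 ≤ 1 := by
      have := Real.log_two_lt_d9
      linarith
    rw [div_le_iff₀ hβ0]
    rw [div_le_iff₀ hε] at hβ2
    linarith
  linarith

/-- **the final statement** from (DF) and (C2) -/
theorem final (hDF : DFStmt) (hQ : QStmt) :
    ∀ ε > (0 : ℝ), ∃ angles : List (ℝ × ℝ), ∃ N : ℕ, ∀ n ≥ N,
      (∫ J, maxPairEnergy n J ∂(gaussianCouplings n)) / n - ε ≤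
        (∫ J, expectedEnergy n J (alternatingState n J angles) ∂(gaussianCouplings n)) / n := by
  intro ε hε
  obtain ⟨M, S, hS⟩ := classical hDF (ε := ε / 3) (by positivity)
  obtain ⟨K, i1, i2, i3, ι, angles, hE⟩ := hQ M S (ε / 3) (by positivity)
  have ht := tendsto_energy ι angles
  have hev : ∀ᶠ n : ℕ in atTop, energy ι (wordU ι angles) - ε / 3 <
      (∫ J, expectedEnergy n J (alternatingState n J angles) ∂(gaussianCouplings n)) / n :=
    ht.eventually (lt_mem_nhds (by linarith))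
  obtain ⟨N, hN⟩ := eventually_atTop.1 hev
  refine ⟨angles, max N 1, fun n hn => ?_⟩
  have h1 := hN n (le_of_max_le_left hn)
  have h2 := hS n (le_of_max_le_right hn)
  linarith

end

end Crest.Agent.R339.Asm
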