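import Mathlib
import Crest.Agent.R339.SiteModel

/-!
# Existence of isometries `Sp K → K` with label space
-/

set_option autoImplicit false

noncomputable section

open scoped ComplexConjugate InnerProductSpace Topology
open Filter TopologicalSpace

namespace Crest.Agent.R339.Site

lemma countable_of_orthonormal {E : Type*} [NormedAddCommGroup E] [InnerProductSpace ℂ E]
    [SeparableSpace E] {κ : Type*} {v : κ → E} (hv : Orthonormal ℂ v) : Countable κ := by
  have h : (Set.univ : Set κ).PairwiseDisjoint fun i => Metric.ball (v i) (1 / 2) := by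
    intro i _ j _ hij
    refine Metric.ball_disjoint_ball ?_
    have h1 : ‖v i - v j‖ ^ 2 = 2 := by
      rw [@norm_sub_sq ℂ, hv.1 i, hv.1 j, hv.2 hij]
      norm_num
    rw [dist_eq_norm]
    nlinarith [norm_nonneg (v i - v j)]
  have := h.countable_of_isOpen (fun i _ => Metric.isOpen_ball)
    (fun i _ => ⟨v i, Metric.mem_ball_self (by norm_num)⟩)
  exact Set.countable_univ_iff.mp this

instance {K : Type*} [NormedAddCommGroup K] [InnerProductSpace ℂ K] [SeparableSpace K] :
    SeparableSpace (Fock K) := by
  have h1 := (isSeparable_range (continuous_coh (K := K))).span (R := ℂ)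
  have h2 := h1.closure
  rw [← isSeparable_univ_iff]
  have h3 : closure (Submodule.span ℂ (Set.range (coh : K → Fock K)) : Set (Fock K)) = Set.univ := by
    have := congrArg (fun S : Submodule ℂ (Fock K) => (S : Set (Fock K))) (coh_total (K := K))
    simpa using this
  rwa [h3] at h2

instance {K : Type*} [NormedAddCommGroup K] [InnerProductSpace ℂ K] [SeparableSpace K] :
    SeparableSpace (Sp K) := by
  have h1 : Continuous (WithLp.toLp 2 : (Bool → Fock K) → Sp K) :=
    PiLp.continuous_toLp 2 (fun _ : Bool => Fock K)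
  have h2 := isSeparable_range h1
  rw [← isSeparable_univ_iff]
  have h3 : Set.range (WithLp.toLp 2 : (Bool → Fock K) → Sp K) = Set.univ :=
    Set.range_eq_univ.mpr fun x => ⟨fun b => x b, rfl⟩
  rwa [h3] at h2

/-- Every separable Hilbert space embeds in a Hilbert space with an orthonormal sequence, leaving
an orthonormal sequence free. -/
theorem exists_isometry_of_orthonormal {E K : Type*} [NormedAddCommGroup E] [InnerProductSpace ℂ E]
    [CompleteSpace E] [SeparableSpace E] [NormedAddCommGroup K] [InnerProductSpace ℂ K]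
    [CompleteSpace K] {u : ℕ → K} (hu : Orthonormal ℂ u) :
    ∃ ι : E →ₗᵢ[ℂ] K, ∀ k v, ⟪u (2 * k + 1), ι v⟫_ℂ = 0 := by
  obtain ⟨w, b, hb⟩ := exists_hilbertBasis ℂ E
  have hc : Countable w := countable_of_orthonormal b.orthonormal
  obtain ⟨j, hj⟩ := hc.exists_injective_nat
  have hv : Orthonormal ℂ (fun i : w => u (2 * j i)) :=
    hu.comp (fun i : w => 2 * j i) fun i i' h => hj (by simpa using h)
  refine ⟨(hv.orthogonalFamily.linearIsometry).comp b.repr.toLinearIsometry, fun k v => ?_⟩
  have h1 := hv.orthogonalFamily.hasSum_linearIsometry (b.repr v)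
  have h2 : HasSum (fun i : w => ⟪u (2 * k + 1),
      (LinearIsometry.toSpanSingleton ℂ K (hv.1 i)) (b.repr v i)⟫_ℂ)
      ⟪u (2 * k + 1), hv.orthogonalFamily.linearIsometry (b.repr v)⟫_ℂ := by
    exact h1.mapL (innerSL ℂ (u (2 * k + 1)))
  refine h2.unique ?_
  convert! hasSum_zero with i
  rw [LinearIsometry.toSpanSingleton_apply, inner_smul_right, hu.2 (by omega), mul_zero]

/-- a standard one-particle space -/
abbrev Kst : Type := lp (fun _ : ℕ => ℂ) 2

lemma orthonormal_Kst : Orthonormal ℂ (fun n : ℕ => (lp.single 2 n (1 : ℂ) : Kst)) := by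
  classical
  rw [orthonormal_iff_ite]
  intro i j
  rw [lp.inner_single_left]
  simp only [lp.coeFn_single]
  by_cases h : i = j
  · subst h; simp
  · simp [h]

instance : SeparableSpace Kst := by
  let B : HilbertBasis ℕ ℂ Kst := HilbertBasis.ofRepr (LinearIsometryEquiv.refl ℂ Kst)
  have h1 : (Set.range B).Countable := Set.countable_range B
  have h2 := (h1.isSeparable.span (R := ℂ)).closure
  rw [← isSeparable_univ_iff]
  have h3 : closure (Submodule.span ℂ (Set.range B) : Set Kst) = Set.univ := by
    have h4 := B.dense_span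
    rw [SetLike.ext'_iff, Submodule.topologicalClosure_coe, Submodule.top_coe] at h4
    exact h4
  rwa [h3] at h2

/-- An isometry `ι : Sp K → K` together with an orthonormal sequence of labels orthogonal to its
range, for `K = ℓ²(ℕ)`. -/
theorem exists_iota_labels : ∃ (ι : Sp Kst →ₗᵢ[ℂ] Kst) (s : ℕ → Kst), Orthonormal ℂ s ∧
    ∀ k v, ⟪s k, ι v⟫_ℂ = 0 := by
  obtain ⟨ι, hι⟩ := exists_isometry_of_orthonormal (E := Sp Kst) orthonormal_Kst
  exact ⟨ι, fun k => lp.single 2 (2 * k + 1) 1, orthonormal_Kst.comp (fun k => 2 * k + 1)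
    (fun a b h => by simpa using h), hι⟩

end Crest.Agent.R339.Site
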