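import Crest.Agent.R339.LabInst286
import Crest.Agent.R339.SiteIota90

/-!
R339: existence of the data linking the labelled site space `SL K₀` (with a surjective field map)
and the plain site space `Sp K`.
-/

set_option autoImplicit false
set_option linter.unusedSectionVars false

noncomputable section

namespace Crest.Agent.R339.LF

open MeasureTheory ProbabilityTheory Filter Topology TopologicalSpace
open scoped InnerProductSpace ENNReal
open Crest.Agent.R339.Site Crest.Agent.R339.Lab Crest.MathPhysics.SpinGlass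

/-! ### Hilbert space preliminaries -/

theorem exists_unitary_Kst (E : Type*) [NormedAddCommGroup E] [InnerProductSpace ℂ E]
    [CompleteSpace E] [SeparableSpace E] (hinf : ¬ FiniteDimensional ℂ E) :
    Nonempty (E ≃ₗᵢ[ℂ] Kst) := by
  obtain ⟨w, b, hb⟩ := exists_hilbertBasis ℂ E
  have hc : Countable w := countable_of_orthonormal b.orthonormal
  have hi : Infinite w := by
    by_contra hfin
    rw [not_infinite_iff_finite] at hfin
    haveI := Fintype.ofFinite w
    exact hinf (Module.Basis.finiteDimensional_of_finite b.toOrthonormalBasis.toBasis)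
  obtain ⟨e⟩ : Nonempty (w ≃ ℕ) := nonempty_equiv_of_countable
  have ho : Orthonormal ℂ (fun n : ℕ => b (e.symm n)) := b.orthonormal.comp _ e.symm.injective
  have hd : ⊤ ≤ (Submodule.span ℂ (Set.range (fun n : ℕ => b (e.symm n)))).topologicalClosure := by
    have h1 : Set.range (fun n : ℕ => b (e.symm n)) = Set.range b := by
      have := e.symm.surjective.range_comp b
      exact this
    rw [h1, b.dense_span]
  exact ⟨(HilbertBasis.mk ho hd).repr⟩

/-- the isometry `e_n ↦ e_{φ n}` of `ℓ²`. -/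
def shiftIso (φ : ℕ → ℕ) (hφ : Function.Injective φ) : Kst →ₗᵢ[ℂ] Kst :=
  (orthonormal_Kst.comp φ hφ).orthogonalFamily.linearIsometry

lemma shiftIso_hasSum (φ : ℕ → ℕ) (hφ : Function.Injective φ) (v : Kst) :
    HasSum (fun i => (v i) • (lp.single 2 (φ i) (1 : ℂ) : Kst)) (shiftIso φ hφ v) := by
  have h := (orthonormal_Kst.comp φ hφ).orthogonalFamily.hasSum_linearIsometry v
  exact h

lemma inner_single_shiftIso (φ : ℕ → ℕ) (hφ : Function.Injective φ) (k : ℕ)
    (hk : ∀ i, φ i ≠ k) (v : Kst) :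
    ⟪(lp.single 2 k (1 : ℂ) : Kst), shiftIso φ hφ v⟫_ℂ = 0 := by
  have h1 := (shiftIso_hasSum φ hφ v).mapL (innerSL ℂ (lp.single 2 k (1 : ℂ) : Kst))
  refine h1.unique ?_
  convert! hasSum_zero with i
  rw [map_smul]
  have : innerSL ℂ (lp.single 2 k (1 : ℂ) : Kst) (lp.single 2 (φ i) (1 : ℂ) : Kst) = 0 :=
    orthonormal_Kst.2 (hk i).symm
  rw [this, smul_zero]

lemma inner_shiftIso_shiftIso (φ ψ : ℕ → ℕ) (hφ : Function.Injective φ)
    (hψ : Function.Injective ψ) (hd : ∀ i k, φ i ≠ ψ k) (v w : Kst) :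
    ⟪shiftIso φ hφ v, shiftIso ψ hψ w⟫_ℂ = 0 := by
  rw [← inner_conj_symm]
  have h1 := (shiftIso_hasSum φ hφ v).mapL (innerSL ℂ (shiftIso ψ hψ w))
  have h2 : ⟪shiftIso ψ hψ w, shiftIso φ hφ v⟫_ℂ = 0 := by
    refine h1.unique ?_
    convert! hasSum_zero with i
    rw [map_smul]
    have : innerSL ℂ (shiftIso ψ hψ w) (lp.single 2 (φ i) (1 : ℂ) : Kst) = 0 := by
      rw [innerSL_apply_apply, ← inner_conj_symm,
        inner_single_shiftIso ψ hψ (φ i) (fun k => (hd i k).symm), map_zero]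
    rw [this, smul_zero]
  rw [h2, map_zero]

lemma Kst_infinite : ¬ FiniteDimensional ℂ Kst := by
  intro h
  have h1 := orthonormal_Kst.linearIndependent
  haveI := h
  have := h1.finite
  exact not_finite ℕ

instance : SeparableSpace (LFo Kst) := by
  haveI : Fact ((2 : ℝ≥0∞) ≠ ∞) := ⟨by norm_num⟩
  haveI : SecondCountableTopology (LFo Kst) := Lp.SecondCountableTopology
  infer_instance

instance : SeparableSpace (SL Kst) := by
  have h1 : Continuous (WithLp.toLp 2 : (Bool → LFo Kst) → SL Kst) :=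
    PiLp.continuous_toLp 2 (fun _ : Bool => LFo Kst)
  have h2 := isSeparable_range h1
  rw [← isSeparable_univ_iff]
  have h3 : Set.range (WithLp.toLp 2 : (Bool → LFo Kst) → SL Kst) = Set.univ :=
    Set.range_eq_univ.mpr fun x => ⟨fun b => x b, rfl⟩
  rwa [h3] at h2

lemma SL_infinite : ¬ FiniteDimensional ℂ (SL Kst) := by
  intro h
  haveI := h
  have h1 : Function.Injective (((plusL (K0 := Kst)).comp one).toLinearMap) :=
    ((plusL (K0 := Kst)).comp one).injective
  exact Kst_infinite (FiniteDimensional.of_injective _ h1)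

/-! ### the bridge data -/

/-- Data linking the labelled and the plain site spaces. -/
structure BridgeData (K0 K : Type*) [NormedAddCommGroup K0] [InnerProductSpace ℂ K0]
    [NormedAddCommGroup K] [InnerProductSpace ℂ K] where
  /-- the (surjective) field map of the labelled space -/
  io : SL K0 ≃ₗᵢ[ℂ] K0
  /-- the inclusion of the unlabelled one-particle space -/
  j : K0 →ₗᵢ[ℂ] K
  /-- the label vector -/
  s : K
  /-- the field map of the plain space -/
  ip : Sp K →ₗᵢ[ℂ] K
  hs : ‖s‖ = 1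
  hsj : ∀ f, ⟪s, j f⟫_ℂ = 0
  hsi : ∀ v, ⟪s, ip v⟫_ℂ = 0
  comm : ∀ v, ip (embS j s v) = j (io v)

/-- the isometric embedding of the labelled space. -/
def embI {K0 K : Type*} [NormedAddCommGroup K0] [InnerProductSpace ℂ K0]
    [NormedAddCommGroup K] [InnerProductSpace ℂ K] (j : K0 →ₗᵢ[ℂ] K) (s : K) (hs : ‖s‖ = 1)
    (hsj : ∀ f, ⟪s, j f⟫_ℂ = 0) : SL K0 →ₗᵢ[ℂ] Sp K :=
  ⟨(embS j s).toLinearMap, norm_embS j s hs hsj⟩

lemma embI_apply {K0 K : Type*} [NormedAddCommGroup K0] [InnerProductSpace ℂ K0]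
    [NormedAddCommGroup K] [InnerProductSpace ℂ K] (j : K0 →ₗᵢ[ℂ] K) (s : K) (hs : ‖s‖ = 1)
    (hsj : ∀ f, ⟪s, j f⟫_ℂ = 0) (v : SL K0) : embI j s hs hsj v = embS j s v := rfl

theorem exists_bridgeData : Nonempty (BridgeData Kst Kst) := by
  obtain ⟨io⟩ := exists_unitary_Kst (SL Kst) SL_infinite
  obtain ⟨u0, -⟩ := exists_isometry_of_orthonormal (E := Sp Kst) orthonormal_Kst
  have i1 : Function.Injective (fun n : ℕ => 3 * n) := fun a b h => by
    simp only at h; omega
  have i2 : Function.Injective (fun n : ℕ => 3 * n + 2) := fun a b h => by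
    simp only at h; omega
  set j : Kst →ₗᵢ[ℂ] Kst := shiftIso (fun n => 3 * n) i1 with hj
  set u : Sp Kst →ₗᵢ[ℂ] Kst := (shiftIso (fun n => 3 * n + 2) i2).comp u0 with hu
  set s : Kst := lp.single 2 1 (1 : ℂ) with hsdef
  have hs : ‖s‖ = 1 := orthonormal_Kst.1 1
  have hsj : ∀ f, ⟪s, j f⟫_ℂ = 0 := fun f => inner_single_shiftIso _ i1 1 (fun i => by omega) f
  have hsu : ∀ f, ⟪s, u f⟫_ℂ = 0 := fun f =>
    inner_single_shiftIso _ i2 1 (fun i => by omega) (u0 f)
  have hju : ∀ f g, ⟪j f, u g⟫_ℂ = 0 := fun f g =>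
    inner_shiftIso_shiftIso _ _ i1 i2 (fun i k => by omega) f (u0 g)
  -- the isometric embedding and its adjoint
  set E : SL Kst →ₗᵢ[ℂ] Sp Kst := embI j s hs hsj with hE
  set Ea : Sp Kst →L[ℂ] SL Kst := ContinuousLinearMap.adjoint E.toContinuousLinearMap with hEa
  have hEaE : ∀ v, Ea (E v) = v := by
    intro v
    refine ext_inner_left ℂ fun w => ?_
    rw [hEa, ContinuousLinearMap.adjoint_inner_right]
    exact E.inner_map_map w v
  have hnorm : ∀ v : Sp Kst, ‖Ea v‖ ^ 2 + ‖v - E (Ea v)‖ ^ 2 = ‖v‖ ^ 2 := by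
    intro v
    have h1 : ⟪E (Ea v), v - E (Ea v)⟫_ℂ = 0 := by
      have h2 : ⟪E (Ea v), v - E (Ea v)⟫_ℂ = ⟪Ea v, Ea (v - E (Ea v))⟫_ℂ := by
        rw [hEa, ContinuousLinearMap.adjoint_inner_right]
        rfl
      rw [h2, map_sub, hEaE, sub_self, inner_zero_right]
    have h3 : v = E (Ea v) + (v - E (Ea v)) := by abel
    conv_rhs => rw [h3]
    rw [@norm_add_sq ℂ, h1, E.norm_map]
    simp
  -- the field map of the plain space
  let ipL : Sp Kst →ₗ[ℂ] Kst :=
    { toFun := fun v => j (io (Ea v)) + u (v - E (Ea v))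
      map_add' := by
        intro v w
        simp only [map_add]
        have : v + w - (E (Ea v) + E (Ea w)) = (v - E (Ea v)) + (w - E (Ea w)) := by abel
        rw [this, map_add]
        abel
      map_smul' := by
        intro c v
        simp only [map_smul, RingHom.id_apply, smul_add]
        have : c • v - c • E (Ea v) = c • (v - E (Ea v)) := by rw [smul_sub]
        rw [this, map_smul] }
  let ip : Sp Kst →ₗᵢ[ℂ] Kst :=
    { toLinearMap := ipL
      norm_map' := by
        intro v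
        have h1 : ‖j (io (Ea v)) + u (v - E (Ea v))‖ ^ 2 = ‖v‖ ^ 2 := by
          rw [@norm_add_sq ℂ, hju, j.norm_map, u.norm_map, io.norm_map, ← hnorm v]
          simp
        exact (sq_eq_sq₀ (norm_nonneg _) (norm_nonneg _)).mp h1 }
  refine ⟨⟨io, j, s, ip, hs, hsj, fun v => ?_, fun v => ?_⟩⟩
  · show ⟪s, j (io (Ea v)) + u (v - E (Ea v))⟫_ℂ = 0
    rw [inner_add_right, hsj, hsu, add_zero]
  · show j (io (Ea (embS j s v))) + u (embS j s v - E (Ea (embS j s v))) = j (io v)
    have h1 : Ea (embS j s v) = v := hEaE v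
    rw [h1]
    have h2 : embS j s v - E v = 0 := sub_self _
    rw [h2, map_zero, add_zero]

end Crest.Agent.R339.LF
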