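import Crest.Agent.R339.LabInst286

/-!
R339: `SL K₀` with a surjective field map is an instance of helper728's `ILSys`.
-/

set_option autoImplicit false
set_option linter.unusedSectionVars false

noncomputable section

namespace Crest.Agent.R339.LF

open MeasureTheory ProbabilityTheory Filter Topology
open scoped InnerProductSpace ENNReal
open Crest.Agent.R339.Site Crest.Agent.R339.Lab Crest.MathPhysics.SpinGlass

variable {K0 : Type*} [NormedAddCommGroup K0] [InnerProductSpace ℂ K0]

lemma ClE.empty : ClE ∅ := ⟨MeasurableSet.empty, fun _ => by simp⟩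

theorem ClE_div' : ∃ C : ℝ, ∀ R : ℕ, 0 < R → ∃ N : ℕ → Set ℝ, (∀ r, ClE (N r)) ∧
    (Pairwise fun i j => Disjoint (N i) (N j)) ∧ (⋃ r, ⋃ (_ : r < R), N r) = Set.univ ∧
    ∀ r, gam1.real (N r) ≤ C / R := by
  refine ⟨1, fun R hR => ?_⟩
  obtain ⟨c, h1, h2, h3, h4⟩ := exists_cells_of_ClE R hR
  refine ⟨fun r => if h : r < R then c ⟨r, h⟩ else ∅, fun r => ?_, fun i k hik => ?_, ?_,
    fun r => ?_⟩
  · by_cases h : r < R
    · simp only [h, dif_pos]
      exact h1 _
    · simp only [h, dif_neg, not_false_eq_true]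
      exact ClE.empty
  · show Disjoint (if h : i < R then c ⟨i, h⟩ else ∅) (if h : k < R then c ⟨k, h⟩ else ∅)
    by_cases hi : i < R
    · by_cases hk : k < R
      · simp only [hi, hk, dif_pos]
        exact h2 (fun h => hik (by simpa using h))
      · simp only [hk, dif_neg, not_false_eq_true]
        exact Set.disjoint_empty _
    · simp only [hi, dif_neg, not_false_eq_true]
      exact Set.empty_disjoint _
  · rw [Set.eq_univ_iff_forall]
    intro x
    have hx : x ∈ ⋃ i, c i := by rw [h3]; trivial
    obtain ⟨i, hi⟩ := Set.mem_iUnion.1 hx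
    refine Set.mem_iUnion.2 ⟨i, Set.mem_iUnion.2 ⟨i.2, ?_⟩⟩
    simp only [i.2, dif_pos]
    exact hi
  · by_cases h : r < R
    · simp only [h, dif_pos]
      exact (h4 _).le
    · simp only [h, dif_neg, not_false_eq_true, measureReal_empty]
      positivity

/-- **The instance.** -/
def IL (io : SL K0 ≃ₗᵢ[ℂ] K0) : Li.ILSys ℝ (SL K0) where
  μ := gam1
  prob := inferInstance
  sg := spHom (LFo K0)
  P := PS
  W f := WS (io f)
  Om := OmS
  one := oneS io.toLinearIsometry
  P_univ := PS_univ
  P_inter A B hA hB := (PS_mul_PS hA hB).symm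
  P_union A B hA hB h := PS_union hA hB h
  P_star A hA := star_PS hA
  P_sg A M hA := (spG_dg_comm M _).symm
  P_W A f hA := (WS_PS_comm (io f) hA).symm
  sg_W M f := spG_dg_comm M _
  W_zero := by rw [map_zero, WS_zero]
  W_mul f g := by
    rw [WS_mul, io.inner_map_map, map_add]
  W_star f := by rw [star_WS, map_neg]
  W_cont v := (continuous_WS_apply v).comp io.continuous
  Om_X := by
    have h : (Li.xM : Matrix Bool Bool ℂ) = xm := by
      ext b b'
      cases b <;> cases b' <;> simp [Li.xM, xm]
    rw [h]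
    exact XS_OmS
  inner_Om A f hA := by
    rw [inner_OmS_PS_WS hA, io.norm_map]
  total := SL_total io
  one_deriv f := oneS_deriv io.toLinearIsometry f
  Cl := ClE
  Cl_meas A h := h.1
  Cl_univ := ClE.univ
  Cl_compl A h := h.compl
  Cl_inter A B h h' := h.inter h'
  Cl_div := ClE_div'

end Crest.Agent.R339.LF
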