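import Crest.Agent.R339.LabAnt286

/-!
R339: label moment of the first admissible state.
-/

set_option autoImplicit false
set_option linter.unusedSectionVars false

noncomputable section

namespace Crest.Agent.R339.LF

open MeasureTheory ProbabilityTheory Filter Topology
open scoped InnerProductSpace ENNReal
open Crest.Agent.R339.Site Crest.Agent.R339.Lab Crest.MathPhysics.SpinGlass

/-! ### a state with positive label moment -/
section start

lemma integral_x_chi (s : ℝ) :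
    ∫ x : ℝ, (x : ℂ) * chi (-s) x ∂gam1
      = -Complex.I * ((s * Real.exp (-(s ^ 2 / 2)) : ℝ) : ℂ) := by
  have h1 : HasDerivAt (fun t : ℝ => ⟪wave s (1 : ℂ), wave t (1 : ℂ)⟫_ℂ)
      (⟪wave s (1 : ℂ), Complex.I • xw (1 : ℂ)⟫_ℂ) 0 :=
    ((((innerSL ℂ (wave s (1 : ℂ))).restrictScalars ℝ).hasFDerivAt.comp_hasDerivAt (0 : ℝ)
      (hasDerivAt_wave (1 : ℂ))))
  have h2 : ∀ t : ℝ, ⟪wave s (1 : ℂ), wave t (1 : ℂ)⟫_ℂ = ((Real.exp (-((t - s) ^ 2 / 2)) : ℝ) : ℂ) := by
    intro t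
    rw [inner_wave]
    simp
  have h3 : HasDerivAt (fun t : ℝ => Real.exp (-((t - s) ^ 2 / 2)))
      (s * Real.exp (-(s ^ 2 / 2))) 0 := by
    have e1 : HasDerivAt (fun t : ℝ => -((t - s) ^ 2 / 2)) s 0 := by
      have := (((hasDerivAt_id (0 : ℝ)).sub_const s).pow 2).div_const 2 |>.neg
      convert! this using 1
      simp
      ring
    have e2 := e1.exp
    convert! e2 using 1
    simp
    ring
  have h4 := h3.ofReal_comp
  simp_rw [h2] at h1
  have h5 := h1.unique h4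
  rw [inner_smul_right] at h5
  have h6 : ⟪wave s (1 : ℂ), xw (1 : ℂ)⟫_ℂ = ∫ x : ℝ, (x : ℂ) * chi (-s) x ∂gam1 := by
    rw [L2.inner_def]
    refine integral_congr_ae ?_
    filter_upwards [coeFn_wave s (1 : ℂ), coeFn_xw (1 : ℂ)] with x a1 a2
    rw [a1, a2, inner_smul_left, inner_smul_right, conj_chi]
    simp
    ring
  rw [h6] at h5
  have h7 : -Complex.I * (Complex.I * ∫ x : ℝ, (x : ℂ) * chi (-s) x ∂gam1)
      = ∫ x : ℝ, (x : ℂ) * chi (-s) x ∂gam1 := by
    rw [← mul_assoc]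
    simp
  rw [← h7, h5]

variable {K0 : Type*} [NormedAddCommGroup K0] [InnerProductSpace ℂ K0]

/-- the site vector of a label-controlled spin unitary -/
lemma eV_gU (io : SL K0 ≃ₗᵢ[ℂ] K0) {g : ℝ → Matrix Bool Bool ℂ} (hg : BMM g)
    (U : USL K0) (hU : (U : SL K0 →L[ℂ] SL K0) = gS g) :
    (IL io).eV U = gS (fun x => star (g x) * zm * g x) OmS := by
  have e1 : (gS (fun x => star (g x) * zm * g x) : SL K0 →L[ℂ] SL K0)
      = gS (fun x => star (g x)) * ZS * gS g := by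
    rw [gS_mul (hg.star.mul (BMM.const zm)) hg, gS_mul hg.star (BMM.const zm), gS_const, ZS]
  rw [e1, mul_apply_eq_comp, mul_apply_eq_comp, Li.ILSys.eV, IL_Z, hU, gS_star hg]
  rfl

lemma coe_mvB_labL (a β : ℝ) : ((mvB β (labL a) : USL K0) : SL K0 →L[ℂ] SL K0)
    = gS (fun x => mixm β * labg a x) := by
  rw [gS_mul (BMM.const _) (BMM_labg a)]
  rfl

lemma pp_start (a β x : ℝ) :
    pp (star (mixm β * labg a x) * zm * (mixm β * labg a x))
      = -(Complex.I * ((Real.sin (2 * β) : ℝ) : ℂ)) * ((1 / 2) * (chi (-(2 * a)) x - chi (2 * a) x)) := by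
  have hm : mixm (-β) * zm * mixm β = zm * mixm (2 * β) := by
    have hc : mixm (-β) * zm = zm * mixm β := by
      ext b b'
      simp only [Matrix.mul_apply, Fintype.sum_bool, mixm, zm, Matrix.of_apply, Real.cos_neg,
        Real.sin_neg]
      cases b <;> cases b' <;> simp [spinSign, -Complex.ofReal_cos, -Complex.ofReal_sin]
    rw [hc, mul_assoc, mixm_mul, two_mul]
  have e0 : star (mixm β * labg a x) * zm * (mixm β * labg a x)
      = labg (-a) x * (zm * mixm (2 * β)) * labg a x := by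
    rw [star_mul, star_mixm, star_labg, ← hm]
    simp only [mul_assoc]
  rw [e0]
  have c1 : chi (-a) x * chi a x = 1 := by rw [← chi_add, neg_add_cancel, chi_zero]
  have c2 : chi (-(2 * a)) x = chi (-a) x * chi (-a) x := by
    rw [← chi_add]; congr 1; ring
  have c3 : chi (2 * a) x = chi a x * chi a x := by
    rw [← chi_add]; congr 1; ring
  have hent : ∀ b b' : Bool, (labg (-a) x * (zm * mixm (2 * β)) * labg a x) b b'
      = chi (-a * spinSign b) x * (((spinSign b : ℝ) : ℂ) * mixm (2 * β) b b')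
        * chi (a * spinSign b') x := by
    intro b b'
    rw [labg, labg, zm, Matrix.mul_diagonal, Matrix.diagonal_mul, Matrix.diagonal_mul]
  rw [pp]
  simp only [Fintype.sum_bool, hent]
  have s1 : spinSign true = -1 := by simp [spinSign]
  have s2 : spinSign false = 1 := by simp [spinSign]
  have m1 : mixm (2 * β) true true = ((Real.cos (2 * β) : ℝ) : ℂ) := by simp [mixm]
  have m2 : mixm (2 * β) false false = ((Real.cos (2 * β) : ℝ) : ℂ) := by simp [mixm]
  have m3 : mixm (2 * β) true false = -(Complex.I * ((Real.sin (2 * β) : ℝ) : ℂ)) := by simp [mixm]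
  have m4 : mixm (2 * β) false true = -(Complex.I * ((Real.sin (2 * β) : ℝ) : ℂ)) := by simp [mixm]
  rw [s1, s2, m1, m2, m3, m4, c2, c3]
  simp only [mul_neg, mul_one, neg_neg, neg_mul]
  push_cast
  ring_nf

lemma integrable_x_chi (s : ℝ) : Integrable (fun x : ℝ => (x : ℂ) * chi s x) gam1 :=
  (BM.chi s).integrable_mul_id

/-- the label moment of `exp (-i β X) exp (i a x Z)` -/
theorem mS_start (io : SL K0 ≃ₗᵢ[ℂ] K0) (a β : ℝ) :
    mS io (mvB β (labL a)) = -Real.sin (2 * β) * (2 * a * Real.exp (-(2 * a ^ 2))) := by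
  have hg : BMM (fun x => mixm β * labg a x) := (BMM.const _).mul (BMM_labg a)
  rw [mS, eV_gU io hg _ (coe_mvB_labL a β), inner_xiS_gS ((hg.star.mul (BMM.const zm)).mul hg)]
  simp_rw [pp_start]
  have e1 : ∀ x : ℝ, (x : ℂ) * (-(Complex.I * ((Real.sin (2 * β) : ℝ) : ℂ)) *
      ((1 / 2) * (chi (-(2 * a)) x - chi (2 * a) x)))
      = (-(Complex.I * ((Real.sin (2 * β) : ℝ) : ℂ)) * (1 / 2)) * ((x : ℂ) * chi (-(2 * a)) x)
        - (-(Complex.I * ((Real.sin (2 * β) : ℝ) : ℂ)) * (1 / 2)) * ((x : ℂ) * chi (-(-(2 * a))) x) := by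
    intro x
    rw [neg_neg]
    ring
  simp_rw [e1]
  rw [integral_sub ((integrable_x_chi _).const_mul _) ((integrable_x_chi _).const_mul _),
    integral_const_mul, integral_const_mul, integral_x_chi, integral_x_chi]
  have e2 : (-(2 * a)) ^ 2 / 2 = 2 * a ^ 2 := by ring
  have e3 : (2 * a) ^ 2 / 2 = 2 * a ^ 2 := by ring
  rw [e2, e3]
  have e4 : -(Complex.I * ((Real.sin (2 * β) : ℝ) : ℂ)) * (1 / 2) *
        (-Complex.I * ((2 * a * Real.exp (-(2 * a ^ 2)) : ℝ) : ℂ)) -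
      -(Complex.I * ((Real.sin (2 * β) : ℝ) : ℂ)) * (1 / 2) *
        (-Complex.I * ((-(2 * a) * Real.exp (-(2 * a ^ 2)) : ℝ) : ℂ))
      = ((-Real.sin (2 * β) * (2 * a * Real.exp (-(2 * a ^ 2))) : ℝ) : ℂ) := by
    push_cast
    linear_combination (Complex.sin (2 * β) * (2 * a) * Complex.exp (-(2 * (a : ℂ) ^ 2)))
      * Complex.I_sq
  rw [e4, Complex.ofReal_re]

end start

/-! ### further items of helper575's list -/
section more
variable {K0 K : Type*} [NormedAddCommGroup K0] [InnerProductSpace ℂ K0]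
  [NormedAddCommGroup K] [InnerProductSpace ℂ K]

lemma inner_parS (v w : SL K0) : ⟪parS v, parS w⟫_ℂ = ⟪v, w⟫_ℂ := by
  have h3 : ⟪parS v, parS w⟫_ℂ = ⟪v, parS (parS w)⟫_ℂ := by
    conv_lhs => rw [← star_parS]
    rw [ContinuousLinearMap.star_eq_adjoint, ContinuousLinearMap.adjoint_inner_left,
      ← ContinuousLinearMap.star_eq_adjoint, star_parS]
  rw [h3, parS_parS]

lemma BMM.indicator_smul {A : Set ℝ} (hA : MeasurableSet A) {g : ℝ → Matrix Bool Bool ℂ}
    (hg : BMM g) : BMM (fun x => A.indicator (fun _ => (1 : ℂ)) x • g x) := by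
  intro b b'
  simp only [Matrix.smul_apply, smul_eq_mul]
  exact (BM.indicator hA).mul (hg b b')

lemma PS_mul_gS {A : Set ℝ} (hA : MeasurableSet A) {g : ℝ → Matrix Bool Bool ℂ} (hg : BMM g) :
    (PS A : SL K0 →L[ℂ] SL K0) * gS g
      = gS (fun x => A.indicator (fun _ => (1 : ℂ)) x • g x) := by
  refine ContinuousLinearMap.ext fun v => ?_
  ext b : 1
  rw [mul_apply_eq_comp, PS, dg_apply, gS_apply, gS_apply, map_sum]
  refine Finset.sum_congr rfl fun b' _ => ?_
  simp only [Matrix.smul_apply, smul_eq_mul]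
  rw [mF_mul (BM.indicator hA) (hg b b')]
  rfl

lemma inner_OmS_PS_gS {A : Set ℝ} (hA : MeasurableSet A) {g : ℝ → Matrix Bool Bool ℂ}
    (hg : BMM g) : ⟪(OmS : SL K0), PS A (gS g OmS)⟫_ℂ
      = ∫ x, A.indicator (fun _ => (1 : ℂ)) x * pp (g x) ∂gam1 := by
  rw [← mul_apply_eq_comp, PS_mul_gS hA hg, inner_OmS_gS (hg.indicator_smul hA)]
  congr 1
  funext x
  rw [pp, pp]
  simp only [Matrix.smul_apply, smul_eq_mul, ← Finset.mul_sum]
  ring

lemma inner_ZS_PS_gS {A : Set ℝ} (hA : MeasurableSet A) {g : ℝ → Matrix Bool Bool ℂ}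
    (hg : BMM g) : ⟪ZS (OmS : SL K0), PS A (gS g OmS)⟫_ℂ
      = ∫ x, A.indicator (fun _ => (1 : ℂ)) x * pp (zm * g x) ∂gam1 := by
  have h1 : ⟪ZS (OmS : SL K0), PS A (gS g OmS)⟫_ℂ
      = ⟪(OmS : SL K0), PS A (gS (fun x => zm * g x) OmS)⟫_ℂ := by
    have e1 : (gS (fun x => zm * g x) : SL K0 →L[ℂ] SL K0) = ZS * gS g := by
      rw [gS_mul (BMM.const zm) hg, gS_const, ZS]
    have e2 : PS A (ZS (gS g (OmS : SL K0))) = ZS (PS A (gS g OmS)) :=
      (DFunLike.congr_fun (ZS_PS_comm A) (gS g (OmS : SL K0))).symm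
    rw [e1, mul_apply_eq_comp, e2]
    conv_rhs => rw [← star_ZS]
    rw [ContinuousLinearMap.star_eq_adjoint, ContinuousLinearMap.adjoint_inner_right]
  rw [h1, inner_OmS_PS_gS hA ((BMM.const zm).mul hg)]

/-- the first state `exp (-i b X) exp (i a x Z)` is good -/
theorem good_start (D : BridgeData K0 K) {a : ℝ} {ha : a ≠ 0} {ε : ℕ → ℝ} {hε : ∀ n, 0 < ε n}
    (hε0 : Tendsto ε atTop (𝓝 0)) (hLam : Mark.LamStmt D.ip D.hs D.hsi ha hε) {c : ℝ}
    (hc : ∀ (j : Sp K →ₗᵢ[ℂ] K) (angles : List (ℝ × ℝ)), energy j (wordU j angles) ≤ c)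
    (b : ℝ) (hb : Real.sin (2 * b) ≠ 0) :
    (LM D.io).Good c ((LM D.io).run [.L a, .B b] 1) := by
  have h1 : (LM D.io).run [.L a, .B b] 1 = runS D.io [.B b] (labL a) := by
    rw [LM_run]
    show mvB b (mvL a 1) = mvB b (labL a)
    rw [mvL, mul_one]
  rw [h1]
  refine good_of_adm D hε0 hLam hc [.B b] ⟨?_, trivial⟩
  rw [mS_start]
  have : Real.exp (-(2 * a ^ 2)) ≠ 0 := (Real.exp_pos _).ne'
  exact mul_ne_zero (neg_ne_zero.mpr hb) (mul_ne_zero (mul_ne_zero two_ne_zero ha) this)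

theorem m_start (io : SL K0 ≃ₗᵢ[ℂ] K0) (a b : ℝ) :
    (LM io).m ((LM io).run [.L a, .B b] 1)
      = -Real.sin (2 * b) * (2 * a * Real.exp (-(2 * a ^ 2))) := by
  have h1 : (LM io).run [.L a, .B b] 1 = mvB b (labL a) := by
    rw [LM_run]
    show mvB b (mvL a 1) = mvB b (labL a)
    rw [mvL, mul_one]
  rw [LM_m, h1, mS_start]

end more

end Crest.Agent.R339.LF
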