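import Crest.Agent.R339.Ant575F
import Crest.Agent.R339.LabStart286
import Crest.Agent.R339.C2Dry716

/-!
R339, block ANT (helper575), part G: the antenna on the labelled site space `SL Kst`;
`C2.AntStmt` from `Mark.LamStmt`.
-/

set_option autoImplicit false
set_option linter.unusedSectionVars false

noncomputable section

open scoped ComplexConjugate InnerProductSpace Topology
open Filter Set MeasureTheory ProbabilityTheory

namespace Crest.Agent.R339.Ant

open Crest.Agent.R339.LF Crest.Agent.R339.Site Crest.Agent.R339.Lab Crest.MathPhysics.SpinGlass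

variable {K0 : Type*} [NormedAddCommGroup K0] [InnerProductSpace ℂ K0]

theorem sim_IL (io : SL K0 ≃ₗᵢ[ℂ] K0) : Sim (IL io) (LM io) parS where
  Z := (cp_IL io).Z.symm
  Om := rfl
  cost _ _ := rfl
  En _ := rfl
  one_le v := by
    show ‖plusL (one (io v))‖ ≤ ‖v‖
    rw [LinearIsometry.norm_map, LinearIsometry.norm_map, io.norm_map]
  pg F hF β := pg_rot (cp_IL io) xiS hF β
  par_inner := inner_parS
  par_Om := parS_OmS
  par_xi := parS_xiS
  par_sg m := parS_spG m
  par_W f := parS_WS (io f)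
  par_P F hF := parS_PS hF

/-! ### states `exp (-i f(x) X) exp (i a x Z)` -/

/-- the state `exp (-i f(x) X) exp (i a x Z)` -/
def fst (f : ℝ → ℝ) (hf : Measurable f) (a : ℝ) : USL K0 := rxU f hf * lamU a

lemma BMM_fst {f : ℝ → ℝ} (hf : Measurable f) (a : ℝ) :
    BMM fun x => mixm (f x) * lamm a x := (BMM_mixm hf).mul (BMM_lamm a)

lemma coe_fst (f : ℝ → ℝ) (hf : Measurable f) (a : ℝ) :
    ((fst f hf a : USL K0) : SL K0 →L[ℂ] SL K0) = gS (fun x => mixm (f x) * lamm a x) := by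
  rw [gS_mul (BMM_mixm hf) (BMM_lamm a)]
  rfl

/-- the matrix of the site vector -/
def hst (f : ℝ → ℝ) (a x : ℝ) : Matrix Bool Bool ℂ :=
  star (mixm (f x) * lamm a x) * zm * (mixm (f x) * lamm a x)

lemma BMM_hst {f : ℝ → ℝ} (hf : Measurable f) (a : ℝ) : BMM (hst f a) :=
  ((BMM_fst hf a).star.mul (BMM.const zm)).mul (BMM_fst hf a)

lemma eV_fst (io : SL K0 ≃ₗᵢ[ℂ] K0) (f : ℝ → ℝ) (hf : Measurable f) (a : ℝ) :
    (IL io).eV (fst f hf a) = gS (hst f a) OmS :=
  eV_gU io (BMM_fst hf a) _ (coe_fst f hf a)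

lemma chi_sub (t x : ℝ) : chi (-t) x - chi t x = -(2 * Complex.I * ((Real.sin (t * x) : ℝ) : ℂ)) := by
  have h1 : ∀ t : ℝ, chi t x = Complex.exp ((t * x : ℝ) * Complex.I) := fun t => rfl
  rw [h1, h1, Complex.exp_mul_I, Complex.exp_mul_I]
  push_cast
  rw [neg_mul, Complex.cos_neg, Complex.sin_neg]
  ring

lemma chi_add_neg (t x : ℝ) : chi (-t) x + chi t x = 2 * ((Real.cos (t * x) : ℝ) : ℂ) := by
  have h1 : ∀ t : ℝ, chi t x = Complex.exp ((t * x : ℝ) * Complex.I) := fun t => rfl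
  rw [h1, h1, Complex.exp_mul_I, Complex.exp_mul_I]
  push_cast
  rw [neg_mul, Complex.cos_neg, Complex.sin_neg]
  ring

lemma pp_hst (f : ℝ → ℝ) (a x : ℝ) :
    pp (hst f a x) = ((-(Real.sin (2 * f x) * Real.sin (2 * a * x)) : ℝ) : ℂ) := by
  have h : pp (hst f a x) = _ := pp_start a (f x) x
  rw [h, chi_sub]
  push_cast
  linear_combination (Complex.sin (2 * f x) * Complex.sin (2 * a * x)) * Complex.I_sq

lemma hst_eq (f : ℝ → ℝ) (a x : ℝ) :
    hst f a x = lamm (-a) x * (zm * mixm (2 * f x)) * lamm a x := by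
  have hm : mixm (-f x) * zm * mixm (f x) = zm * mixm (2 * f x) := by
    have hc : mixm (-f x) * zm = zm * mixm (f x) := by
      ext b b'
      simp only [Matrix.mul_apply, Fintype.sum_bool, mixm, zm, Matrix.of_apply, Real.cos_neg,
        Real.sin_neg]
      cases b <;> cases b' <;> simp [spinSign, -Complex.ofReal_cos, -Complex.ofReal_sin]
    rw [hc, mul_assoc, mixm_mul, two_mul]
  rw [hst, star_mul, star_mixm, star_lamm, ← hm]
  simp only [mul_assoc]

lemma pp_zm_hst (f : ℝ → ℝ) (a x : ℝ) :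
    (pp (zm * hst f a x)).re = Real.cos (2 * f x) := by
  have hent : ∀ b b' : Bool, (zm * hst f a x) b b'
      = ((spinSign b : ℝ) : ℂ) * (chi (-a * spinSign b) x * (((spinSign b : ℝ) : ℂ)
        * mixm (2 * f x) b b') * chi (a * spinSign b') x) := by
    intro b b'
    rw [hst_eq, lamm, lamm, zm, Matrix.diagonal_mul, Matrix.mul_diagonal, Matrix.diagonal_mul,
      Matrix.diagonal_mul]
  have s1 : spinSign true = -1 := by simp [spinSign]
  have s2 : spinSign false = 1 := by simp [spinSign]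
  have m1 : mixm (2 * f x) true true = ((Real.cos (2 * f x) : ℝ) : ℂ) := by simp [mixm]
  have m2 : mixm (2 * f x) false false = ((Real.cos (2 * f x) : ℝ) : ℂ) := by simp [mixm]
  have m3 : mixm (2 * f x) true false = -(Complex.I * ((Real.sin (2 * f x) : ℝ) : ℂ)) := by
    simp [mixm]
  have m4 : mixm (2 * f x) false true = -(Complex.I * ((Real.sin (2 * f x) : ℝ) : ℂ)) := by
    simp [mixm]
  have c1 : chi (-a) x * chi a x = 1 := by rw [← chi_add, neg_add_cancel, chi_zero]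
  have c2 : chi (-(2 * a)) x = chi (-a) x * chi (-a) x := by
    rw [← chi_add]; congr 1; ring
  have c3 : chi (2 * a) x = chi a x * chi a x := by
    rw [← chi_add]; congr 1; ring
  have key : pp (zm * hst f a x) = ((Real.cos (2 * f x) : ℝ) : ℂ)
      - Complex.I * ((Real.sin (2 * f x) * Real.cos (2 * a * x) : ℝ) : ℂ) := by
    have h5 := chi_add_neg (2 * a) x
    rw [c2, c3] at h5
    rw [pp]
    simp only [Fintype.sum_bool, hent]
    rw [s1, s2, m1, m2, m3, m4]
    simp only [mul_neg, mul_one, neg_neg, neg_mul]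
    push_cast at h5 ⊢
    linear_combination (Complex.cos (2 * f x)) * c1
      - (1 / 2) * Complex.I * Complex.sin (2 * f x) * h5
  rw [key, Complex.sub_re, Complex.ofReal_re, Complex.mul_re, Complex.I_re, Complex.I_im,
    Complex.ofReal_im]
  ring

/-- the site vector of `fst f a`, restricted to `B`, against `ξ` -/
lemma inner_xi_P (io : SL K0 ≃ₗᵢ[ℂ] K0) (f : ℝ → ℝ) (hf : Measurable f) (a : ℝ) {B : Set ℝ}
    (hB : MeasurableSet B) :
    ⟪xiS, (IL io).P B ((IL io).eV (fst f hf a))⟫_ℂ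
      = ((∫ x, B.indicator (fun x => x * -(Real.sin (2 * f x) * Real.sin (2 * a * x))) x ∂gam1 : ℝ) : ℂ) := by
  have h1 : (IL io).P B ((IL io).eV (fst f hf a))
      = gS (fun x => B.indicator (fun _ => (1 : ℂ)) x • hst f a x) OmS := by
    rw [eV_fst, ← PS_mul_gS hB (BMM_hst hf a)]
    rfl
  rw [h1, inner_xiS_gS ((BMM_hst hf a).indicator_smul hB), ← integral_complex_ofReal]
  congr 1
  funext x
  have h2 : pp (B.indicator (fun _ => (1 : ℂ)) x • hst f a x)
      = B.indicator (fun _ => (1 : ℂ)) x * pp (hst f a x) := by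
    rw [pp, pp]
    simp only [Matrix.smul_apply, smul_eq_mul, ← Finset.mul_sum]
    ring
  rw [h2, pp_hst]
  by_cases hx : x ∈ B
  · rw [indicator_of_mem hx, indicator_of_mem hx, one_mul]
    push_cast
    ring
  · rw [indicator_of_notMem hx, indicator_of_notMem hx]
    simp

lemma m_fst (io : SL K0 ≃ₗᵢ[ℂ] K0) (f : ℝ → ℝ) (hf : Measurable f) (a : ℝ) :
    (LM io).m (fst f hf a)
      = ∫ x, x * -(Real.sin (2 * f x) * Real.sin (2 * a * x)) ∂gam1 := by
  have h := inner_xi_P io f hf a (B := Set.univ) MeasurableSet.univ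
  have h1 : (IL io).P Set.univ ((IL io).eV (fst f hf a)) = (IL io).eV (fst f hf a) := by
    rw [(IL io).P_univ]
    rfl
  rw [h1] at h
  rw [LM_m]
  show (⟪xiS, (IL io).eV (fst f hf a)⟫_ℂ).re = _
  rw [h, Complex.ofReal_re]
  simp

/-! ### the antenna set -/

/-- `{R < |x| < 2 R}` -/
def aSet (R : ℝ) : Set ℝ := {x | R < |x| ∧ |x| < 2 * R}

lemma measurableSet_aSet (R : ℝ) : MeasurableSet (aSet R) :=
  (measurableSet_lt measurable_const measurable_norm).inter
    (measurableSet_lt measurable_norm measurable_const)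

lemma ClE_aSet (R : ℝ) : ClE (aSet R) :=
  ⟨measurableSet_aSet R, fun x => by simp [aSet]⟩

lemma gam1_aSet_pos {R : ℝ} (hR : 0 < R) : 0 < gam1 (aSet R) := by
  have h1 : (volume : Measure ℝ) (aSet R) ≠ 0 := by
    have h2 : Ioo R (2 * R) ⊆ aSet R := fun x hx => by
      have : 0 < x := hR.trans hx.1
      rw [aSet, mem_ofPred_eq, abs_of_pos this]
      exact hx
    have h3 : (volume : Measure ℝ) (Ioo R (2 * R)) ≠ 0 := by
      rw [Real.volume_Ioo]
      have : 0 < 2 * R - R := by linarith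
      simpa using this
    exact fun h => h3 (measure_mono_null h2 h)
  refine pos_iff_ne_zero.2 fun h => h1 ?_
  exact (gaussianReal_absolutelyContinuous' 0 one_ne_zero) h

lemma exists_small (δ : ℝ) (hδ : 0 < δ) : ∃ R : ℝ, 0 < R ∧ gam1.real (aSet R) ≤ δ := by
  have hi : Integrable (fun x : ℝ => x ^ 2) gam1 := by
    have h := (memLp_id_gam1 2).integrable_norm_pow (by norm_num)
    simpa using h
  set K : ℝ := ∫ x, x ^ 2 ∂gam1 with hK
  have hK0 : 0 ≤ K := integral_nonneg fun x => sq_nonneg x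
  set R : ℝ := Real.sqrt ((K + 1) / δ) with hR
  have hR0 : 0 < R := Real.sqrt_pos.2 (by positivity)
  have hR2 : R ^ 2 = (K + 1) / δ := Real.sq_sqrt (by positivity)
  refine ⟨R, hR0, ?_⟩
  have h1 := mul_meas_ge_le_integral_of_nonneg (μ := gam1) (f := fun x : ℝ => x ^ 2)
    (Eventually.of_forall fun x => sq_nonneg x) hi (R ^ 2)
  have h2 : gam1.real (aSet R) ≤ gam1.real {x : ℝ | R ^ 2 ≤ x ^ 2} := by
    refine measureReal_mono (fun x hx => ?_)
    rw [mem_ofPred_eq, ← sq_abs x]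
    exact pow_le_pow_left₀ hR0.le hx.1.le 2
  have h3 : R ^ 2 * gam1.real (aSet R) ≤ K :=
    (mul_le_mul_of_nonneg_left h2 (sq_nonneg R)).trans h1
  rw [hR2, div_mul_eq_mul_div, div_le_iff₀ hδ] at h3
  nlinarith [measureReal_nonneg (μ := gam1) (s := aSet R)]

/-- the drive strength attached to the antenna set -/
def aR (R : ℝ) : ℝ := Real.pi / (4 * R)

lemma aR_pos {R : ℝ} (hR : 0 < R) : 0 < aR R := div_pos Real.pi_pos (by linarith)

lemma xs_pos {R : ℝ} (hR : 0 < R) {x : ℝ} (hx : x ∈ aSet R) : 0 < x * Real.sin (2 * aR R * x) := by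
  have h1 : ∀ y : ℝ, R < y → y < 2 * R → 0 < y * Real.sin (2 * aR R * y) := by
    intro y h1 h2
    have h3 : 0 < y := hR.trans h1
    refine mul_pos h3 (Real.sin_pos_of_pos_of_lt_pi ?_ ?_)
    · have := aR_pos hR
      positivity
    · have h4 : 2 * aR R * y < 2 * aR R * (2 * R) :=
        mul_lt_mul_of_pos_left h2 (by linarith [aR_pos hR])
      have h5 : 2 * aR R * (2 * R) = Real.pi := by
        rw [aR]
        field_simp
        ring
      linarith
  rcases le_or_gt 0 x with h | h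
  · have h2 : |x| = x := abs_of_nonneg h
    rw [aSet, mem_ofPred_eq, h2] at hx
    exact h1 x hx.1 hx.2
  · have h2 : |x| = -x := abs_of_neg h
    rw [aSet, mem_ofPred_eq, h2] at hx
    have h3 := h1 (-x) hx.1 hx.2
    have h4 : 2 * aR R * (-x) = -(2 * aR R * x) := by ring
    rw [h4, Real.sin_neg] at h3
    linarith

lemma integrable_xs (a : ℝ) : Integrable (fun x : ℝ => x * Real.sin (2 * a * x)) gam1 := by
  have hx : Integrable (fun x : ℝ => x) gam1 := (memLp_id_gam1 1).integrable (by norm_num)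
  refine hx.mono (by fun_prop) (Eventually.of_forall fun x => ?_)
  rw [norm_mul]
  exact mul_le_of_le_one_right (norm_nonneg _) (Real.abs_sin_le_one _)

lemma IA_pos {R : ℝ} (hR : 0 < R) :
    0 < ∫ x, (aSet R).indicator (fun x => x * Real.sin (2 * aR R * x)) x ∂gam1 := by
  have hi : Integrable ((aSet R).indicator (fun x => x * Real.sin (2 * aR R * x))) gam1 :=
    (integrable_xs _).indicator (measurableSet_aSet R)
  rw [integral_pos_iff_support_of_nonneg _ hi]
  · refine lt_of_lt_of_le (gam1_aSet_pos hR) (measure_mono fun x hx => ?_)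
    rw [Function.mem_support, indicator_of_mem hx]
    exact (xs_pos hR hx).ne'
  · intro x
    exact indicator_nonneg (fun y hy => (xs_pos hR hy).le) x

lemma integral_xs (io : SL K0 ≃ₗᵢ[ℂ] K0) (a : ℝ) :
    ∫ x, x * Real.sin (2 * a * x) ∂gam1 = 2 * a * Real.exp (-(2 * a ^ 2)) := by
  have h1 := m_start io a (-(Real.pi / 4))
  have h2 : (LM io).run [.L a, .B (-(Real.pi / 4))] 1
      = fst (fun _ => -(Real.pi / 4)) measurable_const a := by
    show rxU (fun _ => -(Real.pi / 4)) measurable_const * (lamU a * 1) = _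
    rw [mul_one]
    rfl
  have h3 : 2 * (-(Real.pi / 4)) = -(Real.pi / 2) := by ring
  rw [h2, m_fst, h3, Real.sin_neg, Real.sin_pi_div_two] at h1
  have h4 : ∀ x : ℝ, x * -(-1 * Real.sin (2 * a * x)) = x * Real.sin (2 * a * x) := fun x => by ring
  simp only [h4, neg_neg, one_mul] at h1
  exact h1

/-- the angle along the path -/
def fpath (R τ : ℝ) (x : ℝ) : ℝ := (aSet R)ᶜ.indicator (fun _ => τ * (Real.pi / 4)) x + -(Real.pi / 4)

lemma measurable_fpath (R τ : ℝ) : Measurable (fpath R τ) :=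
  (measurable_const.indicator (measurableSet_aSet R).compl).add measurable_const

lemma sin_fpath_mem {R τ x : ℝ} (hx : x ∈ aSet R) : Real.sin (2 * fpath R τ x) = -1 := by
  have h : x ∉ (aSet R)ᶜ := fun h => h hx
  rw [fpath, indicator_of_notMem h]
  have : 2 * (0 + -(Real.pi / 4)) = -(Real.pi / 2) := by ring
  rw [this, Real.sin_neg, Real.sin_pi_div_two]

lemma sin_fpath_notMem {R τ x : ℝ} (hx : x ∉ aSet R) :
    Real.sin (2 * fpath R τ x) = -Real.sin ((1 - τ) * (Real.pi / 2)) := by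
  have h : x ∈ (aSet R)ᶜ := hx
  rw [fpath, indicator_of_mem h, ← Real.sin_neg]
  congr 1
  ring

lemma m_path (io : SL K0 ≃ₗᵢ[ℂ] K0) (R τ : ℝ) :
    (LM io).m (fst (fpath R τ) (measurable_fpath R τ) (aR R))
      = Real.sin ((1 - τ) * (Real.pi / 2)) * (2 * aR R * Real.exp (-(2 * aR R ^ 2)))
        + (1 - Real.sin ((1 - τ) * (Real.pi / 2)))
          * ∫ x, (aSet R).indicator (fun x => x * Real.sin (2 * aR R * x)) x ∂gam1 := by
  rw [m_fst, ← integral_xs io, ← integral_const_mul, ← integral_const_mul,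
    ← integral_add ((integrable_xs _).const_mul _)
      (((integrable_xs _).indicator (measurableSet_aSet R)).const_mul _)]
  congr 1
  funext x
  by_cases hx : x ∈ aSet R
  · rw [indicator_of_mem hx, sin_fpath_mem hx]
    ring
  · rw [indicator_of_notMem hx, sin_fpath_notMem hx]
    ring

lemma m_path_pos (io : SL K0 ≃ₗᵢ[ℂ] K0) {R : ℝ} (hR : 0 < R) {τ : ℝ} (hτ : τ ∈ Icc (0 : ℝ) 1) :
    0 < (LM io).m (fst (fpath R τ) (measurable_fpath R τ) (aR R)) := by
  rw [m_path]
  have h1 := IA_pos hR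
  have h2 : 0 < 2 * aR R * Real.exp (-(2 * aR R ^ 2)) := by
    have := aR_pos hR
    positivity
  have h3 : 0 ≤ Real.sin ((1 - τ) * (Real.pi / 2)) := by
    refine Real.sin_nonneg_of_nonneg_of_le_pi ?_ ?_
    · exact mul_nonneg (by linarith [hτ.2]) (by positivity)
    · nlinarith [Real.pi_pos, hτ.1, hτ.2]
  have h4 := Real.sin_le_one ((1 - τ) * (Real.pi / 2))
  rcases h3.eq_or_lt with h5 | h5
  · rw [← h5]
    linarith
  · have h6 : 0 < Real.sin ((1 - τ) * (Real.pi / 2)) * (2 * aR R * Real.exp (-(2 * aR R ^ 2))) :=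
      mul_pos h5 h2
    have h7 : 0 ≤ (1 - Real.sin ((1 - τ) * (Real.pi / 2)))
        * ∫ x, (aSet R).indicator (fun x => x * Real.sin (2 * aR R * x)) x ∂gam1 :=
      mul_nonneg (by linarith) h1.le
    linarith

lemma rot_mul_fst (io : SL K0 ≃ₗᵢ[ℂ] K0) {R : ℝ} (τ : ℝ) :
    (IL io).rot (measurableSet_aSet R).compl (τ * (Real.pi / 4))
      * fst (fun _ => -(Real.pi / 4)) measurable_const (aR R)
      = fst (fpath R τ) (measurable_fpath R τ) (aR R) := by
  rw [rot_eq (cp_IL io), fst, ← mul_assoc, rxU_mul]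
  rfl

/-! ### the antenna state -/

/-- the antenna state -/
def uAnt (R : ℝ) : USL K0 := lamU (-(aR R)) * fst (fpath R 1) (measurable_fpath R 1) (aR R)

/-- its matrix -/
def gAnt (R x : ℝ) : Matrix Bool Bool ℂ :=
  lamm (-(aR R)) x * (mixm (fpath R 1 x) * lamm (aR R) x)

lemma BMM_gAnt (R : ℝ) : BMM (gAnt R) := (BMM_lamm _).mul (BMM_fst (measurable_fpath R 1) _)

lemma coe_uAnt (R : ℝ) : ((uAnt R : USL K0) : SL K0 →L[ℂ] SL K0) = gS (gAnt R) := by
  have h : (gS (gAnt R) : SL K0 →L[ℂ] SL K0)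
      = gS (lamm (-(aR R))) * gS (fun x => mixm (fpath R 1 x) * lamm (aR R) x) :=
    gS_mul (BMM_lamm _) (BMM_fst (measurable_fpath R 1) _)
  rw [h, ← coe_fst _ (measurable_fpath R 1)]
  rfl

lemma gS_mul_PS {B : Set ℝ} (hB : MeasurableSet B) {g : ℝ → Matrix Bool Bool ℂ} (hg : BMM g) :
    (gS g : SL K0 →L[ℂ] SL K0) * PS B = gS (fun x => B.indicator (fun _ => (1 : ℂ)) x • g x) := by
  have h1 : (PS B : SL K0 →L[ℂ] SL K0)
      = gS (fun x => B.indicator (fun _ => (1 : ℂ)) x • (1 : Matrix Bool Bool ℂ)) :=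
    (gS_scalar (BM.indicator hB)).symm
  rw [h1, ← gS_mul hg (bmm_smul (BMM.const 1) (BM.indicator hB))]
  congr 1
  funext x
  rw [mul_smul_comm, mul_one]

lemma comm_PS_gS {B : Set ℝ} (hB : MeasurableSet B) {g : ℝ → Matrix Bool Bool ℂ} (hg : BMM g) :
    Commute (PS B : SL K0 →L[ℂ] SL K0) (gS g) := by
  show (PS B : SL K0 →L[ℂ] SL K0) * gS g = gS g * PS B
  rw [PS_mul_gS hB hg, gS_mul_PS hB hg]

lemma CP_uAnt (io : SL K0 ≃ₗᵢ[ℂ] K0) (R : ℝ) :
    CP (IL io) ((uAnt R : USL K0) : SL K0 →L[ℂ] SL K0) := by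
  intro B hB
  rw [coe_uAnt]
  exact comm_PS_gS hB (BMM_gAnt R)

lemma gAnt_off {R x : ℝ} (hx : x ∈ (aSet R)ᶜ) : gAnt R x = 1 := by
  rw [gAnt, fpath, indicator_of_mem hx, one_mul, add_neg_cancel, mixm_zero, one_mul]
  have := lamm_mul_neg (-(aR R)) x
  rwa [neg_neg] at this

lemma uAnt_off (io : SL K0 ≃ₗᵢ[ℂ] K0) (R : ℝ) :
    ((uAnt R : USL K0) : SL K0 →L[ℂ] SL K0) * (IL io).P (aSet R)ᶜ = (IL io).P (aSet R)ᶜ := by
  show ((uAnt R : USL K0) : SL K0 →L[ℂ] SL K0) * PS (aSet R)ᶜ = PS (aSet R)ᶜ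
  have hc := (measurableSet_aSet R).compl
  have h1 : (PS (aSet R)ᶜ : SL K0 →L[ℂ] SL K0)
      = gS (fun x => (aSet R)ᶜ.indicator (fun _ => (1 : ℂ)) x • (1 : Matrix Bool Bool ℂ)) :=
    (gS_scalar (BM.indicator hc)).symm
  rw [coe_uAnt, gS_mul_PS hc (BMM_gAnt R), h1]
  congr 1
  funext x
  by_cases hx : x ∈ (aSet R)ᶜ
  · rw [gAnt_off hx]
  · rw [indicator_of_notMem hx, zero_smul, zero_smul]

lemma eV_uAnt (io : SL K0 ≃ₗᵢ[ℂ] K0) (R : ℝ) :
    (IL io).eV (uAnt R) = (IL io).eV (fst (fpath R 1) (measurable_fpath R 1) (aR R)) := by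
  rw [← LM_eV, ← LM_eV]
  exact (LM io).eV_mul_comm ((LM io).lam_Z _) _

lemma mpos_uAnt (io : SL K0 ≃ₗᵢ[ℂ] K0) {R : ℝ} (hR : 0 < R) :
    0 < (⟪(LM io).xi, (IL io).P (aSet R) ((IL io).eV (uAnt R))⟫_ℂ).re := by
  show 0 < (⟪xiS, (IL io).P (aSet R) ((IL io).eV (uAnt R))⟫_ℂ).re
  rw [eV_uAnt, inner_xi_P io _ _ _ (measurableSet_aSet R), Complex.ofReal_re]
  have h := IA_pos hR
  have e : (fun x => (aSet R).indicator
        (fun x => x * -(Real.sin (2 * fpath R 1 x) * Real.sin (2 * aR R * x))) x)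
      = fun x => (aSet R).indicator (fun x => x * Real.sin (2 * aR R * x)) x := by
    funext x
    by_cases hx : x ∈ aSet R
    · rw [indicator_of_mem hx, indicator_of_mem hx, sin_fpath_mem hx]
      ring
    · rw [indicator_of_notMem hx, indicator_of_notMem hx]
  rw [e]
  exact h

lemma inner_ZOm_uAnt (io : SL K0 ≃ₗᵢ[ℂ] K0) (R : ℝ) :
    (⟪(IL io).Z (IL io).Om, (IL io).P (aSet R) ((IL io).eV (uAnt R))⟫_ℂ).re = 0 := by
  rw [eV_uAnt, eV_fst]
  have h1 : ⟪(IL io).Z (IL io).Om, (IL io).P (aSet R) (gS (hst (fpath R 1) (aR R)) OmS)⟫_ℂ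
      = ⟪ZS (OmS : SL K0), PS (aSet R) (gS (hst (fpath R 1) (aR R)) OmS)⟫_ℂ := by
    rw [(cp_IL io).Z]
    rfl
  have hb := BMM_hst (measurable_fpath R 1) (aR R)
  have hm := measurableSet_aSet R
  rw [h1, inner_ZS_PS_gS hm hb]
  have hbm : BM (fun x => (aSet R).indicator (fun _ => (1 : ℂ)) x
      * pp (zm * hst (fpath R 1) (aR R) x)) := by
    refine (BM.indicator hm).mul ?_
    have hz := (BMM.const zm).mul hb
    have : (fun x => pp (zm * hst (fpath R 1) (aR R) x))
        = fun x => (1 / 2) * (((zm * hst (fpath R 1) (aR R) x) true true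
          + (zm * hst (fpath R 1) (aR R) x) true false)
          + ((zm * hst (fpath R 1) (aR R) x) false true
          + (zm * hst (fpath R 1) (aR R) x) false false)) := by
      funext x
      rw [pp]
      simp only [Fintype.sum_bool]
    rw [this]
    exact (BM.const _).mul (((hz true true).add (hz true false)).add
      ((hz false true).add (hz false false)))
  have h2 := hbm.integrable
  have h3 : (∫ x, (aSet R).indicator (fun _ => (1 : ℂ)) x
      * pp (zm * hst (fpath R 1) (aR R) x) ∂gam1).re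
      = ∫ x, ((aSet R).indicator (fun _ => (1 : ℂ)) x
      * pp (zm * hst (fpath R 1) (aR R) x)).re ∂gam1 := (integral_re h2).symm
  rw [h3]
  refine integral_eq_zero_of_ae (Eventually.of_forall fun x => ?_)
  by_cases hx : x ∈ aSet R
  · have h4 : fpath R 1 x = -(Real.pi / 4) := by
      have h : x ∉ (aSet R)ᶜ := fun h => h hx
      rw [fpath, indicator_of_notMem h, zero_add]
    show ((aSet R).indicator (fun _ => (1 : ℂ)) x * pp (zm * hst (fpath R 1) (aR R) x)).re = 0
    rw [indicator_of_mem hx, one_mul, pp_zm_hst, h4]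
    have : 2 * (-(Real.pi / 4)) = -(Real.pi / 2) := by ring
    rw [this, Real.cos_neg, Real.cos_pi_div_two]
  · show ((aSet R).indicator (fun _ => (1 : ℂ)) x * pp (zm * hst (fpath R 1) (aR R) x)).re = 0
    rw [indicator_of_notMem hx]
    simp

lemma antS_uAnt (io : SL K0 ≃ₗᵢ[ℂ] K0) {R : ℝ} (hR : 0 < R) :
    AntS (IL io) (LM io) parS (aSet R) (uAnt R) where
  sim := sim_IL io
  cl := ClE_aSet R
  comm := CP_uAnt io R
  mpos := mpos_uAnt io hR

/-- the antenna state is good -/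
theorem good_uAnt (io : SL K0 ≃ₗᵢ[ℂ] K0) {R : ℝ} (hR : 0 < R) {c : ℝ}
    (h : (LM io).Good c ((LM io).run [.L (aR R), .B (-(Real.pi / 4))] 1)) :
    (LM io).Good c (uAnt R) := by
  have h2 : (LM io).run [.L (aR R), .B (-(Real.pi / 4))] 1
      = fst (fun _ => -(Real.pi / 4)) measurable_const (aR R) := by
    show rxU (fun _ => -(Real.pi / 4)) measurable_const * (lamU (aR R) * 1) = _
    rw [mul_one]
    rfl
  rw [h2] at h
  have hAc : (IL io).Cl (aSet R)ᶜ := (IL io).Cl_compl _ (ClE_aSet R)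
  have h3 := (sim_IL io).pg _ hAc (Real.pi / 4) c _ (fun τ hτ => ?_) h
  · have h4 := rot_mul_fst io (R := R) 1
    have h5 : (LM io).Good c (fst (fpath R 1) (measurable_fpath R 1) (aR R)) := by
      rw [← h4]
      exact h3
    have h6 := m_path_pos io hR (τ := 1) ⟨zero_le_one, le_rfl⟩
    have h7 : (LM io).Pos [.L (-(aR R))] (fst (fpath R 1) (measurable_fpath R 1) (aR R)) := by
      refine ⟨h6, ?_⟩
      show 0 < (LM io).m ((LM io).lam (-(aR R)) * fst (fpath R 1) (measurable_fpath R 1) (aR R))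
      rw [LS.m_lam]
      exact h6
    exact LS.Good.run (LM io) h5 h7
  · have h4 := rot_mul_fst io (R := R) τ
    have h5 := m_path_pos io hR hτ
    rw [← h4] at h5
    exact h5

/-- the antenna data with small mass, given the goodness of the first labelled state -/
theorem ant_exists (io : SL K0 ≃ₗᵢ[ℂ] K0) {R : ℝ} (hR : 0 < R) {c : ℝ}
    (h : (LM io).Good c ((LM io).run [.L (aR R), .B (-(Real.pi / 4))] 1)) :
    ∃ l0 : SL K0, ‖l0‖ = 1 ∧ (IL io).P (aSet R)ᶜ l0 = 0 ∧
      (⟪(IL io).Z (IL io).Om, l0⟫_ℂ).re = 0 ∧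
      (IL io).Good (aSet R)ᶜ {l0} (c + 4 * Real.sqrt (gam1.real (aSet R))) 1 := by
  have hm := measurableSet_aSet R
  have hpos : 0 < gam1.real (aSet R) := by
    rw [measureReal_def]
    exact ENNReal.toReal_pos (gam1_aSet_pos hR).ne' (measure_ne_top _ _)
  have hmu : (IL io).μ.real (aSet R) = gam1.real (aSet R) := rfl
  have hs := Real.sqrt_pos.2 hpos
  have hn : ‖(IL io).P (aSet R) ((IL io).eV (uAnt R))‖ = Real.sqrt (gam1.real (aSet R)) := by
    rw [norm_P_eV (CP_uAnt io R) hm, hmu]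
  refine ⟨(((Real.sqrt (gam1.real (aSet R)))⁻¹ : ℝ) : ℂ) • (IL io).P (aSet R) ((IL io).eV (uAnt R)),
    ?_, ?_, ?_, ?_⟩
  · rw [norm_smul, hn, Complex.norm_real, Real.norm_of_nonneg (inv_nonneg.2 hs.le),
      inv_mul_cancel₀ hs.ne']
  · have h1 : (IL io).P (aSet R)ᶜ * (IL io).P (aSet R) = 0 :=
      P_compl_mul_of_subset hm hm subset_rfl
    rw [map_smul]
    have h2 : (IL io).P (aSet R)ᶜ ((IL io).P (aSet R) ((IL io).eV (uAnt R))) = 0 :=
      congrArg (fun T : SL K0 →L[ℂ] SL K0 => T ((IL io).eV (uAnt R))) h1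
    rw [h2, smul_zero]
  · rw [inner_smul_right, Complex.re_ofReal_mul, inner_ZOm_uAnt, mul_zero]
  · exact good_of_ant (antS_uAnt io hR) (uAnt_off io R) (good_uAnt io hR h)
      (Real.sqrt (gam1.real (aSet R)))⁻¹

/-- **The antenna (level `0`)** from the simulation of the label gate. -/
theorem antStmt (hLam : ∀ (a : ℝ) (ha : a ≠ 0), ∃ (D : BridgeData Kst Kst) (ε : ℕ → ℝ)
    (hε : ∀ n, 0 < ε n), Tendsto ε atTop (𝓝 0) ∧ Mark.LamStmt D.ip D.hs D.hsi ha hε) :
    C2.AntStmt := by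
  intro c hc δ hδ hδ1
  obtain ⟨R, hR, hRs⟩ := exists_small ((δ / 4) ^ 2) (by positivity)
  obtain ⟨D, ε, hε, hε0, hL⟩ := hLam (aR R) (aR_pos hR).ne'
  have hb : Real.sin (2 * (-(Real.pi / 4))) ≠ 0 := by
    have : 2 * (-(Real.pi / 4)) = -(Real.pi / 2) := by ring
    rw [this, Real.sin_neg, Real.sin_pi_div_two]
    norm_num
  have hg := good_start D hε0 hL (c := c) (fun j angles => hc Kst j angles) (-(Real.pi / 4)) hb
  obtain ⟨l0, h1, h2, h3, h4⟩ := ant_exists D.io hR hg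
  refine ⟨D.io, (aSet R)ᶜ, l0, (IL D.io).Cl_compl _ (ClE_aSet R), ?_, h1, h2, h3, ?_⟩
  · show 1 - δ ≤ gam1.real (aSet R)ᶜ
    rw [probReal_compl_eq_one_sub (measurableSet_aSet R)]
    have : (δ / 4) ^ 2 ≤ δ := by nlinarith
    linarith
  · intro V hV
    refine (h4 V hV).trans ?_
    have : Real.sqrt (gam1.real (aSet R)) ≤ δ / 4 := by
      rw [Real.sqrt_le_left (by positivity)]
      exact hRs
    linarith

end Crest.Agent.R339.Ant
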