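import Mathlib
import Crest.Agent.R339.Lab373A

/-!
# Nice vectors, `CvH` convergence, the oscillation lemma
-/

set_option autoImplicit false

noncomputable section

open scoped ComplexConjugate InnerProductSpace Topology
open Filter Crest.MathPhysics.SpinGlass Crest.Agent.R339.Site

namespace Crest.Agent.R339.Lab

variable {K : Type*} [NormedAddCommGroup K] [InnerProductSpace ℂ K]

lemma abs_im_inner_le (f g : K) : |(⟪f, g⟫_ℂ).im| ≤ ‖f‖ * ‖g‖ :=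
  (Complex.abs_im_le_norm _).trans (norm_inner_le_norm f g)

lemma norm_cexp_neg_I_mul (t : ℝ) : ‖Complex.exp (-(Complex.I * (t : ℂ)))‖ = 1 := by
  have := norm_cexp_I_mul (-t)
  simpa using this

lemma norm_cexp_neg_I_mul_sub_one (t : ℝ) : ‖Complex.exp (-(Complex.I * (t : ℂ))) - 1‖ ≤ |t| := by
  have := norm_cexp_I_mul_sub_one (-t)
  simpa using this

/-! ### `Dl` on products -/

/-- `(W g - 1) W u = W u (e^{iθ} W g - 1)` -/
lemma norm_Dl_Wl_le (g u : K) (v : Sp K) : ‖Dl g (Wl u v)‖ ≤ 2 * ‖g‖ * ‖u‖ * ‖v‖ + ‖Dl g v‖ := by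
  have h : Dl g (Wl u v) = Wl u ((Complex.exp (-(Complex.I * ((2 * (⟪g, u⟫_ℂ).im : ℝ) : ℂ))) - 1) •
      Wl g v + Dl g v) := by
    rw [Dl_apply, Dl_apply, Wl_comm, map_add, map_smul, map_sub, sub_smul, one_smul]
    push_cast
    abel
  rw [h, norm_Wl_apply]
  refine (norm_add_le _ _).trans (add_le_add_left ?_ _)
  rw [norm_smul, norm_Wl_apply]
  refine mul_le_mul_of_nonneg_right ((norm_cexp_neg_I_mul_sub_one _).trans ?_) (norm_nonneg _)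
  rw [abs_mul, abs_two, mul_assoc]
  exact mul_le_mul_of_nonneg_left (abs_im_inner_le g u) (by norm_num)

lemma Dl_Wl (g u : K) (v : Sp K) : Dl g (Wl u v) =
    Wl u ((Complex.exp (-(Complex.I * ((2 * (⟪g, u⟫_ℂ).im : ℝ) : ℂ))) - 1) • Wl g v + Dl g v) := by
  rw [Dl_apply, Dl_apply, Wl_comm, map_add, map_smul, map_sub, sub_smul, one_smul]
  push_cast
  abel

/-! ### M1, M2 -/

/-- first order bound -/
def M1 (C : ℝ) (v : Sp K) : Prop := ∀ g : K, ‖Dl g v‖ ≤ C * ‖g‖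

/-- second order bound -/
def M2 (C : ℝ) (v : Sp K) : Prop := ∀ g g' : K, ‖Dl g (Dl g' v)‖ ≤ C * ‖g‖ * ‖g'‖

/-- nice vectors -/
def Nice (v : Sp K) : Prop := ∃ C : ℝ, 0 ≤ C ∧ M1 C v ∧ M2 C v

lemma M1.mono {C C' : ℝ} {v : Sp K} (h : M1 C v) (hC : C ≤ C') : M1 C' v :=
  fun g => (h g).trans (mul_le_mul_of_nonneg_right hC (norm_nonneg _))

lemma M2.mono {C C' : ℝ} {v : Sp K} (h : M2 C v) (hC : C ≤ C') : M2 C' v :=
  fun g g' => (h g g').trans (by gcongr)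

lemma M1.spin {C : ℝ} {v : Sp K} (h : M1 C v) {A : Sp K →L[ℂ] Sp K} (hA : IsSpin A) :
    M1 (‖A‖ * C) (A v) := by
  intro g
  rw [← hA.Dl]
  calc ‖A (Dl g v)‖ ≤ ‖A‖ * ‖Dl g v‖ := A.le_opNorm _
    _ ≤ ‖A‖ * (C * ‖g‖) := mul_le_mul_of_nonneg_left (h g) (norm_nonneg _)
    _ = ‖A‖ * C * ‖g‖ := by ring

lemma M2.spin {C : ℝ} {v : Sp K} (h : M2 C v) {A : Sp K →L[ℂ] Sp K} (hA : IsSpin A) :
    M2 (‖A‖ * C) (A v) := by
  intro g g'
  rw [← hA.Dl, ← hA.Dl]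
  calc ‖A (Dl g (Dl g' v))‖ ≤ ‖A‖ * ‖Dl g (Dl g' v)‖ := A.le_opNorm _
    _ ≤ ‖A‖ * (C * ‖g‖ * ‖g'‖) := mul_le_mul_of_nonneg_left (h g g') (norm_nonneg _)
    _ = ‖A‖ * C * ‖g‖ * ‖g'‖ := by ring

lemma Nice.spin {v : Sp K} (h : Nice v) {A : Sp K →L[ℂ] Sp K} (hA : IsSpin A) : Nice (A v) := by
  obtain ⟨C, hC, h1, h2⟩ := h
  exact ⟨‖A‖ * C, by positivity, h1.spin hA, h2.spin hA⟩

lemma Nice.add {v w : Sp K} (hv : Nice v) (hw : Nice w) : Nice (v + w) := by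
  obtain ⟨C, hC, h1, h2⟩ := hv
  obtain ⟨C', hC', h1', h2'⟩ := hw
  refine ⟨C + C', by positivity, fun g => ?_, fun g g' => ?_⟩
  · rw [map_add]
    refine (norm_add_le _ _).trans ?_
    have := add_le_add (h1 g) (h1' g)
    linarith
  · rw [map_add, map_add]
    refine (norm_add_le _ _).trans ?_
    have := add_le_add (h2 g g') (h2' g g')
    linarith

lemma Nice.smul {v : Sp K} (hv : Nice v) (c : ℂ) : Nice (c • v) := by
  have := hv.spin (isSpin_one.smul c)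
  simpa using this

lemma Nice.sub {v w : Sp K} (hv : Nice v) (hw : Nice w) : Nice (v - w) := by
  have := hv.add (hw.smul (-1))
  simpa [sub_eq_add_neg] using this

lemma Nice.Wl {v : Sp K} (hv : Nice v) (u : K) : Nice (Wl u v) := by
  obtain ⟨C, hC, h1, h2⟩ := hv
  refine ⟨(2 * ‖u‖ * ‖v‖ + C) + (2 * ‖u‖ * (2 * ‖u‖ * ‖v‖ + C) + 4 * ‖v‖ + 2 * ‖u‖ * C + C),
    by positivity, fun g => ?_, fun g g' => ?_⟩
  · have := norm_Dl_Wl_le g u v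
    have h3 := h1 g
    have h4 : 0 ≤ (2 * ‖u‖ * (2 * ‖u‖ * ‖v‖ + C) + 4 * ‖v‖ + 2 * ‖u‖ * C + C) * ‖g‖ := by
      positivity
    nlinarith
  · rw [Dl_Wl g' u v]
    set c : ℂ := Complex.exp (-(Complex.I * ((2 * (⟪g', u⟫_ℂ).im : ℝ) : ℂ))) - 1 with hc
    have hcn : ‖c‖ ≤ 2 * ‖g'‖ * ‖u‖ := by
      refine (norm_cexp_neg_I_mul_sub_one _).trans ?_
      rw [abs_mul, abs_two, mul_assoc]
      exact mul_le_mul_of_nonneg_left (abs_im_inner_le g' u) (by norm_num)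
    have hc2 : ‖c‖ ≤ 2 := by
      refine (norm_sub_le _ _).trans ?_
      rw [norm_cexp_neg_I_mul, norm_one]
      norm_num
    have h3 := norm_Dl_Wl_le g u (c • Lab.Wl g' v + Dl g' v)
    have hg := h1 g
    have hg' := h1 g'
    have h5 : ‖c • Lab.Wl g' v + Dl g' v‖ ≤ 2 * ‖g'‖ * ‖u‖ * ‖v‖ + C * ‖g'‖ := by
      refine (norm_add_le _ _).trans (add_le_add ?_ hg')
      rw [norm_smul, norm_Wl_apply]
      exact mul_le_mul_of_nonneg_right hcn (norm_nonneg _)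
    have h7 := norm_Dl_Wl_le g g' v
    have h6 : ‖Dl g (c • Lab.Wl g' v + Dl g' v)‖ ≤
        2 * (2 * ‖g‖ * ‖g'‖ * ‖v‖) + 2 * ‖g'‖ * ‖u‖ * (C * ‖g‖) + C * ‖g‖ * ‖g'‖ := by
      rw [map_add, map_smul]
      refine (norm_add_le _ _).trans (add_le_add ?_ (h2 g g'))
      rw [norm_smul]
      calc ‖c‖ * ‖Dl g (Lab.Wl g' v)‖ ≤ ‖c‖ * (2 * ‖g‖ * ‖g'‖ * ‖v‖ + C * ‖g‖) :=
            mul_le_mul_of_nonneg_left (h7.trans (add_le_add_right hg _)) (norm_nonneg _)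
        _ = ‖c‖ * (2 * ‖g‖ * ‖g'‖ * ‖v‖) + ‖c‖ * (C * ‖g‖) := by ring
        _ ≤ _ := add_le_add (mul_le_mul_of_nonneg_right hc2 (by positivity))
              (mul_le_mul_of_nonneg_right hcn (by positivity))
    have h8 : 0 ≤ (2 * ‖u‖ * ‖v‖ + C) * ‖g‖ * ‖g'‖ := by positivity
    calc _ ≤ _ := h3
      _ ≤ 2 * ‖g‖ * ‖u‖ * (2 * ‖g'‖ * ‖u‖ * ‖v‖ + C * ‖g'‖) +
          (2 * (2 * ‖g‖ * ‖g'‖ * ‖v‖) + 2 * ‖g'‖ * ‖u‖ * (C * ‖g‖) + C * ‖g‖ * ‖g'‖) :=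
          add_le_add (mul_le_mul_of_nonneg_left h5 (by positivity)) h6
      _ ≤ _ := by nlinarith

lemma Nice.Ez {v : Sp K} (hv : Nice v) (u : K) :
    Nice (((Ez u : USp K) : Sp K →L[ℂ] Sp K) v) := by
  rw [Ez_eq]
  exact (((hv.Wl u).add (hv.Wl (-u))).smul _).add
    ((((hv.Wl u).sub (hv.Wl (-u))).spin isSpin_Zop).smul _)

/-! ### the vacuum is nice -/

lemma re_smul_coh (a b : K) (s t : ℝ) :
    (⟪Complex.exp (-(Complex.I * (s : ℂ))) • coh a, Complex.exp (-(Complex.I * (t : ℂ))) • coh b⟫_ℂ).re =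
      Real.exp ((⟪a, b⟫_ℂ).re - ‖a‖ ^ 2 / 2 - ‖b‖ ^ 2 / 2) * Real.cos (s - t + (⟪a, b⟫_ℂ).im) := by
  rw [inner_smul_left, inner_smul_right, inner_coh, ← Complex.exp_conj, ← Complex.exp_add,
    ← Complex.exp_add, Complex.exp_re]
  congr 2
  · simp [-Complex.ofReal_pow]
  · simp [-Complex.ofReal_pow]
    ring

lemma norm_sq_second (g g' : K) :
    ‖(Wy g (coh g') : Fock K) - coh g' - (coh g - vac)‖ ^ 2 =
      4 * (1 - Real.exp (-(‖g'‖ ^ 2 / 2)) - Real.cos (⟪g, g'⟫_ℂ).im ^ 2 * Real.exp (-(‖g‖ ^ 2 / 2)) +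
        Real.cos (⟪g, g'⟫_ℂ).im * Real.cosh (⟪g, g'⟫_ℂ).re * Real.exp (-(‖g‖ ^ 2 / 2)) *
          Real.exp (-(‖g'‖ ^ 2 / 2))) := by
  set q := (⟪g, g'⟫_ℂ).im with hq
  set p := (⟪g, g'⟫_ℂ).re with hp
  have hre : (⟪g', g⟫_ℂ).re = p := by rw [← inner_conj_symm g' g, Complex.conj_re]
  have him : (⟪g', g⟫_ℂ).im = -q := by rw [← inner_conj_symm g' g, Complex.conj_im]
  have hgg : ∀ f : K, ⟪f, f⟫_ℂ = ((‖f‖ ^ 2 : ℝ) : ℂ) := by
    intro f; rw [inner_self_eq_norm_sq_to_K]; norm_cast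
  have hn : ‖g + g'‖ ^ 2 = ‖g‖ ^ 2 + 2 * p + ‖g'‖ ^ 2 := @norm_add_sq ℂ _ _ _ _ g g'
  rw [Wy_coh]
  -- write all four vectors in the form `exp (-(I t)) • coh`
  have e1 : (coh g' : Fock K) = Complex.exp (-(Complex.I * ((0 : ℝ) : ℂ))) • coh g' := by simp
  have e2 : (coh g : Fock K) = Complex.exp (-(Complex.I * ((0 : ℝ) : ℂ))) • coh g := by simp
  have e3 : (vac : Fock K) = Complex.exp (-(Complex.I * ((0 : ℝ) : ℂ))) • coh 0 := by simp [vac]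
  set T1 : Fock K := Complex.exp (-(Complex.I * (q : ℂ))) • coh (g + g') with hT1
  set T2 : Fock K := Complex.exp (-(Complex.I * ((0 : ℝ) : ℂ))) • coh g' with hT2
  set T3 : Fock K := Complex.exp (-(Complex.I * ((0 : ℝ) : ℂ))) • coh g with hT3
  set T4 : Fock K := Complex.exp (-(Complex.I * ((0 : ℝ) : ℂ))) • coh 0 with hT4
  rw [e1, e2, e3]
  have n1 : ‖T1‖ = 1 := by
    rw [hT1, norm_smul, norm_coh, mul_one]
    have := norm_cexp_I_mul (-q)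
    simpa using this
  have n2 : ‖T2‖ = 1 := by rw [← e1, norm_coh]
  have n3 : ‖T3‖ = 1 := by rw [← e2, norm_coh]
  have n4 : ‖T4‖ = 1 := by rw [← e3, norm_vac]
  have i12 : (⟪T1, T2⟫_ℂ).re = Real.exp (-(‖g‖ ^ 2 / 2)) * Real.cos (2 * q) := by
    rw [hT1, hT2, re_smul_coh, inner_add_left, hgg, hn, Complex.add_re, Complex.add_im,
      Complex.ofReal_re, Complex.ofReal_im]
    congr 2 <;> ring
  have i13 : (⟪T1, T3⟫_ℂ).re = Real.exp (-(‖g'‖ ^ 2 / 2)) := by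
    rw [hT1, hT3, re_smul_coh, inner_add_left, hgg, hn, Complex.add_re, Complex.add_im,
      Complex.ofReal_re, Complex.ofReal_im, hre, him]
    rw [show q - 0 + (0 + -q) = 0 by ring, Real.cos_zero, mul_one]
    congr 1; ring
  have i14 : (⟪T1, T4⟫_ℂ).re = Real.exp (-p) * Real.exp (-(‖g‖ ^ 2 / 2)) *
      Real.exp (-(‖g'‖ ^ 2 / 2)) * Real.cos q := by
    rw [hT1, hT4, re_smul_coh, inner_zero_right, hn, ← Real.exp_add, ← Real.exp_add]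
    simp only [Complex.zero_re, Complex.zero_im, norm_zero]
    congr 2 <;> ring
  have i23 : (⟪T2, T3⟫_ℂ).re = Real.exp p * Real.exp (-(‖g‖ ^ 2 / 2)) *
      Real.exp (-(‖g'‖ ^ 2 / 2)) * Real.cos q := by
    rw [hT2, hT3, re_smul_coh, hre, him, ← Real.exp_add, ← Real.exp_add]
    rw [show (0 : ℝ) - 0 + -q = -q by ring, Real.cos_neg]
    congr 2; ring
  have i24 : (⟪T2, T4⟫_ℂ).re = Real.exp (-(‖g'‖ ^ 2 / 2)) := by
    rw [hT2, hT4, re_smul_coh, inner_zero_right]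
    simp
  have i34 : (⟪T3, T4⟫_ℂ).re = Real.exp (-(‖g‖ ^ 2 / 2)) := by
    rw [hT3, hT4, re_smul_coh, inner_zero_right]
    simp
  have h1 : ‖T1 - T2 - (T3 - T4)‖ ^ 2 = ‖T1‖ ^ 2 + ‖T2‖ ^ 2 + ‖T3‖ ^ 2 + ‖T4‖ ^ 2 -
      2 * (⟪T1, T2⟫_ℂ).re - 2 * (⟪T3, T4⟫_ℂ).re - 2 * ((⟪T1, T3⟫_ℂ).re - (⟪T1, T4⟫_ℂ).re -
        (⟪T2, T3⟫_ℂ).re + (⟪T2, T4⟫_ℂ).re) := by
    have a1 := @norm_sub_sq ℂ _ _ _ _ (T1 - T2) (T3 - T4)
    have a2 := @norm_sub_sq ℂ _ _ _ _ T1 T2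
    have a3 := @norm_sub_sq ℂ _ _ _ _ T3 T4
    rw [a1, a2, a3, inner_sub_left, inner_sub_right, inner_sub_right]
    simp only [RCLike.re_eq_complex_re, map_sub]
    ring
  rw [h1, i12, i13, i14, i23, i24, i34, n1, n2, n3, n4, Real.cos_two_mul, Real.cosh_eq]
  ring

lemma second_bound (g g' : K) :
    ‖(Wy g (coh g') : Fock K) - coh g' - (coh g - vac)‖ ≤ 3 * ‖g‖ * ‖g'‖ := by
  have h := norm_sq_second g g'
  set q := (⟪g, g'⟫_ℂ).im with hq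
  set p := (⟪g, g'⟫_ℂ).re with hp
  set A := ‖g‖ ^ 2 with hA
  set B := ‖g'‖ ^ 2 with hB
  have hpq : p ^ 2 + q ^ 2 ≤ A * B := by
    have h1 := norm_inner_le_norm (𝕜 := ℂ) g g'
    have h2 : ‖⟪g, g'⟫_ℂ‖ ^ 2 = p ^ 2 + q ^ 2 := by
      rw [← Complex.normSq_eq_norm_sq, Complex.normSq_apply]; ring
    rw [← h2, hA, hB, ← mul_pow]
    exact pow_le_pow_left₀ (norm_nonneg _) h1 2
  have hA0 : 0 ≤ A := sq_nonneg _
  have hB0 : 0 ≤ B := sq_nonneg _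
  have ha : 1 - A / 2 ≤ Real.exp (-(A / 2)) := by
    have := Real.add_one_le_exp (-(A / 2)); linarith
  have hb : 1 - B / 2 ≤ Real.exp (-(B / 2)) := by
    have := Real.add_one_le_exp (-(B / 2)); linarith
  have ha1 : Real.exp (-(A / 2)) ≤ 1 := Real.exp_le_one_iff.mpr (by linarith)
  have hb1 : Real.exp (-(B / 2)) ≤ 1 := Real.exp_le_one_iff.mpr (by linarith)
  have ha0 := Real.exp_pos (-(A / 2))
  have hb0 := Real.exp_pos (-(B / 2))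
  have hcosh : Real.exp (-(A / 2)) * Real.exp (-(B / 2)) * (Real.cosh p - 1) ≤ p ^ 2 / 2 := by
    have hab : |p| ≤ A / 2 + B / 2 := by
      have h1 : |p| ≤ ‖g‖ * ‖g'‖ := (Complex.abs_re_le_norm _).trans (norm_inner_le_norm g g')
      nlinarith [sq_nonneg (‖g‖ - ‖g'‖)]
    have h2 : Real.cosh p - 1 ≤ p ^ 2 / 2 * Real.exp |p| := by
      have h4 : Real.cosh p = Real.cosh |p| := (Real.cosh_abs p).symm
      rw [h4, ← sq_abs p]
      set r := |p|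
      have hr : 0 ≤ r := abs_nonneg p
      have h5 : 1 - r ≤ Real.exp (-r) := Real.one_sub_le_exp_neg r
      have h6 : Real.exp (-r) ≤ 1 := Real.exp_le_one_iff.mpr (by linarith)
      have h7 : Real.exp (-r) * Real.exp r = 1 := by rw [← Real.exp_add]; simp
      have h8 : Real.cosh r - 1 = Real.exp r * (1 - Real.exp (-r)) ^ 2 / 2 := by
        rw [Real.cosh_eq]
        linear_combination (1 - Real.exp (-r) / 2) * h7
      rw [h8]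
      have h9 : (1 - Real.exp (-r)) ^ 2 ≤ r ^ 2 := pow_le_pow_left₀ (by linarith) (by linarith) 2
      have := mul_le_mul_of_nonneg_left h9 (Real.exp_pos r).le
      linarith
    have h3 : Real.exp (-(A / 2)) * Real.exp (-(B / 2)) * Real.exp |p| ≤ 1 := by
      rw [← Real.exp_add, ← Real.exp_add, Real.exp_le_one_iff]
      linarith
    calc _ ≤ Real.exp (-(A / 2)) * Real.exp (-(B / 2)) * (p ^ 2 / 2 * Real.exp |p|) :=
          mul_le_mul_of_nonneg_left h2 (by positivity)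
      _ = (Real.exp (-(A / 2)) * Real.exp (-(B / 2)) * Real.exp |p|) * (p ^ 2 / 2) := by ring
      _ ≤ 1 * (p ^ 2 / 2) := mul_le_mul_of_nonneg_right h3 (by positivity)
      _ = _ := one_mul _
  have hcq : 1 - Real.cos q ^ 2 ≤ q ^ 2 := by
    have h1 := Real.sin_sq q
    have h2 : Real.sin q ^ 2 ≤ q ^ 2 := by
      have := Real.abs_sin_le_abs (x := q)
      calc Real.sin q ^ 2 = |Real.sin q| ^ 2 := (sq_abs _).symm
        _ ≤ |q| ^ 2 := pow_le_pow_left₀ (abs_nonneg _) this 2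
        _ = q ^ 2 := sq_abs _
    linarith
  have hcc : Real.cos q * Real.cosh p ≤ Real.cosh p := by
    have h1 := Real.cos_le_one q
    have h2 := Real.cosh_pos p
    nlinarith
  have hmain : ‖(Wy g (coh g') : Fock K) - coh g' - (coh g - vac)‖ ^ 2 ≤ (3 * ‖g‖ * ‖g'‖) ^ 2 := by
    rw [h]
    have e : (3 * ‖g‖ * ‖g'‖) ^ 2 = 9 * (A * B) := by rw [hA, hB]; ring
    rw [e]
    set a := Real.exp (-(A / 2))
    set b := Real.exp (-(B / 2))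
    have t1 : (1 - a) * (1 - b) ≤ A * B / 4 := by
      have : (1 - a) * (1 - b) ≤ (A / 2) * (B / 2) :=
        mul_le_mul (by linarith) (by linarith) (by linarith) (by linarith)
      linarith
    have t2 : a * (1 - Real.cos q ^ 2) ≤ q ^ 2 := by
      have h0 : 0 ≤ 1 - Real.cos q ^ 2 := by
        have := Real.cos_sq_le_one q; linarith
      nlinarith
    have t3 : a * b * (Real.cos q * Real.cosh p - 1) ≤ p ^ 2 / 2 := by
      refine le_trans ?_ hcosh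
      have : 0 ≤ a * b := by positivity
      nlinarith
    nlinarith [sq_nonneg p, sq_nonneg q]
  exact (sq_le_sq₀ (norm_nonneg _) (by positivity)).mp hmain

lemma norm_coh_sub_vac (g : K) : ‖(coh g : Fock K) - vac‖ ≤ ‖g‖ := by
  have h : ‖(coh g : Fock K) - vac‖ ^ 2 = 2 - 2 * Real.exp (-(‖g‖ ^ 2 / 2)) := by
    rw [@norm_sub_sq ℂ, norm_coh, norm_vac, ← Wy_vac, inner_Wy_left, inner_vac_Wy, norm_neg]
    simp only [RCLike.re_eq_complex_re]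
    rw [← Complex.ofReal_neg, ← Complex.ofReal_exp, Complex.ofReal_re]
    ring
  have h2 := Real.add_one_le_exp (-(‖g‖ ^ 2 / 2))
  have h3 : ‖(coh g : Fock K) - vac‖ ^ 2 ≤ ‖g‖ ^ 2 := by rw [h]; linarith
  exact (sq_le_sq₀ (norm_nonneg _) (norm_nonneg _)).mp h3

lemma norm_le_of_comp {v : Sp K} {c : ℝ} (hc : 0 ≤ c)
    (h : ∀ b, ‖v b‖ ≤ c / Real.sqrt 2) : ‖v‖ ≤ c := by
  have h1 := PiLp.norm_sq_eq_of_L2 (fun _ : Bool => Fock K) v
  have h2 : ∀ b : Bool, ‖v b‖ ^ 2 ≤ c ^ 2 / 2 := by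
    intro b
    calc ‖v b‖ ^ 2 ≤ (c / Real.sqrt 2) ^ 2 := pow_le_pow_left₀ (norm_nonneg _) (h b) 2
      _ = c ^ 2 / 2 := by rw [div_pow, Real.sq_sqrt (by norm_num)]
  have h3 : ‖v‖ ^ 2 ≤ c ^ 2 := by
    rw [h1, Fintype.sum_bool]
    linarith [h2 true, h2 false]
  exact (sq_le_sq₀ (norm_nonneg _) hc).mp h3

lemma Om_apply (b : Bool) : (Om : Sp K) b = (((1 : ℝ) / Real.sqrt 2 : ℝ) : ℂ) • vac := rfl

lemma M1_Om : M1 1 (Om : Sp K) := by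
  intro g
  refine norm_le_of_comp (by positivity) fun b => ?_
  rw [Dl_apply, PiLp.sub_apply, Wl_apply, Om_apply, map_smul, Wy_vac, ← smul_sub, norm_smul,
    Complex.norm_real, Real.norm_eq_abs, abs_of_nonneg (by positivity), one_div,
    inv_mul_eq_div, one_mul]
  gcongr
  exact norm_coh_sub_vac g

lemma M2_Om : M2 3 (Om : Sp K) := by
  intro g g'
  refine norm_le_of_comp (by positivity) fun b => ?_
  rw [Dl_apply, Dl_apply, PiLp.sub_apply, Wl_apply, PiLp.sub_apply, Wl_apply, Om_apply, map_smul,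
    Wy_vac, ← smul_sub, map_smul, ← smul_sub, norm_smul,
    Complex.norm_real, Real.norm_eq_abs, abs_of_nonneg (by positivity), one_div,
    inv_mul_eq_div]
  gcongr
  rw [map_sub, Wy_vac]
  have := second_bound g g'
  refine le_trans (le_of_eq ?_) this
  congr 1
  abel

lemma nice_Om : Nice (Om : Sp K) :=
  ⟨3, by norm_num, M1_Om.mono (by norm_num), M2_Om⟩

lemma nice_mixU {v : Sp K} (hv : Nice v) (β : ℝ) :
    Nice (((mixU β : USp K) : Sp K →L[ℂ] Sp K) v) := hv.spin (isSpin_mixU β)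

/-! ### density of nice vectors -/

/-- the nice vectors form a submodule -/
def niceSub (K : Type*) [NormedAddCommGroup K] [InnerProductSpace ℂ K] : Submodule ℂ (Sp K) where
  carrier := {v | Nice v}
  add_mem' := fun h h' => h.add h'
  zero_mem' := ⟨0, le_rfl, fun g => by simp, fun g g' => by simp⟩
  smul_mem' := fun c _ h => h.smul c

lemma nice_dense : (niceSub K).topologicalClosure = ⊤ := by
  rw [Submodule.topologicalClosure_eq_top_iff, Submodule.eq_bot_iff]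
  intro w hw
  ext b
  show w b = 0
  refine ext_coh fun f => ?_
  rw [inner_zero_right]
  have hn : (spM (Matrix.diagonal fun b' => if b' = b then ((Real.sqrt 2 : ℝ) : ℂ) else 0)
      (Wl f (Om : Sp K))) ∈ niceSub K := (nice_Om.Wl f).spin (isSpin_spM _)
  have h0 := (Submodule.mem_orthogonal _ _).mp hw _ hn
  have hc : ∀ b', (spM (Matrix.diagonal fun b' => if b' = b then ((Real.sqrt 2 : ℝ) : ℂ) else 0)
      (Wl f (Om : Sp K))) b' = if b' = b then coh f else 0 := by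
    intro b'
    rw [spM_apply, Finset.sum_eq_single b']
    · rw [Matrix.diagonal_apply_eq, Wl_apply, Om_apply, map_smul, Wy_vac]
      split_ifs with hb
      · rw [smul_smul, ← Complex.ofReal_mul]
        have : Real.sqrt 2 * (1 / Real.sqrt 2) = 1 := by field_simp
        rw [this]
        simp
      · rw [zero_smul]
    · intro b'' _ hb
      rw [Matrix.diagonal_apply_ne _ hb.symm, zero_smul]
    · simp
  rw [PiLp.inner_apply, Finset.sum_eq_single b] at h0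
  · rwa [hc, if_pos rfl] at h0
  · intro b' _ hb
    rw [hc, if_neg hb, inner_zero_left]
  · simp

lemma exists_nice_near (v : Sp K) {δ : ℝ} (hδ : 0 < δ) : ∃ w, Nice w ∧ ‖v - w‖ < δ := by
  have h : v ∈ closure ((niceSub K : Submodule ℂ (Sp K)) : Set (Sp K)) := by
    rw [← Submodule.topologicalClosure_coe, nice_dense]
    trivial
  obtain ⟨w, hw, hd⟩ := Metric.mem_closure_iff.mp h δ hδ
  exact ⟨w, hw, by rwa [dist_eq_norm] at hd⟩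

/-! ### the oscillation lemma -/

/-- If `4 Im⟪w,h⟫ = π`, then `W(h) Ez(-2w) = - Ez(-2w) W(h)`. -/
lemma Wl_Ez_anti {w h : K} (hwh : 4 * (⟪w, h⟫_ℂ).im = Real.pi) (v : Sp K) :
    Wl h (((Ez (-(2 : ℂ) • w) : USp K) : Sp K →L[ℂ] Sp K) v) =
      -((Ez (-(2 : ℂ) • w) : USp K) : Sp K →L[ℂ] Sp K) (Wl h v) := by
  rw [Wl_Ez]
  have h1 : 2 * (⟪-(2 : ℂ) • w, h⟫_ℂ).im = -Real.pi := by
    rw [inner_smul_left, ← hwh]
    simp
    ring
  rw [h1, Rz_eq, Real.cos_neg, Real.sin_neg, Real.cos_pi, Real.sin_pi]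
  simp

lemma osc {w h : K} (hwh : 4 * (⟪w, h⟫_ℂ).im = Real.pi) {A : Sp K →L[ℂ] Sp K} (hA : IsSpin A)
    (v v' : Sp K) :
    ‖⟪v, A (((Ez (-(2 : ℂ) • w) : USp K) : Sp K →L[ℂ] Sp K) v')⟫_ℂ‖ ≤
      ‖A‖ * (‖Dl h v‖ * ‖v'‖ + ‖v‖ * ‖Dl h v'‖) / 2 := by
  set E := ((Ez (-(2 : ℂ) • w) : USp K) : Sp K →L[ℂ] Sp K) with hE
  have h1 : ⟪v, A (E v')⟫_ℂ = -⟪Wl h v, A (E (Wl h v'))⟫_ℂ := by
    rw [← inner_Wl_Wl h, ← hA, hE, Wl_Ez_anti hwh, map_neg, inner_neg_right]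
  have h2 : 2 * ⟪v, A (E v')⟫_ℂ = -⟪Dl h v, A (E v')⟫_ℂ - ⟪Wl h v, A (E (Dl h v'))⟫_ℂ := by
    rw [two_mul]
    nth_rewrite 2 [h1]
    rw [Dl_apply, Dl_apply, map_sub, map_sub, inner_sub_left, inner_sub_right]
    ring
  have nE : ∀ x, ‖E x‖ = ‖x‖ := fun x => norm_U_apply _ _
  have h3 : ‖(2 : ℂ) * ⟪v, A (E v')⟫_ℂ‖ ≤ ‖A‖ * (‖Dl h v‖ * ‖v'‖ + ‖v‖ * ‖Dl h v'‖) := by
    rw [h2]
    refine (norm_sub_le _ _).trans ?_
    rw [norm_neg, mul_add]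
    refine add_le_add ?_ ?_
    · refine (norm_inner_le_norm _ _).trans ?_
      calc ‖Dl h v‖ * ‖A (E v')‖ ≤ ‖Dl h v‖ * (‖A‖ * ‖v'‖) := by
            refine mul_le_mul_of_nonneg_left ?_ (norm_nonneg _)
            refine (A.le_opNorm _).trans ?_
            rw [nE]
        _ = _ := by ring
    · refine (norm_inner_le_norm _ _).trans ?_
      rw [norm_Wl_apply]
      calc ‖v‖ * ‖A (E (Dl h v'))‖ ≤ ‖v‖ * (‖A‖ * ‖Dl h v'‖) := by
            refine mul_le_mul_of_nonneg_left ?_ (norm_nonneg _)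
            refine (A.le_opNorm _).trans ?_
            rw [nE]
        _ = _ := by ring
  rw [norm_mul, Complex.norm_ofNat] at h3
  linarith

/-! ### CvH -/

/-- small in norm and in the first difference -/
def LB (δ : ℝ) (v : Sp K) : Prop := ‖v‖ ≤ δ ∧ ∀ g : K, ‖Dl g v‖ ≤ δ * ‖g‖

lemma LB.mono {δ δ' : ℝ} {v : Sp K} (h : LB δ v) (hδ : δ ≤ δ') : LB δ' v :=
  ⟨h.1.trans hδ, fun g => (h.2 g).trans (mul_le_mul_of_nonneg_right hδ (norm_nonneg _))⟩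

lemma LB.nonneg {δ : ℝ} {v : Sp K} (h : LB δ v) : 0 ≤ δ := (norm_nonneg _).trans h.1

lemma LB.add {δ δ' : ℝ} {v v' : Sp K} (h : LB δ v) (h' : LB δ' v') : LB (δ + δ') (v + v') := by
  refine ⟨(norm_add_le _ _).trans (add_le_add h.1 h'.1), fun g => ?_⟩
  rw [map_add, add_mul]
  exact (norm_add_le _ _).trans (add_le_add (h.2 g) (h'.2 g))

lemma LB.spin {δ : ℝ} {v : Sp K} (h : LB δ v) {A : Sp K →L[ℂ] Sp K} (hA : IsSpin A) :
    LB (‖A‖ * δ) (A v) := by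
  refine ⟨(A.le_opNorm _).trans (mul_le_mul_of_nonneg_left h.1 (norm_nonneg _)), fun g => ?_⟩
  rw [← hA.Dl, mul_assoc]
  exact (A.le_opNorm _).trans (mul_le_mul_of_nonneg_left (h.2 g) (norm_nonneg _))

lemma LB.smul {δ : ℝ} {v : Sp K} (h : LB δ v) (c : ℂ) : LB (‖c‖ * δ) (c • v) := by
  refine ⟨by rw [norm_smul]; exact mul_le_mul_of_nonneg_left h.1 (norm_nonneg _), fun g => ?_⟩
  rw [map_smul, norm_smul, mul_assoc]
  exact mul_le_mul_of_nonneg_left (h.2 g) (norm_nonneg _)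

/-- First difference of `Ez u v`. -/
lemma norm_Dl_Ez_le (g u : K) (v : Sp K) : ‖Dl g (((Ez u : USp K) : Sp K →L[ℂ] Sp K) v)‖ ≤
    2 * |(⟪u, g⟫_ℂ).im| * ‖v‖ + ‖Dl g v‖ := by
  have h : Dl g (((Ez u : USp K) : Sp K →L[ℂ] Sp K) v) = ((Ez u : USp K) : Sp K →L[ℂ] Sp K)
      ((Rz (2 * (⟪u, g⟫_ℂ).im) (Wl g v) - Wl g v) + Dl g v) := by
    rw [Dl_apply, Dl_apply, Wl_Ez, ← map_sub]
    congr 1
    abel
  rw [h, norm_U_apply]
  refine (norm_add_le _ _).trans (add_le_add_left ((norm_Rz_sub _ _).trans ?_) _)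
  rw [norm_Wl_apply, abs_mul, abs_two]

lemma LB.Ez {δ : ℝ} {v : Sp K} (h : LB δ v) (u : K) :
    LB ((1 + 2 * ‖u‖) * δ) (((Ez u : USp K) : Sp K →L[ℂ] Sp K) v) := by
  have hδ := h.nonneg
  refine ⟨?_, fun g => ?_⟩
  · rw [norm_U_apply]
    have := h.1
    nlinarith [norm_nonneg u]
  · refine (norm_Dl_Ez_le g u v).trans ?_
    have h1 := abs_im_inner_le u g
    have h2 := h.2 g
    have h3 : 2 * |(⟪u, g⟫_ℂ).im| * ‖v‖ ≤ 2 * (‖u‖ * ‖g‖) * δ :=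
      mul_le_mul (mul_le_mul_of_nonneg_left h1 (by norm_num)) h.1 (norm_nonneg _) (by positivity)
    calc _ ≤ 2 * (‖u‖ * ‖g‖) * δ + δ * ‖g‖ := add_le_add h3 h2
      _ = _ := by ring

/-- `CvH ψ ψ₀`: convergence in norm and in the first differences, at a linear rate. -/
def CvH (ψ : ℕ → Sp K) (ψ₀ : Sp K) : Prop :=
  ∃ δ : ℕ → ℝ, Tendsto δ atTop (𝓝 0) ∧ ∀ᶠ n in atTop, LB (δ n) (ψ n - ψ₀)

lemma CvH.tendsto {ψ : ℕ → Sp K} {ψ₀ : Sp K} (h : CvH ψ ψ₀) : Tendsto ψ atTop (𝓝 ψ₀) := by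
  obtain ⟨δ, hδ, h⟩ := h
  rw [tendsto_iff_norm_sub_tendsto_zero]
  refine squeeze_zero' (Eventually.of_forall fun n => norm_nonneg _) ?_ hδ
  filter_upwards [h] with n hn using hn.1

lemma CvH.spin {ψ : ℕ → Sp K} {ψ₀ : Sp K} (h : CvH ψ ψ₀) {A : Sp K →L[ℂ] Sp K} (hA : IsSpin A) :
    CvH (fun n => A (ψ n)) (A ψ₀) := by
  obtain ⟨δ, hδ, h⟩ := h
  refine ⟨fun n => ‖A‖ * δ n, by simpa using hδ.const_mul ‖A‖, ?_⟩
  filter_upwards [h] with n hn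
  rw [← map_sub]
  exact hn.spin hA

/-- perturbation -/
lemma CvH.add_LB {ψ r : ℕ → Sp K} {ψ₀ : Sp K} (h : CvH ψ ψ₀) {δ' : ℕ → ℝ}
    (hδ' : Tendsto δ' atTop (𝓝 0)) (hr : ∀ᶠ n in atTop, LB (δ' n) (r n)) :
    CvH (fun n => ψ n + r n) ψ₀ := by
  obtain ⟨δ, hδ, h⟩ := h
  refine ⟨fun n => δ n + δ' n, by simpa using hδ.add hδ', ?_⟩
  filter_upwards [h, hr] with n hn hrn
  have := hn.add hrn
  convert this using 1
  abel

/-- the constant in `LB_Wl_sub` -/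
def kap (C u v : ℝ) : ℝ := (1 + 2 * u) * (u * v + C) + 4 * v + u * C + C

lemma kap_nonneg {C u v : ℝ} (hC : 0 ≤ C) (hu : 0 ≤ u) (hv : 0 ≤ v) : 0 ≤ kap C u v := by
  unfold kap; positivity

lemma kap_mono {C u u' v : ℝ} (hC : 0 ≤ C) (hu : 0 ≤ u) (hv : 0 ≤ v) (h : u ≤ u') :
    kap C u v ≤ kap C u' v := by
  have : 0 ≤ u' := hu.trans h
  unfold kap; gcongr

lemma LB_Wl_sub {C : ℝ} {v : Sp K} (hC : 0 ≤ C) (h1 : M1 C v) (h2 : M2 C v) (u d : K) :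
    LB (kap C ‖u‖ ‖v‖ * ‖d‖) (Wl (u + d) v - Wl u v) := by
  set c : ℂ := Complex.exp (Complex.I * ((⟪u, d⟫_ℂ).im : ℂ)) with hc
  have hcn : ‖c - 1‖ ≤ ‖u‖ * ‖d‖ := (norm_cexp_I_mul_sub_one _).trans (abs_im_inner_le u d)
  have hc2 : ‖c - 1‖ ≤ 2 := by
    refine (norm_sub_le _ _).trans ?_
    rw [norm_cexp_I_mul, norm_one]; norm_num
  set r : Sp K := (c - 1) • Wl d v + Dl d v with hr
  have hW : Wl (u + d) v - Wl u v = Wl u r := by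
    have e1 := Wl_Wl u d v
    have e2 : Wl (u + d) v = c • Wl u (Wl d v) := by
      rw [e1, smul_smul, hc, ← Complex.exp_add]
      simp
    rw [e2, hr, Dl_apply, map_add, map_smul, map_sub, sub_smul, one_smul]
    abel
  have hrn : ‖r‖ ≤ (‖u‖ * ‖v‖ + C) * ‖d‖ := by
    rw [hr]
    refine (norm_add_le _ _).trans ?_
    rw [norm_smul, norm_Wl_apply]
    have := mul_le_mul_of_nonneg_right hcn (norm_nonneg v)
    have h3 := h1 d
    nlinarith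
  have hrg : ∀ g, ‖Dl g r‖ ≤ (4 * ‖v‖ + ‖u‖ * C + C) * ‖d‖ * ‖g‖ := by
    intro g
    rw [hr, map_add, map_smul]
    refine (norm_add_le _ _).trans ?_
    rw [norm_smul]
    have h3 := norm_Dl_Wl_le g d v
    have h4 := h1 g
    have h5 := h2 g d
    calc ‖c - 1‖ * ‖Dl g (Wl d v)‖ + ‖Dl g (Dl d v)‖
        ≤ ‖c - 1‖ * (2 * ‖g‖ * ‖d‖ * ‖v‖ + C * ‖g‖) + C * ‖g‖ * ‖d‖ :=
          add_le_add (mul_le_mul_of_nonneg_left (h3.trans (add_le_add_right h4 _))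
            (norm_nonneg _)) h5
      _ = ‖c - 1‖ * (2 * ‖g‖ * ‖d‖ * ‖v‖) + ‖c - 1‖ * (C * ‖g‖) + C * ‖g‖ * ‖d‖ := by ring
      _ ≤ 2 * (2 * ‖g‖ * ‖d‖ * ‖v‖) + ‖u‖ * ‖d‖ * (C * ‖g‖) + C * ‖g‖ * ‖d‖ := by
          gcongr
      _ = _ := by ring
  rw [hW]
  refine ⟨?_, fun g => ?_⟩
  · rw [norm_Wl_apply]
    refine hrn.trans (mul_le_mul_of_nonneg_right ?_ (norm_nonneg _))
    unfold kap
    have : 0 ≤ 2 * ‖u‖ * (‖u‖ * ‖v‖ + C) + 4 * ‖v‖ + ‖u‖ * C + C := by positivity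
    nlinarith
  · refine (norm_Dl_Wl_le g u r).trans ?_
    have h3 : 2 * ‖g‖ * ‖u‖ * ‖r‖ ≤ 2 * ‖g‖ * ‖u‖ * ((‖u‖ * ‖v‖ + C) * ‖d‖) :=
      mul_le_mul_of_nonneg_left hrn (by positivity)
    have h4 : 0 ≤ (‖u‖ * ‖v‖ + C) * ‖d‖ * ‖g‖ := by positivity
    calc _ ≤ 2 * ‖g‖ * ‖u‖ * ((‖u‖ * ‖v‖ + C) * ‖d‖) + (4 * ‖v‖ + ‖u‖ * C + C) * ‖d‖ * ‖g‖ :=
          add_le_add h3 (hrg g)
      _ ≤ _ := by unfold kap; nlinarith

lemma norm_Zop_le : ‖(Zop : Sp K →L[ℂ] Sp K)‖ ≤ 1 :=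
  ContinuousLinearMap.opNorm_le_bound _ zero_le_one fun v => by rw [norm_Zop_apply, one_mul]

lemma norm_Xop_le : ‖(Xop : Sp K →L[ℂ] Sp K)‖ ≤ 1 :=
  ContinuousLinearMap.opNorm_le_bound _ zero_le_one fun v => by rw [norm_Xop_apply, one_mul]

lemma norm_Zb_le (β : ℝ) : ‖(Zb β : Sp K →L[ℂ] Sp K)‖ ≤ 1 :=
  ContinuousLinearMap.opNorm_le_bound _ zero_le_one fun v => by rw [norm_Zb_apply, one_mul]

lemma norm_USp_le (U : USp K) : ‖(U : Sp K →L[ℂ] Sp K)‖ ≤ 1 :=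
  ContinuousLinearMap.opNorm_le_bound _ zero_le_one fun v => by rw [norm_U_apply, one_mul]

lemma LB_Ez_sub {C : ℝ} {v : Sp K} (hC : 0 ≤ C) (h1 : M1 C v) (h2 : M2 C v) (u u' : K) :
    LB (2 * kap C ‖u‖ ‖v‖ * ‖u' - u‖) (((Ez u' : USp K) : Sp K →L[ℂ] Sp K) v -
      ((Ez u : USp K) : Sp K →L[ℂ] Sp K) v) := by
  have a1 := LB_Wl_sub hC h1 h2 u (u' - u)
  have a2 := LB_Wl_sub hC h1 h2 (-u) (-u' + u)
  rw [show u + (u' - u) = u' by abel] at a1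
  rw [show -u + (-u' + u) = -u' by abel, norm_neg, show -u' + u = -(u' - u) by abel, norm_neg] at a2
  have e : ((Ez u' : USp K) : Sp K →L[ℂ] Sp K) v - ((Ez u : USp K) : Sp K →L[ℂ] Sp K) v =
      ((1 / 2 : ℂ) • (Wl u' v - Wl u v) + (1 / 2 : ℂ) • (Wl (-u') v - Wl (-u) v)) +
      ((1 / 2 : ℂ) • Zop (Wl u' v - Wl u v) + (-(1 / 2) : ℂ) • Zop (Wl (-u') v - Wl (-u) v)) := by
    rw [Ez_eq, Ez_eq]
    simp only [map_sub]
    module
  rw [e]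
  refine (((a1.smul _).add (a2.smul _)).add
    (((a1.spin isSpin_Zop).smul _).add ((a2.spin isSpin_Zop).smul _))).mono ?_
  have hz := norm_Zop_le (K := K)
  have hk : 0 ≤ kap C ‖u‖ ‖v‖ * ‖u' - u‖ := mul_nonneg (kap_nonneg hC (norm_nonneg _)
    (norm_nonneg _)) (norm_nonneg _)
  have hz2 : ‖(Zop : Sp K →L[ℂ] Sp K)‖ * (kap C ‖u‖ ‖v‖ * ‖u' - u‖) ≤
      1 * (kap C ‖u‖ ‖v‖ * ‖u' - u‖) := mul_le_mul_of_nonneg_right hz hk
  have hh : ‖(1 / 2 : ℂ)‖ = 1 / 2 := by norm_num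
  rw [norm_neg, hh]
  nlinarith

/-- `Ez` of a convergent sequence preserves CvH. -/
lemma CvH.Ez {ψ : ℕ → Sp K} {ψ₀ : Sp K} (h : CvH ψ ψ₀) (hn : Nice ψ₀) {u : ℕ → K} {u₀ : K}
    (hu : Tendsto u atTop (𝓝 u₀)) :
    CvH (fun n => ((Ez (u n) : USp K) : Sp K →L[ℂ] Sp K) (ψ n))
      (((Ez u₀ : USp K) : Sp K →L[ℂ] Sp K) ψ₀) := by
  obtain ⟨δ, hδ, h⟩ := h
  obtain ⟨C, hC, h1, h2⟩ := hn
  refine ⟨fun n => (1 + 2 * ‖u n‖) * δ n + 2 * kap C ‖u₀‖ ‖ψ₀‖ * ‖u n - u₀‖, ?_, ?_⟩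
  · have a1 : Tendsto (fun n => (1 + 2 * ‖u n‖) * δ n) atTop (𝓝 ((1 + 2 * ‖u₀‖) * 0)) :=
      ((hu.norm.const_mul 2).const_add 1).mul hδ
    have a2 : Tendsto (fun n => 2 * kap C ‖u₀‖ ‖ψ₀‖ * ‖u n - u₀‖) atTop (𝓝 (2 * kap C ‖u₀‖ ‖ψ₀‖ * 0)) :=
      (tendsto_iff_norm_sub_tendsto_zero.mp hu).const_mul _
    simpa using a1.add a2
  · filter_upwards [h] with n hn
    have b1 := hn.Ez (u n)
    have b2 := LB_Ez_sub hC h1 h2 u₀ (u n)
    have := b1.add b2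
    rw [map_sub] at this
    convert this using 1
    abel

/-- a uniform first-order bound along a CvH family -/
lemma CvH.M1 {ψ : ℕ → Sp K} {ψ₀ : Sp K} (h : CvH ψ ψ₀) (hn : Nice ψ₀) :
    ∃ C, 0 ≤ C ∧ ∀ᶠ n in atTop, Lab.M1 C (ψ n) := by
  obtain ⟨δ, hδ, h⟩ := h
  obtain ⟨C, hC, h1, h2⟩ := hn
  refine ⟨1 + C, by positivity, ?_⟩
  filter_upwards [h, hδ.eventually_le_const zero_lt_one] with n hn hδn g
  have e : ψ n = (ψ n - ψ₀) + ψ₀ := by abel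
  rw [e, map_add]
  refine (norm_add_le _ _).trans ?_
  have b1 := hn.2 g
  have b2 := h1 g
  have b3 : δ n * ‖g‖ ≤ 1 * ‖g‖ := mul_le_mul_of_nonneg_right hδn (norm_nonneg _)
  linarith

end Crest.Agent.R339.Lab
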