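import Mathlib

/-!
# Weyl eigenfamilies (heavy / light branches of the site vector)

Abstract setting: `S` a complex Hilbert space (`ℂ² ⊗ Fock K`), `W f` the Weyl operators
(acting on the Fock factor), `Z` the Pauli operator.  A family `h n` is a *Weyl eigenfamily* of
momentum `y n` at scale `ε n` if `W (ε n • f n) (h n) - exp (i Im ⟪y n, f n⟫) • h n → 0` for all
bounded `f n`.  Light families have `y = 0`, heavy families of type `b = ±1` have momentum `b • y`.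
-/

set_option autoImplicit false

noncomputable section

open scoped ComplexConjugate InnerProductSpace Topology
open Filter

namespace Crest.Agent.R339.Hv

variable {K S : Type*} [NormedAddCommGroup K] [InnerProductSpace ℂ K]
  [NormedAddCommGroup S] [InnerProductSpace ℂ S]

/-- The Weyl operators and the spin operator `Z` on the site space. -/
structure WS (K S : Type*) [NormedAddCommGroup K] [InnerProductSpace ℂ K]
    [NormedAddCommGroup S] [InnerProductSpace ℂ S] where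
  W : K → S →L[ℂ] S
  Z : S →L[ℂ] S
  W_mul : ∀ f g v, W f (W g v) = Complex.exp (-(Complex.I * ((⟪f, g⟫_ℂ).im : ℂ))) • W (f + g) v
  W_zero : ∀ v, W 0 v = v
  norm_W : ∀ f v, ‖W f v‖ = ‖v‖
  Z_sq : ∀ v, Z (Z v) = v
  Z_W : ∀ f v, Z (W f v) = W f (Z v)
  norm_Z : ∀ v, ‖Z v‖ = ‖v‖

namespace WS

variable (w : WS K S)

/-- `E f = exp (i Z φ(f))`. -/
def E (f : K) : S →L[ℂ] S :=
  (1 / 2 : ℂ) • ((w.W f + w.W (-f)) + (w.Z ∘L (w.W f - w.W (-f))))

lemma E_apply (f : K) (v : S) : w.E f v =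
    (1 / 2 : ℂ) • ((w.W f v + w.W (-f) v) + w.Z (w.W f v - w.W (-f) v)) := rfl

/-- Commutation of Weyl operators. -/
lemma W_comm (f g : K) (v : S) : w.W f (w.W g v) =
    Complex.exp (-(2 * Complex.I * ((⟪f, g⟫_ℂ).im : ℂ))) • w.W g (w.W f v) := by
  rw [w.W_mul, w.W_mul g f, smul_smul, ← Complex.exp_add, add_comm g f]
  congr 2
  have : (⟪g, f⟫_ℂ).im = -(⟪f, g⟫_ℂ).im := by
    rw [← inner_conj_symm f g, Complex.conj_im, neg_neg]
  rw [this]
  push_cast
  ring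

/-- An operator commuting with all Weyl operators (a spin matrix). -/
def CW (A : S →L[ℂ] S) : Prop := ∀ f v, A (w.W f v) = w.W f (A v)

lemma CW_Z : w.CW w.Z := w.Z_W

lemma CW_one : w.CW 1 := fun _ _ => rfl

variable {w}

lemma CW.mul {A B : S →L[ℂ] S} (hA : w.CW A) (hB : w.CW B) : w.CW (A * B) := by
  intro f v
  show A (B (w.W f v)) = w.W f (A (B v))
  rw [hB, hA]

lemma CW.add {A B : S →L[ℂ] S} (hA : w.CW A) (hB : w.CW B) : w.CW (A + B) := by
  intro f v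
  show A (w.W f v) + B (w.W f v) = w.W f (A v + B v)
  rw [hB, hA, map_add]

lemma CW.smul {A : S →L[ℂ] S} (hA : w.CW A) (c : ℂ) : w.CW (c • A) := by
  intro f v
  show c • A (w.W f v) = w.W f (c • A v)
  rw [hA, map_smul]

variable (w)

/-- `exp (i θ Z)`. -/
def expZ (θ : ℝ) : S →L[ℂ] S :=
  ((Real.cos θ : ℝ) : ℂ) • (1 : S →L[ℂ] S) + (Complex.I * ((Real.sin θ : ℝ) : ℂ)) • w.Z

lemma expZ_apply (θ : ℝ) (v : S) : w.expZ θ v =
    ((Real.cos θ : ℝ) : ℂ) • v + (Complex.I * ((Real.sin θ : ℝ) : ℂ)) • w.Z v := rfl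

lemma CW_expZ (θ : ℝ) : w.CW (w.expZ θ) :=
  (w.CW_one.smul _).add (w.CW_Z.smul _)

/-- The Weyl operators commute with `E` up to an `expZ`. -/
lemma W_E (f g : K) (v : S) : w.W f (w.E g v) =
    w.E g (w.expZ (-(2 * (⟪f, g⟫_ℂ).im)) (w.W f v)) := by
  have h1 : w.W f (w.W g v) =
      Complex.exp (-(2 * Complex.I * ((⟪f, g⟫_ℂ).im : ℂ))) • w.W g (w.W f v) := w.W_comm f g v
  have h2 : w.W f (w.W (-g) v) =
      Complex.exp ((2 * Complex.I * ((⟪f, g⟫_ℂ).im : ℂ))) • w.W (-g) (w.W f v) := by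
    rw [w.W_comm f (-g) v, inner_neg_right, Complex.neg_im]
    congr 2
    push_cast
    ring
  set θ : ℝ := (⟪f, g⟫_ℂ).im with hθ
  have hc : Complex.exp (-(2 * Complex.I * (θ : ℂ))) =
      ((Real.cos (-(2 * θ)) : ℝ) : ℂ) + Complex.I * ((Real.sin (-(2 * θ)) : ℝ) : ℂ) := by
    rw [show -(2 * Complex.I * (θ : ℂ)) = ((-(2 * θ) : ℝ) : ℂ) * Complex.I by push_cast; ring,
      Complex.exp_mul_I, ← Complex.ofReal_cos, ← Complex.ofReal_sin]
    ring
  have hc' : Complex.exp ((2 * Complex.I * (θ : ℂ))) =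
      ((Real.cos (-(2 * θ)) : ℝ) : ℂ) - Complex.I * ((Real.sin (-(2 * θ)) : ℝ) : ℂ) := by
    rw [show (2 * Complex.I * (θ : ℂ)) = ((2 * θ : ℝ) : ℂ) * Complex.I by push_cast; ring,
      Complex.exp_mul_I, ← Complex.ofReal_cos, ← Complex.ofReal_sin, Real.cos_neg, Real.sin_neg]
    push_cast
    ring
  rw [E_apply, map_smul, map_add, map_add, ← w.Z_W, map_sub, h1, h2, E_apply, expZ_apply]
  simp only [map_add, map_sub, map_smul, ← w.Z_W, w.Z_sq]
  rw [hc, hc']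
  module

lemma norm_E (f : K) (v : S) : ‖w.E f v‖ = ‖v‖ := by
  -- decompose `v = v₊ + v₋`, `Z v± = ± v±`
  set vp : S := (1 / 2 : ℂ) • (v + w.Z v) with hvp
  set vm : S := (1 / 2 : ℂ) • (v - w.Z v) with hvm
  have hv : v = vp + vm := by rw [hvp, hvm]; module
  have hZp : w.Z vp = vp := by
    rw [hvp, map_smul, map_add, w.Z_sq, add_comm]
  have hZm : w.Z vm = -vm := by
    rw [hvm, map_smul, map_sub, w.Z_sq]
    module
  have hE : w.E f v = w.W f vp + w.W (-f) vm := by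
    rw [E_apply, hv]
    simp only [map_add, map_sub, w.Z_W, hZp, hZm, map_neg]
    module
  -- orthogonality: `Z` is an isometry with square one, hence self-adjoint
  have hZiso : ∀ a b : S, ⟪w.Z a, w.Z b⟫_ℂ = ⟪a, b⟫_ℂ := fun a b =>
    (LinearIsometry.mk w.Z.toLinearMap w.norm_Z).inner_map_map a b
  have horth : ∀ a b : S, w.Z a = a → w.Z b = -b → ⟪a, b⟫_ℂ = 0 := by
    intro a b ha hb
    have := hZiso a b
    rw [ha, hb, inner_neg_right] at this
    have h2 : (2 : ℂ) * ⟪a, b⟫_ℂ = 0 := by linear_combination -this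
    simpa using h2
  have h1 : ⟪w.W f vp, w.W (-f) vm⟫_ℂ = 0 := by
    refine horth _ _ ?_ ?_
    · rw [w.Z_W, hZp]
    · rw [w.Z_W, hZm, map_neg]
  have h2 : ⟪vp, vm⟫_ℂ = 0 := horth _ _ hZp hZm
  have e1 := norm_add_sq_eq_norm_sq_add_norm_sq_of_inner_eq_zero (w.W f vp) (w.W (-f) vm) h1
  have e2 := norm_add_sq_eq_norm_sq_add_norm_sq_of_inner_eq_zero vp vm h2
  rw [w.norm_W, w.norm_W] at e1
  rw [hE]
  have e3 : ‖w.W f vp + w.W (-f) vm‖ * ‖w.W f vp + w.W (-f) vm‖ = ‖v‖ * ‖v‖ := by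
    rw [e1, ← e2, ← hv]
  exact mul_self_inj_of_nonneg (norm_nonneg _) (norm_nonneg _) |>.mp e3

end WS

end Crest.Agent.R339.Hv
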