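import Mathlib
import Crest.Agent.R339.Heavy682A

/-!
# Weyl eigenfamilies: calculus
-/

set_option autoImplicit false

noncomputable section

open scoped ComplexConjugate InnerProductSpace Topology
open Filter

namespace Crest.Agent.R339.Hv

variable {K S : Type*} [NormedAddCommGroup K] [InnerProductSpace ℂ K]
  [NormedAddCommGroup S] [InnerProductSpace ℂ S]

/-- bounded families -/
def Bdd {α E : Type*} [Norm E] (f : α → E) : Prop := ∃ T : ℝ, ∀ n, ‖f n‖ ≤ T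

section Bdd
variable {α E F : Type*} [SeminormedAddCommGroup E] [SeminormedAddCommGroup F]

lemma Bdd.const (x : E) : Bdd (fun _ : α => x) := ⟨‖x‖, fun _ => le_rfl⟩

lemma Bdd.add {f g : α → E} (hf : Bdd f) (hg : Bdd g) : Bdd (fun n => f n + g n) := by
  obtain ⟨T, hT⟩ := hf
  obtain ⟨T', hT'⟩ := hg
  exact ⟨T + T', fun n => (norm_add_le _ _).trans (add_le_add (hT n) (hT' n))⟩

lemma Bdd.neg {f : α → E} (hf : Bdd f) : Bdd (fun n => -f n) := by
  obtain ⟨T, hT⟩ := hf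
  exact ⟨T, fun n => by rw [norm_neg]; exact hT n⟩

lemma Bdd.sub {f g : α → E} (hf : Bdd f) (hg : Bdd g) : Bdd (fun n => f n - g n) := by
  simpa [sub_eq_add_neg] using hf.add hg.neg

lemma Bdd.smul {𝕜 : Type*} [NormedField 𝕜] [NormedSpace 𝕜 E] {c : α → 𝕜} {f : α → E}
    (hc : Bdd c) (hf : Bdd f) : Bdd (fun n => c n • f n) := by
  obtain ⟨T, hT⟩ := hc
  obtain ⟨T', hT'⟩ := hf
  refine ⟨T * T', fun n => ?_⟩
  rw [norm_smul]
  exact mul_le_mul (hT n) (hT' n) (norm_nonneg _) ((norm_nonneg _).trans (hT n))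

lemma Bdd.mono {f : α → E} {g : α → F} (hf : Bdd f) (h : ∀ n, ‖g n‖ ≤ ‖f n‖) : Bdd g := by
  obtain ⟨T, hT⟩ := hf
  exact ⟨T, fun n => (h n).trans (hT n)⟩

lemma Bdd.ofReal {c : α → ℝ} (hc : Bdd c) : Bdd (fun n => ((c n : ℝ) : ℂ)) :=
  hc.mono fun n => by rw [Complex.norm_real]

end Bdd

lemma tendsto_zero_of_norm_le {α E F : Type*} [SeminormedAddCommGroup E]
    [SeminormedAddCommGroup F] {l : Filter α} {f : α → E} {g : α → F} {C : ℝ}
    (hg : Tendsto g l (𝓝 0)) (h : ∀ n, ‖f n‖ ≤ C * ‖g n‖) : Tendsto f l (𝓝 0) := by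
  rw [tendsto_zero_iff_norm_tendsto_zero] at hg ⊢
  have h2 : Tendsto (fun n => C * ‖g n‖) l (𝓝 0) := by
    simpa using hg.const_mul C
  exact squeeze_zero (fun n => norm_nonneg _) h h2

lemma tendsto_smul_zero_of_bdd {α E 𝕜 : Type*} [SeminormedAddCommGroup E] [NormedField 𝕜]
    [NormedSpace 𝕜 E] {l : Filter α} {c : α → 𝕜} {f : α → E}
    (hc : Bdd c) (hf : Tendsto f l (𝓝 0)) : Tendsto (fun n => c n • f n) l (𝓝 0) := by
  obtain ⟨T, hT⟩ := hc
  refine tendsto_zero_of_norm_le (C := T) hf fun n => ?_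
  rw [norm_smul]
  exact mul_le_mul_of_nonneg_right (hT n) (norm_nonneg _)

lemma tendsto_smul_zero_of_bdd' {α E 𝕜 : Type*} [SeminormedAddCommGroup E] [NormedField 𝕜]
    [NormedSpace 𝕜 E] {l : Filter α} {c : α → 𝕜} {f : α → E}
    (hc : Tendsto c l (𝓝 0)) (hf : Bdd f) : Tendsto (fun n => c n • f n) l (𝓝 0) := by
  obtain ⟨T, hT⟩ := hf
  refine tendsto_zero_of_norm_le (C := T) hc fun n => ?_
  rw [norm_smul, mul_comm]
  exact mul_le_mul_of_nonneg_right (hT n) (norm_nonneg _)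

/-- the phase `exp (i x)` -/
def ph (x : ℝ) : ℂ := Complex.exp (Complex.I * (x : ℂ))

lemma norm_ph (x : ℝ) : ‖ph x‖ = 1 := by
  rw [ph, mul_comm, Complex.norm_exp_ofReal_mul_I]

lemma ph_add (x y : ℝ) : ph (x + y) = ph x * ph y := by
  rw [ph, ph, ph, ← Complex.exp_add]
  congr 1
  push_cast
  ring

lemma ph_zero : ph 0 = 1 := by simp [ph]

lemma norm_ph_sub_one (x : ℝ) : ‖ph x - 1‖ ≤ |x| := by
  have := Real.norm_exp_I_mul_ofReal_sub_one_le (x := x)
  simpa [ph] using this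

lemma norm_ph_sub (x y : ℝ) : ‖ph x - ph y‖ ≤ |x - y| := by
  have : ph x - ph y = ph y * (ph (x - y) - 1) := by
    rw [mul_sub, ← ph_add, mul_one]
    congr 2
    ring
  rw [this, norm_mul, norm_ph, one_mul]
  exact norm_ph_sub_one _

lemma abs_im_inner_le (y f : K) : |(⟪y, f⟫_ℂ).im| ≤ ‖y‖ * ‖f‖ :=
  (Complex.abs_im_le_norm _).trans (norm_inner_le_norm _ _)

namespace WS

variable {w : WS K S}

lemma norm_expZ_sub_one (w : WS K S) (θ : ℝ) (v : S) : ‖w.expZ θ v - v‖ ≤ 2 * |θ| * ‖v‖ := by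
  have h1 : w.expZ θ v - v = (((Real.cos θ - 1 : ℝ)) : ℂ) • v +
      (Complex.I * ((Real.sin θ : ℝ) : ℂ)) • w.Z v := by
    rw [expZ_apply]
    push_cast
    module
  have h2 : |Real.cos θ - 1| ≤ |θ| := by
    have := norm_ph_sub_one θ
    have h3 := (Complex.abs_re_le_norm (ph θ - 1)).trans this
    have h4 : (ph θ - 1).re = Real.cos θ - 1 := by
      rw [ph, mul_comm, Complex.sub_re, Complex.exp_ofReal_mul_I_re, Complex.one_re]
    rwa [h4] at h3
  have h3 : |Real.sin θ| ≤ |θ| := Real.abs_sin_le_abs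
  rw [h1]
  refine (norm_add_le _ _).trans ?_
  rw [norm_smul, norm_smul, w.norm_Z, Complex.norm_real, norm_mul, Complex.norm_I,
    Complex.norm_real, one_mul, Real.norm_eq_abs, Real.norm_eq_abs]
  nlinarith [norm_nonneg v]

lemma norm_expZ (w : WS K S) (θ : ℝ) (v : S) : ‖w.expZ θ v‖ ≤ 2 * ‖v‖ := by
  rw [expZ_apply]
  refine (norm_add_le _ _).trans ?_
  rw [norm_smul, norm_smul, w.norm_Z, Complex.norm_real, norm_mul, Complex.norm_I,
    Complex.norm_real, one_mul, Real.norm_eq_abs, Real.norm_eq_abs]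
  nlinarith [norm_nonneg v, Real.abs_cos_le_one θ, Real.abs_sin_le_one θ]

lemma norm_expZ_sub (w : WS K S) (θ θ' : ℝ) (v : S) :
    ‖w.expZ θ v - w.expZ θ' v‖ ≤ 2 * |θ - θ'| * ‖v‖ := by
  have h1 : w.expZ θ v - w.expZ θ' v = (((Real.cos θ - Real.cos θ' : ℝ)) : ℂ) • v +
      (Complex.I * ((Real.sin θ - Real.sin θ' : ℝ) : ℂ)) • w.Z v := by
    rw [expZ_apply, expZ_apply]
    push_cast
    module
  have h2 := norm_ph_sub θ θ'
  have h3 : |Real.cos θ - Real.cos θ'| ≤ |θ - θ'| := by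
    have h3 := (Complex.abs_re_le_norm (ph θ - ph θ')).trans h2
    have h4 : (ph θ - ph θ').re = Real.cos θ - Real.cos θ' := by
      rw [ph, ph, mul_comm, mul_comm Complex.I, Complex.sub_re, Complex.exp_ofReal_mul_I_re,
        Complex.exp_ofReal_mul_I_re]
    rwa [h4] at h3
  have h5 : |Real.sin θ - Real.sin θ'| ≤ |θ - θ'| := by
    have h3 := (Complex.abs_im_le_norm (ph θ - ph θ')).trans h2
    have h4 : (ph θ - ph θ').im = Real.sin θ - Real.sin θ' := by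
      rw [ph, ph, mul_comm, mul_comm Complex.I, Complex.sub_im, Complex.exp_ofReal_mul_I_im,
        Complex.exp_ofReal_mul_I_im]
    rwa [h4] at h3
  rw [h1]
  refine (norm_add_le _ _).trans ?_
  rw [norm_smul, norm_smul, w.norm_Z, Complex.norm_real, norm_mul, Complex.norm_I,
    Complex.norm_real, one_mul, Real.norm_eq_abs, Real.norm_eq_abs]
  nlinarith [norm_nonneg v]

end WS

variable {α : Type*}

/-- `h` is a Weyl eigenfamily with momentum `y` at scale `ε`. -/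
def WH (w : WS K S) (l : Filter α) (ε : α → ℝ) (y : α → K) (h : α → S) : Prop :=
  ∀ f : α → K, Bdd f → Tendsto (fun n => w.W ((ε n : ℂ) • f n) (h n) -
    ph ((⟪y n, f n⟫_ℂ).im) • h n) l (𝓝 0)

namespace WH

variable {w : WS K S} {l : Filter α} {ε : α → ℝ} {y y' : α → K} {h h' : α → S}

lemma congr (H : WH w l ε y h) (hh : Tendsto (fun n => h' n - h n) l (𝓝 0)) :
    WH w l ε y h' := by
  intro f hf
  have h1 := H f hf
  have h2 : Tendsto (fun n => w.W ((ε n : ℂ) • f n) (h' n - h n)) l (𝓝 0) :=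
    tendsto_zero_of_norm_le (C := 1) hh fun n => by rw [w.norm_W, one_mul]
  have h3 : Tendsto (fun n => ph ((⟪y n, f n⟫_ℂ).im) • (h' n - h n)) l (𝓝 0) :=
    tendsto_smul_zero_of_bdd ⟨1, fun n => (norm_ph _).le⟩ hh
  have h4 := (h1.add h2).sub h3
  simp only [add_zero, sub_zero] at h4
  refine h4.congr fun n => ?_
  rw [map_sub, smul_sub]
  abel

lemma congr' (H : WH w l ε y h) (hh : Tendsto (fun n => h n - h' n) l (𝓝 0)) :
    WH w l ε y h' := by
  refine H.congr ?_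
  have := hh.neg
  simpa using this

lemma congr_y (H : WH w l ε y h) (hb : Bdd h) (hy : Tendsto (fun n => y' n - y n) l (𝓝 0)) :
    WH w l ε y' h := by
  intro f hf
  have h1 := H f hf
  obtain ⟨T, hT⟩ := hf
  have h2 : Tendsto (fun n => ph ((⟪y' n, f n⟫_ℂ).im) - ph ((⟪y n, f n⟫_ℂ).im)) l (𝓝 0) := by
    refine tendsto_zero_of_norm_le (C := T) hy fun n => ?_
    refine (norm_ph_sub _ _).trans ?_
    rw [← Complex.sub_im, ← inner_sub_left]
    refine (abs_im_inner_le _ _).trans ?_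
    rw [mul_comm]
    exact mul_le_mul_of_nonneg_right (hT n) (norm_nonneg _)
  have h3 := tendsto_smul_zero_of_bdd' h2 hb
  have h4 := h1.sub h3
  rw [sub_zero] at h4
  refine h4.congr fun n => ?_
  rw [sub_smul]
  abel

/-- apply a bounded family of spin matrices -/
lemma map (H : WH w l ε y h) {A : α → S →L[ℂ] S} (hA : ∀ n, w.CW (A n)) {C : ℝ}
    (hC : ∀ n v, ‖A n v‖ ≤ C * ‖v‖) : WH w l ε y (fun n => A n (h n)) := by
  intro f hf
  refine tendsto_zero_of_norm_le (C := C) (H f hf) fun n => ?_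
  refine le_trans (le_of_eq ?_) (hC n _)
  rw [map_sub, hA, map_smul]

lemma map_const (H : WH w l ε y h) {A : S →L[ℂ] S} (hA : w.CW A) :
    WH w l ε y (fun n => A (h n)) :=
  H.map (fun _ => hA) (C := ‖A‖) fun _ v => A.le_opNorm v

lemma add (H : WH w l ε y h) (H' : WH w l ε y h') : WH w l ε y (fun n => h n + h' n) := by
  intro f hf
  have := (H f hf).add (H' f hf)
  rw [add_zero] at this
  refine this.congr fun n => ?_
  rw [map_add, smul_add]
  abel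

lemma smul (H : WH w l ε y h) {c : α → ℂ} (hc : Bdd c) : WH w l ε y (fun n => c n • h n) := by
  intro f hf
  refine (tendsto_smul_zero_of_bdd hc (H f hf)).congr fun n => ?_
  rw [map_smul, smul_sub, smul_comm]

lemma zero : WH w l ε y (fun _ => (0 : S)) := by
  intro f _
  simpa using tendsto_const_nhds

/-- bounded `E`-moves keep the momentum -/
lemma E_bdd (H : WH w l ε y h) (hε : Tendsto ε l (𝓝 0)) (hb : Bdd h) {F : α → K} (hF : Bdd F) :
    WH w l ε y (fun n => w.E (F n) (h n)) := by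
  intro f hf
  have h1 := H f hf
  obtain ⟨T, hT⟩ := hf
  obtain ⟨T', hT'⟩ := hF
  obtain ⟨C, hC⟩ := hb
  have h2 : Tendsto (fun n => w.E (F n) (w.W ((ε n : ℂ) • f n) (h n) -
      ph ((⟪y n, f n⟫_ℂ).im) • h n)) l (𝓝 0) :=
    tendsto_zero_of_norm_le (C := 1) h1 fun n => by rw [w.norm_E, one_mul]
  have h3 : Tendsto (fun n => w.E (F n) (w.expZ (-(2 * (⟪(ε n : ℂ) • f n, F n⟫_ℂ).im))
      (w.W ((ε n : ℂ) • f n) (h n)) - w.W ((ε n : ℂ) • f n) (h n))) l (𝓝 0) := by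
    refine tendsto_zero_of_norm_le (C := 4 * (T * T') * C) hε fun n => ?_
    rw [w.norm_E]
    refine (w.norm_expZ_sub_one _ _).trans ?_
    rw [w.norm_W]
    have hin : |(⟪(ε n : ℂ) • f n, F n⟫_ℂ).im| ≤ ‖ε n‖ * (T * T') := by
      refine (abs_im_inner_le _ _).trans ?_
      rw [norm_smul, Complex.norm_real, mul_assoc]
      exact mul_le_mul_of_nonneg_left (mul_le_mul (hT n) (hT' n) (norm_nonneg _)
        ((norm_nonneg _).trans (hT n))) (norm_nonneg _)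
    have habs : |-(2 * (⟪(ε n : ℂ) • f n, F n⟫_ℂ).im)| =
        2 * |(⟪(ε n : ℂ) • f n, F n⟫_ℂ).im| := by
      rw [abs_neg, abs_mul, abs_two]
    rw [habs]
    have hn := norm_nonneg (h n)
    have hTT : 0 ≤ T * T' := mul_nonneg ((norm_nonneg _).trans (hT n))
      ((norm_nonneg _).trans (hT' n))
    calc 2 * (2 * |(⟪(ε n : ℂ) • f n, F n⟫_ℂ).im|) * ‖h n‖
        ≤ 2 * (2 * (‖ε n‖ * (T * T'))) * C := by
          refine mul_le_mul ?_ (hC n) hn ?_
          · linarith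
          · positivity
      _ = 4 * (T * T') * C * ‖ε n‖ := by ring
  have h4 := h2.add h3
  rw [add_zero] at h4
  refine h4.congr fun n => ?_
  rw [w.W_E, ← map_add, ← map_smul, ← map_sub]
  congr 1
  abel

/-- small pulses on an eigenfamily: `E(ε τ f) h ≈ exp(i τ Im⟪y,f⟫ Z) h` -/
lemma pulse (H : WH w l ε y h) {τ : α → ℝ} (hτ : Bdd τ) {f : α → K} (hf : Bdd f) :
    Tendsto (fun n => w.E (((ε n * τ n : ℝ) : ℂ) • f n) (h n) -
      w.expZ (τ n * (⟪y n, f n⟫_ℂ).im) (h n)) l (𝓝 0) := by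
  have h1 := H (fun n => ((τ n : ℝ) : ℂ) • f n) (hτ.ofReal.smul hf)
  have h2 := H (fun n => -(((τ n : ℝ) : ℂ) • f n)) (hτ.ofReal.smul hf).neg
  have h3 : Tendsto (fun n => w.Z ((w.W ((ε n : ℂ) • ((τ n : ℝ) : ℂ) • f n) (h n) -
      ph ((⟪y n, ((τ n : ℝ) : ℂ) • f n⟫_ℂ).im) • h n) -
      (w.W ((ε n : ℂ) • -(((τ n : ℝ) : ℂ) • f n)) (h n) -
      ph ((⟪y n, -(((τ n : ℝ) : ℂ) • f n)⟫_ℂ).im) • h n))) l (𝓝 0) := by
    have := h1.sub h2
    rw [sub_zero] at this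
    exact tendsto_zero_of_norm_le (C := 1) this fun n => by rw [w.norm_Z, one_mul]
  have h4 := ((h1.add h2).add h3).const_smul (1 / 2 : ℂ)
  simp only [add_zero, smul_zero] at h4
  refine h4.congr fun n => ?_
  set θ : ℝ := τ n * (⟪y n, f n⟫_ℂ).im with hθ
  have him : (⟪y n, ((τ n : ℝ) : ℂ) • f n⟫_ℂ).im = θ := by
    rw [inner_smul_right, Complex.im_ofReal_mul]
  have him2 : (⟪y n, -(((τ n : ℝ) : ℂ) • f n)⟫_ℂ).im = -θ := by
    rw [inner_neg_right, Complex.neg_im, him]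
  have hk : (ε n : ℂ) • ((τ n : ℝ) : ℂ) • f n = ((ε n * τ n : ℝ) : ℂ) • f n := by
    rw [smul_smul]
    push_cast
    rfl
  have hk2 : (ε n : ℂ) • -(((τ n : ℝ) : ℂ) • f n) = -(((ε n * τ n : ℝ) : ℂ) • f n) := by
    rw [smul_neg, hk]
  have hp : ph θ = ((Real.cos θ : ℝ) : ℂ) + Complex.I * ((Real.sin θ : ℝ) : ℂ) := by
    rw [ph, mul_comm, Complex.exp_mul_I, ← Complex.ofReal_cos, ← Complex.ofReal_sin]
    ring
  have hm : ph (-θ) = ((Real.cos θ : ℝ) : ℂ) - Complex.I * ((Real.sin θ : ℝ) : ℂ) := by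
    rw [ph, mul_comm, Complex.exp_mul_I, ← Complex.ofReal_cos, ← Complex.ofReal_sin, Real.cos_neg,
      Real.sin_neg]
    push_cast
    ring
  rw [him, him2, hk, hk2, WS.E_apply, WS.expZ_apply, hp, hm]
  simp only [map_sub, map_smul]
  module

/-- version with a limiting angle -/
lemma pulse_lim (H : WH w l ε y h) (hb : Bdd h) {τ : α → ℝ} (hτ : Bdd τ) {f : α → K} (hf : Bdd f)
    {θ : ℝ} (hθ : Tendsto (fun n => τ n * (⟪y n, f n⟫_ℂ).im) l (𝓝 θ)) :
    Tendsto (fun n => w.E (((ε n * τ n : ℝ) : ℂ) • f n) (h n) - w.expZ θ (h n)) l (𝓝 0) := by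
  have h1 := H.pulse hτ hf
  have h2 : Tendsto (fun n => w.expZ (τ n * (⟪y n, f n⟫_ℂ).im) (h n) - w.expZ θ (h n)) l
      (𝓝 0) := by
    obtain ⟨C, hC⟩ := hb
    have h3 : Tendsto (fun n => τ n * (⟪y n, f n⟫_ℂ).im - θ) l (𝓝 0) := by
      simpa using hθ.sub_const θ
    refine tendsto_zero_of_norm_le (C := 2 * C) h3 fun n => ?_
    refine (w.norm_expZ_sub _ _ _).trans ?_
    rw [Real.norm_eq_abs]
    have := hC n
    have hab := abs_nonneg (τ n * (⟪y n, f n⟫_ℂ).im - θ)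
    nlinarith
  have h4 := h1.add h2
  rw [add_zero] at h4
  refine h4.congr fun n => ?_
  abel

/-- big moves shift the momentum -/
lemma W_big (H : WH w l ε y h) {c : α → ℝ} {e : α → K} (q : ℝ)
    (hc : ∀ᶠ n in l, 2 * (ε n * c n) = q) :
    WH w l ε (fun n => y n + (q : ℂ) • e n) (fun n => w.W ((c n : ℂ) • e n) (h n)) := by
  intro f hf
  have h1 := H f hf
  have h2 : Tendsto (fun n => ph (q * (⟪e n, f n⟫_ℂ).im) • w.W ((c n : ℂ) • e n)
      (w.W ((ε n : ℂ) • f n) (h n) - ph ((⟪y n, f n⟫_ℂ).im) • h n)) l (𝓝 0) :=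
    tendsto_zero_of_norm_le (C := 1) h1 fun n => by
      rw [norm_smul, norm_ph, w.norm_W]
  refine h2.congr' ?_
  filter_upwards [hc] with n hn
  rw [w.W_comm ((ε n : ℂ) • f n)]
  have e1 : (⟪(ε n : ℂ) • f n, (c n : ℂ) • e n⟫_ℂ).im = -(ε n * c n * (⟪e n, f n⟫_ℂ).im) := by
    rw [inner_smul_left, inner_smul_right, Complex.conj_ofReal, ← mul_assoc,
      ← Complex.ofReal_mul, Complex.im_ofReal_mul, ← inner_conj_symm (f n) (e n), Complex.conj_im]
    ring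
  have e2 : Complex.exp (-(2 * Complex.I * ((⟪(ε n : ℂ) • f n, (c n : ℂ) • e n⟫_ℂ).im : ℂ))) =
      ph (q * (⟪e n, f n⟫_ℂ).im) := by
    rw [e1, ph, ← hn]
    congr 1
    push_cast
    ring
  have e3 : (⟪y n + (q : ℂ) • e n, f n⟫_ℂ).im = (⟪y n, f n⟫_ℂ).im + q * (⟪e n, f n⟫_ℂ).im := by
    rw [inner_add_left, inner_smul_left, Complex.conj_ofReal, Complex.add_im,
      Complex.im_ofReal_mul]
  rw [e2, e3, ph_add, map_sub, smul_sub, map_smul, smul_smul, mul_comm (ph (q * _))]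

end WH

/-- spin bit `b` asymptotically -/
def Bit (w : WS K S) (l : Filter α) (b : ℝ) (h : α → S) : Prop :=
  Tendsto (fun n => w.Z (h n) - (b : ℂ) • h n) l (𝓝 0)

namespace Bit

variable {w : WS K S} {l : Filter α} {ε : α → ℝ} {y y' : α → K} {h h' : α → S} {b : ℝ}

lemma congr (H : Bit w l b h) (hh : Tendsto (fun n => h' n - h n) l (𝓝 0)) : Bit w l b h' := by
  have h2 : Tendsto (fun n => w.Z (h' n - h n)) l (𝓝 0) :=
    tendsto_zero_of_norm_le (C := 1) hh fun n => by rw [w.norm_Z, one_mul]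
  have h3 := (H.add h2).sub (hh.const_smul (b : ℂ))
  simp only [add_zero, smul_zero, sub_zero] at h3
  refine h3.congr fun n => ?_
  rw [map_sub, smul_sub]
  abel

/-- operators commuting with `Z` keep the bit -/
lemma map (H : Bit w l b h) {A : α → S →L[ℂ] S} (hA : ∀ n v, w.Z (A n v) = A n (w.Z v)) {C : ℝ}
    (hC : ∀ n v, ‖A n v‖ ≤ C * ‖v‖) : Bit w l b (fun n => A n (h n)) := by
  refine tendsto_zero_of_norm_le (C := C) H fun n => ?_
  rw [hA, ← map_smul, ← map_sub]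
  exact hC n _

/-- operators anticommuting with `Z` flip the bit -/
lemma flip (H : Bit w l b h) {A : α → S →L[ℂ] S} (hA : ∀ n v, w.Z (A n v) = -A n (w.Z v)) {C : ℝ}
    (hC : ∀ n v, ‖A n v‖ ≤ C * ‖v‖) : Bit w l (-b) (fun n => A n (h n)) := by
  refine tendsto_zero_of_norm_le (C := C) H fun n => ?_
  have : w.Z (A n (h n)) - ((-b : ℝ) : ℂ) • A n (h n) = -(A n (w.Z (h n) - (b : ℂ) • h n)) := by
    rw [hA, map_sub, map_smul]
    push_cast
    module
  rw [this, norm_neg]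
  exact hC n _

end Bit

lemma WS.Z_E (w : WS K S) (f : K) (v : S) : w.Z (w.E f v) = w.E f (w.Z v) := by
  rw [WS.E_apply, WS.E_apply]
  simp only [map_add, map_sub, map_smul, w.Z_W]

/-- on vectors of bit `b = ±1`, `E f` is `W (b f)` -/
lemma E_bit {w : WS K S} {l : Filter α} {h : α → S} {b : ℝ} (hb : b = 1 ∨ b = -1)
    (H : Bit w l b h) (f : α → K) :
    Tendsto (fun n => w.E (f n) (h n) - w.W ((b : ℂ) • f n) (h n)) l (𝓝 0) := by
  have h1 : Tendsto (fun n => (1 / 2 : ℂ) • (w.W (f n) (w.Z (h n) - (b : ℂ) • h n) -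
      w.W (-f n) (w.Z (h n) - (b : ℂ) • h n))) l (𝓝 0) := by
    refine tendsto_zero_of_norm_le (C := 1) H fun n => ?_
    rw [norm_smul, one_mul]
    refine (mul_le_mul_of_nonneg_left (norm_sub_le _ _) (norm_nonneg _)).trans ?_
    rw [w.norm_W, w.norm_W]
    have h0 : ‖(1 / 2 : ℂ)‖ = 1 / 2 := by norm_num
    rw [h0]
    linarith
  refine h1.congr fun n => ?_
  rw [WS.E_apply]
  rcases hb with rfl | rfl
  · simp only [map_sub, w.Z_W, Complex.ofReal_one, one_smul]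
    module
  · simp only [map_sub, w.Z_W, Complex.ofReal_neg, Complex.ofReal_one,
      neg_smul, one_smul, map_neg]
    module

/-- big moves on a heavy branch -/
lemma WH.E_big {w : WS K S} {l : Filter α} {ε : α → ℝ} {y : α → K} {h : α → S}
    (H : WH w l ε y h) {b : ℝ} (hb : b = 1 ∨ b = -1) (B : Bit w l b h) {c : α → ℝ} {e : α → K}
    (q : ℝ) (hc : ∀ᶠ n in l, 2 * (ε n * c n) = q) :
    WH w l ε (fun n => y n + ((b * q : ℝ) : ℂ) • e n) (fun n => w.E ((c n : ℂ) • e n) (h n)) := by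
  have h1 := H.W_big (c := fun n => b * c n) (e := e) (b * q) (by
    filter_upwards [hc] with n hn
    rw [← hn]
    ring)
  refine h1.congr ((E_bit hb B fun n => (c n : ℂ) • e n).congr fun n => ?_)
  rw [smul_smul]
  push_cast
  rfl

lemma WH.E_big_bit {w : WS K S} {l : Filter α} {h : α → S} {b : ℝ} (B : Bit w l b h) (f : α → K) :
    Bit w l b (fun n => w.E (f n) (h n)) :=
  B.map (C := 1) (fun n v => w.Z_E _ _) fun n v => by rw [w.norm_E, one_mul]

/-- Eigenfamilies with separated momenta are asymptotically orthogonal. -/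
lemma WH.overlap {w : WS K S} {l : Filter α} {ε : α → ℝ} {y y' : α → K} {h h' : α → S}
    (H : WH w l ε y h) (H' : WH w l ε y' h') (hb : Bdd h) (hb' : Bdd h') {f : α → K}
    (hf : Bdd f) {c : ℝ} (hc : 0 < c)
    (hsep : ∀ᶠ n in l, c ≤ ‖ph ((⟪y' n, f n⟫_ℂ).im) - ph ((⟪y n, f n⟫_ℂ).im)‖) :
    Tendsto (fun n => ⟪h n, h' n⟫_ℂ) l (𝓝 0) := by
  have h1 := H f hf
  have h2 := H' f hf
  obtain ⟨C, hC⟩ := hb
  obtain ⟨C', hC'⟩ := hb'
  have hWiso : ∀ (g : K) (a b : S), ⟪w.W g a, w.W g b⟫_ℂ = ⟪a, b⟫_ℂ := fun g a b =>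
    (LinearIsometry.mk (w.W g).toLinearMap (w.norm_W g)).inner_map_map a b
  have key : Tendsto (fun n => (1 - conj (ph ((⟪y n, f n⟫_ℂ).im)) * ph ((⟪y' n, f n⟫_ℂ).im)) *
      ⟪h n, h' n⟫_ℂ) l (𝓝 0) := by
    have e1 : Tendsto (fun n => ⟪w.W ((ε n : ℂ) • f n) (h n) -
        ph ((⟪y n, f n⟫_ℂ).im) • h n, w.W ((ε n : ℂ) • f n) (h' n)⟫_ℂ) l (𝓝 0) := by
      refine tendsto_zero_of_norm_le (C := C') h1 fun n => ?_
      refine (norm_inner_le_norm _ _).trans ?_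
      rw [w.norm_W, mul_comm]
      exact mul_le_mul_of_nonneg_right (hC' n) (norm_nonneg _)
    have e2 : Tendsto (fun n => ⟪ph ((⟪y n, f n⟫_ℂ).im) • h n, w.W ((ε n : ℂ) • f n) (h' n) -
        ph ((⟪y' n, f n⟫_ℂ).im) • h' n⟫_ℂ) l (𝓝 0) := by
      refine tendsto_zero_of_norm_le (C := C) h2 fun n => ?_
      refine (norm_inner_le_norm _ _).trans ?_
      rw [norm_smul, norm_ph, one_mul]
      exact mul_le_mul_of_nonneg_right (hC n) (norm_nonneg _)
    have e3 := e1.add e2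
    rw [add_zero] at e3
    refine e3.congr fun n => ?_
    rw [inner_sub_left, inner_sub_right, hWiso, inner_smul_left, inner_smul_left,
      inner_smul_right]
    ring
  rw [tendsto_zero_iff_norm_tendsto_zero] at key ⊢
  have h5 : Tendsto (fun n => c⁻¹ * ‖(1 - conj (ph ((⟪y n, f n⟫_ℂ).im)) *
      ph ((⟪y' n, f n⟫_ℂ).im)) * ⟪h n, h' n⟫_ℂ‖) l (𝓝 0) := by
    simpa using key.const_mul c⁻¹
  refine squeeze_zero' (Eventually.of_forall fun n => norm_nonneg _) ?_ h5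
  filter_upwards [hsep] with n hn
  have h6 : ‖1 - conj (ph ((⟪y n, f n⟫_ℂ).im)) * ph ((⟪y' n, f n⟫_ℂ).im)‖ =
      ‖ph ((⟪y' n, f n⟫_ℂ).im) - ph ((⟪y n, f n⟫_ℂ).im)‖ := by
    have h7 : conj (ph ((⟪y n, f n⟫_ℂ).im)) * ph ((⟪y n, f n⟫_ℂ).im) = 1 := by
      rw [← Complex.normSq_eq_conj_mul_self, Complex.normSq_eq_norm_sq, norm_ph]
      simp
    have h8 : 1 - conj (ph ((⟪y n, f n⟫_ℂ).im)) * ph ((⟪y' n, f n⟫_ℂ).im) =
        -(conj (ph ((⟪y n, f n⟫_ℂ).im)) * (ph ((⟪y' n, f n⟫_ℂ).im) - ph ((⟪y n, f n⟫_ℂ).im))) := by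
      rw [mul_sub, h7]
      ring
    rw [h8, norm_neg, norm_mul, RCLike.norm_conj, norm_ph, one_mul]
  rw [norm_mul, h6]
  have h9 := norm_nonneg (⟪h n, h' n⟫_ℂ)
  calc ‖⟪h n, h' n⟫_ℂ‖ = c⁻¹ * (c * ‖⟪h n, h' n⟫_ℂ‖) := by field_simp
    _ ≤ c⁻¹ * (‖ph ((⟪y' n, f n⟫_ℂ).im) - ph ((⟪y n, f n⟫_ℂ).im)‖ * ‖⟪h n, h' n⟫_ℂ‖) := by
        gcongr

end Crest.Agent.R339.Hv
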