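import Mathlib
import Crest.Agent.R339.Heavy682B

/-!
# Heavy branches: calibrated pulses, the reading gate, the label macro
-/

set_option autoImplicit false

noncomputable section

open scoped ComplexConjugate InnerProductSpace Topology
open Filter

namespace Crest.Agent.R339.Hv

variable {K S : Type*} [NormedAddCommGroup K] [InnerProductSpace ℂ K]
  [NormedAddCommGroup S] [InnerProductSpace ℂ S]

/-- Weyl operators together with the spin matrices `Z` and `X`. -/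
structure WX (K S : Type*) [NormedAddCommGroup K] [InnerProductSpace ℂ K]
    [NormedAddCommGroup S] [InnerProductSpace ℂ S] extends WS K S where
  X : S →L[ℂ] S
  X_sq : ∀ v, X (X v) = v
  X_W : ∀ f v, X (W f v) = W f (X v)
  X_Z : ∀ v, X (Z v) = -Z (X v)
  norm_X : ∀ v, ‖X v‖ = ‖v‖

/-- asymptotic orthogonality from one separating Weyl operator -/
lemma overlap_of {α : Type*} {l : Filter α} (w : WS K S) {F : α → K} {x x' : α → ℝ}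
    {h h' : α → S} (hb : Bdd h) (hb' : Bdd h')
    (h1 : Tendsto (fun n => w.W (F n) (h n) - ph (x n) • h n) l (𝓝 0))
    (h2 : Tendsto (fun n => w.W (F n) (h' n) - ph (x' n) • h' n) l (𝓝 0))
    {c : ℝ} (hc : 0 < c) (hsep : ∀ᶠ n in l, c ≤ ‖ph (x' n) - ph (x n)‖) :
    Tendsto (fun n => ⟪h n, h' n⟫_ℂ) l (𝓝 0) := by
  obtain ⟨C, hC⟩ := hb
  obtain ⟨C', hC'⟩ := hb'
  have hWiso : ∀ (g : K) (a b : S), ⟪w.W g a, w.W g b⟫_ℂ = ⟪a, b⟫_ℂ := fun g a b =>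
    (LinearIsometry.mk (w.W g).toLinearMap (w.norm_W g)).inner_map_map a b
  have key : Tendsto (fun n => (1 - conj (ph (x n)) * ph (x' n)) * ⟪h n, h' n⟫_ℂ) l (𝓝 0) := by
    have e1 : Tendsto (fun n => ⟪w.W (F n) (h n) - ph (x n) • h n, w.W (F n) (h' n)⟫_ℂ) l
        (𝓝 0) := by
      refine tendsto_zero_of_norm_le (C := C') h1 fun n => ?_
      refine (norm_inner_le_norm _ _).trans ?_
      rw [w.norm_W, mul_comm]
      exact mul_le_mul_of_nonneg_right (hC' n) (norm_nonneg _)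
    have e2 : Tendsto (fun n => ⟪ph (x n) • h n, w.W (F n) (h' n) - ph (x' n) • h' n⟫_ℂ) l
        (𝓝 0) := by
      refine tendsto_zero_of_norm_le (C := C) h2 fun n => ?_
      refine (norm_inner_le_norm _ _).trans ?_
      rw [norm_smul, norm_ph, one_mul]
      exact mul_le_mul_of_nonneg_right (hC n) (norm_nonneg _)
    have e3 := e1.add e2
    rw [add_zero] at e3
    refine e3.congr fun n => ?_
    rw [inner_sub_left, inner_sub_right, hWiso, inner_smul_left, inner_smul_left,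
      inner_smul_right]
    ring
  rw [tendsto_zero_iff_norm_tendsto_zero] at key ⊢
  have h5 : Tendsto (fun n => c⁻¹ * ‖(1 - conj (ph (x n)) * ph (x' n)) * ⟪h n, h' n⟫_ℂ‖) l
      (𝓝 0) := by
    simpa using key.const_mul c⁻¹
  refine squeeze_zero' (Eventually.of_forall fun n => norm_nonneg _) ?_ h5
  filter_upwards [hsep] with n hn
  have h6 : ‖1 - conj (ph (x n)) * ph (x' n)‖ = ‖ph (x' n) - ph (x n)‖ := by
    have h7 : conj (ph (x n)) * ph (x n) = 1 := by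
      rw [← Complex.normSq_eq_conj_mul_self, Complex.normSq_eq_norm_sq, norm_ph]
      simp
    have h8 : 1 - conj (ph (x n)) * ph (x' n) = -(conj (ph (x n)) * (ph (x' n) - ph (x n))) := by
      rw [mul_sub, h7]
      ring
    rw [h8, norm_neg, norm_mul, RCLike.norm_conj, norm_ph, one_mul]
  rw [norm_mul, h6]
  have h9 := norm_nonneg (⟪h n, h' n⟫_ℂ)
  calc ‖⟪h n, h' n⟫_ℂ‖ = c⁻¹ * (c * ‖⟪h n, h' n⟫_ℂ‖) := by field_simp
    _ ≤ c⁻¹ * (‖ph (x' n) - ph (x n)‖ * ‖⟪h n, h' n⟫_ℂ‖) := by gcongr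

namespace WX

variable (w : WX K S)

/-- `rx θ = exp (-i θ X)` -/
def rx (θ : ℝ) : S →L[ℂ] S :=
  ((Real.cos θ : ℝ) : ℂ) • (1 : S →L[ℂ] S) - (Complex.I * ((Real.sin θ : ℝ) : ℂ)) • w.X

lemma rx_apply (θ : ℝ) (v : S) : w.rx θ v =
    ((Real.cos θ : ℝ) : ℂ) • v - (Complex.I * ((Real.sin θ : ℝ) : ℂ)) • w.X v := rfl

lemma CW_rx (θ : ℝ) : w.toWS.CW (w.rx θ) := by
  intro f v
  rw [rx_apply, rx_apply, w.X_W, map_sub, map_smul, map_smul]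

lemma rx_add (θ θ' : ℝ) (v : S) : w.rx θ (w.rx θ' v) = w.rx (θ + θ') v := by
  have hc : ((Real.cos (θ + θ') : ℝ) : ℂ) = ((Real.cos θ : ℝ) : ℂ) * ((Real.cos θ' : ℝ) : ℂ) -
      ((Real.sin θ : ℝ) : ℂ) * ((Real.sin θ' : ℝ) : ℂ) := by
    rw [Real.cos_add, Complex.ofReal_sub, Complex.ofReal_mul, Complex.ofReal_mul]
  have hs : ((Real.sin (θ + θ') : ℝ) : ℂ) = ((Real.sin θ : ℝ) : ℂ) * ((Real.cos θ' : ℝ) : ℂ) +
      ((Real.cos θ : ℝ) : ℂ) * ((Real.sin θ' : ℝ) : ℂ) := by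
    rw [Real.sin_add, Complex.ofReal_add, Complex.ofReal_mul, Complex.ofReal_mul]
  rw [rx_apply, rx_apply, rx_apply, map_sub, map_smul, map_smul, w.X_sq, hc, hs]
  generalize ((Real.cos θ : ℝ) : ℂ) = a
  generalize ((Real.sin θ : ℝ) : ℂ) = b
  generalize ((Real.cos θ' : ℝ) : ℂ) = a'
  generalize ((Real.sin θ' : ℝ) : ℂ) = b'
  have e : (Complex.I * b) • (Complex.I * b') • v = -((b * b') • v) := by
    rw [smul_smul, ← neg_smul]
    congr 1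
    linear_combination (b * b') * Complex.I_mul_I
  rw [smul_sub, smul_sub, e]
  module

lemma rx_zero (v : S) : w.rx 0 v = v := by
  rw [rx_apply]
  simp

lemma rx_neg_rx (θ : ℝ) (v : S) : w.rx (-θ) (w.rx θ v) = v := by
  rw [rx_add, neg_add_cancel, rx_zero]

lemma rx_rx_neg (θ : ℝ) (v : S) : w.rx θ (w.rx (-θ) v) = v := by
  rw [rx_add, add_neg_cancel, rx_zero]

lemma Z_rx (θ : ℝ) (v : S) : w.Z (w.rx θ v) = w.rx (-θ) (w.Z v) := by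
  have h : w.Z (w.X v) = -w.X (w.Z v) := by rw [w.X_Z, neg_neg]
  rw [rx_apply, rx_apply, map_sub, map_smul, map_smul, h, Real.cos_neg, Real.sin_neg]
  push_cast
  module

lemma norm_rx (θ : ℝ) (v : S) : ‖w.rx θ v‖ = ‖v‖ := by
  have hXiso : ∀ a b : S, ⟪w.X a, w.X b⟫_ℂ = ⟪a, b⟫_ℂ := fun a b =>
    (LinearIsometry.mk w.X.toLinearMap w.norm_X).inner_map_map a b
  have hre : ⟪w.X v, v⟫_ℂ = ⟪v, w.X v⟫_ℂ := by
    rw [← hXiso v (w.X v), w.X_sq]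
  have h1 : ⟪w.rx θ v, w.rx θ v⟫_ℂ = ⟪v, v⟫_ℂ := by
    rw [rx_apply, inner_sub_left, inner_sub_right, inner_sub_right, inner_smul_left,
      inner_smul_left, inner_smul_left, inner_smul_left, inner_smul_right, inner_smul_right,
      inner_smul_right, inner_smul_right, hXiso, hre]
    simp only [map_mul, Complex.conj_I, Complex.conj_ofReal]
    have hs := Real.sin_sq_add_cos_sq θ
    have hs' : ((Real.sin θ : ℝ) : ℂ) ^ 2 + ((Real.cos θ : ℝ) : ℂ) ^ 2 = 1 := by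
      exact_mod_cast hs
    have hI : Complex.I * Complex.I = -1 := Complex.I_mul_I
    linear_combination ⟪v, v⟫_ℂ * hs' - ((Real.sin θ : ℝ) : ℂ) ^ 2 * ⟪v, v⟫_ℂ * hI
  rw [@norm_eq_sqrt_re_inner ℂ, h1, ← @norm_eq_sqrt_re_inner ℂ]

/-- the conjugated gate `E_β(f) = e^{iβX} E(f) e^{-iβX}` -/
def Eb (β : ℝ) (f : K) : S →L[ℂ] S := w.rx (-β) ∘L w.toWS.E f ∘L w.rx β

lemma Eb_apply (β : ℝ) (f : K) (v : S) : w.Eb β f v = w.rx (-β) (w.toWS.E f (w.rx β v)) := rfl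

lemma norm_Eb (β : ℝ) (f : K) (v : S) : ‖w.Eb β f v‖ = ‖v‖ := by
  rw [Eb_apply, norm_rx, w.toWS.norm_E, norm_rx]

/-- `Z_β = e^{iβX} Z e^{-iβX}` -/
def Zb (β : ℝ) : S →L[ℂ] S := w.rx (-β) ∘L w.Z ∘L w.rx β

lemma Zb_apply (β : ℝ) (v : S) : w.Zb β v = w.rx (-β) (w.Z (w.rx β v)) := rfl

lemma Zb_eq (β : ℝ) (v : S) : w.Zb β v = w.Z (w.rx (2 * β) v) := by
  rw [Zb_apply, ← w.Z_rx, w.rx_add, two_mul]

lemma Z_Zb (β : ℝ) (v : S) : w.Z (w.Zb β v) = w.rx (2 * β) v := by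
  rw [Zb_eq, w.Z_sq]

lemma CW_Zb (β : ℝ) : w.toWS.CW (w.Zb β) := by
  intro f v
  rw [Zb_eq, Zb_eq, w.CW_rx, w.Z_W]

lemma CW_rxZ (β : ℝ) : w.toWS.CW (w.rx β) := w.CW_rx β

lemma norm_Zb (β : ℝ) (v : S) : ‖w.Zb β v‖ = ‖v‖ := by
  rw [Zb_eq, w.norm_Z, norm_rx]

lemma expZ_half_pi (v : S) : w.toWS.expZ (Real.pi / 2) v = Complex.I • w.Z v := by
  rw [WS.expZ_apply]
  simp

lemma expZ_neg_half_pi (v : S) : w.toWS.expZ (-(Real.pi / 2)) v = -(Complex.I • w.Z v) := by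
  rw [WS.expZ_apply, Real.cos_neg, Real.sin_neg]
  simp

end WX

/-- A calibrated pulse on an eigenfamily (limit angle `σ π/2`, `σ = ± 1`). -/
lemma WH.pulse_cal {α : Type*} {l : Filter α} (w : WX K S) {ε : α → ℝ} {y : α → K} {h : α → S}
    (H : WH w.toWS l ε y h) (hb : Bdd h) {τ : α → ℝ} (hτ : Bdd τ) {f : α → K} (hf : Bdd f)
    {σ : ℝ} (hσ : σ = 1 ∨ σ = -1)
    (hθ : Tendsto (fun n => τ n * (⟪y n, f n⟫_ℂ).im) l (𝓝 (σ * (Real.pi / 2)))) :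
    Tendsto (fun n => w.toWS.E (((ε n * τ n : ℝ) : ℂ) • f n) (h n) -
      (Complex.I * (σ : ℂ)) • w.Z (h n)) l (𝓝 0) := by
  refine (H.pulse_lim hb hτ hf hθ).congr fun n => ?_
  rcases hσ with rfl | rfl
  · rw [one_mul, w.expZ_half_pi]
    simp
  · rw [neg_one_mul, w.expZ_neg_half_pi]
    simp

/-- the same for the rotated gate -/
lemma WH.pulse_cal_b {α : Type*} {l : Filter α} (w : WX K S) {ε : α → ℝ} {y : α → K} {h : α → S}
    (H : WH w.toWS l ε y h) (hb : Bdd h) (β : ℝ) {τ : α → ℝ} (hτ : Bdd τ) {f : α → K}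
    (hf : Bdd f) {σ : ℝ} (hσ : σ = 1 ∨ σ = -1)
    (hθ : Tendsto (fun n => τ n * (⟪y n, f n⟫_ℂ).im) l (𝓝 (σ * (Real.pi / 2)))) :
    Tendsto (fun n => w.Eb β (((ε n * τ n : ℝ) : ℂ) • f n) (h n) -
      (Complex.I * (σ : ℂ)) • w.Zb β (h n)) l (𝓝 0) := by
  have H' : WH w.toWS l ε y (fun n => w.rx β (h n)) := H.map_const (w.CW_rx β)
  have hb' : Bdd (fun n => w.rx β (h n)) := hb.mono fun n => by rw [w.norm_rx]
  refine tendsto_zero_of_norm_le (C := 1) (H'.pulse_cal w hb' hτ hf hσ hθ) fun n => ?_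
  rw [one_mul, w.Eb_apply, w.Zb_apply, ← map_smul, ← map_sub, w.norm_rx]

/-- The reading gate on an eigenfamily of momentum `b y`: four calibrated pulses
`P₄P₃P₂P₁`, `P₁ = E_β(κ₁f₁)`, `P₂ = E(-κ₂f₂)`, `P₃ = E_β(-κ₃f₃)`, `P₄ = E(κ₄f₄)`, act as
`e^{-4iβX}`. -/
theorem WH.read4 {α : Type*} {l : Filter α} (w : WX K S) {ε : α → ℝ} {y : α → K} {h : α → S}
    (H : WH w.toWS l ε y h) (hb : Bdd h) (β : ℝ) {b : ℝ} (hb1 : b = 1 ∨ b = -1)
    {τ₁ τ₂ τ₃ τ₄ : α → ℝ} {f₁ f₂ f₃ f₄ : α → K}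
    (hτ₁ : Bdd τ₁) (hτ₂ : Bdd τ₂) (hτ₃ : Bdd τ₃) (hτ₄ : Bdd τ₄)
    (hf₁ : Bdd f₁) (hf₂ : Bdd f₂) (hf₃ : Bdd f₃) (hf₄ : Bdd f₄)
    (h₁ : Tendsto (fun n => τ₁ n * (⟪y n, f₁ n⟫_ℂ).im) l (𝓝 (b * (Real.pi / 2))))
    (h₂ : Tendsto (fun n => τ₂ n * (⟪y n, f₂ n⟫_ℂ).im) l (𝓝 (-b * (Real.pi / 2))))
    (h₃ : Tendsto (fun n => τ₃ n * (⟪y n, f₃ n⟫_ℂ).im) l (𝓝 (-b * (Real.pi / 2))))
    (h₄ : Tendsto (fun n => τ₄ n * (⟪y n, f₄ n⟫_ℂ).im) l (𝓝 (b * (Real.pi / 2)))) :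
    Tendsto (fun n => w.toWS.E (((ε n * τ₄ n : ℝ) : ℂ) • f₄ n)
      (w.Eb β (((ε n * τ₃ n : ℝ) : ℂ) • f₃ n) (w.toWS.E (((ε n * τ₂ n : ℝ) : ℂ) • f₂ n)
        (w.Eb β (((ε n * τ₁ n : ℝ) : ℂ) • f₁ n) (h n)))) - w.rx (4 * β) (h n)) l (𝓝 0) := by
  have hnb : -b = 1 ∨ -b = -1 := by
    rcases hb1 with rfl | rfl
    · right; rfl
    · left; norm_num
  have hbb : (b : ℂ) * (b : ℂ) = 1 := by
    rcases hb1 with rfl | rfl <;> simp
  have hnorm_b : ‖(Complex.I * (b : ℂ))‖ = 1 := by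
    rcases hb1 with rfl | rfl <;> simp
  -- step 1
  have s1 := H.pulse_cal_b w hb β hτ₁ hf₁ hb1 h₁
  -- vector after the first pulse, up to o(1): `u₁ = (i b) Z_β h`
  set u₁ : α → S := fun n => (Complex.I * (b : ℂ)) • w.Zb β (h n) with hu₁
  have H1 : WH w.toWS l ε y u₁ :=
    (H.map_const (w.CW_Zb β)).smul (c := fun _ => Complex.I * (b : ℂ)) (Bdd.const _)
  have B1 : Bdd u₁ := hb.mono fun n => by rw [hu₁, norm_smul, hnorm_b, one_mul, w.norm_Zb]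
  have s2 := H1.pulse_cal w B1 hτ₂ hf₂ hnb h₂
  set u₂ : α → S := fun n => (Complex.I * ((-b : ℝ) : ℂ)) • w.Z (u₁ n) with hu₂
  have hu₂' : ∀ n, u₂ n = w.rx (2 * β) (h n) := by
    intro n
    rw [hu₂, hu₁]
    simp only
    rw [map_smul, w.Z_Zb, smul_smul]
    have : Complex.I * ((-b : ℝ) : ℂ) * (Complex.I * (b : ℂ)) = 1 := by
      push_cast
      linear_combination -(b : ℂ) * (b : ℂ) * Complex.I_mul_I + hbb
    rw [this, one_smul]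
  have H2 : WH w.toWS l ε y u₂ := by
    have := H.map_const (w.CW_rx (2 * β))
    rwa [show (fun n => w.rx (2 * β) (h n)) = u₂ from (funext hu₂').symm] at this
  have B2 : Bdd u₂ := hb.mono fun n => by rw [hu₂', w.norm_rx]
  have s3 := H2.pulse_cal_b w B2 β hτ₃ hf₃ hnb h₃
  set u₃ : α → S := fun n => (Complex.I * ((-b : ℝ) : ℂ)) • w.Zb β (u₂ n) with hu₃
  have H3 : WH w.toWS l ε y u₃ :=
    (H2.map_const (w.CW_Zb β)).smul (c := fun _ => Complex.I * ((-b : ℝ) : ℂ)) (Bdd.const _)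
  have B3 : Bdd u₃ := B2.mono fun n => by
    rw [hu₃, norm_smul, w.norm_Zb]
    have : ‖(Complex.I * ((-b : ℝ) : ℂ))‖ = 1 := by
      rcases hb1 with rfl | rfl <;> simp
    rw [this, one_mul]
  have s4 := H3.pulse_cal w B3 hτ₄ hf₄ hb1 h₄
  have hu₄ : ∀ n, (Complex.I * (b : ℂ)) • w.Z (u₃ n) = w.rx (4 * β) (h n) := by
    intro n
    rw [hu₃]
    simp only
    rw [map_smul, w.Z_Zb, hu₂', w.rx_add, smul_smul]
    have : Complex.I * (b : ℂ) * (Complex.I * ((-b : ℝ) : ℂ)) = 1 := by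
      push_cast
      linear_combination -(b : ℂ) * (b : ℂ) * Complex.I_mul_I + hbb
    rw [this, one_smul]
    congr 2
    ring
  -- assemble
  have t2 : Tendsto (fun n => w.toWS.E (((ε n * τ₂ n : ℝ) : ℂ) • f₂ n)
      (w.Eb β (((ε n * τ₁ n : ℝ) : ℂ) • f₁ n) (h n)) - u₂ n) l (𝓝 0) := by
    have a1 : Tendsto (fun n => w.toWS.E (((ε n * τ₂ n : ℝ) : ℂ) • f₂ n)
      (w.Eb β (((ε n * τ₁ n : ℝ) : ℂ) • f₁ n) (h n) - u₁ n)) l (𝓝 0) :=
      tendsto_zero_of_norm_le (C := 1) s1 fun n => by rw [w.toWS.norm_E, one_mul]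
    have := a1.add s2
    rw [add_zero] at this
    refine this.congr fun n => ?_
    rw [map_sub]
    abel
  have t3 : Tendsto (fun n => w.Eb β (((ε n * τ₃ n : ℝ) : ℂ) • f₃ n)
      (w.toWS.E (((ε n * τ₂ n : ℝ) : ℂ) • f₂ n)
      (w.Eb β (((ε n * τ₁ n : ℝ) : ℂ) • f₁ n) (h n))) - u₃ n) l (𝓝 0) := by
    have a1 : Tendsto (fun n => w.Eb β (((ε n * τ₃ n : ℝ) : ℂ) • f₃ n)
      (w.toWS.E (((ε n * τ₂ n : ℝ) : ℂ) • f₂ n)
      (w.Eb β (((ε n * τ₁ n : ℝ) : ℂ) • f₁ n) (h n)) - u₂ n)) l (𝓝 0) :=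
      tendsto_zero_of_norm_le (C := 1) t2 fun n => by rw [w.norm_Eb, one_mul]
    have := a1.add s3
    rw [add_zero] at this
    refine this.congr fun n => ?_
    rw [map_sub]
    abel
  have a1 : Tendsto (fun n => w.toWS.E (((ε n * τ₄ n : ℝ) : ℂ) • f₄ n)
      (w.Eb β (((ε n * τ₃ n : ℝ) : ℂ) • f₃ n) (w.toWS.E (((ε n * τ₂ n : ℝ) : ℂ) • f₂ n)
      (w.Eb β (((ε n * τ₁ n : ℝ) : ℂ) • f₁ n) (h n))) - u₃ n)) l (𝓝 0) :=
    tendsto_zero_of_norm_le (C := 1) t3 fun n => by rw [w.toWS.norm_E, one_mul]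
  have := a1.add s4
  rw [add_zero] at this
  refine this.congr fun n => ?_
  rw [map_sub, ← hu₄]
  abel

end Crest.Agent.R339.Hv
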