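import Mathlib
import Crest.Agent.R339.Heavy682C

/-!
# Heavy predicate with two signs, cost moves, pulse sequences (abstract site algebra)
-/

set_option autoImplicit false

noncomputable section

open scoped ComplexConjugate InnerProductSpace Topology
open Filter

namespace Crest.Agent.R339.Hv

variable {K S : Type*} [NormedAddCommGroup K] [InnerProductSpace ℂ K]
  [NormedAddCommGroup S] [InnerProductSpace ℂ S]

/-- uniform form of the eigenfamily property -/
def WHu {α : Type*} (w : WS K S) (l : Filter α) (ε : α → ℝ) (b : ℝ) (y : α → K) (h : α → S) :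
    Prop :=
  ∀ T : ℝ, ∀ δ > 0, ∀ᶠ n in l, ∀ f : K, ‖f‖ ≤ T →
    ‖w.W ((ε n : ℂ) • f) (h n) - Complex.exp (Complex.I * (b * (⟪y n, f⟫_ℂ).im)) • h n‖ ≤ δ

lemma ph_smul_im {b : ℝ} {y f : K} :
    ph ((⟪(b : ℂ) • y, f⟫_ℂ).im) = Complex.exp (Complex.I * (b * (⟪y, f⟫_ℂ).im)) := by
  rw [ph, inner_smul_left, Complex.conj_ofReal, Complex.im_ofReal_mul]
  push_cast
  rfl

lemma whu_iff {α : Type*} {w : WS K S} {l : Filter α} {ε : α → ℝ} {b : ℝ} {y : α → K}
    {h : α → S} : WHu w l ε b y h ↔ WH w l ε (fun n => (b : ℂ) • y n) h := by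
  constructor
  · intro H f ⟨T, hT⟩
    rw [Metric.tendsto_nhds]
    intro δ hδ
    filter_upwards [H T (δ / 2) (half_pos hδ)] with n hn
    rw [dist_zero_right, ph_smul_im]
    exact (hn (f n) (hT n)).trans_lt (half_lt_self hδ)
  · intro H T δ hδ
    classical
    let P : α → K → Prop := fun n f => ‖f‖ ≤ T ∧ δ < ‖w.W ((ε n : ℂ) • f) (h n) -
      Complex.exp (Complex.I * (b * (⟪y n, f⟫_ℂ).im)) • h n‖
    let f : α → K := fun n => if hn : ∃ f, P n f then hn.choose else 0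
    have hf : Bdd f := by
      refine ⟨max T 0, fun n => ?_⟩
      by_cases hn : ∃ f, P n f
      · simp only [f, hn, dite_true]
        exact hn.choose_spec.1.trans (le_max_left _ _)
      · simp only [f, hn, dite_false, norm_zero]
        exact le_max_right _ _
    have h1 := H f hf
    rw [Metric.tendsto_nhds] at h1
    filter_upwards [h1 δ hδ] with n hn g hg
    by_contra hcon
    rw [not_le] at hcon
    have hex : ∃ f, P n f := ⟨g, hg, hcon⟩
    have hfn : f n = hex.choose := by simp only [f, hex, dite_true]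
    rw [dist_zero_right, ph_smul_im, hfn] at hn
    exact absurd hn (not_lt.mpr hex.choose_spec.2.le)

/-- Heavy families: label sign `b`, current spin `b'`, momentum `b y`. -/
def HvS {α : Type*} (w : WS K S) (l : Filter α) (ε : α → ℝ) (b b' : ℝ) (y : α → K)
    (h : α → S) : Prop :=
  Tendsto (fun n => w.Z (h n) - (b' : ℂ) • h n) l (𝓝 0) ∧ WHu w l ε b y h

namespace HvS

variable {α : Type*} {w : WS K S} {l : Filter α} {ε : α → ℝ} {b b' : ℝ} {y y' : α → K}
  {h h' : α → S}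

lemma wh (H : HvS w l ε b b' y h) : WH w l ε (fun n => (b : ℂ) • y n) h := whu_iff.mp H.2

lemma bit (H : HvS w l ε b b' y h) : Bit w l b' h := H.1

lemma mk' (h1 : Bit w l b' h) (h2 : WH w l ε (fun n => (b : ℂ) • y n) h) :
    HvS w l ε b b' y h := ⟨h1, whu_iff.mpr h2⟩

/-- (N) perturbation in the vector -/
lemma congr (H : HvS w l ε b b' y h) (hh : Tendsto (fun n => h' n - h n) l (𝓝 0)) :
    HvS w l ε b b' y h' := mk' (H.bit.congr hh) (H.wh.congr hh)

/-- (N) perturbation in the momentum -/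
lemma congr_y (H : HvS w l ε b b' y h) (hb : Bdd h)
    (hy : Tendsto (fun n => y' n - y n) l (𝓝 0)) : HvS w l ε b b' y' h := by
  refine mk' H.bit (H.wh.congr_y hb ?_)
  have := hy.const_smul (b : ℂ)
  rw [smul_zero] at this
  exact this.congr fun n => by rw [smul_sub]

/-- unit scalars -/
lemma smul (H : HvS w l ε b b' y h) {c : α → ℂ} (hc : Bdd c) :
    HvS w l ε b b' y (fun n => c n • h n) := by
  refine mk' ?_ (H.wh.smul hc)
  refine (tendsto_smul_zero_of_bdd hc H.bit).congr fun n => ?_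
  rw [smul_sub, map_smul, smul_comm]

/-- spin matrices commuting with `Z` keep everything -/
lemma map (H : HvS w l ε b b' y h) {A : α → S →L[ℂ] S} (hA : ∀ n, w.CW (A n))
    (hZ : ∀ n v, w.Z (A n v) = A n (w.Z v)) {C : ℝ} (hC : ∀ n v, ‖A n v‖ ≤ C * ‖v‖) :
    HvS w l ε b b' y (fun n => A n (h n)) :=
  mk' (H.bit.map hZ hC) (H.wh.map hA hC)

/-- spin matrices anticommuting with `Z` flip the spin -/
lemma flip (H : HvS w l ε b b' y h) {A : α → S →L[ℂ] S} (hA : ∀ n, w.CW (A n))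
    (hZ : ∀ n v, w.Z (A n v) = -A n (w.Z v)) {C : ℝ} (hC : ∀ n v, ‖A n v‖ ≤ C * ‖v‖) :
    HvS w l ε b (-b') y (fun n => A n (h n)) :=
  mk' (H.bit.flip hZ hC) (H.wh.map hA hC)

/-- (M) cost moves, bounded or amplified -/
lemma cost (H : HvS w l ε b b' y h) (hb : b = 1 ∨ b = -1) (hb' : b' = 1 ∨ b' = -1)
    (hε : ∀ᶠ n in l, ε n ≠ 0) (x : α → K) :
    HvS w l ε b b' (fun n => y n + ((2 * (b * b') : ℝ) : ℂ) • x n)
      (fun n => w.E (((1 / ε n : ℝ) : ℂ) • x n) (h n)) := by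
  refine mk' (WH.E_big_bit H.bit _) ?_
  have h1 := H.wh.E_big hb' H.bit (c := fun n => 1 / ε n) (e := x) 2 (by
    filter_upwards [hε] with n hn
    rw [mul_one_div_cancel hn, mul_one])
  have h2 : (fun n => (b : ℂ) • y n + ((b' * 2 : ℝ) : ℂ) • x n) =
      fun n => (b : ℂ) • (y n + ((2 * (b * b') : ℝ) : ℂ) • x n) := by
    funext n
    rw [smul_add, smul_smul]
    congr 2
    have : (b : ℂ) * (b : ℂ) = 1 := by rcases hb with rfl | rfl <;> simp
    push_cast
    linear_combination -(2 * (b' : ℂ)) * this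
  rwa [h2] at h1

end HvS

/-! ### Pulse sequences -/

namespace WX

variable (w : WX K S)

/-- `exp (i θ Z_β)` -/
def expZb (β θ : ℝ) : S →L[ℂ] S := w.rx (-β) ∘L w.toWS.expZ θ ∘L w.rx β

lemma expZb_apply (β θ : ℝ) (v : S) : w.expZb β θ v =
    ((Real.cos θ : ℝ) : ℂ) • v + (Complex.I * ((Real.sin θ : ℝ) : ℂ)) • w.Zb β v := by
  show w.rx (-β) (w.toWS.expZ θ (w.rx β v)) = _
  rw [WS.expZ_apply, map_add, map_smul, map_smul, rx_neg_rx, Zb_apply]

end WX

/-- (P) a pulse applied to `A h`, `A` a spin matrix -/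
lemma HvS.pulse {α : Type*} {w : WX K S} {l : Filter α} {ε : α → ℝ} {b b' : ℝ} {y : α → K}
    {h : α → S} (H : HvS w.toWS l ε b b' y h) (hb : Bdd h) (β : ℝ) {τ : α → K} (hτ : Bdd τ)
    {θ : ℝ} (hθ : Tendsto (fun n => b * (⟪y n, τ n⟫_ℂ).im) l (𝓝 θ)) {A : S →L[ℂ] S}
    (hA : w.toWS.CW A) :
    Tendsto (fun n => w.Eb β ((ε n : ℂ) • τ n) (A (h n)) - w.expZb β θ (A (h n))) l (𝓝 0) := by
  have H' : WH w.toWS l ε (fun n => (b : ℂ) • y n) (fun n => w.rx β (A (h n))) :=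
    (H.wh.map_const hA).map_const (w.CW_rx β)
  have hb' : Bdd (fun n => w.rx β (A (h n))) := by
    obtain ⟨C, hC⟩ := hb
    exact ⟨‖A‖ * C, fun n => by
      rw [w.norm_rx]
      exact (A.le_opNorm _).trans (mul_le_mul_of_nonneg_left (hC n) (norm_nonneg _))⟩
  have hθ' : Tendsto (fun n => (1 : ℝ) * (⟪(b : ℂ) • y n, τ n⟫_ℂ).im) l (𝓝 θ) := by
    refine hθ.congr fun n => ?_
    rw [inner_smul_left, Complex.conj_ofReal, Complex.im_ofReal_mul, one_mul]
  refine tendsto_zero_of_norm_le (C := 1)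
    (H'.pulse_lim hb' (τ := fun _ => 1) (Bdd.const _) hτ hθ') fun n => ?_
  rw [mul_one, one_mul, w.Eb_apply, WX.expZb]
  show ‖w.rx (-β) _ - w.rx (-β) (w.toWS.expZ θ (w.rx β (A (h n))))‖ ≤ _
  rw [← map_sub, w.norm_rx]

/-- the spin matrices produced by a sequence of calibrated pulses: `A₀ = 1`,
`A_{j+1} = i b σ_j Z_{β_j} A_j` -/
def pulseA (w : WX K S) (b : ℝ) (β σ : ℕ → ℝ) : ℕ → (S →L[ℂ] S)
  | 0 => 1
  | j + 1 => (Complex.I * ((b * σ j : ℝ) : ℂ)) • (w.Zb (β j) ∘L pulseA w b β σ j)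

lemma CW_pulseA (w : WX K S) (b : ℝ) (β σ : ℕ → ℝ) (j : ℕ) :
    w.toWS.CW (pulseA w b β σ j) := by
  induction j with
  | zero => exact w.toWS.CW_one
  | succ j ih => exact ((w.CW_Zb (β j)).mul ih).smul _

/-- A sequence of calibrated pulses acts on a heavy family by the matrices `pulseA`. -/
theorem HvS.pulses {α : Type*} {w : WX K S} {l : Filter α} {ε : α → ℝ} {b b' : ℝ} {y : α → K}
    {h : α → S} (H : HvS w.toWS l ε b b' y h) (hb : Bdd h) (hb1 : b = 1 ∨ b = -1)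
    {β σ : ℕ → ℝ} (hσ : ∀ j, σ j = 1 ∨ σ j = -1) {τ : ℕ → α → K} {N : ℕ}
    (hτ : ∀ j < N, Bdd (τ j))
    (hcal : ∀ j < N, Tendsto (fun n => (⟪y n, τ j n⟫_ℂ).im) l (𝓝 (σ j * (Real.pi / 2))))
    {g : ℕ → α → S} (h0 : ∀ n, g 0 n = h n)
    (hg : ∀ j < N, ∀ n, g (j + 1) n = w.Eb (β j) ((ε n : ℂ) • τ j n) (g j n)) :
    ∀ j ≤ N, Tendsto (fun n => g j n - pulseA w b β σ j (h n)) l (𝓝 0) := by
  intro j
  induction j with
  | zero =>
    intro _
    refine tendsto_const_nhds.congr fun n => ?_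
    rw [h0]
    show (0 : S) = h n - h n
    rw [sub_self]
  | succ j ih =>
    intro hj
    have hjN : j < N := hj
    have h1 := ih hjN.le
    have h2 : Tendsto (fun n => w.Eb (β j) ((ε n : ℂ) • τ j n)
        (g j n - pulseA w b β σ j (h n))) l (𝓝 0) :=
      tendsto_zero_of_norm_le (C := 1) h1 fun n => by rw [w.norm_Eb, one_mul]
    have hθ : Tendsto (fun n => b * (⟪y n, τ j n⟫_ℂ).im) l (𝓝 (b * (σ j * (Real.pi / 2)))) :=
      (hcal j hjN).const_mul b
    have h3 := H.pulse hb (β j) (hτ j hjN) hθ (CW_pulseA w b β σ j)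
    have h4 := h2.add h3
    rw [add_zero] at h4
    refine h4.congr fun n => ?_
    have e1 : w.expZb (β j) (b * (σ j * (Real.pi / 2))) (pulseA w b β σ j (h n)) =
        pulseA w b β σ (j + 1) (h n) := by
      rw [WX.expZb_apply]
      show _ = (Complex.I * ((b * σ j : ℝ) : ℂ)) • w.Zb (β j) (pulseA w b β σ j (h n))
      have hs : b * σ j = 1 ∨ b * σ j = -1 := by
        rcases hb1 with rfl | rfl <;> rcases hσ j with h | h <;> rw [h] <;> norm_num
      have harg : b * (σ j * (Real.pi / 2)) = (b * σ j) * (Real.pi / 2) := by ring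
      rw [harg]
      rcases hs with hs | hs <;> rw [hs]
      · rw [one_mul, Real.cos_pi_div_two, Real.sin_pi_div_two]
        simp
      · rw [neg_one_mul, Real.cos_neg, Real.sin_neg, Real.cos_pi_div_two, Real.sin_pi_div_two]
        simp
    rw [hg j hjN, map_sub, e1]
    abel

/-- the periodic pattern `(β,+),(0,-),(β,-),(0,+)` gives `e^{-4iβX}` per period -/
lemma pulseA_period (w : WX K S) {b : ℝ} (hb1 : b = 1 ∨ b = -1) (β₀ : ℝ) {β σ : ℕ → ℝ}
    (hβ : ∀ j, β j = if j % 2 = 0 then β₀ else 0)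
    (hσ : ∀ j, σ j = if j % 4 = 0 ∨ j % 4 = 3 then 1 else -1) (k : ℕ) (v : S) :
    pulseA w b β σ (4 * k) v = w.rx (4 * k * β₀) v := by
  have hbb : (b : ℂ) * (b : ℂ) = 1 := by rcases hb1 with rfl | rfl <;> simp
  induction k generalizing v with
  | zero =>
    simp only [Nat.cast_zero, mul_zero, zero_mul]
    rw [w.rx_zero]
    rfl
  | succ k ih =>
    have hZ0 : ∀ u : S, w.Zb 0 u = w.Z u := by
      intro u
      rw [WX.Zb_eq, mul_zero, w.rx_zero]
    have hb0 : β (4 * k) = β₀ := by rw [hβ, if_pos (by omega)]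
    have hb1' : β (4 * k + 1) = 0 := by rw [hβ, if_neg (by omega)]
    have hb2 : β (4 * k + 2) = β₀ := by rw [hβ, if_pos (by omega)]
    have hb3 : β (4 * k + 3) = 0 := by rw [hβ, if_neg (by omega)]
    have hs0 : σ (4 * k) = 1 := by rw [hσ, if_pos (by omega)]
    have hs1 : σ (4 * k + 1) = -1 := by rw [hσ, if_neg (by omega)]
    have hs2 : σ (4 * k + 2) = -1 := by rw [hσ, if_neg (by omega)]
    have hs3 : σ (4 * k + 3) = 1 := by rw [hσ, if_pos (by omega)]
    rw [show 4 * (k + 1) = 4 * k + 3 + 1 by ring]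
    have e4 : pulseA w b β σ (4 * k + 3 + 1) v = (Complex.I * ((b * σ (4 * k + 3) : ℝ) : ℂ)) •
        w.Zb (β (4 * k + 3)) (pulseA w b β σ (4 * k + 3) v) := rfl
    have e3 : pulseA w b β σ (4 * k + 3) v = (Complex.I * ((b * σ (4 * k + 2) : ℝ) : ℂ)) •
        w.Zb (β (4 * k + 2)) (pulseA w b β σ (4 * k + 2) v) := rfl
    have e2 : pulseA w b β σ (4 * k + 2) v = (Complex.I * ((b * σ (4 * k + 1) : ℝ) : ℂ)) •
        w.Zb (β (4 * k + 1)) (pulseA w b β σ (4 * k + 1) v) := rfl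
    have e1 : pulseA w b β σ (4 * k + 1) v = (Complex.I * ((b * σ (4 * k) : ℝ) : ℂ)) •
        w.Zb (β (4 * k)) (pulseA w b β σ (4 * k) v) := rfl
    rw [e4, e3, e2, e1, hb0, hb1', hb2, hb3, hs0, hs1, hs2, hs3, hZ0, hZ0, ih]
    simp only [map_smul, w.Z_Zb, w.rx_add, smul_smul]
    have hc : Complex.I * ((b * 1 : ℝ) : ℂ) * (Complex.I * ((b * -1 : ℝ) : ℂ) *
        (Complex.I * ((b * -1 : ℝ) : ℂ) * (Complex.I * ((b * 1 : ℝ) : ℂ)))) = 1 := by
      push_cast
      have hI : Complex.I * Complex.I = -1 := Complex.I_mul_I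
      linear_combination ((b : ℂ) ^ 4 * Complex.I ^ 2 - (b : ℂ) ^ 4) * hI + ((b : ℂ) * b + 1) * hbb
    rw [hc, one_smul]
    congr 2
    push_cast
    ring

end Crest.Agent.R339.Hv
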