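import Mathlib
import Crest.Agent.R339.Lab373A
import Crest.Agent.R339.Heavy682D

/-!
# Heavy branches in the site model
-/

set_option autoImplicit false

noncomputable section

open scoped ComplexConjugate InnerProductSpace Topology
open Filter Crest.MathPhysics.SpinGlass
open Crest.Agent.R339.Site Crest.Agent.R339.Lab

namespace Crest.Agent.R339.Hv

variable {K : Type*} [NormedAddCommGroup K] [InnerProductSpace ℂ K]

/-- the concrete spin-Weyl algebra -/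
def siteWX : WX K (Sp K) where
  W := Wl
  Z := Zop
  X := Xop
  W_mul := Wl_Wl
  W_zero v := by rw [Wl_zero]; rfl
  norm_W := norm_Wl_apply
  Z_sq := Zop_Zop
  Z_W := isSpin_Zop
  norm_Z := norm_Zop_apply
  X_sq := Xop_Xop
  X_W := isSpin_Xop
  X_Z v := by rw [Zop_Xop, neg_neg]
  norm_X := norm_Xop_apply

lemma site_E (f : K) (v : Sp K) :
    (siteWX (K := K)).toWS.E f v = ((Ez f : USp K) : Sp K →L[ℂ] Sp K) v := by
  rw [Ez_eq, ← smul_add]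
  rfl

lemma site_rx (β : ℝ) (v : Sp K) :
    (siteWX (K := K)).rx β v = ((mixU β : USp K) : Sp K →L[ℂ] Sp K) v := by
  rw [mixU_eq]
  rfl

lemma site_Zb (β : ℝ) (v : Sp K) : (siteWX (K := K)).Zb β v = Zb β v := by
  rw [WX.Zb_apply, Zb_apply, site_rx, site_rx]
  rfl

lemma site_Eb (β : ℝ) (u : K) (v : Sp K) :
    (siteWX (K := K)).Eb β u v = ((Pu β u : USp K) : Sp K →L[ℂ] Sp K) v := by
  rw [WX.Eb_apply, Pu_apply, site_rx, site_rx, site_E]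

/-- Heavy families in the site model: label sign `b`, current spin `b'`, momentum `b y`. -/
def Heavy (ε : ℕ → ℝ) (b b' : ℝ) (y : ℕ → K) (h : ℕ → Sp K) : Prop :=
  Tendsto (fun n => Zop (h n) - (b' : ℂ) • h n) atTop (𝓝 0) ∧
  ∀ T : ℝ, ∀ δ > 0, ∀ᶠ n in atTop, ∀ f : K, ‖f‖ ≤ T →
    ‖Wl ((ε n : ℂ) • f) (h n) - Complex.exp (Complex.I * (b * (⟪y n, f⟫_ℂ).im)) • h n‖ ≤ δ

lemma hv_iff {ε : ℕ → ℝ} {b b' : ℝ} {y : ℕ → K} {h : ℕ → Sp K} :
    Heavy ε b b' y h ↔ HvS (siteWX (K := K)).toWS atTop ε b b' y h := Iff.rfl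

variable {ε : ℕ → ℝ} {b b' : ℝ} {y y' : ℕ → K} {h h' : ℕ → Sp K}

/-- bounded sequences form -/
lemma Heavy.seq (H : Heavy ε b b' y h) {f : ℕ → K} (hf : Bdd f) :
    Tendsto (fun n => Wl ((ε n : ℂ) • f n) (h n) -
      Complex.exp (Complex.I * (b * (⟪y n, f n⟫_ℂ).im)) • h n) atTop (𝓝 0) := by
  have := (HvS.wh (w := (siteWX (K := K)).toWS) H) f hf
  refine this.congr fun n => ?_
  rw [ph_smul_im]
  rfl

lemma Heavy.mk' (h1 : Tendsto (fun n => Zop (h n) - (b' : ℂ) • h n) atTop (𝓝 0))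
    (h2 : ∀ f : ℕ → K, Bdd f → Tendsto (fun n => Wl ((ε n : ℂ) • f n) (h n) -
      Complex.exp (Complex.I * (b * (⟪y n, f n⟫_ℂ).im)) • h n) atTop (𝓝 0)) :
    Heavy ε b b' y h := by
  refine HvS.mk' (w := (siteWX (K := K)).toWS) h1 fun f hf => (h2 f hf).congr fun n => ?_
  rw [ph_smul_im]
  rfl

/-- (N) -/
lemma Heavy.congr (H : Heavy ε b b' y h) (hh : Tendsto (fun n => h' n - h n) atTop (𝓝 0)) :
    Heavy ε b b' y h' := HvS.congr (w := (siteWX (K := K)).toWS) H hh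

/-- (N) -/
lemma Heavy.congr_y (H : Heavy ε b b' y h) (hb : Bdd h)
    (hy : Tendsto (fun n => y' n - y n) atTop (𝓝 0)) : Heavy ε b b' y' h :=
  HvS.congr_y (w := (siteWX (K := K)).toWS) H hb hy

lemma Heavy.smul (H : Heavy ε b b' y h) {c : ℕ → ℂ} (hc : Bdd c) :
    Heavy ε b b' y (fun n => c n • h n) := HvS.smul (w := (siteWX (K := K)).toWS) H hc

/-- spin operators commuting with `Z` -/
lemma Heavy.map (H : Heavy ε b b' y h) {A : ℕ → Sp K →L[ℂ] Sp K} (hA : ∀ n, IsSpin (A n))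
    (hZ : ∀ n v, Zop (A n v) = A n (Zop v)) {C : ℝ} (hC : ∀ n v, ‖A n v‖ ≤ C * ‖v‖) :
    Heavy ε b b' y (fun n => A n (h n)) :=
  HvS.map (w := (siteWX (K := K)).toWS) H hA hZ hC

/-- spin operators anticommuting with `Z` -/
lemma Heavy.flip (H : Heavy ε b b' y h) {A : ℕ → Sp K →L[ℂ] Sp K} (hA : ∀ n, IsSpin (A n))
    (hZ : ∀ n v, Zop (A n v) = -A n (Zop v)) {C : ℝ} (hC : ∀ n v, ‖A n v‖ ≤ C * ‖v‖) :
    Heavy ε b (-b') y (fun n => A n (h n)) :=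
  HvS.flip (w := (siteWX (K := K)).toWS) H hA hZ hC

/-- (M) cost moves, bounded or amplified: `y ↦ y + 2 b b' x` -/
lemma Heavy.cost (H : Heavy ε b b' y h) (hb : b = 1 ∨ b = -1) (hb' : b' = 1 ∨ b' = -1)
    (hε : ∀ᶠ n in atTop, ε n ≠ 0) (x : ℕ → K) :
    Heavy ε b b' (fun n => y n + ((2 * (b * b') : ℝ) : ℂ) • x n)
      (fun n => ((Ez (((1 / ε n : ℝ) : ℂ) • x n) : USp K) : Sp K →L[ℂ] Sp K) (h n)) := by
  have := HvS.cost (w := (siteWX (K := K)).toWS) H hb hb' hε x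
  simp only [site_E] at this
  exact this

/-- bounded cost moves keep the momentum -/
lemma Heavy.cost_bdd (H : Heavy ε b b' y h) (hε : Tendsto ε atTop (𝓝 0)) (hb : Bdd h) {F : ℕ → K}
    (hF : Bdd F) :
    Heavy ε b b' y (fun n => ((Ez (F n) : USp K) : Sp K →L[ℂ] Sp K) (h n)) := by
  have h1 := (HvS.wh (w := (siteWX (K := K)).toWS) H).E_bdd hε hb hF
  have h2 := WH.E_big_bit (HvS.bit (w := (siteWX (K := K)).toWS) H) F
  have := HvS.mk' h2 h1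
  simp only [site_E] at this
  exact this

/-- (P) pulses: `Pu β (ε τ)` acts on `A h` as `exp (i θ Z_β)`, `θ = lim b Im⟪y, τ⟫` -/
lemma Heavy.pulse (H : Heavy ε b b' y h) (hb : Bdd h) (β : ℝ) {τ : ℕ → K} (hτ : Bdd τ)
    {θ : ℝ} (hθ : Tendsto (fun n => b * (⟪y n, τ n⟫_ℂ).im) atTop (𝓝 θ))
    {A : Sp K →L[ℂ] Sp K} (hA : IsSpin A) :
    Tendsto (fun n => ((Pu β ((ε n : ℂ) • τ n) : USp K) : Sp K →L[ℂ] Sp K) (A (h n)) -
      (((Real.cos θ : ℝ) : ℂ) • A (h n) + (Complex.I * ((Real.sin θ : ℝ) : ℂ)) • Zb β (A (h n))))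
      atTop (𝓝 0) := by
  have := HvS.pulse (w := siteWX (K := K)) H hb β hτ hθ hA
  refine this.congr fun n => ?_
  rw [site_Eb, WX.expZb_apply, site_Zb]

/-- spin matrices produced by a calibrated pulse sequence -/
def pulM (b : ℝ) (β σ : ℕ → ℝ) : ℕ → (Sp K →L[ℂ] Sp K)
  | 0 => 1
  | j + 1 => (Complex.I * ((b * σ j : ℝ) : ℂ)) • (Zb (β j) ∘L pulM b β σ j)

lemma site_pulseA (b : ℝ) (β σ : ℕ → ℝ) (j : ℕ) (v : Sp K) :
    pulseA (siteWX (K := K)) b β σ j v = pulM b β σ j v := by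
  induction j generalizing v with
  | zero => rfl
  | succ j ih =>
    show (Complex.I * ((b * σ j : ℝ) : ℂ)) • (siteWX (K := K)).Zb (β j)
      (pulseA (siteWX (K := K)) b β σ j v) = (Complex.I * ((b * σ j : ℝ) : ℂ)) •
      Zb (β j) (pulM b β σ j v)
    rw [site_Zb, ih]

lemma isSpin_pulM (b : ℝ) (β σ : ℕ → ℝ) (j : ℕ) : IsSpin (pulM b β σ j : Sp K →L[ℂ] Sp K) := by
  induction j with
  | zero => exact isSpin_one
  | succ j ih => exact ((isSpin_Zb (β j)).mul ih).smul _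

/-- A sequence of calibrated pulses acts on a heavy family by the matrices `pulM`. -/
theorem Heavy.pulses (H : Heavy ε b b' y h) (hb : Bdd h) (hb1 : b = 1 ∨ b = -1)
    {β σ : ℕ → ℝ} (hσ : ∀ j, σ j = 1 ∨ σ j = -1) {τ : ℕ → ℕ → K} {N : ℕ}
    (hτ : ∀ j < N, Bdd (τ j))
    (hcal : ∀ j < N, Tendsto (fun n => (⟪y n, τ j n⟫_ℂ).im) atTop (𝓝 (σ j * (Real.pi / 2))))
    {g : ℕ → ℕ → Sp K} (h0 : ∀ n, g 0 n = h n)
    (hg : ∀ j < N, ∀ n, g (j + 1) n =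
      ((Pu (β j) ((ε n : ℂ) • τ j n) : USp K) : Sp K →L[ℂ] Sp K) (g j n)) :
    ∀ j ≤ N, Tendsto (fun n => g j n - pulM b β σ j (h n)) atTop (𝓝 0) := by
  intro j hj
  have hg' : ∀ j < N, ∀ n, g (j + 1) n =
      (siteWX (K := K)).Eb (β j) ((ε n : ℂ) • τ j n) (g j n) := by
    intro j hj n
    rw [hg j hj n, site_Eb]
  refine (HvS.pulses (w := siteWX (K := K)) H hb hb1 hσ hτ hcal h0 hg' j hj).congr fun n => ?_
  rw [site_pulseA]

/-- the periodic pattern `(β,+),(0,-),(β,-),(0,+)` gives `e^{-4iβX}` per period -/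
lemma pulM_period {b : ℝ} (hb1 : b = 1 ∨ b = -1) (β₀ : ℝ) {β σ : ℕ → ℝ}
    (hβ : ∀ j, β j = if j % 2 = 0 then β₀ else 0)
    (hσ : ∀ j, σ j = if j % 4 = 0 ∨ j % 4 = 3 then 1 else -1) (k : ℕ) (v : Sp K) :
    pulM b β σ (4 * k) v = ((mixU (4 * k * β₀) : USp K) : Sp K →L[ℂ] Sp K) v := by
  rw [← site_pulseA, pulseA_period _ hb1 β₀ hβ hσ, site_rx]

/-- (O) asymptotic orthogonality -/
lemma overlap_site {F : ℕ → K} {x x' : ℕ → ℝ} (hb : Bdd h) (hb' : Bdd h')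
    (h1 : Tendsto (fun n => Wl (F n) (h n) - ph (x n) • h n) atTop (𝓝 0))
    (h2 : Tendsto (fun n => Wl (F n) (h' n) - ph (x' n) • h' n) atTop (𝓝 0))
    {c : ℝ} (hc : 0 < c) (hsep : ∀ᶠ n in atTop, c ≤ ‖ph (x' n) - ph (x n)‖)
    {A A' : Sp K →L[ℂ] Sp K} (hA : IsSpin A) (hA' : IsSpin A') :
    Tendsto (fun n => ⟪A (h n), A' (h' n)⟫_ℂ) atTop (𝓝 0) := by
  have hAb : Bdd (fun n => A (h n)) := by
    obtain ⟨C, hC⟩ := hb
    exact ⟨‖A‖ * C, fun n =>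
      (A.le_opNorm _).trans (mul_le_mul_of_nonneg_left (hC n) (norm_nonneg _))⟩
  have hAb' : Bdd (fun n => A' (h' n)) := by
    obtain ⟨C, hC⟩ := hb'
    exact ⟨‖A'‖ * C, fun n =>
      (A'.le_opNorm _).trans (mul_le_mul_of_nonneg_left (hC n) (norm_nonneg _))⟩
  refine overlap_of (siteWX (K := K)).toWS (F := F) (x := x) (x' := x') hAb hAb' ?_ ?_ hc hsep
  · refine tendsto_zero_of_norm_le (C := ‖A‖) h1 fun n => ?_
    refine le_trans (le_of_eq ?_) (A.le_opNorm _)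
    rw [map_sub, map_smul, hA]
    rfl
  · refine tendsto_zero_of_norm_le (C := ‖A'‖) h2 fun n => ?_
    refine le_trans (le_of_eq ?_) (A'.le_opNorm _)
    rw [map_sub, map_smul, hA']
    rfl

/-- (O) in 373's form: if `Wl (g n) ζ - ζ → 0` and `Wl (g n) h - c n • h → 0`, `c n → c ≠ 1`. -/
lemma overlap_site' {ζ : ℕ → Sp K} {g : ℕ → K} {c : ℕ → ℂ} {c₀ : ℂ} (hζ : Bdd ζ) (hb : Bdd h)
    (h1 : Tendsto (fun n => Wl (g n) (ζ n) - ζ n) atTop (𝓝 0))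
    (h2 : Tendsto (fun n => Wl (g n) (h n) - c n • h n) atTop (𝓝 0))
    (hc : Tendsto c atTop (𝓝 c₀)) (hc₀ : c₀ ≠ 1)
    {A A' : Sp K →L[ℂ] Sp K} (hA : IsSpin A) (hA' : IsSpin A') :
    Tendsto (fun n => ⟪A (ζ n), A' (h n)⟫_ℂ) atTop (𝓝 0) := by
  obtain ⟨C, hC⟩ := hζ
  obtain ⟨C', hC'⟩ := hb
  have e1 : Tendsto (fun n => ⟪A (ζ n), A' (h n)⟫_ℂ - ⟪A (ζ n), A' (c n • h n)⟫_ℂ) atTop
      (𝓝 0) := by
    have a1 : Tendsto (fun n => ⟪A (ζ n) - A (Wl (g n) (ζ n)), A' (Wl (g n) (h n))⟫_ℂ) atTop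
        (𝓝 0) := by
      refine tendsto_zero_of_norm_le (C := ‖A‖ * (‖A'‖ * C')) h1 fun n => ?_
      refine (norm_inner_le_norm _ _).trans ?_
      have i1 : ‖A (ζ n) - A (Wl (g n) (ζ n))‖ ≤ ‖A‖ * ‖Wl (g n) (ζ n) - ζ n‖ := by
        rw [← map_sub, norm_sub_rev (Wl (g n) (ζ n))]
        exact A.le_opNorm _
      have i2 : ‖A' (Wl (g n) (h n))‖ ≤ ‖A'‖ * C' := by
        refine (A'.le_opNorm _).trans (mul_le_mul_of_nonneg_left ?_ (norm_nonneg _))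
        rw [norm_Wl_apply]
        exact hC' n
      calc _ ≤ (‖A‖ * ‖Wl (g n) (ζ n) - ζ n‖) * (‖A'‖ * C') :=
            mul_le_mul i1 i2 (norm_nonneg _) (by positivity)
        _ = _ := by ring
    have a2 : Tendsto (fun n => ⟪A (ζ n), A' (Wl (g n) (h n) - c n • h n)⟫_ℂ) atTop (𝓝 0) := by
      refine tendsto_zero_of_norm_le (C := ‖A‖ * C * ‖A'‖) h2 fun n => ?_
      refine (norm_inner_le_norm _ _).trans ?_
      have i1 : ‖A (ζ n)‖ ≤ ‖A‖ * C :=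
        (A.le_opNorm _).trans (mul_le_mul_of_nonneg_left (hC n) (norm_nonneg _))
      calc _ ≤ (‖A‖ * C) * (‖A'‖ * ‖Wl (g n) (h n) - c n • h n‖) :=
            mul_le_mul i1 (A'.le_opNorm _) (norm_nonneg _)
              (mul_nonneg (norm_nonneg _) ((norm_nonneg _).trans (hC n)))
        _ = _ := by ring
    have a3 := a2.sub a1
    rw [sub_zero] at a3
    refine a3.congr fun n => ?_
    have i3 : ⟪A (Wl (g n) (ζ n)), A' (Wl (g n) (h n))⟫_ℂ = ⟪A (ζ n), A' (h n)⟫_ℂ := by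
      rw [hA, hA', inner_Wl_Wl]
    rw [map_sub, inner_sub_right, inner_sub_left, i3]
    ring
  have e2 : Tendsto (fun n => (1 - c n) * ⟪A (ζ n), A' (h n)⟫_ℂ) atTop (𝓝 0) := by
    refine e1.congr fun n => ?_
    rw [map_smul, inner_smul_right]
    ring
  have e3 : Tendsto (fun n => (1 - c n)⁻¹) atTop (𝓝 (1 - c₀)⁻¹) :=
    (tendsto_const_nhds.sub hc).inv₀ (sub_ne_zero.mpr (Ne.symm hc₀))
  have e4 := e3.mul e2
  rw [mul_zero] at e4
  have hev : ∀ᶠ n in atTop, c n ≠ 1 := hc.eventually_ne hc₀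
  refine e4.congr' ?_
  filter_upwards [hev] with n hn
  rw [inv_mul_cancel_left₀ (sub_ne_zero.mpr (Ne.symm hn))]

end Crest.Agent.R339.Hv
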