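import Mathlib
import Crest.Agent.R339.SiteModel

/-!
# Marking: Fock-level facts and the modified isometry
-/

set_option autoImplicit false
set_option maxHeartbeats 400000

noncomputable section

open scoped ComplexConjugate InnerProductSpace Topology
open Filter

namespace Crest.Agent.R339.Mark

open Crest.Agent.R339.Site

section Modified

variable {E K : Type*} [NormedAddCommGroup E] [InnerProductSpace ℂ E]
  [NormedAddCommGroup K] [InnerProductSpace ℂ K]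

/-- `ι (1 - |x⟩⟨x|) + |s⟩⟨x|`, an isometry if `s` is a unit vector orthogonal to the range of `ι`
and `x` is a unit vector. -/
def modI (ι : E →ₗᵢ[ℂ] K) (s : K) (x : E) (hs : ‖s‖ = 1) (hsi : ∀ v, ⟪s, ι v⟫_ℂ = 0)
    (hx : ‖x‖ = 1) : E →ₗᵢ[ℂ] K where
  toFun v := ι (v - ⟪x, v⟫_ℂ • x) + ⟪x, v⟫_ℂ • s
  map_add' v w := by
    simp only [inner_add_right, add_smul, map_add, map_sub]
    abel
  map_smul' c v := by
    simp only [inner_smul_right, RingHom.id_apply, smul_add, map_sub, map_smul, smul_sub, mul_smul]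
  norm_map' v := by
    have h1 : ⟪ι (v - ⟪x, v⟫_ℂ • x), ⟪x, v⟫_ℂ • s⟫_ℂ = 0 := by
      rw [inner_smul_right, inner_eq_zero_symm.mp (hsi _), mul_zero]
    have h2 : ⟪v - ⟪x, v⟫_ℂ • x, ⟪x, v⟫_ℂ • x⟫_ℂ = 0 := by
      rw [inner_smul_right, inner_sub_left, inner_smul_left, inner_self_eq_norm_sq_to_K, hx,
        inner_conj_symm]
      simp
    have h3 := norm_add_sq_eq_norm_sq_add_norm_sq_of_inner_eq_zero _ _ h1
    have h4 := norm_add_sq_eq_norm_sq_add_norm_sq_of_inner_eq_zero _ _ h2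
    rw [sub_add_cancel] at h4
    show ‖ι (v - ⟪x, v⟫_ℂ • x) + ⟪x, v⟫_ℂ • s‖ = ‖v‖
    have h5 : ‖ι (v - ⟪x, v⟫_ℂ • x) + ⟪x, v⟫_ℂ • s‖ * ‖ι (v - ⟪x, v⟫_ℂ • x) + ⟪x, v⟫_ℂ • s‖ =
        ‖v‖ * ‖v‖ := by
      rw [h3, h4, LinearIsometry.norm_map, norm_smul, norm_smul, hs, hx]
    exact (mul_self_inj (norm_nonneg _) (norm_nonneg _)).mp h5

variable (ι : E →ₗᵢ[ℂ] K) (s : K) (x : E) (hs : ‖s‖ = 1) (hsi : ∀ v, ⟪s, ι v⟫_ℂ = 0)
    (hx : ‖x‖ = 1)

lemma modI_apply (v : E) : modI ι s x hs hsi hx v = ι (v - ⟪x, v⟫_ℂ • x) + ⟪x, v⟫_ℂ • s := rfl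

lemma modI_of_orth {v : E} (hv : ⟪x, v⟫_ℂ = 0) : modI ι s x hs hsi hx v = ι v := by
  rw [modI_apply, hv]
  simp

lemma modI_self : modI ι s x hs hsi hx x = s := by
  rw [modI_apply, inner_self_eq_norm_sq_to_K, hx]
  simp

lemma norm_modI_sub_le (v : E) : ‖modI ι s x hs hsi hx v - ι v‖ ≤ 2 * ‖⟪x, v⟫_ℂ‖ := by
  have h1 : modI ι s x hs hsi hx v - ι v = ⟪x, v⟫_ℂ • (s - ι x) := by
    rw [modI_apply, map_sub, map_smul, smul_sub]
    abel
  rw [h1, norm_smul, mul_comm]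
  refine mul_le_mul_of_nonneg_right ?_ (norm_nonneg _)
  refine (norm_sub_le _ _).trans ?_
  rw [hs, LinearIsometry.norm_map, hx]
  norm_num

end Modified

section Coh

variable {K : Type*} [NormedAddCommGroup K] [InnerProductSpace ℂ K]

lemma im_inner_I_smul (r t : ℝ) {e : K} (he : ‖e‖ = 1) :
    (⟪(Complex.I * ((t : ℝ) : ℂ)) • e, ((r : ℝ) : ℂ) • e⟫_ℂ).im = -(t * r) := by
  rw [inner_smul_left, inner_smul_right, inner_self_eq_norm_sq_to_K, he]
  have h1 : (starRingEnd ℂ) (Complex.I * ((t : ℝ) : ℂ)) = ⟨0, -t⟩ := by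
    apply Complex.ext <;> simp
  rw [h1]
  have h2 : (((1 : ℝ) : ℂ)) ^ 2 = 1 := by simp
  erw [h2]
  simp [Complex.mul_im]

lemma Wy_I_smul_coh (r t : ℝ) {e : K} (he : ‖e‖ = 1) :
    Wy ((Complex.I * ((t : ℝ) : ℂ)) • e) (coh (((r : ℝ) : ℂ) • e)) =
      Complex.exp (Complex.I * (2 * (t * r : ℝ) : ℂ)) •
        Wy (((r : ℝ) : ℂ) • e) (coh ((Complex.I * ((t : ℝ) : ℂ)) • e)) := by
  rw [← Wy_vac (((r : ℝ) : ℂ) • e), ← mul_apply_eq_comp, Wy_comm, smul_apply, mul_apply_eq_comp,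
    Wy_vac, im_inner_I_smul r t he]
  congr 2
  push_cast
  ring

/-- coherent vectors with a large displacement in a fixed direction tend weakly to zero -/
lemma tendsto_inner_coh_smul {r : ℕ → ℝ} (hr : Tendsto (fun n => |r n|) atTop atTop) {e : K}
    (he : ‖e‖ = 1) (w : Fock K) :
    Tendsto (fun n => ⟪coh (((r n : ℝ) : ℂ) • e), w⟫_ℂ) atTop (𝓝 0) := by
  have hrz : Tendsto (fun n => (r n)⁻¹) atTop (𝓝 0) := by
    rw [tendsto_zero_iff_abs_tendsto_zero]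
    have := tendsto_inv_atTop_zero.comp hr
    refine this.congr fun n => ?_
    simp
  obtain ⟨h, hh⟩ : ∃ h : ℕ → K, ∀ n, h n = (Complex.I * ((Real.pi / 2 * (r n)⁻¹ : ℝ) : ℂ)) • e :=
    ⟨_, fun n => rfl⟩
  have hht : Tendsto h atTop (𝓝 0) := by
    have h1 : Tendsto (fun n => (Complex.I * ((Real.pi / 2 * (r n)⁻¹ : ℝ) : ℂ))) atTop
        (𝓝 (Complex.I * ((Real.pi / 2 * 0 : ℝ) : ℂ))) :=
      ((Complex.continuous_ofReal.tendsto _).comp (hrz.const_mul _)).const_mul _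
    have h2 := h1.smul_const e
    have h3 : (Complex.I * ((Real.pi / 2 * 0 : ℝ) : ℂ)) • e = 0 := by simp
    rw [h3] at h2
    exact h2.congr fun n => (hh n).symm
  have hev : ∀ᶠ n in atTop, r n ≠ 0 := by
    filter_upwards [hr.eventually_gt_atTop 0] with n hn
    exact abs_pos.mp hn
  have key : ∀ᶠ n in atTop, ⟪coh (((r n : ℝ) : ℂ) • e), w⟫_ℂ =
      -⟪Wy (((r n : ℝ) : ℂ) • e) (coh (h n)), Wy (h n) w⟫_ℂ := by
    filter_upwards [hev] with n hn
    have h1 : Wy (h n) (coh (((r n : ℝ) : ℂ) • e)) =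
        -(Wy (((r n : ℝ) : ℂ) • e) (coh (h n))) := by
      rw [hh, Wy_I_smul_coh _ _ he, mul_assoc, inv_mul_cancel₀ hn, mul_one]
      have h5 : (Complex.I * (2 * (Real.pi / 2 : ℝ) : ℂ)) = Real.pi * Complex.I := by
        push_cast
        ring
      rw [h5, Complex.exp_pi_mul_I, neg_one_smul]
    rw [← inner_Wy_Wy (h n), h1, inner_neg_left]
  -- the difference between the two expressions tends to zero
  have h3 : Tendsto (fun n => ⟪Wy (((r n : ℝ) : ℂ) • e) (coh (h n)), Wy (h n) w⟫_ℂ -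
      ⟪coh (((r n : ℝ) : ℂ) • e), w⟫_ℂ) atTop (𝓝 0) := by
    have ha : Tendsto (fun n => ‖coh (h n) - vac‖) atTop (𝓝 0) := by
      have := ((continuous_coh (K := K)).tendsto 0).comp hht
      exact tendsto_iff_norm_sub_tendsto_zero.mp this
    have hb : Tendsto (fun n => ‖Wy (h n) w - w‖) atTop (𝓝 0) := by
      have h4 : Tendsto (fun n => Wy (h n) w) atTop (𝓝 (Wy 0 w)) :=
        ((continuous_Wy_apply w).tendsto 0).comp hht
      rw [Wy_zero] at h4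
      exact tendsto_iff_norm_sub_tendsto_zero.mp h4
    have hc : Tendsto (fun n => ‖coh (h n) - vac‖ * ‖w‖ + ‖Wy (h n) w - w‖) atTop (𝓝 0) := by
      have := (ha.mul_const ‖w‖).add hb
      simpa using this
    refine squeeze_zero_norm (fun n => ?_) hc
    have h5 : ⟪Wy (((r n : ℝ) : ℂ) • e) (coh (h n)), Wy (h n) w⟫_ℂ -
        ⟪coh (((r n : ℝ) : ℂ) • e), w⟫_ℂ =
        ⟪Wy (((r n : ℝ) : ℂ) • e) (coh (h n) - vac), Wy (h n) w⟫_ℂ +
        ⟪coh (((r n : ℝ) : ℂ) • e), Wy (h n) w - w⟫_ℂ := by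
      rw [map_sub, inner_sub_left, inner_sub_right, Wy_vac]
      ring
    rw [h5]
    refine (norm_add_le _ _).trans (add_le_add ?_ ?_)
    · refine (norm_inner_le_norm _ _).trans ?_
      rw [norm_Wy_apply, norm_Wy_apply]
    · refine (norm_inner_le_norm _ _).trans ?_
      rw [norm_coh, one_mul]
  -- conclusion
  have h6 : Tendsto (fun n => ⟪coh (((r n : ℝ) : ℂ) • e), w⟫_ℂ) atTop (𝓝 (-(1/2 : ℂ) * 0)) := by
    refine (h3.const_mul (-(1/2 : ℂ))).congr' ?_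
    filter_upwards [key] with n hn
    linear_combination (-(1/2 : ℂ)) * hn
  rwa [mul_zero] at h6

/-- displacement by a small vector moves the vacuum by a small amount -/
lemma norm_coh_sub_vac_le (f : K) : ‖coh f - (vac : Fock K)‖ ≤ ‖f‖ := by
  have h1 : ‖coh f - (vac : Fock K)‖ ^ 2 ≤ ‖f‖ ^ 2 := by
    rw [@norm_sub_sq ℂ, norm_coh, norm_vac, vac, inner_coh, inner_zero_right, norm_zero]
    have h2 : (0 : ℂ) - ((‖f‖ ^ 2 / 2 : ℝ) : ℂ) - (((0 : ℝ) ^ 2 / 2 : ℝ) : ℂ) =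
        ((-(‖f‖ ^ 2 / 2) : ℝ) : ℂ) := by push_cast; ring
    rw [h2, ← Complex.ofReal_exp]
    have h3 := Real.add_one_le_exp (-(‖f‖ ^ 2 / 2))
    have h4 : RCLike.re (((Real.exp (-(‖f‖ ^ 2 / 2)) : ℝ) : ℂ)) = Real.exp (-(‖f‖ ^ 2 / 2)) :=
      Complex.ofReal_re _
    rw [h4]
    linarith
  exact (pow_le_pow_iff_left₀ (norm_nonneg _) (norm_nonneg _) two_ne_zero).mp h1

end Coh

end Crest.Agent.R339.Mark
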