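import Mathlib
import Crest.Agent.R339.Lab373A
import Crest.Agent.R339.Mark539A

/-!
# Marking: the new direction, the modified isometry, the marking word
-/

set_option autoImplicit false
set_option maxHeartbeats 400000

noncomputable section

open scoped ComplexConjugate InnerProductSpace Topology
open Filter Crest.MathPhysics.SpinGlass Crest.Agent.R339.Site Crest.Agent.R339.Lab

namespace Crest.Agent.R339.Mark

section Orth

variable {E : Type*} [NormedAddCommGroup E] [InnerProductSpace ℂ E]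

/-- normalised component of `x` orthogonal to `z` -/
def orthn (z x : E) : E := (((√(1 - ‖⟪z, x⟫_ℂ‖ ^ 2))⁻¹ : ℝ) : ℂ) • (x - ⟪z, x⟫_ℂ • z)

variable {z x : E}

lemma inner_orthn (hz : ‖z‖ = 1) : ⟪z, orthn z x⟫_ℂ = 0 := by
  rw [orthn, inner_smul_right, inner_sub_right, inner_smul_right, inner_self_eq_norm_sq_to_K, hz]
  simp

lemma inner_orthn' (hz : ‖z‖ = 1) : ⟪orthn z x, z⟫_ℂ = 0 :=
  inner_eq_zero_symm.mp (inner_orthn hz)

lemma norm_sub_sq_orthn (hz : ‖z‖ = 1) (hx : ‖x‖ = 1) :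
    ‖x - ⟪z, x⟫_ℂ • z‖ ^ 2 = 1 - ‖⟪z, x⟫_ℂ‖ ^ 2 := by
  have h1 : ⟪x - ⟪z, x⟫_ℂ • z, ⟪z, x⟫_ℂ • z⟫_ℂ = 0 := by
    rw [inner_smul_right, inner_sub_left, inner_smul_left, inner_self_eq_norm_sq_to_K, hz,
      inner_conj_symm]
    simp
  have h2 := norm_add_sq_eq_norm_sq_add_norm_sq_of_inner_eq_zero _ _ h1
  rw [sub_add_cancel, norm_smul, hz, hx] at h2
  linarith

lemma norm_orthn (hz : ‖z‖ = 1) (hx : ‖x‖ = 1) (hc : ‖⟪z, x⟫_ℂ‖ < 1) : ‖orthn z x‖ = 1 := by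
  have h0 : 0 < 1 - ‖⟪z, x⟫_ℂ‖ ^ 2 := by
    have := norm_nonneg ⟪z, x⟫_ℂ
    nlinarith
  have h1 := norm_sub_sq_orthn hz hx
  have h2 : ‖x - ⟪z, x⟫_ℂ • z‖ = √(1 - ‖⟪z, x⟫_ℂ‖ ^ 2) := by
    rw [← h1, Real.sqrt_sq (norm_nonneg _)]
  rw [orthn, norm_smul, h2, Complex.norm_real, Real.norm_eq_abs, abs_inv,
    abs_of_nonneg (Real.sqrt_nonneg _)]
  exact inv_mul_cancel₀ (Real.sqrt_pos.mpr h0).ne'

lemma decomp_orthn (hc : ‖⟪z, x⟫_ℂ‖ < 1) :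
    x = ⟪z, x⟫_ℂ • z + ((√(1 - ‖⟪z, x⟫_ℂ‖ ^ 2) : ℝ) : ℂ) • orthn z x := by
  have h0 : 0 < 1 - ‖⟪z, x⟫_ℂ‖ ^ 2 := by
    have := norm_nonneg ⟪z, x⟫_ℂ
    nlinarith
  have h1 := (Real.sqrt_pos.mpr h0).ne'
  rw [orthn, smul_smul, ← Complex.ofReal_mul, mul_inv_cancel₀ h1, Complex.ofReal_one, one_smul]
  abel

lemma inner_orthn_left (v : E) : ⟪orthn z x, v⟫_ℂ =
    (((√(1 - ‖⟪z, x⟫_ℂ‖ ^ 2))⁻¹ : ℝ) : ℂ) * (⟪x, v⟫_ℂ - conj ⟪z, x⟫_ℂ * ⟪z, v⟫_ℂ) := by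
  rw [orthn, inner_smul_left, inner_sub_left, inner_smul_left, Complex.conj_ofReal]

end Orth

variable {K : Type*} [NormedAddCommGroup K] [InnerProductSpace ℂ K]

lemma Om_apply (b : Bool) : (Om : Sp K) b = (((1 : ℝ) / Real.sqrt 2 : ℝ) : ℂ) • vac := rfl

lemma Xop_Om : Xop (Om : Sp K) = Om := by
  ext b
  rw [Xop_apply]
  rfl

lemma Ez_Om_apply (u : K) (b : Bool) : ((Ez u : USp K) : Sp K →L[ℂ] Sp K) Om b =
    (((1 : ℝ) / Real.sqrt 2 : ℝ) : ℂ) • coh (((spinSign b : ℝ) : ℂ) • u) := by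
  rw [Ez_apply, Om_apply, map_smul, Wy_vac]

lemma half_sq : ((((1 : ℝ) / Real.sqrt 2 : ℝ) : ℂ)) * ((((1 : ℝ) / Real.sqrt 2 : ℝ) : ℂ)) = 1 / 2 := by
  rw [← Complex.ofReal_mul]
  have : (1 : ℝ) / Real.sqrt 2 * (1 / Real.sqrt 2) = 1 / 2 := by
    rw [div_mul_div_comm, one_mul, Real.mul_self_sqrt (by norm_num)]
  rw [this]
  push_cast
  rfl

lemma norm_sign_smul (b : Bool) (u : K) : ‖((spinSign b : ℝ) : ℂ) • u‖ = ‖u‖ := by
  rw [norm_smul, Complex.norm_real, Real.norm_eq_abs]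
  have : |spinSign b| = 1 := by cases b <;> simp [spinSign]
  rw [this, one_mul]

lemma inner_Om_Ez (u : K) : ⟪(Om : Sp K), ((Ez u : USp K) : Sp K →L[ℂ] Sp K) Om⟫_ℂ =
    Complex.exp (-((‖u‖ ^ 2 / 2 : ℝ) : ℂ)) := by
  rw [PiLp.inner_apply]
  have h : ∀ b : Bool, ⟪(Om : Sp K) b, ((Ez u : USp K) : Sp K →L[ℂ] Sp K) Om b⟫_ℂ =
      1 / 2 * Complex.exp (-((‖u‖ ^ 2 / 2 : ℝ) : ℂ)) := by
    intro b
    rw [Ez_Om_apply, Om_apply, inner_smul_left, inner_smul_right, ← Wy_vac, inner_vac_Wy,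
      norm_sign_smul, Complex.conj_ofReal, ← mul_assoc, half_sq]
  simp only [h, Fintype.sum_bool]
  ring

/-- the new direction `Y exp (2 i g Z φ(e)) Ω` -/
def xi (e : K) (g : ℝ) : Sp K :=
  (-Complex.I) • Zop (Xop (((Ez (((2 * g : ℝ) : ℂ) • e) : USp K) : Sp K →L[ℂ] Sp K) Om))

lemma norm_xi (e : K) (g : ℝ) : ‖xi e g‖ = 1 := by
  rw [xi, norm_smul, norm_neg, Complex.norm_I, norm_Zop_apply, norm_Xop_apply, norm_U_apply,
    norm_Om, one_mul]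

lemma inner_ZOm_xi {e : K} (he : ‖e‖ = 1) (g : ℝ) :
    ⟪Zop (Om : Sp K), xi e g⟫_ℂ = -Complex.I * Complex.exp (-((2 * g ^ 2 : ℝ) : ℂ)) := by
  rw [xi, inner_smul_right, inner_Zop_left, Zop_Zop, ← inner_Xop_left, Xop_Om, inner_Om_Ez,
    norm_smul, Complex.norm_real, he, mul_one, Real.norm_eq_abs, sq_abs]
  congr 3
  ring_nf

lemma norm_inner_ZOm_xi {e : K} (he : ‖e‖ = 1) (g : ℝ) :
    ‖⟪Zop (Om : Sp K), xi e g⟫_ℂ‖ = Real.exp (-(2 * g ^ 2)) := by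
  rw [inner_ZOm_xi he, norm_mul, norm_neg, Complex.norm_I, one_mul, ← Complex.ofReal_neg,
    ← Complex.ofReal_exp, Complex.norm_real, Real.norm_eq_abs, Real.abs_exp]

lemma norm_inner_ZOm_xi_lt {e : K} (he : ‖e‖ = 1) {g : ℝ} (hg : g ≠ 0) :
    ‖⟪Zop (Om : Sp K), xi e g⟫_ℂ‖ < 1 := by
  rw [norm_inner_ZOm_xi he]
  have h1 := sq_pos_of_ne_zero hg
  rw [Real.exp_lt_one_iff]
  linarith

lemma norm_ZOm : ‖Zop (Om : Sp K)‖ = 1 := by rw [norm_Zop_apply, norm_Om]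

/-- the new direction tends weakly to zero -/
lemma tendsto_inner_xi {g : ℕ → ℝ} (hg : Tendsto (fun n => |g n|) atTop atTop) {e : K}
    (he : ‖e‖ = 1) (v : Sp K) : Tendsto (fun n => ⟪xi e (g n), v⟫_ℂ) atTop (𝓝 0) := by
  have hc : ∀ b : Bool, Tendsto (fun n => ⟪xi e (g n) b, v b⟫_ℂ) atTop (𝓝 0) := by
    intro b
    have h1 : Tendsto (fun n => |spinSign (!b) * (2 * g n)|) atTop atTop := by
      have h2 : Tendsto (fun n => 2 * |g n|) atTop atTop := hg.const_mul_atTop (by norm_num)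
      refine h2.congr fun n => ?_
      rw [abs_mul, abs_mul, abs_two]
      have : |spinSign (!b)| = 1 := by cases b <;> simp [spinSign]
      rw [this, one_mul]
    have h2 := tendsto_inner_coh_smul h1 he (v b)
    have h3 := h2.const_mul (conj ((-Complex.I) * (((spinSign b : ℝ) : ℂ) *
      (((1 : ℝ) / Real.sqrt 2 : ℝ) : ℂ))))
    rw [mul_zero] at h3
    refine h3.congr fun n => ?_
    have h4 : xi e (g n) b = ((-Complex.I) * (((spinSign b : ℝ) : ℂ) *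
        (((1 : ℝ) / Real.sqrt 2 : ℝ) : ℂ))) • coh (((spinSign (!b) * (2 * g n) : ℝ) : ℂ) • e) := by
      have h6 : ((spinSign (!b) : ℝ) : ℂ) • (((2 * g n : ℝ) : ℂ) • e) =
          ((spinSign (!b) * (2 * g n) : ℝ) : ℂ) • e := by
        rw [smul_smul, ← Complex.ofReal_mul]
      rw [xi, PiLp.smul_apply, Zop_apply, Xop_apply, Ez_Om_apply, h6, smul_smul, smul_smul]
      congr 1
      ring
    rw [h4, inner_smul_left]
  have h5 := (hc true).add (hc false)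
  rw [add_zero] at h5
  refine h5.congr fun n => ?_
  rw [PiLp.inner_apply, Fintype.sum_bool]

section Isometry

variable (ι : Sp K →ₗᵢ[ℂ] K) {s : K} (hs : ‖s‖ = 1) (hsi : ∀ v, ⟪s, ι v⟫_ℂ = 0)

/-- the site vector of the identity -/
def e0 : K := ι (Zop Om)

lemma norm_e0 : ‖e0 ι‖ = 1 := by rw [e0, LinearIsometry.norm_map, norm_ZOm]

/-- the normalised new direction -/
def xi' (g : ℝ) : Sp K := orthn (Zop Om) (xi (e0 ι) g)

lemma norm_xi' {g : ℝ} (hg : g ≠ 0) : ‖xi' ι g‖ = 1 :=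
  norm_orthn norm_ZOm (norm_xi _ _) (norm_inner_ZOm_xi_lt (norm_e0 ι) hg)

/-- the modified isometry -/
def iM {g : ℝ} (hg : g ≠ 0) : Sp K →ₗᵢ[ℂ] K := modI ι s (xi' ι g) hs hsi (norm_xi' ι hg)

lemma iM_ZOm {g : ℝ} (hg : g ≠ 0) : iM ι hs hsi hg (Zop Om) = e0 ι :=
  modI_of_orth _ _ _ _ _ _ (inner_orthn' norm_ZOm)

lemma iM_xi {g : ℝ} (hg : g ≠ 0) : iM ι hs hsi hg (xi (e0 ι) g) =
    (-Complex.I * Complex.exp (-((2 * g ^ 2 : ℝ) : ℂ))) • e0 ι +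
      ((√(1 - Real.exp (-(2 * g ^ 2)) ^ 2) : ℝ) : ℂ) • s := by
  have h := decomp_orthn (norm_inner_ZOm_xi_lt (norm_e0 ι) hg)
  rw [norm_inner_ZOm_xi (norm_e0 ι), inner_ZOm_xi (norm_e0 ι)] at h
  conv_lhs => rw [h]
  rw [map_add, map_smul, map_smul, iM_ZOm]
  congr 2
  exact modI_self ι s (xi' ι g) hs hsi (norm_xi' ι hg)

lemma tendsto_exp_neg_sq {g : ℕ → ℝ} (hg : Tendsto (fun n => |g n|) atTop atTop) :
    Tendsto (fun n => Real.exp (-(2 * g n ^ 2))) atTop (𝓝 0) := by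
  refine Real.tendsto_exp_atBot.comp (tendsto_neg_atTop_atBot.comp ?_)
  have h1 : Tendsto (fun n => 2 * |g n| ^ 2) atTop atTop :=
    ((tendsto_pow_atTop two_ne_zero).comp hg).const_mul_atTop (by norm_num)
  exact h1.congr fun n => by rw [sq_abs]

lemma tendsto_iM_xi {g : ℕ → ℝ} (hg : Tendsto (fun n => |g n|) atTop atTop)
    (hg0 : ∀ n, g n ≠ 0) :
    Tendsto (fun n => iM ι hs hsi (hg0 n) (xi (e0 ι) (g n))) atTop (𝓝 s) := by
  have h1 := tendsto_exp_neg_sq hg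
  have h2 : Tendsto (fun n => (-Complex.I * Complex.exp (-((2 * g n ^ 2 : ℝ) : ℂ)))) atTop
      (𝓝 (-Complex.I * ((0 : ℝ) : ℂ))) := by
    have h3 := ((Complex.continuous_ofReal.tendsto _).comp h1).const_mul (-Complex.I)
    refine h3.congr fun n => ?_
    simp
  have h3 : Tendsto (fun n => ((√(1 - Real.exp (-(2 * g n ^ 2)) ^ 2) : ℝ) : ℂ)) atTop
      (𝓝 ((√(1 - (0 : ℝ) ^ 2) : ℝ) : ℂ)) :=
    (Complex.continuous_ofReal.tendsto _).comp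
      ((Real.continuous_sqrt.tendsto _).comp ((h1.pow 2).const_sub 1))
  have h4 := (h2.smul_const (e0 ι)).add (h3.smul_const s)
  have h5 : (-Complex.I * ((0 : ℝ) : ℂ)) • e0 ι + ((√(1 - (0 : ℝ) ^ 2) : ℝ) : ℂ) • s = s := by
    simp
  rw [h5] at h4
  refine h4.congr fun n => ?_
  rw [iM_xi]

lemma tendsto_iM {g : ℕ → ℝ} (hg : Tendsto (fun n => |g n|) atTop atTop)
    (hg0 : ∀ n, g n ≠ 0) (v : Sp K) :
    Tendsto (fun n => iM ι hs hsi (hg0 n) v) atTop (𝓝 (ι v)) := by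
  rw [tendsto_iff_norm_sub_tendsto_zero]
  have h0 : Tendsto (fun n => ⟪xi' ι (g n), v⟫_ℂ) atTop (𝓝 0) := by
    have h1 := tendsto_exp_neg_sq hg
    have h2 := tendsto_inner_xi hg (norm_e0 ι) v
    have h3 : Tendsto (fun n => (((√(1 - Real.exp (-(2 * g n ^ 2)) ^ 2))⁻¹ : ℝ) : ℂ)) atTop
        (𝓝 (((√(1 - (0 : ℝ) ^ 2))⁻¹ : ℝ) : ℂ)) := by
      refine (Complex.continuous_ofReal.tendsto _).comp (Tendsto.inv₀
        ((Real.continuous_sqrt.tendsto _).comp ((h1.pow 2).const_sub 1)) ?_)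
      simp
    have h4 : Tendsto (fun n => conj ⟪Zop (Om : Sp K), xi (e0 ι) (g n)⟫_ℂ) atTop (𝓝 0) := by
      rw [tendsto_zero_iff_norm_tendsto_zero]
      refine h1.congr fun n => ?_
      rw [RCLike.norm_conj, norm_inner_ZOm_xi (norm_e0 ι)]
    have h5 := h3.mul (h2.sub (h4.mul_const ⟪Zop (Om : Sp K), v⟫_ℂ))
    rw [zero_mul, sub_zero, mul_zero] at h5
    refine h5.congr fun n => ?_
    rw [xi', inner_orthn_left, norm_inner_ZOm_xi (norm_e0 ι)]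
  have h1 : Tendsto (fun n => 2 * ‖⟪xi' ι (g n), v⟫_ℂ‖) atTop (𝓝 0) := by
    have := (tendsto_zero_iff_norm_tendsto_zero.mp h0).const_mul 2
    rwa [mul_zero] at this
  exact squeeze_zero (fun n => norm_nonneg _) (fun n => norm_modI_sub_le _ _ _ _ _ _ v) h1

end Isometry

end Crest.Agent.R339.Mark
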