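import Mathlib
import Crest.Agent.R339.Mark539B
import Crest.Agent.R339.Heavy682E

/-!
# Marking: the word, its light and heavy parts
-/

set_option autoImplicit false
set_option maxHeartbeats 400000

noncomputable section

open scoped ComplexConjugate InnerProductSpace Topology
open Filter Crest.MathPhysics.SpinGlass Crest.Agent.R339.Site Crest.Agent.R339.Lab

namespace Crest.Agent.R339.Mark

variable {K : Type*} [NormedAddCommGroup K] [InnerProductSpace ℂ K]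

/-! ### Algebra at a fixed `ε` -/

section Algebra

/-- the marking word -/
def mw (g ε : ℝ) : List (ℝ × ℝ) := [(-g, ε), (g, 0)]

variable (j : Sp K →ₗᵢ[ℂ] K) (g ε : ℝ)

/-- current vector after the mixer -/
def f2 : K := j (eVec (mixU ε * Ez ((g : ℂ) • j (Zop Om))))

/-- light part of the marking word -/
def Lc : USp K := Ez ((-(g : ℂ)) • f2 j g ε) * Ez ((g : ℂ) • j (Zop Om))

/-- heavy part of the marking word -/
def Hc : Sp K →L[ℂ] Sp K := ((Ez ((-(g : ℂ)) • f2 j g ε) : USp K) : Sp K →L[ℂ] Sp K) * Xop *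
  ((Ez ((g : ℂ) • j (Zop Om)) : USp K) : Sp K →L[ℂ] Sp K)

/-- the marking unitary -/
def Mu : USp K := Ez ((-(g : ℂ)) • f2 j g ε) * mixU ε * Ez ((g : ℂ) • j (Zop Om))

lemma eVec_one : eVec (1 : USp K) = Zop Om := by
  show star ((1 : USp K) : Sp K →L[ℂ] Sp K) (Zop (((1 : USp K) : Sp K →L[ℂ] Sp K) Om)) = _
  rw [OneMemClass.coe_one, star_one]
  rfl

lemma wordU_mw : wordU j (mw g ε) = Mu j g ε := by
  rw [wordU, mw, List.foldl_cons, List.foldl_cons, List.foldl_nil]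
  simp only [moveB, moveC, mixU_zero, one_mul, mul_one, eVec_one, costU_eq_Ez, Complex.ofReal_neg,
    neg_neg]
  rw [Mu, f2, mul_assoc]

lemma Lc_apply (v : Sp K) : (Lc j g ε : Sp K →L[ℂ] Sp K) v =
    ((Ez ((-(g : ℂ)) • f2 j g ε) : USp K) : Sp K →L[ℂ] Sp K)
      (((Ez ((g : ℂ) • j (Zop Om)) : USp K) : Sp K →L[ℂ] Sp K) v) := rfl

lemma Hc_apply (v : Sp K) : Hc j g ε v =
    ((Ez ((-(g : ℂ)) • f2 j g ε) : USp K) : Sp K →L[ℂ] Sp K)
      (Xop (((Ez ((g : ℂ) • j (Zop Om)) : USp K) : Sp K →L[ℂ] Sp K) v)) := rfl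

lemma Mu_apply (v : Sp K) : (Mu j g ε : Sp K →L[ℂ] Sp K) v =
    ((Ez ((-(g : ℂ)) • f2 j g ε) : USp K) : Sp K →L[ℂ] Sp K)
      (((mixU ε : USp K) : Sp K →L[ℂ] Sp K)
      (((Ez ((g : ℂ) • j (Zop Om)) : USp K) : Sp K →L[ℂ] Sp K) v)) := rfl

/-- the decomposition into light and heavy part -/
lemma Mu_eq (v : Sp K) : (Mu j g ε : Sp K →L[ℂ] Sp K) v =
    ((Real.cos ε : ℝ) : ℂ) • (Lc j g ε : Sp K →L[ℂ] Sp K) v -
      (Complex.I * ((Real.sin ε : ℝ) : ℂ)) • Hc j g ε v := by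
  rw [Mu_apply, mixU_eq, map_sub, map_smul, map_smul, Lc_apply, Hc_apply]

lemma norm_Hc_apply (v : Sp K) : ‖Hc j g ε v‖ = ‖v‖ := by
  rw [Hc_apply, norm_U_apply, norm_Xop_apply, norm_U_apply]

lemma Ez_double (u v : K) (w : Sp K) (h : u = v) : ((Ez u : USp K) : Sp K →L[ℂ] Sp K)
    (((Ez v : USp K) : Sp K →L[ℂ] Sp K) w) = ((Ez ((2 : ℂ) • u) : USp K) : Sp K →L[ℂ] Sp K) w := by
  subst h
  have him : (⟪u, u⟫_ℂ).im = 0 := inner_self_im (𝕜 := ℂ) u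
  rw [Ez_Ez, him, two_smul]
  simp

lemma Xop_Ez' (f : K) (v : Sp K) : ((Ez (-f) : USp K) : Sp K →L[ℂ] Sp K) (Xop v) =
    Xop (((Ez f : USp K) : Sp K →L[ℂ] Sp K) v) := (Xop_Ez f v).symm

/-- `Ez(-u) X Ez(u) Ω = X Ez(2u) Ω` -/
lemma Ez_X_Ez (u : K) (v : Sp K) : ((Ez (-u) : USp K) : Sp K →L[ℂ] Sp K)
    (Xop (((Ez u : USp K) : Sp K →L[ℂ] Sp K) v)) =
    Xop (((Ez ((2 : ℂ) • u) : USp K) : Sp K →L[ℂ] Sp K) v) := by
  rw [Xop_Ez', Ez_double u u v rfl]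

lemma ZX_eq_xi (e : K) : Zop (Xop (((Ez ((2 : ℂ) • ((g : ℂ) • e)) : USp K) : Sp K →L[ℂ] Sp K) Om)) =
    Complex.I • xi e g := by
  have h : (2 : ℂ) • ((g : ℂ) • e) = ((2 * g : ℝ) : ℂ) • e := by
    rw [smul_smul]
    push_cast
    rfl
  rw [xi, h, smul_smul]
  simp

lemma eVec_mix_Ez : eVec (mixU ε * Ez ((g : ℂ) • j (Zop Om))) =
    ((Real.cos (2 * ε) : ℝ) : ℂ) • Zop Om + ((Real.sin (2 * ε) : ℝ) : ℂ) • xi (j (Zop Om)) g := by
  set u : K := (g : ℂ) • j (Zop Om) with hu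
  have h1 : eVec (mixU ε * Ez u) = ((Ez (-u) : USp K) : Sp K →L[ℂ] Sp K)
      (Zb ε (((Ez u : USp K) : Sp K →L[ℂ] Sp K) Om)) := by
    show star (((mixU ε * Ez u : USp K)) : Sp K →L[ℂ] Sp K)
      (Zop (((mixU ε * Ez u : USp K) : Sp K →L[ℂ] Sp K) Om)) = _
    have h2 : star (((mixU ε * Ez u : USp K)) : Sp K →L[ℂ] Sp K) =
        ((Ez (-u) : USp K) : Sp K →L[ℂ] Sp K) * ((mixU (-ε) : USp K) : Sp K →L[ℂ] Sp K) := by
      rw [← star_Ez_coe, ← star_mixU_coe, ← star_mul]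
      rfl
    rw [h2]
    rfl
  rw [h1, Zb_eq, mixU_eq, map_sub, map_smul, map_smul, Real.cos_neg, Real.sin_neg, ← Zop_Ez,
    Ez_neg_Ez]
  have h3 : Xop (Zop (((Ez u : USp K) : Sp K →L[ℂ] Sp K) Om)) =
      -Zop (Xop (((Ez u : USp K) : Sp K →L[ℂ] Sp K) Om)) := by
    rw [Zop_Xop, neg_neg]
  rw [h3, map_neg, ← Zop_Ez, Ez_X_Ez, hu, ZX_eq_xi, Complex.ofReal_neg]
  simp only [smul_neg, sub_eq_add_neg, neg_neg, mul_neg, smul_smul]
  congr 2
  linear_combination (-(Real.sin (2 * ε) : ℂ)) * Complex.I_mul_I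

lemma f2_eq : f2 j g ε = ((Real.cos (2 * ε) : ℝ) : ℂ) • j (Zop Om) +
    ((Real.sin (2 * ε) : ℝ) : ℂ) • j (xi (j (Zop Om)) g) := by
  rw [f2, eVec_mix_Ez, map_add, map_smul, map_smul]

/-- the light displacement -/
def ul : K := (-(g : ℂ)) • f2 j g ε + (g : ℂ) • j (Zop Om)

/-- the unit phase of the light part -/
def cl : ℂ := Complex.exp (Complex.I *
  ((⟪(-(g : ℂ)) • f2 j g ε, (g : ℂ) • j (Zop Om)⟫_ℂ).im : ℂ))

lemma norm_cl : ‖cl j g ε‖ = 1 := norm_cexp_I_mul _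

lemma cl_smul_Lc (v : Sp K) : cl j g ε • (Lc j g ε : Sp K →L[ℂ] Sp K) v =
    ((Ez (ul j g ε) : USp K) : Sp K →L[ℂ] Sp K) v := by
  rw [Lc_apply, Ez_Ez, smul_smul, cl, ← Complex.exp_add, ul]
  simp

/-- the unit phase of the heavy part -/
def ch : ℂ := Complex.exp (-(Complex.I *
  ((⟪(-(g : ℂ)) • f2 j g ε, -((g : ℂ) • j (Zop Om))⟫_ℂ).im : ℂ)))

lemma norm_ch : ‖ch j g ε‖ = 1 := by
  rw [ch, ← mul_neg, ← Complex.ofReal_neg]
  exact norm_cexp_I_mul _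

lemma Hc_Om : Hc j g ε Om = ch j g ε • ((Ez ((-(g : ℂ)) • f2 j g ε + -((g : ℂ) • j (Zop Om))) :
    USp K) : Sp K →L[ℂ] Sp K) Om := by
  rw [Hc_apply, Xop_Ez, Xop_Om, Ez_Ez, ch]

/-- `M* Z Hc Ω` up to a small error -/
lemma norm_star_Mu_sub_le : ‖star (Mu j g ε : Sp K →L[ℂ] Sp K) (Zop (Hc j g ε Om)) -
    Complex.I • xi (j (Zop Om)) g‖ ≤ |Real.cos ε - 1| + |Real.sin ε| := by
  set u : K := (g : ℂ) • j (Zop Om) with hu
  set f : K := (-(g : ℂ)) • f2 j g ε with hf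
  set w : Sp K := ((Ez (-f) : USp K) : Sp K →L[ℂ] Sp K) (Zop (Hc j g ε Om)) with hw
  have h1 : star (Mu j g ε : Sp K →L[ℂ] Sp K) (Zop (Hc j g ε Om)) =
      ((Ez (-u) : USp K) : Sp K →L[ℂ] Sp K) (((mixU (-ε) : USp K) : Sp K →L[ℂ] Sp K) w) := by
    have h2 : star (Mu j g ε : Sp K →L[ℂ] Sp K) = ((Ez (-u) : USp K) : Sp K →L[ℂ] Sp K) *
        (((mixU (-ε) : USp K) : Sp K →L[ℂ] Sp K) * ((Ez (-f) : USp K) : Sp K →L[ℂ] Sp K)) := by
      rw [← star_Ez_coe, ← star_mixU_coe, ← star_Ez_coe, ← star_mul, ← star_mul]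
      rfl
    rw [h2]
    rfl
  have h3 : ((Ez (-u) : USp K) : Sp K →L[ℂ] Sp K) w = Complex.I • xi (j (Zop Om)) g := by
    rw [hw, Hc_apply, Zop_Ez, Ez_neg_Ez, ← Zop_Ez, Ez_X_Ez, hu, ZX_eq_xi]
  have hwn : ‖w‖ = 1 := by
    rw [hw, norm_U_apply, norm_Zop_apply, norm_Hc_apply, norm_Om]
  rw [h1, ← h3, ← map_sub, norm_U_apply, mixU_eq, Real.cos_neg, Real.sin_neg]
  have h4 : ((Real.cos ε : ℝ) : ℂ) • w - (Complex.I * ((-Real.sin ε : ℝ) : ℂ)) • Xop w - w =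
      ((Real.cos ε - 1 : ℝ) : ℂ) • w + (Complex.I * ((Real.sin ε : ℝ) : ℂ)) • Xop w := by
    push_cast
    module
  rw [h4]
  refine (norm_add_le _ _).trans (le_of_eq ?_)
  rw [norm_smul, norm_smul, norm_mul, norm_Xop_apply, hwn, Complex.norm_real, Complex.norm_real,
    Complex.norm_I, Real.norm_eq_abs, Real.norm_eq_abs, mul_one, mul_one, one_mul]

end Algebra

/-! ### Limits -/

section Limits

variable (ι : Sp K →ₗᵢ[ℂ] K) {s : K} (hs : ‖s‖ = 1) (hsi : ∀ v, ⟪s, ι v⟫_ℂ = 0)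

/-- the amplification of the marking -/
def gm (α0 ε : ℝ) : ℝ := -(α0 / (2 * ε))

lemma gm_ne {α0 ε : ℝ} (hα : α0 ≠ 0) (hε : 0 < ε) : gm α0 ε ≠ 0 :=
  neg_ne_zero.mpr (div_ne_zero hα (by positivity))

lemma tendsto_abs_gm {α0 : ℝ} (hα : α0 ≠ 0) {ε : ℕ → ℝ} (hε : ∀ n, 0 < ε n)
    (hε0 : Tendsto ε atTop (𝓝 0)) : Tendsto (fun n => |gm α0 (ε n)|) atTop atTop := by
  have h1 : Tendsto (fun n => (ε n)⁻¹) atTop atTop :=
    Tendsto.inv_tendsto_nhdsGT_zero (tendsto_nhdsWithin_iff.mpr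
      ⟨hε0, Eventually.of_forall fun n => hε n⟩)
  have h2 : Tendsto (fun n => |α0| / 2 * (ε n)⁻¹) atTop atTop :=
    h1.const_mul_atTop (by positivity)
  refine h2.congr fun n => ?_
  rw [gm, abs_neg, abs_div, abs_mul, abs_two, abs_of_pos (hε n)]
  have := (hε n).ne'
  field_simp

variable {α0 : ℝ} (hα : α0 ≠ 0) {ε : ℕ → ℝ} (hε : ∀ n, 0 < ε n) (hε0 : Tendsto ε atTop (𝓝 0))

/-- the sequence of modified isometries -/
def jn (n : ℕ) : Sp K →ₗᵢ[ℂ] K := iM ι hs hsi (gm_ne hα (hε n))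

lemma jn_ZOm (n : ℕ) : jn ι hs hsi hα hε n (Zop Om) = e0 ι := iM_ZOm _ _ _ _

include hε0 in
lemma tendsto_jn (v : Sp K) : Tendsto (fun n => jn ι hs hsi hα hε n v) atTop (𝓝 (ι v)) :=
  tendsto_iM ι hs hsi (tendsto_abs_gm hα hε hε0) (fun n => gm_ne hα (hε n)) v

/-- joint convergence -/
lemma tendsto_jn' {v : ℕ → Sp K} {v₀ : Sp K} (hε0 : Tendsto ε atTop (𝓝 0))
    (hv : Tendsto v atTop (𝓝 v₀)) :
    Tendsto (fun n => jn ι hs hsi hα hε n (v n)) atTop (𝓝 (ι v₀)) := by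
  have h1 := tendsto_jn ι hs hsi hα hε hε0 v₀
  have h2 : Tendsto (fun n => jn ι hs hsi hα hε n (v n) - jn ι hs hsi hα hε n v₀) atTop (𝓝 0) := by
    rw [tendsto_zero_iff_norm_tendsto_zero]
    refine (tendsto_iff_norm_sub_tendsto_zero.mp hv).congr fun n => ?_
    rw [← map_sub, LinearIsometry.norm_map]
  simpa using h2.add h1

include hε0 in
lemma tendsto_jn_xi : Tendsto (fun n => jn ι hs hsi hα hε n (xi (e0 ι) (gm α0 (ε n)))) atTop
    (𝓝 s) :=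
  tendsto_iM_xi ι hs hsi (tendsto_abs_gm hα hε hε0) (fun n => gm_ne hα (hε n))

lemma tendsto_cos_sub_one_div {ε : ℕ → ℝ} (hε : ∀ n, 0 < ε n) (hε0 : Tendsto ε atTop (𝓝 0)) :
    Tendsto (fun n => (Real.cos (2 * ε n) - 1) / (2 * ε n)) atTop (𝓝 0) := by
  have h1 : HasDerivAt Real.cos (-Real.sin 0) 0 := Real.hasDerivAt_cos 0
  have h2 := h1.tendsto_slope_zero
  have h3 : Tendsto (fun n => 2 * ε n) atTop (𝓝[≠] 0) := by
    rw [tendsto_nhdsWithin_iff]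
    refine ⟨by simpa using hε0.const_mul 2, Eventually.of_forall fun n => ?_⟩
    have := hε n
    show 2 * ε n ≠ 0
    positivity
  have h4 := h2.comp h3
  rw [Real.sin_zero, neg_zero] at h4
  refine h4.congr fun n => ?_
  show (2 * ε n)⁻¹ • (Real.cos (0 + 2 * ε n) - Real.cos 0) = _
  rw [zero_add, Real.cos_zero, smul_eq_mul, inv_mul_eq_div]

lemma tendsto_sin_div {ε : ℕ → ℝ} (hε : ∀ n, 0 < ε n) (hε0 : Tendsto ε atTop (𝓝 0)) :
    Tendsto (fun n => Real.sin (2 * ε n) / (2 * ε n)) atTop (𝓝 1) := by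
  have h1 : HasDerivAt Real.sin (Real.cos 0) 0 := Real.hasDerivAt_sin 0
  have h2 := h1.tendsto_slope_zero
  have h3 : Tendsto (fun n => 2 * ε n) atTop (𝓝[≠] 0) := by
    rw [tendsto_nhdsWithin_iff]
    refine ⟨by simpa using hε0.const_mul 2, Eventually.of_forall fun n => ?_⟩
    have := hε n
    show 2 * ε n ≠ 0
    positivity
  have h4 := h2.comp h3
  rw [Real.cos_zero] at h4
  refine h4.congr fun n => ?_
  show (2 * ε n)⁻¹ • (Real.sin (0 + 2 * ε n) - Real.sin 0) = _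
  rw [zero_add, Real.sin_zero, sub_zero, smul_eq_mul, inv_mul_eq_div]

include hε0 in
/-- `f2 → e0` -/
lemma tendsto_f2 : Tendsto (fun n => f2 (jn ι hs hsi hα hε n) (gm α0 (ε n)) (ε n)) atTop
    (𝓝 (e0 ι)) := by
  have h1 := tendsto_jn_xi ι hs hsi hα hε hε0
  have h2 : Tendsto (fun n => ((Real.cos (2 * ε n) : ℝ) : ℂ)) atTop (𝓝 ((Real.cos (2 * 0) : ℝ) : ℂ)) :=
    (Complex.continuous_ofReal.tendsto _).comp ((Real.continuous_cos.tendsto _).comp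
      (hε0.const_mul 2))
  have h3 : Tendsto (fun n => ((Real.sin (2 * ε n) : ℝ) : ℂ)) atTop (𝓝 ((Real.sin (2 * 0) : ℝ) : ℂ)) :=
    (Complex.continuous_ofReal.tendsto _).comp ((Real.continuous_sin.tendsto _).comp
      (hε0.const_mul 2))
  have h4 := (h2.smul_const (e0 ι)).add (h3.smul h1)
  have h5 : ((Real.cos (2 * 0) : ℝ) : ℂ) • e0 ι + ((Real.sin (2 * 0) : ℝ) : ℂ) • s = e0 ι := by
    simp
  rw [h5] at h4
  refine h4.congr fun n => ?_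
  rw [f2_eq, jn_ZOm]

include hε0 in
/-- the light displacement tends to `α0 s` -/
lemma tendsto_ul : Tendsto (fun n => ul (jn ι hs hsi hα hε n) (gm α0 (ε n)) (ε n)) atTop
    (𝓝 ((α0 : ℂ) • s)) := by
  have h1 := tendsto_jn_xi ι hs hsi hα hε hε0
  have h2 : Tendsto (fun n => ((α0 * ((Real.cos (2 * ε n) - 1) / (2 * ε n)) : ℝ) : ℂ)) atTop
      (𝓝 ((α0 * 0 : ℝ) : ℂ)) :=
    (Complex.continuous_ofReal.tendsto _).comp ((tendsto_cos_sub_one_div hε hε0).const_mul α0)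
  have h3 : Tendsto (fun n => ((α0 * (Real.sin (2 * ε n) / (2 * ε n)) : ℝ) : ℂ)) atTop
      (𝓝 ((α0 * 1 : ℝ) : ℂ)) :=
    (Complex.continuous_ofReal.tendsto _).comp ((tendsto_sin_div hε hε0).const_mul α0)
  have h4 := (h2.smul_const (e0 ι)).add (h3.smul h1)
  have h5 : ((α0 * 0 : ℝ) : ℂ) • e0 ι + ((α0 * 1 : ℝ) : ℂ) • s = (α0 : ℂ) • s := by
    simp
  rw [h5] at h4
  refine h4.congr fun n => ?_
  rw [ul, f2_eq, jn_ZOm]
  have hne : ((ε n : ℝ) : ℂ) ≠ 0 := by exact_mod_cast (hε n).ne'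
  rw [gm]
  push_cast
  rw [neg_neg, smul_add, smul_smul, smul_smul, add_right_comm, ← add_smul]
  congr 2
  · ring
  · ring

include hε0 in
/-- the light part tends strongly to the label gate -/
lemma STends_light : STends (fun n => (Ez (ul (jn ι hs hsi hα hε n) (gm α0 (ε n)) (ε n)) : USp K))
    atTop (Ez ((α0 : ℂ) • s)) :=
  STends_costU _ _ tendsto_const_nhds (tendsto_ul ι hs hsi hα hε hε0)

include hε0 in
/-- `M* Z Hc Ω - i ξ → 0` -/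
lemma tendsto_star_Mu : Tendsto (fun n =>
    star (Mu (jn ι hs hsi hα hε n) (gm α0 (ε n)) (ε n) : Sp K →L[ℂ] Sp K)
      (Zop (Hc (jn ι hs hsi hα hε n) (gm α0 (ε n)) (ε n) Om)) -
    Complex.I • xi (e0 ι) (gm α0 (ε n))) atTop (𝓝 0) := by
  have h1 : Tendsto (fun n => |Real.cos (ε n) - 1| + |Real.sin (ε n)|) atTop
      (𝓝 (|Real.cos 0 - 1| + |Real.sin 0|)) :=
    ((((Real.continuous_cos.tendsto _).comp hε0).sub_const 1).abs).add
      (((Real.continuous_sin.tendsto _).comp hε0).abs)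
  rw [Real.cos_zero, Real.sin_zero, sub_self, abs_zero, add_zero] at h1
  refine squeeze_zero_norm (fun n => ?_) h1
  have h2 := norm_star_Mu_sub_le (jn ι hs hsi hα hε n) (gm α0 (ε n)) (ε n)
  rwa [jn_ZOm] at h2

include hε0 in
/-- the image of `M* Z Hc Ω` is the label, up to the factor `i` -/
lemma tendsto_jn_star_Mu : Tendsto (fun n => jn ι hs hsi hα hε n
    (star (Mu (jn ι hs hsi hα hε n) (gm α0 (ε n)) (ε n) : Sp K →L[ℂ] Sp K)
      (Zop (Hc (jn ι hs hsi hα hε n) (gm α0 (ε n)) (ε n) Om)))) atTop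
    (𝓝 (Complex.I • s)) := by
  have h1 := tendsto_star_Mu ι hs hsi hα hε hε0
  have h2 := (tendsto_jn_xi ι hs hsi hα hε hε0).const_smul Complex.I
  have h3 : Tendsto (fun n => jn ι hs hsi hα hε n
    (star (Mu (jn ι hs hsi hα hε n) (gm α0 (ε n)) (ε n) : Sp K →L[ℂ] Sp K)
      (Zop (Hc (jn ι hs hsi hα hε n) (gm α0 (ε n)) (ε n) Om)) -
    Complex.I • xi (e0 ι) (gm α0 (ε n)))) atTop (𝓝 0) := by
    rw [tendsto_zero_iff_norm_tendsto_zero] at h1 ⊢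
    exact h1.congr fun n => by rw [LinearIsometry.norm_map]
  have h4 := h3.add h2
  rw [zero_add] at h4
  refine h4.congr fun n => ?_
  rw [map_sub, map_smul]
  abel

end Limits

/-! ### The heavy branches -/

section Heavy

/-- projection on the spin `b = ±1` -/
def Pb (b : ℝ) : Sp K →L[ℂ] Sp K := (1 / 2 : ℂ) • ((1 : Sp K →L[ℂ] Sp K) + (b : ℂ) • Zop)

lemma Pb_apply (b : ℝ) (v : Sp K) : Pb b v = (1 / 2 : ℂ) • (v + (b : ℂ) • Zop v) := rfl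

lemma Pb_add (v : Sp K) : Pb 1 v + Pb (-1) v = v := by
  rw [Pb_apply, Pb_apply, Complex.ofReal_one, Complex.ofReal_neg, Complex.ofReal_one]
  module

lemma Pb_sub (v : Sp K) : Pb 1 v - Pb (-1) v = Zop v := by
  rw [Pb_apply, Pb_apply, Complex.ofReal_one, Complex.ofReal_neg, Complex.ofReal_one]
  module

lemma Zop_Pb {b : ℝ} (hb : b = 1 ∨ b = -1) (v : Sp K) : Zop (Pb b v) = (b : ℂ) • Pb b v := by
  rw [Pb_apply, map_smul, map_add, map_smul, Zop_Zop]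
  rcases hb with rfl | rfl
  · rw [Complex.ofReal_one, one_smul, one_smul, one_smul, add_comm]
  · rw [Complex.ofReal_neg, Complex.ofReal_one]
    module

lemma norm_Pb_le {b : ℝ} (hb : b = 1 ∨ b = -1) (v : Sp K) : ‖Pb b v‖ ≤ ‖v‖ := by
  rw [Pb_apply, norm_smul]
  have h1 : ‖(b : ℂ) • Zop v‖ = ‖v‖ := by
    rw [norm_smul, norm_Zop_apply, Complex.norm_real]
    rcases hb with rfl | rfl <;> simp
  have h2 := norm_add_le v ((b : ℂ) • Zop v)
  rw [h1] at h2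
  have h3 : ‖(1 / 2 : ℂ)‖ = 1 / 2 := by norm_num
  rw [h3]
  linarith

lemma Pb_Ez (b : ℝ) (f : K) (v : Sp K) : Pb b (((Ez f : USp K) : Sp K →L[ℂ] Sp K) v) =
    ((Ez f : USp K) : Sp K →L[ℂ] Sp K) (Pb b v) := by
  rw [Pb_apply, Pb_apply, map_smul, map_add, map_smul, Zop_Ez]

open Crest.Agent.R339.Hv in
/-- a fixed vector of spin `b` is a heavy family with momentum zero -/
lemma hvS_const {ε : ℕ → ℝ} (hε0 : Tendsto ε atTop (𝓝 0)) {b : ℝ} {v : Sp K}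
    (hv : Zop v = (b : ℂ) • v) :
    HvS (siteWX (K := K)).toWS atTop ε b b (fun _ => (0 : K)) (fun _ => v) := by
  refine HvS.mk' ?_ ?_
  · show Tendsto (fun n : ℕ => Zop v - (b : ℂ) • v) atTop (𝓝 0)
    rw [hv, sub_self]
    exact tendsto_const_nhds
  · intro f ⟨T, hT⟩
    have h1 : Tendsto (fun n => (ε n : ℂ) • f n) atTop (𝓝 0) := by
      rw [tendsto_zero_iff_norm_tendsto_zero]
      have h2 : Tendsto (fun n => |ε n| * T) atTop (𝓝 0) := by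
        have := hε0.abs.mul_const T
        rwa [abs_zero, zero_mul] at this
      refine squeeze_zero (fun n => norm_nonneg _) (fun n => ?_) h2
      rw [norm_smul, Complex.norm_real, Real.norm_eq_abs]
      exact mul_le_mul_of_nonneg_left (hT n) (abs_nonneg _)
    have h2 : Tendsto (fun n => Wl ((ε n : ℂ) • f n) v) atTop (𝓝 v) := by
      have h3 : ∀ n, Wl ((ε n : ℂ) • f n) v =
          WithLp.toLp 2 (fun b => Wy ((ε n : ℂ) • f n) (v b)) := by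
        intro n
        ext b
        exact Wl_apply _ _ _
      have h4 : v = WithLp.toLp 2 (fun b => v b) := rfl
      rw [h4]
      refine Tendsto.congr (fun n => (h3 n).symm) ?_
      refine ((PiLp.continuous_toLp 2 (fun _ : Bool => Fock K)).tendsto _).comp ?_
      rw [tendsto_pi_nhds]
      intro b
      have h5 : Tendsto (fun n => Wy ((ε n : ℂ) • f n) (v b)) atTop (𝓝 (Wy 0 (v b))) :=
        tendsto_Wy_apply h1 tendsto_const_nhds
      rwa [Wy_zero] at h5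
    have h3 := h2.sub_const v
    rw [sub_self] at h3
    refine h3.congr fun n => ?_
    rw [smul_zero, inner_zero_left, Complex.zero_im, ph_zero, one_smul]
    rfl

variable (ι : Sp K →ₗᵢ[ℂ] K) {s : K} (hs : ‖s‖ = 1) (hsi : ∀ v, ⟪s, ι v⟫_ℂ = 0)
  {α0 : ℝ} (hα : α0 ≠ 0) {ε : ℕ → ℝ} (hε : ∀ n, 0 < ε n)

/-- the momentum of the heavy branches -/
def yM (n : ℕ) : K := (α0 : ℂ) • (f2 (jn ι hs hsi hα hε n) (gm α0 (ε n)) (ε n) + e0 ι)

lemma tendsto_yM (hε0 : Tendsto ε atTop (𝓝 0)) :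
    Tendsto (yM ι hs hsi hα hε) atTop (𝓝 (((2 * α0 : ℝ) : ℂ) • e0 ι)) := by
  have h1 := ((tendsto_f2 ι hs hsi hα hε hε0).add_const (e0 ι)).const_smul (α0 : ℂ)
  have h2 : (α0 : ℂ) • (e0 ι + e0 ι) = ((2 * α0 : ℝ) : ℂ) • e0 ι := by
    push_cast
    module
  rw [h2] at h1
  exact h1

open Crest.Agent.R339.Hv in
/-- the heavy branches of the marking word -/
theorem hvS_mark (hε0 : Tendsto ε atTop (𝓝 0)) {b : ℝ} (hb : b = 1 ∨ b = -1) :
    HvS (siteWX (K := K)).toWS atTop ε b b (yM ι hs hsi hα hε)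
      (fun n => Pb b (Hc (jn ι hs hsi hα hε n) (gm α0 (ε n)) (ε n) Om)) := by
  have h1 := hvS_const (K := K) hε0 (Zop_Pb hb Om)
  have h2 := h1.cost hb hb (Eventually.of_forall fun n => (hε n).ne')
    (fun n => ((α0 / 2 : ℝ) : ℂ) • (f2 (jn ι hs hsi hα hε n) (gm α0 (ε n)) (ε n) + e0 ι))
  have h3 := h2.smul (c := fun n => ch (jn ι hs hsi hα hε n) (gm α0 (ε n)) (ε n))
    ⟨1, fun n => (norm_ch _ _ _).le⟩
  have hbb : b * b = 1 := by rcases hb with rfl | rfl <;> norm_num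
  have e1 : (fun n => (0 : K) + ((2 * (b * b) : ℝ) : ℂ) • (((α0 / 2 : ℝ) : ℂ) •
      (f2 (jn ι hs hsi hα hε n) (gm α0 (ε n)) (ε n) + e0 ι))) = yM ι hs hsi hα hε := by
    funext n
    rw [hbb, zero_add, smul_smul, yM]
    congr 1
    push_cast
    ring
  rw [e1] at h3
  have e2 : (fun n => ch (jn ι hs hsi hα hε n) (gm α0 (ε n)) (ε n) •
      (siteWX (K := K)).toWS.E (((1 / ε n : ℝ) : ℂ) • (((α0 / 2 : ℝ) : ℂ) •
      (f2 (jn ι hs hsi hα hε n) (gm α0 (ε n)) (ε n) + e0 ι))) (Pb b Om)) =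
      fun n => Pb b (Hc (jn ι hs hsi hα hε n) (gm α0 (ε n)) (ε n) Om) := by
    funext n
    rw [site_E, Hc_Om, map_smul, Pb_Ez, jn_ZOm]
    have e3 : ((1 / ε n : ℝ) : ℂ) • (((α0 / 2 : ℝ) : ℂ) •
        (f2 (jn ι hs hsi hα hε n) (gm α0 (ε n)) (ε n) + e0 ι)) =
        (-((gm α0 (ε n) : ℝ) : ℂ)) • f2 (jn ι hs hsi hα hε n) (gm α0 (ε n)) (ε n) +
          -(((gm α0 (ε n) : ℝ) : ℂ) • e0 ι) := by
      have hc : ((1 / ε n : ℝ) : ℂ) * ((α0 / 2 : ℝ) : ℂ) = -((gm α0 (ε n) : ℝ) : ℂ) := by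
        rw [gm]
        push_cast
        have hne : ((ε n : ℝ) : ℂ) ≠ 0 := by exact_mod_cast (hε n).ne'
        field_simp
      rw [smul_smul, hc]
      module
    rw [e3]
  rw [e2] at h3
  exact h3

end Heavy

end Crest.Agent.R339.Mark
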