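import Mathlib
import Crest.Agent.R339.Lab373B
import Crest.Agent.R339.Mark539C

/-!
# Marking: final statements in the form used by the light side
-/

set_option autoImplicit false
set_option maxHeartbeats 400000

noncomputable section

open scoped ComplexConjugate InnerProductSpace Topology
open Filter Crest.MathPhysics.SpinGlass Crest.Agent.R339.Site Crest.Agent.R339.Lab

namespace Crest.Agent.R339.Mark

variable {K : Type*} [NormedAddCommGroup K] [InnerProductSpace ℂ K]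

lemma cvH_const (v : Sp K) : CvH (fun _ => v) v := by
  refine ⟨fun _ => 0, tendsto_const_nhds, Eventually.of_forall fun n => ?_⟩
  refine ⟨by simp, fun g => ?_⟩
  simp

variable (ι : Sp K →ₗᵢ[ℂ] K) {s : K} (hs : ‖s‖ = 1) (hsi : ∀ v, ⟪s, ι v⟫_ℂ = 0)
  {α0 : ℝ} (hα : α0 ≠ 0) {ε : ℕ → ℝ} (hε : ∀ n, 0 < ε n) (hε0 : Tendsto ε atTop (𝓝 0))

include hε0 in
/-- the light part at the vacuum, in the strong sense -/
theorem cvH_light : CvH (fun n => cl (jn ι hs hsi hα hε n) (gm α0 (ε n)) (ε n) •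
    (Lc (jn ι hs hsi hα hε n) (gm α0 (ε n)) (ε n) : Sp K →L[ℂ] Sp K) Om)
    (((Ez ((α0 : ℂ) • s) : USp K) : Sp K →L[ℂ] Sp K) Om) := by
  have h := (cvH_const (Om : Sp K)).Ez nice_Om (tendsto_ul ι hs hsi hα hε hε0)
  have e : (fun n => cl (jn ι hs hsi hα hε n) (gm α0 (ε n)) (ε n) •
      (Lc (jn ι hs hsi hα hε n) (gm α0 (ε n)) (ε n) : Sp K →L[ℂ] Sp K) Om) =
      fun n => ((Ez (ul (jn ι hs hsi hα hε n) (gm α0 (ε n)) (ε n)) : USp K) : Sp K →L[ℂ] Sp K)
        Om := by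
    funext n
    exact cl_smul_Lc _ _ _ _
  rw [e]
  exact h

/-- the heavy branches of the marking word (predicate of the site model) -/
theorem heavy_mark (hε0 : Tendsto ε atTop (𝓝 0)) {b : ℝ} (hb : b = 1 ∨ b = -1) :
    Hv.Heavy ε b b (yM ι hs hsi hα hε)
      (fun n => Pb b (Hc (jn ι hs hsi hα hε n) (gm α0 (ε n)) (ε n) Om)) :=
  Hv.hv_iff.mpr (hvS_mark ι hs hsi hα hε hε0 hb)

end Crest.Agent.R339.Mark
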