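import Mathlib
import Crest.Agent.R339.Mark539D

/-!
# Level-one label gates: the invariant, the cost move, the energy limit
-/

set_option autoImplicit false
set_option maxHeartbeats 400000

noncomputable section

open scoped ComplexConjugate InnerProductSpace Topology
open Filter Crest.MathPhysics.SpinGlass Crest.Agent.R339.Site Crest.Agent.R339.Lab

namespace Crest.Agent.R339.Mark

variable {K : Type*} [NormedAddCommGroup K] [InnerProductSpace ℂ K]

/-! ### Unit phases -/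

/-- a unit phase times a unitary -/
def phU (c : ℂ) (hc : ‖c‖ = 1) (U : USp K) : USp K :=
  ⟨c • (U : Sp K →L[ℂ] Sp K), by
    have h1 : star c * c = 1 := by
      rw [Complex.star_def, ← Complex.normSq_eq_conj_mul_self, Complex.normSq_eq_norm_sq, hc]
      simp
    have h2 : c * star c = 1 := by rw [mul_comm]; exact h1
    rw [Unitary.mem_iff, star_smul, smul_mul_smul_comm, smul_mul_smul_comm, h1, h2,
      star_U_mul_self, U_mul_star_self, one_smul]
    exact ⟨rfl, rfl⟩⟩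

lemma phU_apply (c : ℂ) (hc : ‖c‖ = 1) (U : USp K) (v : Sp K) :
    (phU c hc U : Sp K →L[ℂ] Sp K) v = c • (U : Sp K →L[ℂ] Sp K) v := rfl

lemma eVec_phU (c : ℂ) (hc : ‖c‖ = 1) (U : USp K) : eVec (phU c hc U) = eVec U := by
  have h1 : star c * c = 1 := by
    rw [Complex.star_def, ← Complex.normSq_eq_conj_mul_self, Complex.normSq_eq_norm_sq, hc]
    simp
  show star (c • (U : Sp K →L[ℂ] Sp K)) (Zop ((c • (U : Sp K →L[ℂ] Sp K)) Om)) = eVec U
  rw [star_smul, smul_apply, smul_apply, map_smul, map_smul, smul_smul, h1, one_smul]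
  rfl

lemma energy_phU (ι : Sp K →ₗᵢ[ℂ] K) (c : ℂ) (hc : ‖c‖ = 1) (U : USp K) :
    energy ι (phU c hc U) = energy ι U := by
  rw [energy, energy, eVec_phU]

/-- convergence of the energy under strong convergence of the unitaries and of the isometries -/
lemma tendsto_energy_of {j : ℕ → (Sp K →ₗᵢ[ℂ] K)} {ι : Sp K →ₗᵢ[ℂ] K}
    (hj : ∀ (v : ℕ → Sp K) (v₀ : Sp K), Tendsto v atTop (𝓝 v₀) →
      Tendsto (fun n => j n (v n)) atTop (𝓝 (ι v₀)))
    {U : ℕ → USp K} {U₀ : USp K} (hU : STends U atTop U₀) :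
    Tendsto (fun n => energy (j n) (U n)) atTop (𝓝 (energy ι U₀)) := by
  have h1 := hU.tendsto_eVec
  have h2 := hj _ _ h1
  have h3 : Tendsto (fun n => Sop (j n) (eVec (U n))) atTop (𝓝 (Sop ι (eVec U₀))) := by
    refine ((PiLp.continuous_toLp 2 (fun _ : Bool => Fock K)).tendsto _).comp ?_
    rw [tendsto_pi_nhds]
    intro b
    exact (((one.continuous.tendsto _).comp h2).const_smul _)
  exact (Complex.continuous_re.tendsto _).comp (h1.inner h3)

/-! ### The invariant -/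

section Inv

variable (ι : Sp K →ₗᵢ[ℂ] K) {s : K} (hs : ‖s‖ = 1) (hsi : ∀ v, ⟪s, ι v⟫_ℂ = 0)
  {α0 : ℝ} (hα : α0 ≠ 0) {ε : ℕ → ℝ} (hε : ∀ n, 0 < ε n) (hε0 : Tendsto ε atTop (𝓝 0))

/-- the marking unitaries -/
def Mn (n : ℕ) : USp K := Mu (jn ι hs hsi hα hε n) (gm α0 (ε n)) (ε n)

/-- the light parts -/
def Ln (n : ℕ) : USp K := Lc (jn ι hs hsi hα hε n) (gm α0 (ε n)) (ε n)

/-- the heavy parts -/
def Hn (n : ℕ) : Sp K →L[ℂ] Sp K := Hc (jn ι hs hsi hα hε n) (gm α0 (ε n)) (ε n)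

lemma Mn_eq (n : ℕ) (v : Sp K) : (Mn ι hs hsi hα hε n : Sp K →L[ℂ] Sp K) v =
    ((Real.cos (ε n) : ℝ) : ℂ) • (Ln ι hs hsi hα hε n : Sp K →L[ℂ] Sp K) v -
      (Complex.I * ((Real.sin (ε n) : ℝ) : ℂ)) • Hn ι hs hsi hα hε n v := Mu_eq _ _ _ v

lemma norm_Hn_apply (n : ℕ) (v : Sp K) : ‖Hn ι hs hsi hα hε n v‖ = ‖v‖ := norm_Hc_apply _ _ _ v

/-- Convergence of the light part, up to unit phases: strongly, and in the strong sense at `Ω`. -/
def Light (V : ℕ → USp K) (U : USp K) : Prop :=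
  ∃ c : ℕ → ℂ, (∀ n, ‖c n‖ = 1) ∧
    (∀ v, Tendsto (fun n => c n • (V n : Sp K →L[ℂ] Sp K) ((Ln ι hs hsi hα hε n : Sp K →L[ℂ] Sp K) v))
      atTop (𝓝 ((U : Sp K →L[ℂ] Sp K) v))) ∧
    CvH (fun n => c n • (V n : Sp K →L[ℂ] Sp K) ((Ln ι hs hsi hα hε n : Sp K →L[ℂ] Sp K) Om))
      ((U : Sp K →L[ℂ] Sp K) Om)

/-- The invariant of the simulation of labelled words by plain words: `V n * Mn n` is a plain word
unitary, close to `U` on the light part, and with the right momentum on the heavy part. -/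
structure Inv (V : ℕ → USp K) (U : USp K) (y : K) : Prop where
  reach : ∀ n, ∃ w, wordU (jn ι hs hsi hα hε n) w = V n * Mn ι hs hsi hα hε n
  light : Light ι hs hsi hα hε V U
  nice : Nice ((U : Sp K →L[ℂ] Sp K) Om)
  heavy : ∃ yn : ℕ → K, Tendsto yn atTop (𝓝 y) ∧ ∀ b : ℝ, b = 1 ∨ b = -1 →
    Hv.Heavy ε b b yn (fun n => (V n : Sp K →L[ℂ] Sp K) (Pb b (Hn ι hs hsi hα hε n Om)))

include hε0 in
/-- the invariant holds after the marking word -/
theorem Inv.init : Inv ι hs hsi hα hε (fun _ => 1) (costU (-α0) s) (((2 * α0 : ℝ) : ℂ) • e0 ι) := by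
  have hE : (costU (-α0) s : USp K) = Ez ((α0 : ℂ) • s) := by
    rw [costU_eq_Ez]
    congr 2
    push_cast
    ring
  refine ⟨fun n => ⟨mw (gm α0 (ε n)) (ε n), ?_⟩, ⟨fun n => cl (jn ι hs hsi hα hε n)
    (gm α0 (ε n)) (ε n), fun n => norm_cl _ _ _, fun v => ?_, ?_⟩, ?_,
    ⟨yM ι hs hsi hα hε, tendsto_yM ι hs hsi hα hε hε0, fun b hb => ?_⟩⟩
  · rw [wordU_mw, one_mul]
    rfl
  · rw [hE]
    refine (STends_light ι hs hsi hα hε hε0 v).congr fun n => ?_
    exact (cl_smul_Lc _ _ _ _).symm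
  · rw [hE]
    exact cvH_light ι hs hsi hα hε hε0
  · rw [hE]
    exact nice_Om.Ez _
  · exact heavy_mark ι hs hsi hα hε hε0 hb

variable {ι hs hsi hα hε}

include hε0 in
/-- the full unitaries converge strongly, up to unit phases -/
lemma Light.stends {V : ℕ → USp K} {U : USp K} (H : Light ι hs hsi hα hε V U) :
    ∃ (c : ℕ → ℂ) (hc : ∀ n, ‖c n‖ = 1),
      STends (fun n => phU (c n) (hc n) (V n * Mn ι hs hsi hα hε n)) atTop U := by
  obtain ⟨c, hc, h1, -⟩ := H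
  refine ⟨c, hc, fun v => ?_⟩
  have hcos : Tendsto (fun n => ((Real.cos (ε n) : ℝ) : ℂ)) atTop (𝓝 ((Real.cos 0 : ℝ) : ℂ)) :=
    (Complex.continuous_ofReal.tendsto _).comp ((Real.continuous_cos.tendsto _).comp hε0)
  have hsin : Tendsto (fun n => ((Real.sin (ε n) : ℝ) : ℂ)) atTop (𝓝 ((Real.sin 0 : ℝ) : ℂ)) :=
    (Complex.continuous_ofReal.tendsto _).comp ((Real.continuous_sin.tendsto _).comp hε0)
  have h2 := hcos.smul (h1 v)
  rw [Real.cos_zero, Complex.ofReal_one, one_smul] at h2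
  have h3 : Tendsto (fun n => (Complex.I * ((Real.sin (ε n) : ℝ) : ℂ)) • (c n •
      (V n : Sp K →L[ℂ] Sp K) (Hn ι hs hsi hα hε n v))) atTop (𝓝 0) := by
    rw [tendsto_zero_iff_norm_tendsto_zero]
    have h4 : Tendsto (fun n => ‖((Real.sin (ε n) : ℝ) : ℂ)‖ * ‖v‖) atTop (𝓝 0) := by
      have := (hsin.norm).mul_const ‖v‖
      rwa [Real.sin_zero, Complex.ofReal_zero, norm_zero, zero_mul] at this
    refine h4.congr fun n => ?_
    rw [norm_smul, norm_smul, norm_mul, Complex.norm_I, one_mul, hc, one_mul, norm_U_apply,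
      norm_Hn_apply]
  have h5 := h2.sub h3
  rw [sub_zero] at h5
  refine h5.congr fun n => ?_
  rw [phU_apply]
  show _ = c n • (V n : Sp K →L[ℂ] Sp K) ((Mn ι hs hsi hα hε n : Sp K →L[ℂ] Sp K) v)
  rw [Mn_eq, map_sub, map_smul, map_smul, smul_sub, smul_comm (c n), smul_comm (c n)]

include hε0 in
/-- the site vectors converge -/
lemma Light.tendsto_eVec {V : ℕ → USp K} {U : USp K} (H : Light ι hs hsi hα hε V U) :
    Tendsto (fun n => eVec (V n * Mn ι hs hsi hα hε n)) atTop (𝓝 (eVec U)) := by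
  obtain ⟨c, hc, h⟩ := H.stends hε0
  refine h.tendsto_eVec.congr fun n => ?_
  rw [eVec_phU]

include hε0 in
lemma Light.tendsto_jn_eVec {V : ℕ → USp K} {U : USp K} (H : Light ι hs hsi hα hε V U) :
    Tendsto (fun n => jn ι hs hsi hα hε n (eVec (V n * Mn ι hs hsi hα hε n))) atTop
      (𝓝 (ι (eVec U))) :=
  tendsto_jn' ι hs hsi hα hε hε0 (H.tendsto_eVec hε0)

include hε0 in
/-- energies converge -/
lemma Light.tendsto_energy {V : ℕ → USp K} {U : USp K} (H : Light ι hs hsi hα hε V U) :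
    Tendsto (fun n => energy (jn ι hs hsi hα hε n) (V n * Mn ι hs hsi hα hε n)) atTop
      (𝓝 (energy ι U)) := by
  obtain ⟨c, hc, h⟩ := H.stends hε0
  have h1 := tendsto_energy_of (fun v v₀ hv => tendsto_jn' ι hs hsi hα hε hε0 hv) h
  refine h1.congr fun n => ?_
  rw [energy_phU]

/-- a plain word extends by a plain move -/
lemma wordU_append (j : Sp K →ₗᵢ[ℂ] K) (w : List (ℝ × ℝ)) (γ β : ℝ) :
    wordU j (w ++ [(γ, β)]) = moveB β (moveC j γ (wordU j w)) := by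
  rw [wordU, List.foldl_append, List.foldl_cons, List.foldl_nil]
  rfl

lemma exists_word_moveC {j : Sp K →ₗᵢ[ℂ] K} {U : USp K} (h : ∃ w, wordU j w = U) (γ : ℝ) :
    ∃ w, wordU j w = moveC j γ U := by
  obtain ⟨w, rfl⟩ := h
  refine ⟨w ++ [(γ, 0)], ?_⟩
  rw [wordU_append, moveB, mixU_zero, one_mul]

lemma moveC_zero (j : Sp K →ₗᵢ[ℂ] K) (U : USp K) : moveC j 0 U = U := by
  rw [moveC, costU_eq_Ez]
  simp

lemma exists_word_moveB {j : Sp K →ₗᵢ[ℂ] K} {U : USp K} (h : ∃ w, wordU j w = U) (β : ℝ) :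
    ∃ w, wordU j w = moveB β U := by
  obtain ⟨w, rfl⟩ := h
  refine ⟨w ++ [(0, β)], ?_⟩
  rw [wordU_append, moveC_zero]

include hε0 in
/-- the cost move -/
theorem Inv.cost {V : ℕ → USp K} {U : USp K} {y : K} (H : Inv ι hs hsi hα hε V U y) (γ : ℝ) :
    Inv ι hs hsi hα hε (fun n => costU γ (jn ι hs hsi hα hε n
      (eVec (V n * Mn ι hs hsi hα hε n))) * V n) (moveC ι γ U) y := by
  have he := H.light.tendsto_jn_eVec hε0
  set f : ℕ → K := fun n => jn ι hs hsi hα hε n (eVec (V n * Mn ι hs hsi hα hε n)) with hf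
  have hu : Tendsto (fun n => (-(γ : ℂ)) • f n) atTop (𝓝 ((-(γ : ℂ)) • ι (eVec U))) :=
    he.const_smul _
  have hE : ∀ n, (costU γ (f n) : USp K) = Ez ((-(γ : ℂ)) • f n) := fun n => costU_eq_Ez γ (f n)
  have hE0 : (costU γ (ι (eVec U)) : USp K) = Ez ((-(γ : ℂ)) • ι (eVec U)) := costU_eq_Ez γ _
  refine ⟨fun n => ?_, ?_, ?_, ?_⟩
  · have := exists_word_moveC (H.reach n) γ
    obtain ⟨w, hw⟩ := this
    exact ⟨w, by rw [hw, moveC, mul_assoc]⟩
  · obtain ⟨c, hc, h1, h2⟩ := H.light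
    refine ⟨c, hc, fun v => ?_, ?_⟩
    · have h3 : STends (fun n => (costU γ (f n) : USp K)) atTop (costU γ (ι (eVec U))) :=
        STends_costU _ _ tendsto_const_nhds he
      have h4 := tendsto_U_apply h3 (h1 v)
      refine h4.congr fun n => ?_
      rw [map_smul]
      rfl
    · have h3 := h2.Ez H.nice hu
      have e1 : (fun n => c n • (((costU γ (f n) * V n : USp K)) : Sp K →L[ℂ] Sp K)
          ((Ln ι hs hsi hα hε n : Sp K →L[ℂ] Sp K) Om)) =
          fun n => ((Ez ((-(γ : ℂ)) • f n) : USp K) : Sp K →L[ℂ] Sp K)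
            (c n • (V n : Sp K →L[ℂ] Sp K) ((Ln ι hs hsi hα hε n : Sp K →L[ℂ] Sp K) Om)) := by
        funext n
        rw [map_smul, ← hE n]
        rfl
      have e2 : ((moveC ι γ U : USp K) : Sp K →L[ℂ] Sp K) Om =
          ((Ez ((-(γ : ℂ)) • ι (eVec U)) : USp K) : Sp K →L[ℂ] Sp K)
            ((U : Sp K →L[ℂ] Sp K) Om) := by
        rw [moveC, hE0]
        rfl
      rw [e1, e2]
      exact h3
  · have e2 : ((moveC ι γ U : USp K) : Sp K →L[ℂ] Sp K) Om =
        ((Ez ((-(γ : ℂ)) • ι (eVec U)) : USp K) : Sp K →L[ℂ] Sp K)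
          ((U : Sp K →L[ℂ] Sp K) Om) := by
      rw [moveC, hE0]
      rfl
    rw [e2]
    exact H.nice.Ez _
  · obtain ⟨yn, hy, h1⟩ := H.heavy
    refine ⟨yn, hy, fun b hb => ?_⟩
    have hb1 : Hv.Bdd (fun n => (V n : Sp K →L[ℂ] Sp K) (Pb b (Hn ι hs hsi hα hε n Om))) :=
      ⟨1, fun n => by
        rw [norm_U_apply]
        refine (norm_Pb_le hb _).trans ?_
        rw [norm_Hn_apply, norm_Om]⟩
    have hF : Hv.Bdd (fun n => (-(γ : ℂ)) • f n) := by
      refine ⟨|γ|, fun n => ?_⟩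
      rw [norm_smul, norm_neg, Complex.norm_real, Real.norm_eq_abs]
      have hn : ‖f n‖ = 1 := by
        rw [hf]
        simp only
        rw [LinearIsometry.norm_map, eVec]
        have := norm_star_U_apply (V n * Mn ι hs hsi hα hε n)
          (Zop (((V n * Mn ι hs hsi hα hε n : USp K) : Sp K →L[ℂ] Sp K) Om))
        rw [this, norm_Zop_apply, norm_U_apply, norm_Om]
      rw [hn, mul_one]
    have h2 := (h1 b hb).cost_bdd hε0 hb1 hF
    have e1 : (fun n => (((costU γ (f n) * V n : USp K)) : Sp K →L[ℂ] Sp K)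
        (Pb b (Hn ι hs hsi hα hε n Om))) =
        fun n => ((Ez ((-(γ : ℂ)) • f n) : USp K) : Sp K →L[ℂ] Sp K)
          ((V n : Sp K →L[ℂ] Sp K) (Pb b (Hn ι hs hsi hα hε n Om))) := by
      funext n
      rw [← hE n]
      rfl
    rw [e1]
    exact h2

end Inv

end Crest.Agent.R339.Mark
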