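import Mathlib
import Crest.Agent.R339.Asm539A

/-!
# Level-one label gates: pulses, the mixer move
-/

set_option autoImplicit false
set_option maxHeartbeats 400000

noncomputable section

open scoped ComplexConjugate InnerProductSpace Topology
open Filter Crest.MathPhysics.SpinGlass Crest.Agent.R339.Site Crest.Agent.R339.Lab

namespace Crest.Agent.R339.Mark

variable {K : Type*} [NormedAddCommGroup K] [InnerProductSpace ℂ K]

/-! ### Pulses on heavy families, started from a rotated family -/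

open Crest.Agent.R339.Hv in
/-- A sequence of calibrated pulses, started from `A h` with a spin operator `A`. -/
theorem heavy_pulses_from {ε : ℕ → ℝ} {b b' : ℝ} {y : ℕ → K} {h : ℕ → Sp K}
    (H : Heavy ε b b' y h) (hb : Bdd h) (hb1 : b = 1 ∨ b = -1)
    {β σ : ℕ → ℝ} (hσ : ∀ j, σ j = 1 ∨ σ j = -1) {τ : ℕ → ℕ → K} {N : ℕ}
    (hτ : ∀ j < N, Bdd (τ j))
    (hcal : ∀ j < N, Tendsto (fun n => (⟪y n, τ j n⟫_ℂ).im) atTop (𝓝 (σ j * (Real.pi / 2))))
    {A : Sp K →L[ℂ] Sp K} (hA : IsSpin A)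
    {g : ℕ → ℕ → Sp K} (h0 : Tendsto (fun n => g 0 n - A (h n)) atTop (𝓝 0))
    (hg : ∀ j < N, ∀ n, g (j + 1) n =
      ((Pu (β j) ((ε n : ℂ) • τ j n) : USp K) : Sp K →L[ℂ] Sp K) (g j n)) :
    ∀ j ≤ N, Tendsto (fun n => g j n - pulM b β σ j (A (h n))) atTop (𝓝 0) := by
  intro j
  induction j with
  | zero =>
    intro _
    exact h0
  | succ j ih =>
    intro hj
    have hjN : j < N := hj
    have h1 := ih hjN.le
    have h2 : Tendsto (fun n => ((Pu (β j) ((ε n : ℂ) • τ j n) : USp K) : Sp K →L[ℂ] Sp K)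
        (g j n - pulM b β σ j (A (h n)))) atTop (𝓝 0) := by
      rw [tendsto_zero_iff_norm_tendsto_zero] at h1 ⊢
      exact h1.congr fun n => by rw [norm_U_apply]
    have hθ : Tendsto (fun n => b * (⟪y n, τ j n⟫_ℂ).im) atTop (𝓝 (b * (σ j * (Real.pi / 2)))) :=
      (hcal j hjN).const_mul b
    have h3 := H.pulse hb (β j) (hτ j hjN) hθ ((isSpin_pulM b β σ j).mul hA)
    have h4 := h2.add h3
    rw [add_zero] at h4
    refine h4.congr fun n => ?_
    have e0 : ((pulM b β σ j : Sp K →L[ℂ] Sp K) * A) (h n) = pulM b β σ j (A (h n)) := rfl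
    have e1 : ((Real.cos (b * (σ j * (Real.pi / 2))) : ℝ) : ℂ) • pulM b β σ j (A (h n)) +
        (Complex.I * ((Real.sin (b * (σ j * (Real.pi / 2))) : ℝ) : ℂ)) •
          Zb (β j) (pulM b β σ j (A (h n))) = pulM b β σ (j + 1) (A (h n)) := by
      show _ = (Complex.I * ((b * σ j : ℝ) : ℂ)) • Zb (β j) (pulM b β σ j (A (h n)))
      have hs : b * σ j = 1 ∨ b * σ j = -1 := by
        rcases hb1 with rfl | rfl <;> rcases hσ j with h | h <;> rw [h] <;> norm_num
      have harg : b * (σ j * (Real.pi / 2)) = (b * σ j) * (Real.pi / 2) := by ring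
      rw [harg]
      rcases hs with hs | hs <;> rw [hs]
      · rw [one_mul, Real.cos_pi_div_two, Real.sin_pi_div_two]
        simp
      · rw [neg_one_mul, Real.cos_neg, Real.sin_neg, Real.cos_pi_div_two, Real.sin_pi_div_two]
        simp
    rw [hg j hjN, map_sub, e0, e1]
    abel

/-! ### The pulse sequence -/

section Pulses

variable (ι : Sp K →ₗᵢ[ℂ] K) {s : K} (hs : ‖s‖ = 1) (hsi : ∀ v, ⟪s, ι v⟫_ℂ = 0)
  {α0 : ℝ} (hα : α0 ≠ 0) {ε : ℕ → ℝ} (hε : ∀ n, 0 < ε n) (hε0 : Tendsto ε atTop (𝓝 0))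

/-- the current vector read by a pulse of axis `β` at `V` -/
def rd (β : ℝ) (V : ℕ → USp K) (n : ℕ) : K :=
  jn ι hs hsi hα hε n (eVec (mixU β * V n * Mn ι hs hsi hα hε n))

/-- the strength of a calibrated pulse, divided by `ε` -/
def st (y : ℕ → K) (β σ : ℝ) (V : ℕ → USp K) (n : ℕ) : ℝ :=
  σ * Real.pi / (2 * (⟪y n, rd ι hs hsi hα hε β V n⟫_ℂ).im)

/-- the displacement of a calibrated pulse, divided by `ε` -/
def ta (y : ℕ → K) (β σ : ℝ) (V : ℕ → USp K) (n : ℕ) : K :=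
  ((st ι hs hsi hα hε y β σ V n : ℝ) : ℂ) • rd ι hs hsi hα hε β V n

/-- the sequence of pulses -/
def pv (y : ℕ → K) (β σ : ℕ → ℝ) (V : ℕ → USp K) : ℕ → ℕ → USp K
  | 0, n => V n
  | j + 1, n => Pu (β j) ((ε n : ℂ) • ta ι hs hsi hα hε y (β j) (σ j) (pv y β σ V j) n) *
      pv y β σ V j n

lemma norm_eVec (U : USp K) : ‖eVec U‖ = 1 := by
  have := norm_star_U_apply U (Zop ((U : Sp K →L[ℂ] Sp K) Om))
  rw [eVec, this, norm_Zop_apply, norm_U_apply, norm_Om]

lemma norm_rd (β : ℝ) (V : ℕ → USp K) (n : ℕ) : ‖rd ι hs hsi hα hε β V n‖ = 1 := by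
  rw [rd, LinearIsometry.norm_map, norm_eVec]

/-- a pulse is a plain word -/
lemma reach_pulse (y : ℕ → K) (β σ : ℝ) {V : ℕ → USp K} {n : ℕ}
    (h : ∃ w, wordU (jn ι hs hsi hα hε n) w = V n * Mn ι hs hsi hα hε n) :
    ∃ w, wordU (jn ι hs hsi hα hε n) w =
      Pu β ((ε n : ℂ) • ta ι hs hsi hα hε y β σ V n) * V n * Mn ι hs hsi hα hε n := by
  have h1 := exists_word_moveB h β
  have h2 := exists_word_moveC h1 (-(ε n * st ι hs hsi hα hε y β σ V n))
  have h3 := exists_word_moveB h2 (-β)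
  obtain ⟨w, hw⟩ := h3
  refine ⟨w, ?_⟩
  rw [hw]
  simp only [moveB, moveC, costU_eq_Ez]
  rw [Pu]
  have e : (-((-(ε n * st ι hs hsi hα hε y β σ V n) : ℝ) : ℂ)) •
      jn ι hs hsi hα hε n (eVec (mixU β * (V n * Mn ι hs hsi hα hε n))) =
      (ε n : ℂ) • ta ι hs hsi hα hε y β σ V n := by
    rw [ta, rd, smul_smul, ← mul_assoc (mixU β : USp K)]
    congr 1
    push_cast
    ring
  rw [e]
  simp only [mul_assoc]

lemma reach_pv (y : ℕ → K) (β σ : ℕ → ℝ) {V : ℕ → USp K} {n : ℕ}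
    (h : ∃ w, wordU (jn ι hs hsi hα hε n) w = V n * Mn ι hs hsi hα hε n) (j : ℕ) :
    ∃ w, wordU (jn ι hs hsi hα hε n) w =
      pv ι hs hsi hα hε y β σ V j n * Mn ι hs hsi hα hε n := by
  induction j with
  | zero => exact h
  | succ j ih => exact reach_pulse ι hs hsi hα hε y (β j) (σ j) ih

variable {ι hs hsi hα hε}

/-- mixers act on the light part -/
lemma Light.mix {V : ℕ → USp K} {U : USp K} (H : Light ι hs hsi hα hε V U) (β : ℝ) :
    Light ι hs hsi hα hε (fun n => mixU β * V n) (mixU β * U) := by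
  obtain ⟨c, hc, h1, h2⟩ := H
  refine ⟨c, hc, fun v => ?_, ?_⟩
  · have h3 := (((mixU β : USp K) : Sp K →L[ℂ] Sp K).continuous.tendsto _).comp (h1 v)
    refine h3.congr fun n => ?_
    show ((mixU β : USp K) : Sp K →L[ℂ] Sp K) (c n • (V n : Sp K →L[ℂ] Sp K) _) = _
    rw [map_smul]
    rfl
  · have h3 := h2.spin (isSpin_mixU β)
    have e1 : (fun n => c n • ((mixU β * V n : USp K) : Sp K →L[ℂ] Sp K)
        ((Ln ι hs hsi hα hε n : Sp K →L[ℂ] Sp K) Om)) =
        fun n => ((mixU β : USp K) : Sp K →L[ℂ] Sp K)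
          (c n • (V n : Sp K →L[ℂ] Sp K) ((Ln ι hs hsi hα hε n : Sp K →L[ℂ] Sp K) Om)) := by
      funext n
      rw [map_smul]
      rfl
    rw [e1]
    exact h3

/-- gates of vanishing strength do not change the light part -/
lemma Light.small {V : ℕ → USp K} {U : USp K} (H : Light ι hs hsi hα hε V U)
    (hn : Nice ((U : Sp K →L[ℂ] Sp K) Om)) {u : ℕ → K} (hu : Tendsto u atTop (𝓝 0)) :
    Light ι hs hsi hα hε (fun n => Ez (u n) * V n) U := by
  obtain ⟨c, hc, h1, h2⟩ := H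
  refine ⟨c, hc, fun v => ?_, ?_⟩
  · have h3 : STends (fun n => (Ez (u n) : USp K)) atTop (Ez (0 : K)) :=
      STends_costU _ _ tendsto_const_nhds hu
    have h4 := tendsto_U_apply h3 (h1 v)
    rw [Ez_zero] at h4
    refine h4.congr fun n => ?_
    rw [map_smul]
    rfl
  · have h3 := h2.Ez hn hu
    rw [Ez_zero] at h3
    have e1 : (fun n => c n • ((Ez (u n) * V n : USp K) : Sp K →L[ℂ] Sp K)
        ((Ln ι hs hsi hα hε n : Sp K →L[ℂ] Sp K) Om)) =
        fun n => ((Ez (u n) : USp K) : Sp K →L[ℂ] Sp K)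
          (c n • (V n : Sp K →L[ℂ] Sp K) ((Ln ι hs hsi hα hε n : Sp K →L[ℂ] Sp K) Om)) := by
      funext n
      rw [map_smul]
      rfl
    rw [e1]
    exact h3

/-- pulses of vanishing strength do not change the light part -/
lemma Light.pulse {V : ℕ → USp K} {U : USp K} (H : Light ι hs hsi hα hε V U)
    (hn : Nice ((U : Sp K →L[ℂ] Sp K) Om)) (β : ℝ) {u : ℕ → K} (hu : Tendsto u atTop (𝓝 0)) :
    Light ι hs hsi hα hε (fun n => Pu β (u n) * V n) U := by
  have h1 := ((H.mix β).small (nice_mixU hn β) hu).mix (-β)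
  have e1 : (mixU (-β) * (mixU β * U) : USp K) = U := by
    rw [← mul_assoc, mixU_neg_mul, one_mul]
  rw [e1] at h1
  have e2 : (fun n => (mixU (-β) * (Ez (u n) * (mixU β * V n)) : USp K)) =
      fun n => Pu β (u n) * V n := by
    funext n
    rw [Pu]
    simp only [mul_assoc]
  rw [e2] at h1
  exact h1

include hε0 in
lemma Light.tendsto_rd {V : ℕ → USp K} {U : USp K} (H : Light ι hs hsi hα hε V U) (β : ℝ) :
    Tendsto (rd ι hs hsi hα hε β V) atTop (𝓝 (ι (eVec (mixU β * U)))) :=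
  (H.mix β).tendsto_jn_eVec hε0

/-- a convergent real sequence is bounded -/
lemma bdd_of_tendsto {E : Type*} [SeminormedAddCommGroup E] {x : ℕ → E} {x₀ : E}
    (h : Tendsto x atTop (𝓝 x₀)) : Hv.Bdd x := by
  obtain ⟨T, hT⟩ := (Metric.isBounded_range_of_tendsto x h).exists_norm_le
  exact ⟨T, fun n => hT _ ⟨n, rfl⟩⟩

include hε0 in
/-- calibration facts for one pulse -/
lemma Light.calib {V : ℕ → USp K} {U : USp K} (H : Light ι hs hsi hα hε V U) {β : ℝ} (σ : ℝ)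
    {yn : ℕ → K} {y : K} (hy : Tendsto yn atTop (𝓝 y))
    (hne : (⟪y, ι (eVec (mixU β * U))⟫_ℂ).im ≠ 0) :
    Tendsto (fun n => (ε n : ℂ) • ta ι hs hsi hα hε yn β σ V n) atTop (𝓝 0) ∧
    Hv.Bdd (ta ι hs hsi hα hε yn β σ V) ∧
    Tendsto (fun n => (⟪yn n, ta ι hs hsi hα hε yn β σ V n⟫_ℂ).im) atTop
      (𝓝 (σ * (Real.pi / 2))) := by
  have h1 := H.tendsto_rd hε0 β
  have h2 : Tendsto (fun n => (⟪yn n, rd ι hs hsi hα hε β V n⟫_ℂ).im) atTop
      (𝓝 (⟪y, ι (eVec (mixU β * U))⟫_ℂ).im) :=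
    (Complex.continuous_im.tendsto _).comp (hy.inner h1)
  have h3 : Tendsto (fun n => st ι hs hsi hα hε yn β σ V n) atTop
      (𝓝 (σ * Real.pi / (2 * (⟪y, ι (eVec (mixU β * U))⟫_ℂ).im))) :=
    tendsto_const_nhds.div (h2.const_mul 2) (mul_ne_zero two_ne_zero hne)
  have h4 : Tendsto (ta ι hs hsi hα hε yn β σ V) atTop
      (𝓝 (((σ * Real.pi / (2 * (⟪y, ι (eVec (mixU β * U))⟫_ℂ).im) : ℝ) : ℂ) •
        ι (eVec (mixU β * U)))) :=
    ((Complex.continuous_ofReal.tendsto _).comp h3).smul h1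
  refine ⟨?_, bdd_of_tendsto h4, ?_⟩
  · have h5 := ((Complex.continuous_ofReal.tendsto _).comp hε0).smul h4
    rw [Complex.ofReal_zero, zero_smul] at h5
    exact h5
  · refine tendsto_const_nhds.congr' ?_
    filter_upwards [h2.eventually_ne hne] with n hn
    rw [ta, inner_smul_right, Complex.im_ofReal_mul, st]
    field_simp

include hε0 in
/-- a sequence of calibrated pulses: light part and calibration -/
lemma Light.pv {V : ℕ → USp K} {U : USp K} (H : Light ι hs hsi hα hε V U)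
    (hn : Nice ((U : Sp K →L[ℂ] Sp K) Om)) {yn : ℕ → K} {y : K} (hy : Tendsto yn atTop (𝓝 y))
    {β σ : ℕ → ℝ} (hne : ∀ j, (⟪y, ι (eVec (mixU (β j) * U))⟫_ℂ).im ≠ 0) (j : ℕ) :
    Light ι hs hsi hα hε (pv ι hs hsi hα hε yn β σ V j) U := by
  induction j with
  | zero => exact H
  | succ j ih =>
    have h1 := (ih.calib hε0 (σ j) hy (hne j)).1
    exact ih.pulse hn (β j) h1

/-- strong continuity of the mixer -/
lemma STends_mixU {β : ℕ → ℝ} {β₀ : ℝ} (hβ : Tendsto β atTop (𝓝 β₀)) :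
    STends (fun n => (mixU (β n) : USp K)) atTop (mixU β₀) := by
  intro v
  have h1 : Tendsto (fun n => ((Real.cos (β n) : ℝ) : ℂ) • v -
      (Complex.I * ((Real.sin (β n) : ℝ) : ℂ)) • Xop v) atTop (𝓝 (((Real.cos β₀ : ℝ) : ℂ) • v -
      (Complex.I * ((Real.sin β₀ : ℝ) : ℂ)) • Xop v)) := by
    have hcos : Tendsto (fun n => ((Real.cos (β n) : ℝ) : ℂ)) atTop (𝓝 ((Real.cos β₀ : ℝ) : ℂ)) :=
      (Complex.continuous_ofReal.tendsto _).comp ((Real.continuous_cos.tendsto _).comp hβ)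
    have hsin : Tendsto (fun n => ((Real.sin (β n) : ℝ) : ℂ)) atTop (𝓝 ((Real.sin β₀ : ℝ) : ℂ)) :=
      (Complex.continuous_ofReal.tendsto _).comp ((Real.continuous_sin.tendsto _).comp hβ)
    exact (hcos.smul_const v).sub ((hsin.const_mul Complex.I).smul_const (Xop v))
  rw [← mixU_eq] at h1
  refine h1.congr fun n => ?_
  rw [mixU_eq]

/-- fine subdivision: the read-out stays nonzero for small axes -/
lemma exists_subdiv (ι : Sp K →ₗᵢ[ℂ] K) {y : K} {U : USp K}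
    (hne : (⟪y, ι (eVec U)⟫_ℂ).im ≠ 0) (θ : ℝ) :
    ∃ m : ℕ, 0 < m ∧ (⟪y, ι (eVec (mixU (θ / (4 * m)) * U))⟫_ℂ).im ≠ 0 := by
  have h0 : Tendsto (fun m : ℕ => θ / (4 * (m : ℝ))) atTop (𝓝 0) := by
    refine Tendsto.const_div_atTop ?_ θ
    exact tendsto_natCast_atTop_atTop.const_mul_atTop (by norm_num)
  have h1 : STends (fun m : ℕ => (mixU (θ / (4 * (m : ℝ))) * U : USp K)) atTop (mixU 0 * U) :=
    (STends_mixU h0).mul (STends.const U)
  rw [mixU_zero, one_mul] at h1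
  have h2 : Tendsto (fun m : ℕ => (⟪y, ι (eVec (mixU (θ / (4 * (m : ℝ))) * U))⟫_ℂ).im) atTop
      (𝓝 (⟪y, ι (eVec U)⟫_ℂ).im) :=
    (Complex.continuous_im.tendsto _).comp
      (tendsto_const_nhds.inner ((ι.continuous.tendsto _).comp h1.tendsto_eVec))
  obtain ⟨m, hm, hm0⟩ := ((h2.eventually_ne hne).and (eventually_gt_atTop 0)).exists
  exact ⟨m, hm0, hm⟩

/-- axes of the rotation pattern -/
def axs (β₀ : ℝ) (j : ℕ) : ℝ := if j % 2 = 0 then β₀ else 0

/-- signs of the rotation pattern -/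
def sgs (j : ℕ) : ℝ := if j % 4 = 0 ∨ j % 4 = 3 then 1 else -1

lemma sgs_or (j : ℕ) : sgs j = 1 ∨ sgs j = -1 := by
  unfold sgs
  split_ifs <;> simp

include hε0 in
/-- **The mixer move.** -/
theorem Inv.mix {V : ℕ → USp K} {U : USp K} {y : K} (H : Inv ι hs hsi hα hε V U y) (θ : ℝ)
    (hne : (⟪y, ι (eVec (mixU θ * U))⟫_ℂ).im ≠ 0) :
    ∃ V', Inv ι hs hsi hα hε V' (moveB θ U) y := by
  obtain ⟨m, hm0, hm⟩ := exists_subdiv ι hne (-θ)
  obtain ⟨yn, hy, hhv⟩ := H.heavy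
  set β₀ : ℝ := -θ / (4 * m) with hβ₀
  set V₁ : ℕ → USp K := fun n => mixU θ * V n with hV₁
  have hL : Light ι hs hsi hα hε V₁ (mixU θ * U) := H.light.mix θ
  have hN : Nice (((mixU θ * U : USp K) : Sp K →L[ℂ] Sp K) Om) := nice_mixU H.nice θ
  have hne' : ∀ j, (⟪y, ι (eVec (mixU (axs β₀ j) * (mixU θ * U)))⟫_ℂ).im ≠ 0 := by
    intro j
    unfold axs
    split_ifs
    · exact hm
    · rw [mixU_zero, one_mul]
      exact hne
  refine ⟨pv ι hs hsi hα hε yn (axs β₀) sgs V₁ (4 * m), fun n => ?_,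
    hL.pv hε0 hN hy hne' _, hN, yn, hy, fun b hb => ?_⟩
  · refine reach_pv ι hs hsi hα hε yn (axs β₀) sgs ?_ _
    have := exists_word_moveB (H.reach n) θ
    obtain ⟨w, hw⟩ := this
    exact ⟨w, by rw [hw, moveB, hV₁, mul_assoc]⟩
  · have hHv := hhv b hb
    have hbd : Hv.Bdd (fun n => (V n : Sp K →L[ℂ] Sp K) (Pb b (Hn ι hs hsi hα hε n Om))) :=
      ⟨1, fun n => by
        rw [norm_U_apply]
        refine (norm_Pb_le hb _).trans ?_
        rw [norm_Hn_apply, norm_Om]⟩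
    have hcal := fun j => (hL.pv (σ := sgs) hε0 hN hy hne' j).calib hε0 (sgs j) hy (hne' j)
    have h1 := heavy_pulses_from hHv hbd hb (β := axs β₀) (σ := sgs) sgs_or
      (τ := fun j => ta ι hs hsi hα hε yn (axs β₀ j) (sgs j)
        (pv ι hs hsi hα hε yn (axs β₀) sgs V₁ j)) (N := 4 * m)
      (fun j _ => (hcal j).2.1) (fun j _ => (hcal j).2.2) (isSpin_mixU θ)
      (g := fun j n => (pv ι hs hsi hα hε yn (axs β₀) sgs V₁ j n : Sp K →L[ℂ] Sp K)
        (Pb b (Hn ι hs hsi hα hε n Om)))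
      (by
        refine tendsto_const_nhds.congr fun n => ?_
        symm
        show ((mixU θ * V n : USp K) : Sp K →L[ℂ] Sp K) (Pb b (Hn ι hs hsi hα hε n Om)) -
          ((mixU θ : USp K) : Sp K →L[ℂ] Sp K) ((V n : Sp K →L[ℂ] Sp K)
            (Pb b (Hn ι hs hsi hα hε n Om))) = 0
        exact sub_self _)
      (fun j _ n => rfl) (4 * m) le_rfl
    refine hHv.congr (h1.congr fun n => ?_)
    congr 1
    rw [Hv.pulM_period (β := axs β₀) (σ := sgs) hb β₀ (fun j => rfl) (fun j => rfl),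
      mixU_apply_add]
    have hmz : (m : ℝ) ≠ 0 := by exact_mod_cast hm0.ne'
    have e : 4 * (m : ℝ) * β₀ + θ = 0 := by
      rw [hβ₀]
      field_simp
      ring
    rw [e, mixU_zero]
    rfl

end Pulses

end Crest.Agent.R339.Mark
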