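import Mathlib
import Crest.Agent.R339.Asm539B

/-!
# Level-one label gates: labelled words and the final bound
-/

set_option autoImplicit false
set_option maxHeartbeats 400000

noncomputable section

open scoped ComplexConjugate InnerProductSpace Topology
open Filter Crest.MathPhysics.SpinGlass Crest.Agent.R339.Site Crest.Agent.R339.Lab

namespace Crest.Agent.R339.Mark

variable {K : Type*} [NormedAddCommGroup K] [InnerProductSpace ℂ K]

/-- letters of a labelled word: cost gate, mixer, label gate -/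
inductive Lg : Type
  | C (γ : ℝ)
  | B (β : ℝ)
  | L (α : ℝ)

/-- the action of a letter on a labelled state `(U, y)` -/
def Lg.run (ι : Sp K →ₗᵢ[ℂ] K) (s : K) : Lg → USp K × K → USp K × K
  | .C γ, p => (moveC ι γ p.1, p.2)
  | .B β, p => (moveB β p.1, p.2)
  | .L α, p => (costU (-α) s * p.1, p.2 + ((2 * α : ℝ) : ℂ) • ι (eVec p.1))

/-- admissibility: the read-out `Im ⟪y, e(U)⟫` does not vanish after a mixer and at a label gate -/
def Lg.adm (ι : Sp K →ₗᵢ[ℂ] K) : Lg → USp K × K → Prop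
  | .C _, _ => True
  | .B β, p => (⟪p.2, ι (eVec (moveB β p.1))⟫_ℂ).im ≠ 0
  | .L _, p => (⟪p.2, ι (eVec p.1)⟫_ℂ).im ≠ 0

/-- the action of a labelled word -/
def runL (ι : Sp K →ₗᵢ[ℂ] K) (s : K) : List Lg → USp K × K → USp K × K
  | [], p => p
  | g :: w, p => runL ι s w (g.run ι s p)

/-- admissible labelled words -/
def admL (ι : Sp K →ₗᵢ[ℂ] K) (s : K) : List Lg → USp K × K → Prop
  | [], _ => True
  | g :: w, p => g.adm ι p ∧ admL ι s w (g.run ι s p)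

/-- the label gate is simulated -/
def LamStmt (ι : Sp K →ₗᵢ[ℂ] K) {s : K} (hs : ‖s‖ = 1) (hsi : ∀ v, ⟪s, ι v⟫_ℂ = 0)
    {α0 : ℝ} (hα : α0 ≠ 0) {ε : ℕ → ℝ} (hε : ∀ n, 0 < ε n) : Prop :=
  ∀ (V : ℕ → USp K) (U : USp K) (y : K), Inv ι hs hsi hα hε V U y →
    (⟪y, ι (eVec U)⟫_ℂ).im ≠ 0 → ∀ α : ℝ,
    ∃ V', Inv ι hs hsi hα hε V' (costU (-α) s * U) (y + ((2 * α : ℝ) : ℂ) • ι (eVec U))

variable {ι : Sp K →ₗᵢ[ℂ] K} {s : K} {hs : ‖s‖ = 1} {hsi : ∀ v, ⟪s, ι v⟫_ℂ = 0}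
  {α0 : ℝ} {hα : α0 ≠ 0} {ε : ℕ → ℝ} {hε : ∀ n, 0 < ε n}

theorem Inv.runL (hε0 : Tendsto ε atTop (𝓝 0)) (hLam : LamStmt ι hs hsi hα hε) (w : List Lg) :
    ∀ (V : ℕ → USp K) (p : USp K × K), Inv ι hs hsi hα hε V p.1 p.2 → admL ι s w p →
      ∃ V', Inv ι hs hsi hα hε V' (Mark.runL ι s w p).1 (Mark.runL ι s w p).2 := by
  induction w with
  | nil => intro V p H _; exact ⟨V, H⟩
  | cons g w ih =>
    intro V p H hadm
    obtain ⟨h1, h2⟩ := hadm
    cases g with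
    | C γ => exact ih _ _ (H.cost hε0 γ) h2
    | B β =>
      obtain ⟨V', H'⟩ := H.mix hε0 β h1
      exact ih V' _ H' h2
    | L α =>
      obtain ⟨V', H'⟩ := hLam V p.1 p.2 H h1 α
      exact ih V' _ H' h2

/-- **Labelled words are not better than plain words** (given the label gate step). -/
theorem labelled_le (hε0 : Tendsto ε atTop (𝓝 0)) (hLam : LamStmt ι hs hsi hα hε) {c : ℝ}
    (hc : ∀ (j : Sp K →ₗᵢ[ℂ] K) (angles : List (ℝ × ℝ)), energy j (wordU j angles) ≤ c)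
    (w : List Lg) (hw : admL ι s w (costU (-α0) s, ((2 * α0 : ℝ) : ℂ) • ι (Zop Om))) :
    energy ι (Mark.runL ι s w (costU (-α0) s, ((2 * α0 : ℝ) : ℂ) • ι (Zop Om))).1 ≤ c := by
  obtain ⟨V', H⟩ := Inv.runL hε0 hLam w (fun _ => 1)
    (costU (-α0) s, ((2 * α0 : ℝ) : ℂ) • ι (Zop Om)) (Inv.init ι hs hsi hα hε hε0) hw
  refine le_of_tendsto (H.light.tendsto_energy hε0) (Eventually.of_forall fun n => ?_)
  obtain ⟨w', hw'⟩ := H.reach n
  rw [← hw']
  exact hc _ _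

end Crest.Agent.R339.Mark
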