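import Mathlib
import Crest.Agent.R339.Asm539C

/-!
# Level-one label gates: the label step (words, heavy branches)
-/

set_option autoImplicit false
set_option maxHeartbeats 400000

noncomputable section

open scoped ComplexConjugate InnerProductSpace Topology
open Filter Crest.MathPhysics.SpinGlass Crest.Agent.R339.Site Crest.Agent.R339.Lab

namespace Crest.Agent.R339.Mark

variable {K : Type*} [NormedAddCommGroup K] [InnerProductSpace ℂ K]

lemma eVec_Ez_mul (f : K) (U : USp K) : eVec (Ez f * U) = eVec U := by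
  show star (((Ez f * U : USp K)) : Sp K →L[ℂ] Sp K) (Zop (((Ez f * U : USp K) : Sp K →L[ℂ] Sp K)
    Om)) = star (U : Sp K →L[ℂ] Sp K) (Zop ((U : Sp K →L[ℂ] Sp K) Om))
  have h1 : star (((Ez f * U : USp K)) : Sp K →L[ℂ] Sp K) =
      star (U : Sp K →L[ℂ] Sp K) * ((Ez (-f) : USp K) : Sp K →L[ℂ] Sp K) := by
    rw [← star_Ez_coe, ← star_mul]
    rfl
  have h2 : ((Ez f * U : USp K) : Sp K →L[ℂ] Sp K) Om =
      ((Ez f : USp K) : Sp K →L[ℂ] Sp K) ((U : Sp K →L[ℂ] Sp K) Om) := rfl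
  rw [h1, h2, mul_apply_eq_comp, Zop_Ez, Ez_neg_Ez]

lemma mixU_neg_pi_div_two (v : Sp K) :
    ((mixU (-(Real.pi / 2)) : USp K) : Sp K →L[ℂ] Sp K) v = Complex.I • Xop v := by
  rw [mixU_eq, Real.cos_neg, Real.cos_pi_div_two, Real.sin_neg, Real.sin_pi_div_two]
  simp

lemma mixU_pi_div_two (v : Sp K) :
    ((mixU (Real.pi / 2) : USp K) : Sp K →L[ℂ] Sp K) v = (-Complex.I) • Xop v := by
  rw [mixU_eq, Real.cos_pi_div_two, Real.sin_pi_div_two]
  simp

/-- a quarter turn flips the current spin of a heavy family -/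
lemma heavy_flip {ε : ℕ → ℝ} {b b' : ℝ} {y : ℕ → K} {h : ℕ → Sp K}
    (H : Hv.Heavy ε b b' y h) {θ : ℝ} (hθ : θ = Real.pi / 2 ∨ θ = -(Real.pi / 2)) :
    Hv.Heavy ε b (-b') y (fun n => ((mixU θ : USp K) : Sp K →L[ℂ] Sp K) (h n)) := by
  refine H.flip (fun _ => isSpin_mixU θ) (fun n v => ?_) (C := 1) (fun n v => ?_)
  · rcases hθ with rfl | rfl
    · rw [mixU_pi_div_two, mixU_pi_div_two, map_smul, Zop_Xop, smul_neg]
    · rw [mixU_neg_pi_div_two, mixU_neg_pi_div_two, map_smul, Zop_Xop, smul_neg]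
  · rw [norm_U_apply, one_mul]

section Step

variable (ι : Sp K →ₗᵢ[ℂ] K) {s : K} (hs : ‖s‖ = 1) (hsi : ∀ v, ⟪s, ι v⟫_ℂ = 0)
  {α0 : ℝ} (hα : α0 ≠ 0) {ε : ℕ → ℝ} (hε : ∀ n, 0 < ε n) (hε0 : Tendsto ε atTop (𝓝 0))

/-- first rotation (heavy branches: `i X`) -/
def V1 (y : ℕ → K) (V : ℕ → USp K) (m : ℕ) (n : ℕ) : USp K :=
  pv ι hs hsi hα hε y (axs (-(Real.pi / 2) / (4 * m))) sgs V (4 * m) n

/-- the site vector before the amplified cost gate -/
def ee2 (y : ℕ → K) (V : ℕ → USp K) (m : ℕ) (n : ℕ) : K :=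
  jn ι hs hsi hα hε n (eVec (V1 ι hs hsi hα hε y V m n * Mn ι hs hsi hα hε n))

/-- after the amplified cost gate -/
def V2 (y : ℕ → K) (V : ℕ → USp K) (m : ℕ) (α : ℝ) (n : ℕ) : USp K :=
  Ez (((-(α / (2 * ε n)) : ℝ) : ℂ) • ee2 ι hs hsi hα hε y V m n) * V1 ι hs hsi hα hε y V m n

/-- the momentum of the heavy branches after the amplified cost gate -/
def y3 (y : ℕ → K) (V : ℕ → USp K) (m : ℕ) (α : ℝ) (n : ℕ) : K :=
  y n + ((α : ℝ) : ℂ) • ee2 ι hs hsi hα hε y V m n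

/-- the pulses of the second rotation -/
def V3j (y : ℕ → K) (V : ℕ → USp K) (m : ℕ) (α : ℝ) (j n : ℕ) : USp K :=
  pv ι hs hsi hα hε (y3 ι hs hsi hα hε y V m α) (axs ((Real.pi / 2) / (4 * m))) sgs
    (V2 ι hs hsi hα hε y V m α) j n

/-- after the second rotation -/
def V3 (y : ℕ → K) (V : ℕ → USp K) (m : ℕ) (α : ℝ) (n : ℕ) : USp K :=
  V3j ι hs hsi hα hε y V m α (4 * m) n

/-- the site vector before the second amplified cost gate -/
def ee4 (y : ℕ → K) (V : ℕ → USp K) (m : ℕ) (α : ℝ) (n : ℕ) : K :=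
  jn ι hs hsi hα hε n (eVec (V3 ι hs hsi hα hε y V m α n * Mn ι hs hsi hα hε n))

/-- the final unitary of the label step -/
def V4 (y : ℕ → K) (V : ℕ → USp K) (m : ℕ) (α : ℝ) (n : ℕ) : USp K :=
  Ez (((α / (2 * ε n) : ℝ) : ℂ) • ee4 ι hs hsi hα hε y V m α n) * V3 ι hs hsi hα hε y V m α n

/-- what the light side has to deliver for the label step -/
structure LamLight (yn : ℕ → K) (V : ℕ → USp K) (U : USp K) (m : ℕ) (α : ℝ) : Prop where
  /-- the read-outs of the pulses of the second rotation converge to nonzero numbers -/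
  read : ∀ j < 4 * m, ∃ r : ℝ, r ≠ 0 ∧ Tendsto (fun n => (⟪y3 ι hs hsi hα hε yn V m α n,
    rd ι hs hsi hα hε (axs ((Real.pi / 2) / (4 * m)) j)
      (V3j ι hs hsi hα hε yn V m α j) n⟫_ℂ).im) atTop (𝓝 r)
  /-- the light part realises the label gate -/
  light : Light ι hs hsi hα hε (V4 ι hs hsi hα hε yn V m α) (costU (-α) s * U)

variable {ι hs hsi hα hε}

/-- calibration from a convergent read-out -/
lemma calib_of_read {yn : ℕ → K} {β σ : ℝ} {V : ℕ → USp K} {r : ℝ} (hr : r ≠ 0)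
    (h : Tendsto (fun n => (⟪yn n, rd ι hs hsi hα hε β V n⟫_ℂ).im) atTop (𝓝 r)) :
    Hv.Bdd (ta ι hs hsi hα hε yn β σ V) ∧
    Tendsto (fun n => (⟪yn n, ta ι hs hsi hα hε yn β σ V n⟫_ℂ).im) atTop
      (𝓝 (σ * (Real.pi / 2))) := by
  have h3 : Tendsto (fun n => st ι hs hsi hα hε yn β σ V n) atTop (𝓝 (σ * Real.pi / (2 * r))) :=
    tendsto_const_nhds.div (h.const_mul 2) (mul_ne_zero two_ne_zero hr)
  refine ⟨?_, ?_⟩
  · obtain ⟨T, hT⟩ := bdd_of_tendsto h3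
    refine ⟨T, fun n => ?_⟩
    rw [ta, norm_smul, norm_rd, mul_one, Complex.norm_real]
    exact hT n
  · refine tendsto_const_nhds.congr' ?_
    filter_upwards [h.eventually_ne hr] with n hn
    rw [ta, inner_smul_right, Complex.im_ofReal_mul, st]
    field_simp

lemma bdd_heavy (V : ℕ → USp K) {b : ℝ} (hb : b = 1 ∨ b = -1) :
    Hv.Bdd (fun n => (V n : Sp K →L[ℂ] Sp K) (Pb b (Hn ι hs hsi hα hε n Om))) :=
  ⟨1, fun n => by
    rw [norm_U_apply]
    refine (norm_Pb_le hb _).trans ?_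
    rw [norm_Hn_apply, norm_Om]⟩

/-- the first rotation on the light part -/
lemma light_V1 (hε0 : Tendsto ε atTop (𝓝 0)) {V : ℕ → USp K} {U : USp K}
    (H : Light ι hs hsi hα hε V U) (hN : Nice ((U : Sp K →L[ℂ] Sp K) Om)) {yn : ℕ → K} {y : K}
    (hy : Tendsto yn atTop (𝓝 y)) {m : ℕ} (h0 : (⟪y, ι (eVec U)⟫_ℂ).im ≠ 0)
    (hm : (⟪y, ι (eVec (mixU (-(Real.pi / 2) / (4 * m)) * U))⟫_ℂ).im ≠ 0) (j : ℕ) :
    Light ι hs hsi hα hε (pv ι hs hsi hα hε yn (axs (-(Real.pi / 2) / (4 * m))) sgs V j) U := by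
  refine H.pv hε0 hN hy (fun j => ?_) j
  unfold axs
  split_ifs
  · exact hm
  · rw [mixU_zero, one_mul]
    exact h0

/-- the first rotation on the heavy branches -/
lemma heavy_V1 (hε0 : Tendsto ε atTop (𝓝 0)) {V : ℕ → USp K} {U : USp K}
    (H : Light ι hs hsi hα hε V U) (hN : Nice ((U : Sp K →L[ℂ] Sp K) Om)) {yn : ℕ → K} {y : K}
    (hy : Tendsto yn atTop (𝓝 y)) {m : ℕ} (hm0 : 0 < m) (h0 : (⟪y, ι (eVec U)⟫_ℂ).im ≠ 0)
    (hm : (⟪y, ι (eVec (mixU (-(Real.pi / 2) / (4 * m)) * U))⟫_ℂ).im ≠ 0)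
    {b : ℝ} (hb : b = 1 ∨ b = -1)
    (hHv : Hv.Heavy ε b b yn (fun n => (V n : Sp K →L[ℂ] Sp K)
      (Pb b (Hn ι hs hsi hα hε n Om)))) :
    Hv.Heavy ε b (-b) yn (fun n => (V1 ι hs hsi hα hε yn V m n : Sp K →L[ℂ] Sp K)
      (Pb b (Hn ι hs hsi hα hε n Om))) := by
  set β₀ : ℝ := -(Real.pi / 2) / (4 * m) with hβ₀
  have hcal := fun j => (light_V1 hε0 H hN hy h0 hm j).calib hε0 (β := axs β₀ j) (sgs j) hy (by
    unfold axs
    split_ifs
    · exact hm
    · rw [mixU_zero, one_mul]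
      exact h0)
  have h1 := hHv.pulses (bdd_heavy V hb) hb (β := axs β₀) (σ := sgs) sgs_or
    (τ := fun j => ta ι hs hsi hα hε yn (axs β₀ j) (sgs j)
      (pv ι hs hsi hα hε yn (axs β₀) sgs V j)) (N := 4 * m)
    (fun j _ => (hcal j).2.1) (fun j _ => (hcal j).2.2)
    (g := fun j n => (pv ι hs hsi hα hε yn (axs β₀) sgs V j n : Sp K →L[ℂ] Sp K)
      (Pb b (Hn ι hs hsi hα hε n Om))) (fun n => rfl) (fun j _ n => rfl) (4 * m) le_rfl
  have hmz : (m : ℝ) ≠ 0 := by exact_mod_cast hm0.ne'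
  have e : 4 * (m : ℝ) * β₀ = -(Real.pi / 2) := by
    rw [hβ₀]
    field_simp
  refine (heavy_flip hHv (Or.inr rfl)).congr (h1.congr fun n => ?_)
  congr 1
  rw [Hv.pulM_period (β := axs β₀) (σ := sgs) hb β₀ (fun j => rfl) (fun j => rfl), e]

/-- **The label step, given the light side.** -/
theorem Inv.lam (hε0 : Tendsto ε atTop (𝓝 0)) {V : ℕ → USp K} {U : USp K} {y : K}
    (H : Inv ι hs hsi hα hε V U y) (h0 : (⟪y, ι (eVec U)⟫_ℂ).im ≠ 0) (α : ℝ)
    (hL : ∀ (yn : ℕ → K) (m : ℕ), Tendsto yn atTop (𝓝 y) → 0 < m →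
      (⟪y, ι (eVec (mixU (-(Real.pi / 2) / (4 * m)) * U))⟫_ℂ).im ≠ 0 →
      (∀ b : ℝ, b = 1 ∨ b = -1 → Hv.Heavy ε b (-b) yn
        (fun n => (V1 ι hs hsi hα hε yn V m n : Sp K →L[ℂ] Sp K)
          (Pb b (Hn ι hs hsi hα hε n Om)))) →
      LamLight ι hs hsi hα hε yn V U m α) :
    ∃ V', Inv ι hs hsi hα hε V' (costU (-α) s * U) (y + ((2 * α : ℝ) : ℂ) • ι (eVec U)) := by
  obtain ⟨m, hm0, hm⟩ := exists_subdiv ι h0 (-(Real.pi / 2))
  obtain ⟨yn, hy, hhv⟩ := H.heavy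
  have hH1 := fun b (hb : b = 1 ∨ b = -1) =>
    heavy_V1 hε0 H.light H.nice hy hm0 h0 hm hb (hhv b hb)
  obtain ⟨hread, hlight⟩ := hL yn m hy hm0 hm hH1
  have hcE : (costU (-α) s : USp K) = Ez ((α : ℂ) • s) := by
    rw [costU_eq_Ez]
    congr 2
    push_cast
    ring
  -- convergence of the site vectors
  have he2 : Tendsto (ee2 ι hs hsi hα hε yn V m) atTop (𝓝 (ι (eVec U))) :=
    (light_V1 hε0 H.light H.nice hy h0 hm (4 * m)).tendsto_jn_eVec hε0
  have he4 : Tendsto (ee4 ι hs hsi hα hε yn V m α) atTop (𝓝 (ι (eVec U))) := by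
    have h1 := hlight.tendsto_jn_eVec hε0
    rw [hcE, eVec_Ez_mul] at h1
    refine h1.congr fun n => ?_
    rw [ee4, V4, mul_assoc, eVec_Ez_mul]
  refine ⟨V4 ι hs hsi hα hε yn V m α, fun n => ?_, hlight, ?_,
    fun n => y3 ι hs hsi hα hε yn V m α n + ((α : ℝ) : ℂ) • ee4 ι hs hsi hα hε yn V m α n,
    ?_, fun b hb => ?_⟩
  · -- the word
    have r1 := reach_pv ι hs hsi hα hε yn (axs (-(Real.pi / 2) / (4 * m))) sgs (H.reach n) (4 * m)
    have r2 := exists_word_moveC r1 (α / (2 * ε n))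
    have e2 : moveC (jn ι hs hsi hα hε n) (α / (2 * ε n))
        (pv ι hs hsi hα hε yn (axs (-(Real.pi / 2) / (4 * m))) sgs V (4 * m) n *
          Mn ι hs hsi hα hε n) = V2 ι hs hsi hα hε yn V m α n * Mn ι hs hsi hα hε n := by
      rw [moveC, costU_eq_Ez, V2, ee2, V1, mul_assoc, Complex.ofReal_neg]
    rw [e2] at r2
    have r3 := reach_pv ι hs hsi hα hε (y3 ι hs hsi hα hε yn V m α)
      (axs ((Real.pi / 2) / (4 * m))) sgs r2 (4 * m)
    have r4 := exists_word_moveC r3 (-(α / (2 * ε n)))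
    have e4 : moveC (jn ι hs hsi hα hε n) (-(α / (2 * ε n)))
        (pv ι hs hsi hα hε (y3 ι hs hsi hα hε yn V m α) (axs ((Real.pi / 2) / (4 * m))) sgs
          (V2 ι hs hsi hα hε yn V m α) (4 * m) n * Mn ι hs hsi hα hε n) =
        V4 ι hs hsi hα hε yn V m α n * Mn ι hs hsi hα hε n := by
      rw [moveC, costU_eq_Ez, V4, ee4, V3, V3j, mul_assoc, Complex.ofReal_neg, neg_neg]
    rw [e4] at r4
    exact r4
  · rw [hcE]
    exact H.nice.Ez _
  · have h1 := (hy.add (he2.const_smul ((α : ℝ) : ℂ))).add (he4.const_smul ((α : ℝ) : ℂ))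
    have e : y + ((α : ℝ) : ℂ) • ι (eVec U) + ((α : ℝ) : ℂ) • ι (eVec U) =
        y + ((2 * α : ℝ) : ℂ) • ι (eVec U) := by
      push_cast
      module
    rw [e] at h1
    exact h1
  · -- the heavy branch
    have hbb : b * b = 1 := by rcases hb with rfl | rfl <;> norm_num
    have hb' : -b = 1 ∨ -b = -1 := by rcases hb with rfl | rfl <;> simp
    have hεne : ∀ᶠ n in atTop, ε n ≠ 0 := Eventually.of_forall fun n => (hε n).ne'
    -- amplified cost gate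
    have h2 := (hH1 b hb).cost hb hb' hεne
      (fun n => ((-(α / 2) : ℝ) : ℂ) • ee2 ι hs hsi hα hε yn V m n)
    have ey : (fun n => yn n + ((2 * (b * -b) : ℝ) : ℂ) • (((-(α / 2) : ℝ) : ℂ) •
        ee2 ι hs hsi hα hε yn V m n)) = y3 ι hs hsi hα hε yn V m α := by
      funext n
      rw [y3, smul_smul, ← Complex.ofReal_mul]
      congr 3
      linear_combination α * hbb
    have eh : (fun n => ((Ez (((1 / ε n : ℝ) : ℂ) • (((-(α / 2) : ℝ) : ℂ) •
        ee2 ι hs hsi hα hε yn V m n)) : USp K) : Sp K →L[ℂ] Sp K)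
        ((V1 ι hs hsi hα hε yn V m n : Sp K →L[ℂ] Sp K) (Pb b (Hn ι hs hsi hα hε n Om)))) =
        fun n => (V2 ι hs hsi hα hε yn V m α n : Sp K →L[ℂ] Sp K)
          (Pb b (Hn ι hs hsi hα hε n Om)) := by
      funext n
      have e : ((1 / ε n : ℝ) : ℂ) • (((-(α / 2) : ℝ) : ℂ) • ee2 ι hs hsi hα hε yn V m n) =
          ((-(α / (2 * ε n)) : ℝ) : ℂ) • ee2 ι hs hsi hα hε yn V m n := by
        rw [smul_smul, ← Complex.ofReal_mul]
        congr 2
        have := (hε n).ne'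
        field_simp
      rw [e, V2]
      rfl
    rw [ey, eh] at h2
    -- second rotation
    set β₀ : ℝ := (Real.pi / 2) / (4 * m) with hβ₀
    have h3 := h2.pulses (bdd_heavy _ hb) hb (β := axs β₀) (σ := sgs) sgs_or
      (τ := fun j => ta ι hs hsi hα hε (y3 ι hs hsi hα hε yn V m α) (axs β₀ j) (sgs j)
        (V3j ι hs hsi hα hε yn V m α j)) (N := 4 * m)
      (fun j hj => by
        obtain ⟨r, hr, hr'⟩ := hread j hj
        exact (calib_of_read hr hr').1)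
      (fun j hj => by
        obtain ⟨r, hr, hr'⟩ := hread j hj
        exact (calib_of_read hr hr').2)
      (g := fun j n => (V3j ι hs hsi hα hε yn V m α j n : Sp K →L[ℂ] Sp K)
        (Pb b (Hn ι hs hsi hα hε n Om))) (fun n => rfl) (fun j _ n => rfl) (4 * m) le_rfl
    have hmz : (m : ℝ) ≠ 0 := by exact_mod_cast hm0.ne'
    have e : 4 * (m : ℝ) * β₀ = Real.pi / 2 := by
      rw [hβ₀]
      field_simp
    have h4 : Hv.Heavy ε b b (y3 ι hs hsi hα hε yn V m α)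
        (fun n => (V3 ι hs hsi hα hε yn V m α n : Sp K →L[ℂ] Sp K)
          (Pb b (Hn ι hs hsi hα hε n Om))) := by
      have h5 := heavy_flip h2 (Or.inl rfl)
      rw [neg_neg] at h5
      refine h5.congr (h3.congr fun n => ?_)
      rw [Hv.pulM_period (β := axs β₀) (σ := sgs) hb β₀ (fun j => rfl) (fun j => rfl), e]
      rfl
    -- second amplified cost gate
    have h6 := h4.cost hb hb hεne (fun n => ((α / 2 : ℝ) : ℂ) • ee4 ι hs hsi hα hε yn V m α n)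
    have ey' : (fun n => y3 ι hs hsi hα hε yn V m α n + ((2 * (b * b) : ℝ) : ℂ) •
        (((α / 2 : ℝ) : ℂ) • ee4 ι hs hsi hα hε yn V m α n)) =
        fun n => y3 ι hs hsi hα hε yn V m α n + ((α : ℝ) : ℂ) •
          ee4 ι hs hsi hα hε yn V m α n := by
      funext n
      rw [smul_smul, ← Complex.ofReal_mul]
      congr 3
      linear_combination α * hbb
    have eh' : (fun n => ((Ez (((1 / ε n : ℝ) : ℂ) • (((α / 2 : ℝ) : ℂ) •
        ee4 ι hs hsi hα hε yn V m α n)) : USp K) : Sp K →L[ℂ] Sp K)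
        ((V3 ι hs hsi hα hε yn V m α n : Sp K →L[ℂ] Sp K) (Pb b (Hn ι hs hsi hα hε n Om)))) =
        fun n => (V4 ι hs hsi hα hε yn V m α n : Sp K →L[ℂ] Sp K)
          (Pb b (Hn ι hs hsi hα hε n Om)) := by
      funext n
      have e : ((1 / ε n : ℝ) : ℂ) • (((α / 2 : ℝ) : ℂ) • ee4 ι hs hsi hα hε yn V m α n) =
          ((α / (2 * ε n) : ℝ) : ℂ) • ee4 ι hs hsi hα hε yn V m α n := by
        rw [smul_smul, ← Complex.ofReal_mul]
        congr 2
        have := (hε n).ne'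
        field_simp
      rw [e, V4]
      rfl
    rw [ey', eh'] at h6
    exact h6

end Step

end Crest.Agent.R339.Mark
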