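import Mathlib
import Crest.Agent.R339.Asm539D

/-!
# Level-one label gates: heavy-only rotations
-/

set_option autoImplicit false
set_option maxHeartbeats 400000

noncomputable section

open scoped ComplexConjugate InnerProductSpace Topology
open Filter Crest.MathPhysics.SpinGlass Crest.Agent.R339.Site Crest.Agent.R339.Lab

namespace Crest.Agent.R339.Mark

variable {K : Type*} [NormedAddCommGroup K] [InnerProductSpace ℂ K]

variable {ι : Sp K →ₗᵢ[ℂ] K} {s : K} {hs : ‖s‖ = 1} {hsi : ∀ v, ⟪s, ι v⟫_ℂ = 0}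
  {α0 : ℝ} {hα : α0 ≠ 0} {ε : ℕ → ℝ} {hε : ∀ n, 0 < ε n}

/-- **Heavy-only rotations**: the light part is not changed, the heavy branches are rotated. -/
theorem Inv.rot (hε0 : Tendsto ε atTop (𝓝 0)) {V : ℕ → USp K} {U : USp K} {y : K}
    (H : Inv ι hs hsi hα hε V U y) (h0 : (⟪y, ι (eVec U)⟫_ℂ).im ≠ 0) (θ : ℝ) :
    ∃ V' : ℕ → USp K, (∀ n, ∃ w, wordU (jn ι hs hsi hα hε n) w = V' n * Mn ι hs hsi hα hε n) ∧
      Light ι hs hsi hα hε V' U ∧
      ∀ b : ℝ, b = 1 ∨ b = -1 → Tendsto (fun n =>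
        (V' n : Sp K →L[ℂ] Sp K) (Pb b (Hn ι hs hsi hα hε n Om)) -
        ((mixU θ : USp K) : Sp K →L[ℂ] Sp K) ((V n : Sp K →L[ℂ] Sp K)
          (Pb b (Hn ι hs hsi hα hε n Om)))) atTop (𝓝 0) := by
  obtain ⟨m, hm0, hm⟩ := exists_subdiv ι h0 θ
  obtain ⟨yn, hy, hhv⟩ := H.heavy
  set β₀ : ℝ := θ / (4 * m) with hβ₀
  have hne' : ∀ j, (⟪y, ι (eVec (mixU (axs β₀ j) * U))⟫_ℂ).im ≠ 0 := by
    intro j
    unfold axs
    split_ifs
    · exact hm
    · rw [mixU_zero, one_mul]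
      exact h0
  refine ⟨pv ι hs hsi hα hε yn (axs β₀) sgs V (4 * m),
    fun n => reach_pv ι hs hsi hα hε yn (axs β₀) sgs (H.reach n) _,
    H.light.pv hε0 H.nice hy hne' _, fun b hb => ?_⟩
  have hcal := fun j => (H.light.pv (σ := sgs) hε0 H.nice hy hne' j).calib hε0 (sgs j) hy (hne' j)
  have h1 := (hhv b hb).pulses (bdd_heavy V hb) hb (β := axs β₀) (σ := sgs) sgs_or
    (τ := fun j => ta ι hs hsi hα hε yn (axs β₀ j) (sgs j)
      (pv ι hs hsi hα hε yn (axs β₀) sgs V j)) (N := 4 * m)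
    (fun j _ => (hcal j).2.1) (fun j _ => (hcal j).2.2)
    (g := fun j n => (pv ι hs hsi hα hε yn (axs β₀) sgs V j n : Sp K →L[ℂ] Sp K)
      (Pb b (Hn ι hs hsi hα hε n Om))) (fun n => rfl) (fun j _ n => rfl) (4 * m) le_rfl
  refine h1.congr fun n => ?_
  congr 1
  have hmz : (m : ℝ) ≠ 0 := by exact_mod_cast hm0.ne'
  have e : 4 * (m : ℝ) * β₀ = θ := by
    rw [hβ₀]
    field_simp
  rw [Hv.pulM_period (β := axs β₀) (σ := sgs) hb β₀ (fun j => rfl) (fun j => rfl), e]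

end Crest.Agent.R339.Mark
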