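import Mathlib
import Crest.Agent.R339.Asm539E

/-!
# Level-one label gates: the difference of the two amplified site vectors
-/

set_option autoImplicit false
set_option maxHeartbeats 400000

noncomputable section

open scoped ComplexConjugate InnerProductSpace Topology
open Filter Crest.MathPhysics.SpinGlass Crest.Agent.R339.Site Crest.Agent.R339.Lab

namespace Crest.Agent.R339.Mark

variable {K : Type*} [NormedAddCommGroup K] [InnerProductSpace ℂ K]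

variable (ι : Sp K →ₗᵢ[ℂ] K) {s : K} (hs : ‖s‖ = 1) (hsi : ∀ v, ⟪s, ι v⟫_ℂ = 0)
  {α0 : ℝ} (hα : α0 ≠ 0) {ε : ℕ → ℝ} (hε : ∀ n, 0 < ε n)

lemma star_U_U_apply (U : USp K) (v : Sp K) :
    star (U : Sp K →L[ℂ] Sp K) ((U : Sp K →L[ℂ] Sp K) v) = v := by
  rw [← mul_apply_eq_comp, star_U_mul_self]
  rfl

/-- `ρ* Z ρ - Z` -/
def dZ (ρ : USp K) (v : Sp K) : Sp K :=
  star (ρ : Sp K →L[ℂ] Sp K) (Zop ((ρ : Sp K →L[ℂ] Sp K) v)) - Zop v

lemma dZ_add (ρ : USp K) (v w : Sp K) : dZ ρ (v + w) = dZ ρ v + dZ ρ w := by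
  simp only [dZ, map_add]
  abel

lemma dZ_smul (ρ : USp K) (c : ℂ) (v : Sp K) : dZ ρ (c • v) = c • dZ ρ v := by
  simp only [dZ, map_smul, smul_sub]

lemma dZ_sub (ρ : USp K) (v w : Sp K) : dZ ρ (v - w) = dZ ρ v - dZ ρ w := by
  simp only [dZ, map_sub]
  abel

/-- norm of `ρ* Z ρ v - Z v` through the commutator -/
lemma norm_dZ (ρ : USp K) (v : Sp K) : ‖dZ ρ v‖ =
    ‖Zop ((ρ : Sp K →L[ℂ] Sp K) v) - (ρ : Sp K →L[ℂ] Sp K) (Zop v)‖ := by
  rw [dZ, ← norm_U_apply ρ (star (ρ : Sp K →L[ℂ] Sp K) (Zop ((ρ : Sp K →L[ℂ] Sp K) v)) - Zop v),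
    map_sub]
  congr 2
  rw [← mul_apply_eq_comp, U_mul_star_self]
  rfl

lemma eVec_mul_sub (ρ W : USp K) : eVec (ρ * W) - eVec W =
    star (W : Sp K →L[ℂ] Sp K) (dZ ρ ((W : Sp K →L[ℂ] Sp K) Om)) := by
  have h1 : eVec (ρ * W) = star (W : Sp K →L[ℂ] Sp K) (star (ρ : Sp K →L[ℂ] Sp K)
      (Zop ((ρ : Sp K →L[ℂ] Sp K) ((W : Sp K →L[ℂ] Sp K) Om)))) := by
    have : star ((ρ * W : USp K) : Sp K →L[ℂ] Sp K) =
        star (W : Sp K →L[ℂ] Sp K) * star (ρ : Sp K →L[ℂ] Sp K) := by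
      rw [← star_mul]
      rfl
    rw [eVec, this]
    rfl
  rw [h1, eVec, dZ, map_sub]

/-- **The (e)-step**: the difference of the site vectors before the two amplified cost gates is
`2 ε s` up to `o(ε)`. -/
theorem tendsto_e_step (hε0 : Tendsto ε atTop (𝓝 0)) (ρ V2 : ℕ → USp K)
    (hl : Tendsto (fun n => (((ε n)⁻¹ : ℝ) : ℂ) • dZ (ρ n) ((V2 n : Sp K →L[ℂ] Sp K)
      ((Ln ι hs hsi hα hε n : Sp K →L[ℂ] Sp K) Om))) atTop (𝓝 0))
    (hh : ∀ b : ℝ, b = 1 ∨ b = -1 → Tendsto (fun n => dZ (ρ n) ((V2 n : Sp K →L[ℂ] Sp K)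
      (Pb b (Hn ι hs hsi hα hε n Om))) - ((2 * b : ℝ) : ℂ) • (V2 n : Sp K →L[ℂ] Sp K)
      (Pb b (Hn ι hs hsi hα hε n Om))) atTop (𝓝 0)) :
    Tendsto (fun n => (((ε n)⁻¹ : ℝ) : ℂ) •
      (jn ι hs hsi hα hε n (eVec (ρ n * V2 n * Mn ι hs hsi hα hε n)) -
       jn ι hs hsi hα hε n (eVec (V2 n * Mn ι hs hsi hα hε n)))) atTop (𝓝 ((2 : ℂ) • s)) := by
  -- heavy part
  have hH : Tendsto (fun n => dZ (ρ n) ((V2 n : Sp K →L[ℂ] Sp K) (Hn ι hs hsi hα hε n Om)) -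
      (2 : ℂ) • (V2 n : Sp K →L[ℂ] Sp K) (Zop (Hn ι hs hsi hα hε n Om))) atTop (𝓝 0) := by
    have h := (hh 1 (Or.inl rfl)).add (hh (-1) (Or.inr rfl))
    rw [add_zero] at h
    refine h.congr fun n => ?_
    have e1 : Hn ι hs hsi hα hε n Om = Pb 1 (Hn ι hs hsi hα hε n Om) +
        Pb (-1) (Hn ι hs hsi hα hε n Om) := (Pb_add _).symm
    have e2 : Zop (Hn ι hs hsi hα hε n Om) = Pb 1 (Hn ι hs hsi hα hε n Om) -
        Pb (-1) (Hn ι hs hsi hα hε n Om) := (Pb_sub _).symm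
    rw [e2]
    conv_rhs => rw [e1]
    rw [map_add, map_sub, dZ_add]
    rw [Pb_add]
    push_cast
    module
  -- the coefficient
  have hsin : Tendsto (fun n => ((Real.sin (ε n) / ε n : ℝ) : ℂ)) atTop (𝓝 ((1 : ℝ) : ℂ)) := by
    refine (Complex.continuous_ofReal.tendsto _).comp ?_
    have h1 : HasDerivAt Real.sin (Real.cos 0) 0 := Real.hasDerivAt_sin 0
    have h2 := h1.tendsto_slope_zero
    have h3 : Tendsto ε atTop (𝓝[≠] 0) := by
      rw [tendsto_nhdsWithin_iff]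
      exact ⟨hε0, Eventually.of_forall fun n => (hε n).ne'⟩
    have h4 := h2.comp h3
    rw [Real.cos_zero] at h4
    refine h4.congr fun n => ?_
    show (ε n)⁻¹ • (Real.sin (0 + ε n) - Real.sin 0) = _
    rw [zero_add, Real.sin_zero, sub_zero, smul_eq_mul, inv_mul_eq_div]
  have hcos : Tendsto (fun n => ((Real.cos (ε n) : ℝ) : ℂ)) atTop (𝓝 ((Real.cos 0 : ℝ) : ℂ)) :=
    (Complex.continuous_ofReal.tendsto _).comp ((Real.continuous_cos.tendsto _).comp hε0)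
  -- the vector inside
  set D : ℕ → Sp K := fun n => (((ε n)⁻¹ : ℝ) : ℂ) •
    dZ (ρ n) ((V2 n : Sp K →L[ℂ] Sp K) ((Mn ι hs hsi hα hε n : Sp K →L[ℂ] Sp K) Om)) with hD
  have hD1 : Tendsto (fun n => D n + (Complex.I * ((Real.sin (ε n) / ε n : ℝ) : ℂ)) •
      ((2 : ℂ) • (V2 n : Sp K →L[ℂ] Sp K) (Zop (Hn ι hs hsi hα hε n Om)))) atTop (𝓝 0) := by
    have h1 := hcos.smul hl
    rw [smul_zero] at h1
    have h2 := (hsin.const_mul Complex.I).smul hH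
    rw [smul_zero] at h2
    have h3 := h1.sub h2
    rw [sub_zero] at h3
    refine h3.congr fun n => ?_
    have hne : ((ε n : ℝ) : ℂ) ≠ 0 := by exact_mod_cast (hε n).ne'
    rw [hD]
    simp only
    rw [Mn_eq, map_sub, map_smul, map_smul, dZ_sub, dZ_smul, dZ_smul]
    simp only [smul_sub, smul_smul]
    push_cast
    have e1 : (ε n : ℂ)⁻¹ * (Complex.I * Complex.sin (ε n)) =
        Complex.I * (Complex.sin (ε n) / (ε n)) := by
      field_simp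
    rw [e1, mul_comm (Complex.cos (ε n : ℂ))]
    abel
  -- apply the isometry
  set T : ℕ → (Sp K → K) := fun n v => jn ι hs hsi hα hε n
    (star (V2 n * Mn ι hs hsi hα hε n : USp K).1 v) with hT
  have hTn : ∀ n v, ‖T n v‖ = ‖v‖ := by
    intro n v
    rw [hT]
    simp only
    rw [LinearIsometry.norm_map]
    exact norm_star_U_apply _ v
  have h5 : Tendsto (fun n => T n (D n + (Complex.I * ((Real.sin (ε n) / ε n : ℝ) : ℂ)) •
      ((2 : ℂ) • (V2 n : Sp K →L[ℂ] Sp K) (Zop (Hn ι hs hsi hα hε n Om))))) atTop (𝓝 0) := by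
    rw [tendsto_zero_iff_norm_tendsto_zero] at hD1 ⊢
    exact hD1.congr fun n => (hTn n _).symm
  have h6 : Tendsto (fun n => (Complex.I * ((Real.sin (ε n) / ε n : ℝ) : ℂ)) • ((2 : ℂ) •
      jn ι hs hsi hα hε n (star (Mn ι hs hsi hα hε n : Sp K →L[ℂ] Sp K)
        (Zop (Hn ι hs hsi hα hε n Om))))) atTop
      (𝓝 ((Complex.I * ((1 : ℝ) : ℂ)) • ((2 : ℂ) • (Complex.I • s)))) :=
    (hsin.const_mul Complex.I).smul ((tendsto_jn_star_Mu ι hs hsi hα hε hε0).const_smul (2 : ℂ))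
  have h7 := h5.sub h6
  have e7 : (0 : K) - (Complex.I * ((1 : ℝ) : ℂ)) • ((2 : ℂ) • (Complex.I • s)) = (2 : ℂ) • s := by
    rw [Complex.ofReal_one, mul_one, smul_smul, smul_smul, zero_sub, ← neg_smul]
    congr 1
    linear_combination (-2 : ℂ) * Complex.I_mul_I
  rw [e7] at h7
  refine h7.congr fun n => ?_
  have e8 : star (V2 n * Mn ι hs hsi hα hε n : USp K).1 =
      star (Mn ι hs hsi hα hε n : Sp K →L[ℂ] Sp K) * star (V2 n : Sp K →L[ℂ] Sp K) := by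
    rw [← star_mul]
    rfl
  rw [hT]
  simp only
  have e10 : (V2 n * Mn ι hs hsi hα hε n : USp K).1 = ((V2 n * Mn ι hs hsi hα hε n : USp K) :
    Sp K →L[ℂ] Sp K) := rfl
  rw [← map_sub (jn ι hs hsi hα hε n) (eVec (ρ n * V2 n * Mn ι hs hsi hα hε n)),
    mul_assoc (ρ n), eVec_mul_sub, ← e10, e8, map_add, map_add, map_smul, map_smul]
  simp only [map_smul, mul_apply_eq_comp, star_U_U_apply]
  rw [add_sub_cancel_right]
  rfl

end Crest.Agent.R339.Mark
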