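import Mathlib
import Crest.Agent.R339.Lab373B

/-!
# The light side: small pulses on the dressed light vectors
-/

set_option autoImplicit false

noncomputable section

open scoped ComplexConjugate InnerProductSpace Topology
open Filter Asymptotics Crest.MathPhysics.SpinGlass Crest.Agent.R339.Site

namespace Crest.Agent.R339.Lab

variable {K : Type*} [NormedAddCommGroup K] [InnerProductSpace ℂ K]

/-! ### asymptotic helpers -/

lemma isLittleO_clm {E F : Type*} [NormedAddCommGroup E] [NormedSpace ℂ E] [NormedAddCommGroup F]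
    [NormedSpace ℂ F] (A : E →L[ℂ] F) {v : ℕ → E} {ε : ℕ → ℝ} (h : v =o[atTop] ε) :
    (fun n => A (v n)) =o[atTop] ε :=
  (A.isBigO_comp v atTop).trans_isLittleO h

lemma isBigO_clm {E F : Type*} [NormedAddCommGroup E] [NormedSpace ℂ E] [NormedAddCommGroup F]
    [NormedSpace ℂ F] (A : E →L[ℂ] F) {v : ℕ → E} {ε : ℕ → ℝ} (h : v =O[atTop] ε) :
    (fun n => A (v n)) =O[atTop] ε :=
  (A.isBigO_comp v atTop).trans h

lemma isLittleO_U {v : ℕ → Sp K} {ε : ℕ → ℝ} (U : ℕ → USp K) (h : v =o[atTop] ε) :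
    (fun n => (U n : Sp K →L[ℂ] Sp K) (v n)) =o[atTop] ε := by
  refine IsBigO.trans_isLittleO ?_ h
  exact IsBigO.of_bound 1 (Eventually.of_forall fun n => by rw [norm_U_apply, one_mul])

lemma isBigO_U {v : ℕ → Sp K} {ε : ℕ → ℝ} (U : ℕ → USp K) (h : v =O[atTop] ε) :
    (fun n => (U n : Sp K →L[ℂ] Sp K) (v n)) =O[atTop] ε := by
  refine IsBigO.trans ?_ h
  exact IsBigO.of_bound 1 (Eventually.of_forall fun n => by rw [norm_U_apply, one_mul])

/-- inner product with a bounded family -/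
lemma isLittleO_inner_right {v w : ℕ → Sp K} {ε : ℕ → ℝ} (hv : v =O[atTop] (fun _ => (1 : ℝ)))
    (hw : w =o[atTop] ε) : (fun n => ⟪v n, w n⟫_ℂ) =o[atTop] ε := by
  have h1 : (fun n => ⟪v n, w n⟫_ℂ) =O[atTop] (fun n => ‖v n‖ * ‖w n‖) :=
    IsBigO.of_bound 1 (Eventually.of_forall fun n => by
      rw [one_mul, Real.norm_of_nonneg (by positivity)]
      exact norm_inner_le_norm _ _)
  have h2 : (fun n => ‖v n‖ * ‖w n‖) =o[atTop] (fun n => (1 : ℝ) * ε n) :=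
    (hv.norm_left).mul_isLittleO hw.norm_left
  simpa using h1.trans_isLittleO h2

lemma isLittleO_inner_left {v w : ℕ → Sp K} {ε : ℕ → ℝ} (hv : v =o[atTop] ε)
    (hw : w =O[atTop] (fun _ => (1 : ℝ))) : (fun n => ⟪v n, w n⟫_ℂ) =o[atTop] ε := by
  have h := (isLittleO_inner_right hw hv).norm_left
  refine IsLittleO.of_norm_left (h.congr_left fun n => ?_)
  rw [← inner_conj_symm, RCLike.norm_conj]

/-- difference of inner products -/
lemma isLittleO_inner_sub {v v' w w' : ℕ → Sp K} {ε : ℕ → ℝ}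
    (hv : (fun n => v n - v' n) =o[atTop] ε) (hw : (fun n => w n - w' n) =o[atTop] ε)
    (hv1 : v' =O[atTop] (fun _ => (1 : ℝ))) (hw1 : w =O[atTop] (fun _ => (1 : ℝ))) :
    (fun n => ⟪v n, w n⟫_ℂ - ⟪v' n, w' n⟫_ℂ) =o[atTop] ε := by
  have h := (isLittleO_inner_left hv hw1).add (isLittleO_inner_right hv1 hw)
  refine h.congr_left fun n => ?_
  rw [inner_sub_left, inner_sub_right]
  ring

/-- data of a light family in a (possibly) scrambled frame -/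
structure Light (ε : ℕ → ℝ) (w : ℕ → K) (lam : ℕ → Sp K) (lam₀ : Sp K) : Prop where
  eps_pos : ∀ n, 0 < ε n
  eps : Tendsto ε atTop (𝓝 0)
  cvh : CvH lam lam₀
  nice : Nice lam₀

/-- small pulse vectors -/
structure Sm (ε : ℕ → ℝ) (w u : ℕ → K) : Prop where
  bd : u =O[atTop] ε
  im : (fun n => (⟪w n, u n⟫_ℂ).im) =o[atTop] ε

lemma Sm.neg {ε : ℕ → ℝ} {w u : ℕ → K} (h : Sm ε w u) : Sm ε w (fun n => -u n) := by
  refine ⟨h.bd.neg_left, ?_⟩
  refine h.im.neg_left.congr_left fun n => ?_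
  rw [inner_neg_right, Complex.neg_im]

/-- the dressed vector -/
def zet (w : ℕ → K) (lam : ℕ → Sp K) (n : ℕ) : Sp K :=
  ((Ez (-w n) : USp K) : Sp K →L[ℂ] Sp K) (lam n)

/-- the inner vector: `Dl u (Ez(-w) v) = Ez(-w) (inn u v)` -/
def inn (w u : K) (v : Sp K) : Sp K :=
  (Rz (2 * (⟪-w, u⟫_ℂ).im) (Wl u v) - Wl u v) + Dl u v

lemma Dl_Ez_neg (w u : K) (v : Sp K) : Dl u (((Ez (-w) : USp K) : Sp K →L[ℂ] Sp K) v) =
    ((Ez (-w) : USp K) : Sp K →L[ℂ] Sp K) (inn w u v) := by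
  rw [inn, Dl_apply, Dl_apply, Wl_Ez, ← map_sub]
  congr 1
  abel

lemma norm_inn_le (w u : K) (v : Sp K) : ‖inn w u v‖ ≤ 2 * |(⟪w, u⟫_ℂ).im| * ‖v‖ + ‖Dl u v‖ := by
  refine (norm_add_le _ _).trans (add_le_add_left ((norm_Rz_sub _ _).trans ?_) _)
  rw [norm_Wl_apply, abs_mul, abs_two, inner_neg_left, Complex.neg_im, abs_neg]

lemma norm_Dl_inn_le (w u g : K) (v : Sp K) : ‖Dl g (inn w u v)‖ ≤
    4 * |(⟪w, u⟫_ℂ).im| * ‖v‖ + ‖Dl g (Dl u v)‖ := by
  rw [inn, map_add]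
  refine (norm_add_le _ _).trans (add_le_add_left ?_ _)
  refine (norm_Dl_le _ _).trans ?_
  have := norm_Rz_sub (2 * (⟪-w, u⟫_ℂ).im) (Wl u v)
  have e : |2 * (⟪-w, u⟫_ℂ).im| = 2 * |(⟪w, u⟫_ℂ).im| := by
    rw [abs_mul, abs_two, inner_neg_left, Complex.neg_im, abs_neg]
  rw [norm_Wl_apply, e] at this
  linarith

section light

variable {ε : ℕ → ℝ} {w : ℕ → K} {lam : ℕ → Sp K} {lam₀ : Sp K}

lemma Light.lam_bdd (L : Light ε w lam lam₀) : lam =O[atTop] (fun _ => (1 : ℝ)) :=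
  L.cvh.tendsto.isBigO_one ℝ

lemma Light.zet_bdd (L : Light ε w lam lam₀) : zet w lam =O[atTop] (fun _ => (1 : ℝ)) :=
  isBigO_U _ L.lam_bdd

lemma Light.eps_bdd (L : Light ε w lam lam₀) : ε =O[atTop] (fun _ => (1 : ℝ)) :=
  L.eps.isBigO_one ℝ

/-- first differences of light vectors -/
lemma Light.Dl_lam (L : Light ε w lam lam₀) {u : ℕ → K} (hu : u =O[atTop] ε) :
    (fun n => Dl (u n) (lam n)) =O[atTop] ε := by
  obtain ⟨C, hC, h⟩ := L.cvh.M1 L.nice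
  refine IsBigO.trans (IsBigO.of_bound C ?_) hu
  filter_upwards [h] with n hn using hn (u n)

/-- second differences of light vectors -/
lemma Light.Dl_Dl_lam (L : Light ε w lam lam₀) {u u' : ℕ → K} (hu : u =O[atTop] ε)
    (hu' : u' =O[atTop] ε) : (fun n => Dl (u n) (Dl (u' n) (lam n))) =o[atTop] ε := by
  obtain ⟨δ, hδ, h⟩ := L.cvh
  obtain ⟨C, hC, h1, h2⟩ := L.nice
  have a1 : (fun n => Dl (u n) (Dl (u' n) (lam₀))) =o[atTop] ε := by
    have b1 : (fun n => Dl (u n) (Dl (u' n) (lam₀))) =O[atTop] (fun n => ‖u n‖ * ‖u' n‖) :=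
      IsBigO.of_bound C (Eventually.of_forall fun n => by
        rw [Real.norm_of_nonneg (by positivity)]
        have := h2 (u n) (u' n)
        linarith)
    have b2 : (fun n => ‖u n‖ * ‖u' n‖) =O[atTop] (fun n => ε n * ε n) :=
      hu.norm_left.mul hu'.norm_left
    have b3 : (fun n => ε n * ε n) =o[atTop] (fun n => (1 : ℝ) * ε n) := by
      refine IsLittleO.mul_isBigO ?_ (isBigO_refl _ _)
      rw [isLittleO_one_iff]
      exact L.eps
    simpa using (b1.trans b2).trans_isLittleO b3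
  have a2 : (fun n => Dl (u n) (Dl (u' n) (lam n - lam₀))) =o[atTop] ε := by
    have b1 : (fun n => Dl (u n) (Dl (u' n) (lam n - lam₀))) =O[atTop] (fun n => δ n * ‖u' n‖) := by
      refine IsBigO.of_bound 2 ?_
      filter_upwards [h] with n hn
      rw [Real.norm_of_nonneg (mul_nonneg hn.nonneg (norm_nonneg _))]
      exact (norm_Dl_le _ _).trans (mul_le_mul_of_nonneg_left (hn.2 _) (by norm_num))
    have b2 : (fun n => δ n * ‖u' n‖) =o[atTop] (fun n => (1 : ℝ) * ε n) := by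
      refine IsLittleO.mul_isBigO ?_ hu'.norm_left
      rw [isLittleO_one_iff]
      exact hδ
    simpa using b1.trans_isLittleO b2
  refine (a1.add a2).congr_left fun n => ?_
  rw [map_sub, map_sub]
  abel

lemma Light.inn_O (L : Light ε w lam lam₀) {u : ℕ → K} (hu : Sm ε w u) :
    (fun n => inn (w n) (u n) (lam n)) =O[atTop] ε := by
  have h1 : (fun n => 2 * |(⟪w n, u n⟫_ℂ).im| * ‖lam n‖) =O[atTop] ε := by
    have := (hu.im.isBigO.norm_left.const_mul_left 2).mul L.lam_bdd.norm_left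
    simpa using this
  have h2 : (fun n => ‖Dl (u n) (lam n)‖) =O[atTop] ε := (L.Dl_lam hu.bd).norm_left
  refine IsBigO.trans (IsBigO.of_bound 1 ?_) (h1.add h2)
  refine Eventually.of_forall fun n => ?_
  rw [one_mul, Real.norm_of_nonneg (by positivity)]
  exact norm_inn_le _ _ _

lemma Light.Dl_inn_o (L : Light ε w lam lam₀) {u g : ℕ → K} (hu : Sm ε w u)
    (hg : g =O[atTop] ε) : (fun n => Dl (g n) (inn (w n) (u n) (lam n))) =o[atTop] ε := by
  have h1 : (fun n => 4 * |(⟪w n, u n⟫_ℂ).im| * ‖lam n‖) =o[atTop] ε := by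
    have := (hu.im.norm_left.const_mul_left 4).mul_isBigO L.lam_bdd.norm_left
    simpa using this
  have h2 : (fun n => ‖Dl (g n) (Dl (u n) (lam n))‖) =o[atTop] ε :=
    (L.Dl_Dl_lam hg hu.bd).norm_left
  refine IsBigO.trans_isLittleO (IsBigO.of_bound 1 ?_) (h1.add h2)
  refine Eventually.of_forall fun n => ?_
  rw [one_mul, Real.norm_of_nonneg (by positivity)]
  exact norm_Dl_inn_le _ _ _ _

/-- first differences of the dressed vector -/
lemma Light.Dl_zet (L : Light ε w lam lam₀) {u : ℕ → K} (hu : Sm ε w u) :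
    (fun n => Dl (u n) (zet w lam n)) =O[atTop] ε := by
  simp only [zet, Dl_Ez_neg]
  exact isBigO_U _ (L.inn_O hu)

/-- second differences of the dressed vector -/
lemma Light.Dl_Dl_zet (L : Light ε w lam lam₀) {u u' : ℕ → K} (hu : Sm ε w u) (hu' : Sm ε w u') :
    (fun n => Dl (u n) (Dl (u' n) (zet w lam n))) =o[atTop] ε := by
  simp only [zet, Dl_Ez_neg]
  refine isLittleO_U _ ?_
  -- inn of inn
  have h1 : (fun n => 2 * |(⟪w n, u n⟫_ℂ).im| * ‖inn (w n) (u' n) (lam n)‖) =o[atTop] ε := by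
    have a1 := (hu.im.norm_left.const_mul_left 2).mul_isBigO (L.inn_O hu').norm_left
    have a2 : (fun n => ε n * ε n) =o[atTop] (fun n => (1 : ℝ) * ε n) := by
      refine IsLittleO.mul_isBigO ?_ (isBigO_refl _ _)
      rw [isLittleO_one_iff]
      exact L.eps
    simpa using a1.trans a2
  have h2 : (fun n => ‖Dl (u n) (inn (w n) (u' n) (lam n))‖) =o[atTop] ε :=
    (L.Dl_inn_o hu' hu.bd).norm_left
  refine IsBigO.trans_isLittleO (IsBigO.of_bound 1 ?_) (h1.add h2)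
  refine Eventually.of_forall fun n => ?_
  rw [one_mul, Real.norm_of_nonneg (by positivity)]
  exact norm_inn_le _ _ _

end light

lemma isLittleO_finsum {E : Type*} [NormedAddCommGroup E] {ε : ℕ → ℝ} {s : Finset ℕ}
    {f : ℕ → ℕ → E} (h : ∀ i ∈ s, (fun n => f i n) =o[atTop] ε) :
    (fun n => ∑ i ∈ s, f i n) =o[atTop] ε := by
  have := IsLittleO.sum (A := fun i n => f i n) h
  refine this.congr_left fun n => ?_
  rw [Finset.sum_apply]

lemma isBigO_finsum {E : Type*} [NormedAddCommGroup E] {ε : ℕ → ℝ} {s : Finset ℕ}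
    {f : ℕ → ℕ → E} (h : ∀ i ∈ s, (fun n => f i n) =O[atTop] ε) :
    (fun n => ∑ i ∈ s, f i n) =O[atTop] ε := by
  have := IsBigO.sum (A := fun i n => f i n) h
  refine this.congr_left fun n => ?_
  rw [Finset.sum_apply]

/-! ### half differences and pulses -/

/-- half difference of the Weyl operators, `i sin φ(u)` -/
def Hd (u : K) : Sp K →L[ℂ] Sp K := (1 / 2 : ℂ) • (Wl u - Wl (-u))

lemma Hd_apply (u : K) (v : Sp K) : Hd u v = (1 / 2 : ℂ) • (Wl u v - Wl (-u) v) := rfl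

lemma Hd_eq (u : K) (v : Sp K) : Hd u v = (1 / 2 : ℂ) • (Dl u v - Dl (-u) v) := by
  rw [Hd_apply, Dl_apply, Dl_apply]
  congr 1
  abel

lemma IsSpin.Hd {A : Sp K →L[ℂ] Sp K} (hA : IsSpin A) (u : K) (v : Sp K) :
    A (Hd u v) = Lab.Hd u (A v) := by
  rw [Hd_apply, Hd_apply, map_smul, map_sub, hA, hA]

lemma inner_Hd_left (u : K) (v w : Sp K) : ⟪Hd u v, w⟫_ℂ = -⟪v, Hd u w⟫_ℂ := by
  rw [Hd_apply, Hd_apply, inner_smul_left, inner_smul_right, inner_sub_left, inner_sub_right,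
    inner_Wl_left, inner_Wl_left, neg_neg]
  have : (starRingEnd ℂ) (1 / 2 : ℂ) = 1 / 2 := by
    rw [map_div₀, map_one, Complex.conj_ofNat]
  rw [this]
  ring

lemma norm_Hd_le (u : K) (v : Sp K) : ‖Hd u v‖ ≤ ‖Dl u v‖ := by
  rw [Hd_eq, norm_smul]
  have h1 := norm_sub_le (Dl u v) (Dl (-u) v)
  rw [norm_Dl_neg] at h1
  have h2 : ‖(1 / 2 : ℂ)‖ = 1 / 2 := by norm_num
  rw [h2]
  linarith

lemma Dl_add_Dl_neg (u : K) (v : Sp K) : Dl u v + Dl (-u) v = -Dl u (Dl (-u) v) := by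
  rw [Dl_apply, Dl_apply, Dl_apply, map_sub, Wl_Wl_neg]
  abel

lemma Pu_sub (β : ℝ) (u : K) (v : Sp K) : ((Pu β u : USp K) : Sp K →L[ℂ] Sp K) v - v -
    Zb β (Hd u v) = -((1 / 2 : ℂ) • Dl u (Dl (-u) v)) := by
  rw [← smul_neg, ← Dl_add_Dl_neg, Pu_eq, Hd_apply, map_smul, Dl_apply, Dl_apply]
  module

lemma norm_Pu_sub_le (β : ℝ) (u : K) (v : Sp K) :
    ‖((Pu β u : USp K) : Sp K →L[ℂ] Sp K) v - v‖ ≤ 2 * ‖Dl u v‖ := by
  have e : ((Pu β u : USp K) : Sp K →L[ℂ] Sp K) v - v = Zb β (Hd u v) +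
      (-((1 / 2 : ℂ) • Dl u (Dl (-u) v))) := by
    rw [← Pu_sub β u v]; abel
  rw [e]
  refine (norm_add_le _ _).trans ?_
  rw [norm_Zb_apply, norm_neg, norm_smul]
  have h1 := norm_Hd_le u v
  have h2 := norm_Dl_le u (Dl (-u) v)
  rw [norm_Dl_neg] at h2
  have h3 : ‖(1 / 2 : ℂ)‖ = 1 / 2 := by norm_num
  rw [h3]
  linarith

/-- product of pulses -/
def Qs (β : ℕ → ℝ) (u : ℕ → ℕ → K) : ℕ → ℕ → USp K
  | 0, _ => 1
  | j + 1, n => Pu (β j) (u j n) * Qs β u j n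

@[simp] lemma Qs_zero (β : ℕ → ℝ) (u : ℕ → ℕ → K) (n : ℕ) : Qs β u 0 n = 1 := rfl

lemma Qs_succ_apply (β : ℕ → ℝ) (u : ℕ → ℕ → K) (j n : ℕ) (v : Sp K) :
    ((Qs β u (j + 1) n : USp K) : Sp K →L[ℂ] Sp K) v =
      ((Pu (β j) (u j n) : USp K) : Sp K →L[ℂ] Sp K) (((Qs β u j n : USp K) : Sp K →L[ℂ] Sp K) v) :=
  rfl

section light

variable {ε : ℕ → ℝ} {w : ℕ → K} {lam : ℕ → Sp K} {lam₀ : Sp K}

lemma Light.Hd_zet (L : Light ε w lam lam₀) {u : ℕ → K} (hu : Sm ε w u) :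
    (fun n => Hd (u n) (zet w lam n)) =O[atTop] ε := by
  refine IsBigO.trans (IsBigO.of_bound 1 (Eventually.of_forall fun n => ?_)) (L.Dl_zet hu)
  rw [one_mul]
  exact norm_Hd_le _ _

lemma Light.Dl_Hd_zet (L : Light ε w lam lam₀) {u u' : ℕ → K} (hu : Sm ε w u) (hu' : Sm ε w u') :
    (fun n => Dl (u n) (Hd (u' n) (zet w lam n))) =o[atTop] ε := by
  have h1 := ((L.Dl_Dl_zet hu hu').sub (L.Dl_Dl_zet hu hu'.neg)).const_smul_left (1 / 2 : ℂ)
  refine h1.congr_left fun n => ?_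
  rw [Hd_eq, map_smul, map_sub]
  rfl

/-- the expansion of one pulse -/
lemma Light.pulse (L : Light ε w lam lam₀) {u : ℕ → K} (hu : Sm ε w u) (β : ℝ)
    {A : Sp K →L[ℂ] Sp K} (hA : IsSpin A) :
    (fun n => ((Pu β (u n) : USp K) : Sp K →L[ℂ] Sp K) (A (zet w lam n)) - A (zet w lam n) -
      Zb β (A (Hd (u n) (zet w lam n)))) =o[atTop] ε := by
  have h1 := isLittleO_clm A ((L.Dl_Dl_zet hu hu.neg).const_smul_left (-(1 / 2) : ℂ))
  refine h1.congr_left fun n => ?_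
  rw [hA.Hd, Pu_sub, Pi.smul_apply, map_smul, hA.Dl, hA.Dl, neg_smul]

/-- The expansion of a product of pulses. -/
lemma Light.prod (L : Light ε w lam lam₀) (β : ℕ → ℝ) (u : ℕ → ℕ → K) (j : ℕ)
    (hu : ∀ i < j, Sm ε w (u i)) {A : Sp K →L[ℂ] Sp K} (hA : IsSpin A) :
    (fun n => ((Qs β u j n : USp K) : Sp K →L[ℂ] Sp K) (A (zet w lam n)) - A (zet w lam n) -
      ∑ i ∈ Finset.range j, Zb (β i) (A (Hd (u i n) (zet w lam n)))) =o[atTop] ε := by
  induction j with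
  | zero =>
    refine (isLittleO_zero _ _).congr_left fun n => ?_
    simp
  | succ j ih =>
    have ih' := ih fun i hi => hu i (Nat.lt_succ_of_lt hi)
    have huj := hu j (Nat.lt_succ_self j)
    have h1 := L.pulse huj (β j) hA
    have h2 : (fun n => ∑ i ∈ Finset.range j,
        (((Pu (β j) (u j n) : USp K) : Sp K →L[ℂ] Sp K) (Zb (β i) (A (Hd (u i n) (zet w lam n)))) -
          Zb (β i) (A (Hd (u i n) (zet w lam n))))) =o[atTop] ε := by
      refine isLittleO_finsum fun i hi => ?_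
      have hi' := Finset.mem_range.mp hi
      have b1 := L.Dl_Hd_zet huj (hu i (Nat.lt_succ_of_lt hi'))
      have b2 := isLittleO_clm (Zb (β i) * A) b1
      refine IsBigO.trans_isLittleO (IsBigO.of_bound 2 (Eventually.of_forall fun n => ?_)) b2
      refine (norm_Pu_sub_le _ _ _).trans (le_of_eq ?_)
      rw [((isSpin_Zb (β i)).mul hA).Dl]
      rfl
    have h3 := isLittleO_U (fun n => Pu (β j) (u j n)) ih'
    refine ((h1.add h2).add h3).congr_left fun n => ?_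
    rw [Qs_succ_apply, Finset.sum_range_succ, map_sub, map_sub, map_sum, Finset.sum_sub_distrib]
    abel

lemma Light.prod_O (L : Light ε w lam lam₀) (β : ℕ → ℝ) (u : ℕ → ℕ → K) (j : ℕ)
    (hu : ∀ i < j, Sm ε w (u i)) {A : Sp K →L[ℂ] Sp K} (hA : IsSpin A) :
    (fun n => ((Qs β u j n : USp K) : Sp K →L[ℂ] Sp K) (A (zet w lam n)) - A (zet w lam n))
      =O[atTop] ε := by
  have h1 := (L.prod β u j hu hA).isBigO
  have h2 : (fun n => ∑ i ∈ Finset.range j, Zb (β i) (A (Hd (u i n) (zet w lam n)))) =O[atTop] ε :=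
    isBigO_finsum fun i hi =>
      isBigO_clm (Zb (β i) * A) (L.Hd_zet (hu i (Finset.mem_range.mp hi)))
  refine (h1.add h2).congr_left fun n => ?_
  abel

/-! ### oscillation estimates -/

/-- the scrambling condition: there are small `h` with `4 Im⟪w,h⟫ = π` -/
def Scr (ε : ℕ → ℝ) (w h : ℕ → K) : Prop :=
  h =O[atTop] ε ∧ ∀ᶠ n in atTop, 4 * (⟪w n, h n⟫_ℂ).im = Real.pi

/-- `Ez(w) B Ez(-w) = B Ez(-2w)` in inner products, for `B` with `B Ez(f) = Ez(-f) B`. -/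
lemma inner_zet {B : Sp K →L[ℂ] Sp K} (hB : ∀ (f : K) (v : Sp K),
    B (((Ez f : USp K) : Sp K →L[ℂ] Sp K) v) = ((Ez (-f) : USp K) : Sp K →L[ℂ] Sp K) (B v))
    (w : K) (v v' : Sp K) :
    ⟪((Ez (-w) : USp K) : Sp K →L[ℂ] Sp K) v, B (((Ez (-w) : USp K) : Sp K →L[ℂ] Sp K) v')⟫_ℂ =
      ⟪v, B (((Ez (-(2 : ℂ) • w) : USp K) : Sp K →L[ℂ] Sp K) v')⟫_ℂ := by
  have h1 : ⟪((Ez (-w) : USp K) : Sp K →L[ℂ] Sp K) v, B (((Ez (-w) : USp K) : Sp K →L[ℂ] Sp K) v')⟫_ℂ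
      = ⟪v, ((Ez w : USp K) : Sp K →L[ℂ] Sp K) (B (((Ez (-w) : USp K) : Sp K →L[ℂ] Sp K) v'))⟫_ℂ := by
    rw [← neg_neg w, ← star_Ez_coe (-w), neg_neg, ContinuousLinearMap.star_eq_adjoint,
      ContinuousLinearMap.adjoint_inner_right]
  rw [h1]
  congr 1
  have h2 := hB (-w) (((Ez (-w) : USp K) : Sp K →L[ℂ] Sp K) v')
  rw [neg_neg] at h2
  rw [← h2, Ez_Ez]
  have him : (⟪-w, -w⟫_ℂ).im = 0 := inner_self_im (𝕜 := ℂ) (-w)
  rw [him, show -w + -w = -(2 : ℂ) • w by rw [neg_smul, two_smul]; abel]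
  simp

lemma Xop_anti (f : K) (v : Sp K) : (Xop : Sp K →L[ℂ] Sp K) (((Ez f : USp K) : Sp K →L[ℂ] Sp K) v) =
    ((Ez (-f) : USp K) : Sp K →L[ℂ] Sp K) (Xop v) := Xop_Ez f v

lemma ZX_anti (f : K) (v : Sp K) :
    (Zop * Xop : Sp K →L[ℂ] Sp K) (((Ez f : USp K) : Sp K →L[ℂ] Sp K) v) =
    ((Ez (-f) : USp K) : Sp K →L[ℂ] Sp K) ((Zop * Xop : Sp K →L[ℂ] Sp K) v) := by
  rw [mul_apply_eq_comp, mul_apply_eq_comp, Xop_Ez, Zop_Ez]

/-- one light vector against a family with small first difference -/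
lemma osc_o {h : ℕ → K} (hs : Scr ε w h) {B : Sp K →L[ℂ] Sp K} (hB : IsSpin B)
    {v v' : ℕ → Sp K} (h1 : (fun n => ‖Dl (h n) (v n)‖ * ‖v' n‖) =o[atTop] ε)
    (h2 : (fun n => ‖v n‖ * ‖Dl (h n) (v' n)‖) =o[atTop] ε) :
    (fun n => ⟪v n, B (((Ez (-(2 : ℂ) • w n) : USp K) : Sp K →L[ℂ] Sp K) (v' n))⟫_ℂ) =o[atTop] ε := by
  have h3 : (fun n => ‖B‖ * (‖Dl (h n) (v n)‖ * ‖v' n‖ + ‖v n‖ * ‖Dl (h n) (v' n)‖) / 2)
      =o[atTop] ε := by
    have := (h1.add h2).const_mul_left (‖B‖ / 2)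
    refine this.congr_left fun n => ?_
    ring
  refine IsBigO.trans_isLittleO (IsBigO.of_bound 1 ?_) h3
  filter_upwards [hs.2] with n hn
  rw [one_mul, Real.norm_of_nonneg (by positivity)]
  exact osc hn hB _ _

/-- products of big O -/
lemma mul_self_isLittleO {ε : ℕ → ℝ} (hε : Tendsto ε atTop (𝓝 0)) {a b : ℕ → ℝ}
    (ha : a =O[atTop] ε) (hb : b =O[atTop] ε) : (fun n => a n * b n) =o[atTop] ε := by
  have a1 := ha.mul hb
  have a2 : (fun n => ε n * ε n) =o[atTop] (fun n => (1 : ℝ) * ε n) := by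
    refine IsLittleO.mul_isBigO ?_ (isBigO_refl _ _)
    rw [isLittleO_one_iff]
    exact hε
  simpa using a1.trans_isLittleO a2

lemma isLittleO_one_mul {ε : ℕ → ℝ} {a b : ℕ → ℝ}
    (ha : a =O[atTop] (fun _ => (1 : ℝ))) (hb : b =o[atTop] ε) :
    (fun n => a n * b n) =o[atTop] ε := by
  simpa using ha.mul_isLittleO hb

/-- O2: `⟪ζ, B Dl(u) ζ⟫ = o(ε)` for `B` flipping. -/
lemma Light.osc_Dl (L : Light ε w lam lam₀) {h : ℕ → K} (hs : Scr ε w h)
    {B : Sp K →L[ℂ] Sp K} (hB : IsSpin B) (hBE : ∀ (f : K) (v : Sp K),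
      B (((Ez f : USp K) : Sp K →L[ℂ] Sp K) v) = ((Ez (-f) : USp K) : Sp K →L[ℂ] Sp K) (B v))
    {u : ℕ → K} (hu : Sm ε w u) :
    (fun n => ⟪zet w lam n, B (Dl (u n) (zet w lam n))⟫_ℂ) =o[atTop] ε := by
  simp only [zet, Dl_Ez_neg, inner_zet hBE]
  refine osc_o hs hB ?_ ?_
  · exact mul_self_isLittleO L.eps (L.Dl_lam hs.1).norm_left (L.inn_O hu).norm_left
  · exact isLittleO_one_mul L.lam_bdd.norm_left (L.Dl_inn_o hu hs.1).norm_left

/-- second order oscillation: `⟪ζ, B ζ⟫ = o(ε)` -/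
lemma Light.osc_self (L : Light ε w lam lam₀) {h : ℕ → K} (hs : Scr ε w h)
    {B : Sp K →L[ℂ] Sp K} (hB : IsSpin B) (hBE : ∀ (f : K) (v : Sp K),
      B (((Ez f : USp K) : Sp K →L[ℂ] Sp K) v) = ((Ez (-f) : USp K) : Sp K →L[ℂ] Sp K) (B v)) :
    (fun n => ⟪zet w lam n, B (zet w lam n)⟫_ℂ) =o[atTop] ε := by
  simp only [zet, inner_zet hBE]
  -- 2⟪v, B E v⟫ = -⟪Dl h v, B E v⟫ - ⟪Wl h v, B E (Dl h v)⟫
  have key : ∀ᶠ n in atTop,
      ⟪lam n, B (((Ez (-(2 : ℂ) • w n) : USp K) : Sp K →L[ℂ] Sp K) (lam n))⟫_ℂ =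
      (-(1 / 2) : ℂ) * (⟪Dl (h n) (lam n), B (((Ez (-(2 : ℂ) • w n) : USp K) : Sp K →L[ℂ] Sp K)
        (lam n))⟫_ℂ + ⟪Wl (h n) (lam n), B (((Ez (-(2 : ℂ) • w n) : USp K) : Sp K →L[ℂ] Sp K)
          (Dl (h n) (lam n)))⟫_ℂ) := by
    filter_upwards [hs.2] with n hn
    set E := ((Ez (-(2 : ℂ) • w n) : USp K) : Sp K →L[ℂ] Sp K) with hE
    have h1 : ⟪lam n, B (E (lam n))⟫_ℂ = -⟪Wl (h n) (lam n), B (E (Wl (h n) (lam n)))⟫_ℂ := by
      rw [← inner_Wl_Wl (h n), ← hB, hE, Wl_Ez_anti hn, map_neg, inner_neg_right]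
    have h2 : 2 * ⟪lam n, B (E (lam n))⟫_ℂ = -⟪Dl (h n) (lam n), B (E (lam n))⟫_ℂ -
        ⟪Wl (h n) (lam n), B (E (Dl (h n) (lam n)))⟫_ℂ := by
      rw [two_mul]
      nth_rewrite 2 [h1]
      rw [Dl_apply, map_sub, map_sub, inner_sub_left, inner_sub_right]
      ring
    linear_combination (1 / 2) * h2
  have hDD := L.Dl_Dl_lam hs.1 hs.1
  have hD := L.Dl_lam hs.1
  have a1 : (fun n => ⟪Dl (h n) (lam n), B (((Ez (-(2 : ℂ) • w n) : USp K) : Sp K →L[ℂ] Sp K)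
      (lam n))⟫_ℂ) =o[atTop] ε := by
    refine osc_o hs hB ?_ ?_
    · have := isLittleO_one_mul L.lam_bdd.norm_left hDD.norm_left
      refine this.congr_left fun n => ?_
      ring
    · exact mul_self_isLittleO L.eps hD.norm_left hD.norm_left
  have a2 : (fun n => ⟪Wl (h n) (lam n), B (((Ez (-(2 : ℂ) • w n) : USp K) : Sp K →L[ℂ] Sp K)
          (Dl (h n) (lam n)))⟫_ℂ) =o[atTop] ε := by
    have hDW : ∀ n, ‖Dl (h n) (Wl (h n) (lam n))‖ = ‖Dl (h n) (lam n)‖ := by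
      intro n
      rw [Dl_apply, ← map_sub, norm_Wl_apply, ← Dl_apply]
    refine osc_o hs hB ?_ ?_
    · simp only [hDW]
      exact mul_self_isLittleO L.eps hD.norm_left hD.norm_left
    · simp only [norm_Wl_apply]
      exact isLittleO_one_mul L.lam_bdd.norm_left hDD.norm_left
  have h3 := (a1.add a2).const_mul_left (-(1 / 2) : ℂ)
  refine h3.congr' ?_ (EventuallyEq.refl _ _)
  filter_upwards [key] with n hn using hn.symm

end light

lemma mixU_sub_mixU (θ : ℝ) (v : Sp K) : ((mixU θ : USp K) : Sp K →L[ℂ] Sp K) v -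
    ((mixU (-θ) : USp K) : Sp K →L[ℂ] Sp K) v =
      (-(2 : ℂ) * (Complex.I * ((Real.sin θ : ℝ) : ℂ))) • Xop v := by
  rw [mixU_eq, mixU_eq, Real.cos_neg, Real.sin_neg]
  push_cast
  module

lemma Zop_eq_Zb (v : Sp K) : Zop v = Zb 0 v := by rw [Zb_zero]

lemma isLittleO_im {f : ℕ → ℂ} {ε : ℕ → ℝ} (h : f =o[atTop] ε) :
    (fun n => (f n).im) =o[atTop] ε := by
  refine IsBigO.trans_isLittleO (IsBigO.of_bound 1 (Eventually.of_forall fun n => ?_)) h
  rw [one_mul, Real.norm_eq_abs]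
  exact Complex.abs_im_le_norm _

section light

variable {ε : ℕ → ℝ} {w : ℕ → K} {lam : ℕ → Sp K} {lam₀ : Sp K}

/-- the light-light part of the pulse scalars -/
lemma Light.LL (L : Light ε w lam lam₀) {h : ℕ → K} (hs : Scr ε w h) (β : ℕ → ℝ)
    (u : ℕ → ℕ → K) (j : ℕ) (hu : ∀ i < j, Sm ε w (u i)) :
    (fun n => (⟪((Qs β u j n : USp K) : Sp K →L[ℂ] Sp K) (Zop (zet w lam n)),
      Zb (β j) (((Qs β u j n : USp K) : Sp K →L[ℂ] Sp K) (zet w lam n))⟫_ℂ).im) =o[atTop] ε := by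
  set ζ := zet w lam with hζ
  set S1 : ℕ → Sp K := fun n => ∑ i ∈ Finset.range j, Zb (β i) (Zop (Hd (u i n) (ζ n))) with hS1
  set S2 : ℕ → Sp K := fun n => ∑ i ∈ Finset.range j, Zb (β i) (Hd (u i n) (ζ n)) with hS2
  have hQ1 := L.prod β u j hu isSpin_Zop
  have hQ2 := L.prod β u j hu isSpin_one
  have hS1O : S1 =O[atTop] ε := isBigO_finsum fun i hi =>
      isBigO_clm (Zb (β i) * Zop) (L.Hd_zet (hu i (Finset.mem_range.mp hi)))
  have hS2O : S2 =O[atTop] ε := isBigO_finsum fun i hi =>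
      isBigO_clm (Zb (β i)) (L.Hd_zet (hu i (Finset.mem_range.mp hi)))
  have hζ1 : ζ =O[atTop] (fun _ => (1 : ℝ)) := L.zet_bdd
  -- step 1: replace by the expansions
  have hF : (fun n => ⟪((Qs β u j n : USp K) : Sp K →L[ℂ] Sp K) (Zop (ζ n)),
      Zb (β j) (((Qs β u j n : USp K) : Sp K →L[ℂ] Sp K) (ζ n))⟫_ℂ -
      ⟪Zop (ζ n) + S1 n, Zb (β j) (ζ n + S2 n)⟫_ℂ) =o[atTop] ε := by
    refine isLittleO_inner_sub ?_ ?_ ?_ ?_
    · refine hQ1.congr_left fun n => ?_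
      rw [hS1]; simp only; rw [sub_add_eq_sub_sub]
    · refine (isLittleO_clm (Zb (β j)) hQ2).congr_left fun n => ?_
      rw [← map_sub, hS2]; simp only [one_apply_eq_self]; rw [sub_add_eq_sub_sub]
    · exact (isBigO_clm Zop (ε := fun _ => (1 : ℝ)) hζ1).add (hS1O.trans L.eps_bdd)
    · exact isBigO_clm (Zb (β j)) (ε := fun _ => (1 : ℝ)) (isBigO_U _ hζ1)
  -- step 2: the quadratic term
  have hquad : (fun n => ⟪S1 n, Zb (β j) (S2 n)⟫_ℂ) =o[atTop] ε := by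
    refine IsBigO.trans_isLittleO (IsBigO.of_bound 1 (Eventually.of_forall fun n => ?_))
      (mul_self_isLittleO L.eps hS1O.norm_left hS2O.norm_left)
    rw [one_mul, Real.norm_of_nonneg (by positivity)]
    refine (norm_inner_le_norm _ _).trans ?_
    rw [norm_Zb_apply]
  -- step 3: the linear terms
  have hlin : (fun n => ⟪S1 n, Zb (β j) (ζ n)⟫_ℂ + ⟪Zop (ζ n), Zb (β j) (S2 n)⟫_ℂ)
      =o[atTop] ε := by
    have h1 : ∀ i ∈ Finset.range j, (fun n =>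
        (-(2 : ℂ) * (Complex.I * ((Real.sin (2 * (β i - β j)) : ℝ) : ℂ))) *
        ⟪ζ n, (Zop * Xop : Sp K →L[ℂ] Sp K) (Hd (u i n) (ζ n))⟫_ℂ) =o[atTop] ε := by
      intro i hi
      refine IsLittleO.const_mul_left ?_ _
      have hui := hu i (Finset.mem_range.mp hi)
      have b1 := L.osc_Dl hs (isSpin_Zop.mul isSpin_Xop) ZX_anti hui
      have b2 := L.osc_Dl hs (isSpin_Zop.mul isSpin_Xop) ZX_anti hui.neg
      refine ((b1.sub b2).const_mul_left (1 / 2 : ℂ)).congr_left fun n => ?_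
      rw [Hd_eq, map_smul, map_sub, inner_smul_right, inner_sub_right]
    refine (isLittleO_finsum h1).congr_left fun n => ?_
    rw [hS1, hS2]
    simp only
    rw [sum_inner, map_sum, inner_sum, ← Finset.sum_add_distrib]
    refine Finset.sum_congr rfl fun i _ => ?_
    have e1 : ⟪Zb (β i) (Zop (Hd (u i n) (ζ n))), Zb (β j) (ζ n)⟫_ℂ =
        -⟪ζ n, Zop (Zb (β i) (Zb (β j) (Hd (u i n) (ζ n))))⟫_ℂ := by
      rw [inner_Zb_left, inner_Zop_left, inner_Hd_left, (isSpin_Zb (β j)).Hd, (isSpin_Zb (β i)).Hd,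
        isSpin_Zop.Hd]
    have e2 : ⟪Zop (ζ n), Zb (β j) (Zb (β i) (Hd (u i n) (ζ n)))⟫_ℂ =
        ⟪ζ n, Zop (Zb (β j) (Zb (β i) (Hd (u i n) (ζ n))))⟫_ℂ := inner_Zop_left _ _
    rw [e1, e2, Zb_Zb, Zb_Zb, show 2 * (β j - β i) = -(2 * (β i - β j)) by ring,
      neg_add_eq_sub, ← inner_sub_right, ← map_sub, mixU_sub_mixU, map_smul, inner_smul_right]
    rfl
  -- step 4: the zeroth term
  have hzero : (fun n => (⟪Zop (ζ n), Zb (β j) (ζ n)⟫_ℂ).im) =o[atTop] ε := by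
    have b1 := L.osc_self hs isSpin_Xop Xop_anti
    have b2 := b1.const_mul_left (-(Complex.I * ((Real.sin (2 * β j) : ℝ) : ℂ)))
    refine (isLittleO_im b2).congr_left fun n => ?_
    rw [inner_Zop_left, Zop_eq_Zb, Zb_Zb, sub_zero, mixU_eq, inner_sub_right, inner_smul_right,
      inner_smul_right, Complex.sub_im, inner_self_eq_norm_sq_to_K]
    have : ((((Real.cos (2 * β j) : ℝ) : ℂ)) * (((‖ζ n‖ : ℝ) : ℂ)) ^ 2).im = 0 := by
      rw [← Complex.ofReal_pow, ← Complex.ofReal_mul, Complex.ofReal_im]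
    erw [this]
    rw [zero_sub, neg_mul, Complex.neg_im]
  have hall := (isLittleO_im ((hF.add hquad).add hlin)).add hzero
  refine hall.congr_left fun n => ?_
  rw [← Complex.add_im]
  congr 1
  rw [map_add, inner_add_left, inner_add_right, inner_add_right]
  ring

end light

end Crest.Agent.R339.Lab
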