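import Mathlib
import Crest.Agent.R339.Lab373C

/-!
# The light side: fine estimate for the pulse blocks, propagation of CvH and of strong convergence
-/

set_option autoImplicit false

noncomputable section

open scoped ComplexConjugate InnerProductSpace Topology
open Filter Asymptotics Crest.MathPhysics.SpinGlass Crest.Agent.R339.Site

namespace Crest.Agent.R339.Lab

variable {K : Type*} [NormedAddCommGroup K] [InnerProductSpace ℂ K]

/-! ### strong continuity -/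

lemma continuous_Wl_apply (v : Sp K) : Continuous fun g : K => Wl g v := by
  have h : ∀ g : K, Wl g v = WithLp.toLp 2 (fun b => Wy g (v b)) := by
    intro g
    ext b
    exact Wl_apply g v b
  simp only [h]
  refine (PiLp.continuous_toLp 2 (fun _ : Bool => Fock K)).comp ?_
  exact continuous_pi fun b => continuous_Wy_apply (v b)

lemma tendsto_Dl_zero {u : ℕ → K} (hu : Tendsto u atTop (𝓝 0)) (v : Sp K) :
    Tendsto (fun n => Dl (u n) v) atTop (𝓝 0) := by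
  have h1 := ((continuous_Wl_apply v).tendsto 0).comp hu
  have h2 := h1.sub_const v
  simpa [Wl_zero, Dl_apply] using h2

/-! ### commutator of `W g` and a product of pulses -/

lemma norm_comm_Pu_le (β : ℝ) (u g : K) (v : Sp K) :
    ‖Wl g (((Pu β u : USp K) : Sp K →L[ℂ] Sp K) v) - ((Pu β u : USp K) : Sp K →L[ℂ] Sp K) (Wl g v)‖ ≤
      2 * ‖u‖ * ‖g‖ * ‖v‖ := by
  rw [Pu_apply, Pu_apply, ← isSpin_mixU, Wl_Ez, ← map_sub, norm_U_apply, ← isSpin_mixU, ← map_sub,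
    norm_U_apply]
  refine (norm_Rz_sub _ _).trans ?_
  rw [norm_U_apply, norm_Wl_apply, abs_mul, abs_two]
  have := abs_im_inner_le u g
  have h2 := mul_le_mul_of_nonneg_right (mul_le_mul_of_nonneg_left this (zero_le_two (α := ℝ)))
    (norm_nonneg v)
  linarith

lemma norm_comm_Qs_le (β : ℕ → ℝ) (u : ℕ → ℕ → K) (N n : ℕ) (g : K) (v : Sp K) :
    ‖Wl g (((Qs β u N n : USp K) : Sp K →L[ℂ] Sp K) v) -
      ((Qs β u N n : USp K) : Sp K →L[ℂ] Sp K) (Wl g v)‖ ≤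
      (∑ i ∈ Finset.range N, 2 * ‖u i n‖) * ‖g‖ * ‖v‖ := by
  induction N with
  | zero => simp
  | succ N ih =>
    rw [Qs_succ_apply, Qs_succ_apply, Finset.sum_range_succ]
    set Q := ((Qs β u N n : USp K) : Sp K →L[ℂ] Sp K)
    set P := ((Pu (β N) (u N n) : USp K) : Sp K →L[ℂ] Sp K) with hP
    have e : Wl g (P (Q v)) - P (Q (Wl g v)) = (Wl g (P (Q v)) - P (Wl g (Q v))) +
        P (Wl g (Q v) - Q (Wl g v)) := by rw [map_sub]; abel
    rw [e]
    refine (norm_add_le _ _).trans ?_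
    have h1 := norm_comm_Pu_le (β N) (u N n) g (Q v)
    have h2 : ‖Q v‖ = ‖v‖ := norm_U_apply _ _
    rw [h2] at h1
    have h3 : ‖P (Wl g (Q v) - Q (Wl g v))‖ = ‖Wl g (Q v) - Q (Wl g v)‖ := norm_U_apply _ _
    rw [h3]
    nlinarith

lemma norm_Qs_sub_le (β : ℕ → ℝ) (u : ℕ → ℕ → K) (N n : ℕ) (v : Sp K) :
    ‖((Qs β u N n : USp K) : Sp K →L[ℂ] Sp K) v - v‖ ≤ ∑ i ∈ Finset.range N, 2 * ‖Dl (u i n) v‖ := by
  induction N with
  | zero => simp
  | succ N ih =>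
    rw [Qs_succ_apply, Finset.sum_range_succ]
    set Q := ((Qs β u N n : USp K) : Sp K →L[ℂ] Sp K)
    set P := ((Pu (β N) (u N n) : USp K) : Sp K →L[ℂ] Sp K) with hP
    have e : P (Q v) - v = P (Q v - v) + (P v - v) := by rw [map_sub]; abel
    rw [e]
    refine (norm_add_le _ _).trans (add_le_add ?_ (norm_Pu_sub_le _ _ _))
    rw [norm_U_apply]
    exact ih

/-! ### the fine estimate -/

section light

variable {ε : ℕ → ℝ} {w : ℕ → K} {lam : ℕ → Sp K} {lam₀ : Sp K}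

/-- tiny displacements -/
lemma Light.Dl_zet_o (L : Light ε w lam lam₀) {d : ℕ → K} (hd : d =o[atTop] ε)
    (him : (fun n => (⟪w n, d n⟫_ℂ).im) =o[atTop] ε) :
    (fun n => Dl (d n) (zet w lam n)) =o[atTop] ε := by
  simp only [zet, Dl_Ez_neg]
  refine isLittleO_U _ ?_
  obtain ⟨C, hC, h⟩ := L.cvh.M1 L.nice
  have h2 : (fun n => ‖Dl (d n) (lam n)‖) =o[atTop] ε := by
    refine IsBigO.trans_isLittleO (IsBigO.of_bound C ?_) hd
    filter_upwards [h] with n hn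
    rw [norm_norm]
    exact hn (d n)
  have h1 : (fun n => 2 * |(⟪w n, d n⟫_ℂ).im| * ‖lam n‖) =o[atTop] ε := by
    have := (him.norm_left.const_mul_left 2).mul_isBigO L.lam_bdd.norm_left
    simpa using this
  refine IsBigO.trans_isLittleO (IsBigO.of_bound 1 (Eventually.of_forall fun n => ?_)) (h1.add h2)
  rw [one_mul, Real.norm_of_nonneg (by positivity)]
  exact norm_inn_le _ _ _

lemma norm_Wl_sub_Wl_neg_le (u u' : K) (v : Sp K) :
    ‖Wl u v - Wl (-u') v‖ ≤ ‖u'‖ * ‖u‖ * ‖v‖ + ‖Dl (u + u') v‖ := by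
  have e : Wl u v - Wl (-u') v = Wl (-u') (Wl u' (Wl u v) - v) := by
    rw [map_sub, Wl_neg_Wl]
  rw [e, norm_Wl_apply, Wl_Wl]
  have e2 : Complex.exp (-(Complex.I * ((⟪u', u⟫_ℂ).im : ℂ))) • Wl (u' + u) v - v =
      (Complex.exp (-(Complex.I * ((⟪u', u⟫_ℂ).im : ℂ))) - 1) • Wl (u' + u) v +
        Dl (u + u') v := by
    rw [Dl_apply, sub_smul, one_smul, add_comm u u']
    abel
  rw [e2]
  refine (norm_add_le _ _).trans (add_le_add_left ?_ _)
  rw [norm_smul, norm_Wl_apply]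
  exact mul_le_mul_of_nonneg_right ((norm_cexp_neg_I_mul_sub_one _).trans (abs_im_inner_le u' u))
    (norm_nonneg _)

/-- cancellation of opposite pulses -/
lemma Light.Hd_cancel (L : Light ε w lam lam₀) {u u' : ℕ → K} (hu : Sm ε w u) (hu' : Sm ε w u')
    (hd : (fun n => u n + u' n) =o[atTop] ε) :
    (fun n => Hd (u n) (zet w lam n) + Hd (u' n) (zet w lam n)) =o[atTop] ε := by
  have him : (fun n => (⟪w n, u n + u' n⟫_ℂ).im) =o[atTop] ε := by
    refine (hu.im.add hu'.im).congr_left fun n => ?_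
    rw [inner_add_right, Complex.add_im]
  have h1 := L.Dl_zet_o hd him
  have hq : (fun n => ‖u' n‖ * ‖u n‖ * ‖zet w lam n‖) =o[atTop] ε := by
    have := (mul_self_isLittleO L.eps hu'.bd.norm_left hu.bd.norm_left).mul_isBigO
      L.zet_bdd.norm_left
    simpa using this
  have hq' : (fun n => ‖u n‖ * ‖u' n‖ * ‖zet w lam n‖) =o[atTop] ε := by
    refine hq.congr_left fun n => ?_
    ring
  have a1 : (fun n => Wl (u n) (zet w lam n) - Wl (-u' n) (zet w lam n)) =o[atTop] ε := by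
    refine IsBigO.trans_isLittleO (IsBigO.of_bound 1 (Eventually.of_forall fun n => ?_))
      (hq.add h1.norm_left)
    rw [one_mul, Real.norm_of_nonneg (by positivity)]
    exact norm_Wl_sub_Wl_neg_le _ _ _
  have a2 : (fun n => Wl (u' n) (zet w lam n) - Wl (-u n) (zet w lam n)) =o[atTop] ε := by
    refine IsBigO.trans_isLittleO (IsBigO.of_bound 1 (Eventually.of_forall fun n => ?_))
      (hq'.add h1.norm_left)
    rw [one_mul, Real.norm_of_nonneg (by positivity), add_comm (u n) (u' n)]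
    exact norm_Wl_sub_Wl_neg_le _ _ _
  refine ((a1.add a2).const_smul_left (1 / 2 : ℂ)).congr_left fun n => ?_
  rw [Hd_apply, Hd_apply, Pi.smul_apply, ← smul_add]
  congr 1
  abel

/-- The fine estimate: `m` blocks of four pulses act trivially up to `o(ε)`. -/
lemma Light.fine (L : Light ε w lam lam₀) (β : ℕ → ℝ) (u : ℕ → ℕ → K) (m : ℕ)
    (hu : ∀ i < 4 * m, Sm ε w (u i)) (hβ0 : ∀ r < m, β (4 * r + 2) = β (4 * r))
    (hβ1 : ∀ r < m, β (4 * r + 3) = β (4 * r + 1))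
    (h0 : ∀ r < m, (fun n => u (4 * r) n + u (4 * r + 2) n) =o[atTop] ε)
    (h1 : ∀ r < m, (fun n => u (4 * r + 1) n + u (4 * r + 3) n) =o[atTop] ε)
    {A : Sp K →L[ℂ] Sp K} (hA : IsSpin A) :
    (fun n => ((Qs β u (4 * m) n : USp K) : Sp K →L[ℂ] Sp K) (A (zet w lam n)) - A (zet w lam n))
      =o[atTop] ε := by
  have hsum : ∀ m' ≤ m, (fun n => ∑ i ∈ Finset.range (4 * m'),
      Zb (β i) (A (Hd (u i n) (zet w lam n)))) =o[atTop] ε := by
    intro m' hm'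
    induction m' with
    | zero => exact (isLittleO_zero _ _).congr_left fun n => by simp
    | succ r ih =>
      have ih' := ih (by omega)
      have hr : r < m := by omega
      have c0 := isLittleO_clm (Zb (β (4 * r)) * A) (L.Hd_cancel (hu (4 * r) (by omega))
        (hu (4 * r + 2) (by omega)) (h0 r hr))
      have c1 := isLittleO_clm (Zb (β (4 * r + 1)) * A) (L.Hd_cancel (hu (4 * r + 1) (by omega))
        (hu (4 * r + 3) (by omega)) (h1 r hr))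
      refine ((ih'.add c0).add c1).congr_left fun n => ?_
      rw [show 4 * (r + 1) = 4 * r + 1 + 1 + 1 + 1 by ring, Finset.sum_range_succ,
        Finset.sum_range_succ, Finset.sum_range_succ, Finset.sum_range_succ,
        show 4 * r + 1 + 1 = 4 * r + 2 by ring, show 4 * r + 2 + 1 = 4 * r + 3 by ring,
        hβ0 r hr, hβ1 r hr, map_add, map_add]
      simp only [mul_apply_eq_comp]
      abel
  have h2 := L.prod β u (4 * m) hu hA
  refine (h2.add (hsum m le_rfl)).congr_left fun n => ?_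
  abel

end light

/-! ### propagation through a label gate -/

/-- the phase -/
def phs (w w' : K) : ℂ := Complex.exp (-(Complex.I * ((⟪w', w⟫_ℂ).im : ℂ)))

lemma norm_phs (w w' : K) : ‖phs w w'‖ = 1 := norm_cexp_neg_I_mul _

lemma phs_Ez (w w' : K) (v : Sp K) : phs w w' • ((Ez w' : USp K) : Sp K →L[ℂ] Sp K)
    (((Ez (-w) : USp K) : Sp K →L[ℂ] Sp K) v) = ((Ez (w' - w) : USp K) : Sp K →L[ℂ] Sp K) v := by
  rw [Ez_Ez, smul_smul, phs, ← Complex.exp_add, sub_eq_add_neg w' w, inner_neg_right,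
    Complex.neg_im]
  simp

lemma abs_cos_sub_one_le (θ : ℝ) : |Real.cos θ - 1| ≤ |θ| := by
  have h := norm_cexp_I_mul_sub_one θ
  refine le_trans ?_ h
  have h2 := Complex.abs_re_le_norm (Complex.exp (Complex.I * (θ : ℂ)) - 1)
  refine le_trans (le_of_eq ?_) h2
  rw [Complex.sub_re, Complex.one_re, mul_comm, Complex.exp_ofReal_mul_I_re]

/-- First difference of `(ρ - 1) Ez(-w) v`. -/
lemma norm_Dl_Qs_sub_le (β : ℕ → ℝ) (u : ℕ → ℕ → K) (N n : ℕ) (w g : K) (v : Sp K) :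
    ‖Dl g (((Qs β u N n : USp K) : Sp K →L[ℂ] Sp K) (((Ez (-w) : USp K) : Sp K →L[ℂ] Sp K) v) -
      ((Ez (-w) : USp K) : Sp K →L[ℂ] Sp K) v)‖ ≤
    (∑ i ∈ Finset.range N, 2 * ‖u i n‖) * ‖g‖ * ‖v‖ +
    2 * ‖w‖ * ‖g‖ * (‖((Qs β u N n : USp K) : Sp K →L[ℂ] Sp K)
        (((Ez (-w) : USp K) : Sp K →L[ℂ] Sp K) v) - ((Ez (-w) : USp K) : Sp K →L[ℂ] Sp K) v‖ +
      ‖((Qs β u N n : USp K) : Sp K →L[ℂ] Sp K) (Zop (((Ez (-w) : USp K) : Sp K →L[ℂ] Sp K) v)) -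
        Zop (((Ez (-w) : USp K) : Sp K →L[ℂ] Sp K) v)‖) +
    2 * ∑ i ∈ Finset.range N, 2 * (2 * |(⟪w, u i n⟫_ℂ).im| * ‖Dl g v‖ + ‖Dl (u i n) (Dl g v)‖) := by
  set Q := ((Qs β u N n : USp K) : Sp K →L[ℂ] Sp K) with hQ
  set E := ((Ez (-w) : USp K) : Sp K →L[ℂ] Sp K) with hE
  set θ := 2 * (⟪-w, g⟫_ℂ).im with hθ
  have hθw : |θ| ≤ 2 * ‖w‖ * ‖g‖ := by
    rw [hθ, abs_mul, abs_two, mul_assoc]
    have := abs_im_inner_le (-w) g
    rw [norm_neg] at this
    exact mul_le_mul_of_nonneg_left this zero_le_two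
  -- Dl g (E v) = E (Rz θ v - v) + E (Rz θ (Dl g v))
  have e1 : Dl g (E v) = E (Rz θ v - v) + E (Rz θ (Dl g v)) := by
    rw [Dl_apply, Dl_apply, hE, Wl_Ez, ← hθ, map_sub, map_sub, map_sub]
    abel
  have e2 : Dl g (Q (E v) - E v) = (Wl g (Q (E v)) - Q (Wl g (E v))) +
      ((Q (E (Rz θ v - v)) - E (Rz θ v - v)) + (Q (E (Rz θ (Dl g v))) - E (Rz θ (Dl g v)))) := by
    have : (Q (E (Rz θ v - v)) - E (Rz θ v - v)) + (Q (E (Rz θ (Dl g v))) - E (Rz θ (Dl g v))) =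
        Q (Dl g (E v)) - Dl g (E v) := by
      rw [e1, map_add]; abel
    rw [this]
    simp only [Dl_apply, map_sub]
    abel
  rw [e2]
  refine (norm_add_le _ _).trans ?_
  rw [add_assoc]
  refine add_le_add ?_ ((norm_add_le _ _).trans (add_le_add ?_ ?_))
  · have := norm_comm_Qs_le β u N n g (E v)
    rwa [show ‖E v‖ = ‖v‖ from norm_U_apply _ _] at this
  · -- Rz θ v - v = (cos θ - 1) v + i sin θ Z v
    have e3 : Rz θ v - v = (((Real.cos θ - 1 : ℝ)) : ℂ) • v +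
        (Complex.I * ((Real.sin θ : ℝ) : ℂ)) • Zop v := by
      rw [Rz_eq]; push_cast; module
    have e4 : Q (E (Rz θ v - v)) - E (Rz θ v - v) = (((Real.cos θ - 1 : ℝ)) : ℂ) • (Q (E v) - E v) +
        (Complex.I * ((Real.sin θ : ℝ) : ℂ)) • (Q (Zop (E v)) - Zop (E v)) := by
      rw [e3, map_add, map_smul, map_smul, map_add, map_smul, map_smul, hE, ← Zop_Ez]
      module
    rw [e4]
    refine (norm_add_le _ _).trans ?_
    rw [norm_smul, norm_smul, Complex.norm_real, norm_mul, Complex.norm_I, one_mul,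
      Complex.norm_real, Real.norm_eq_abs, Real.norm_eq_abs, mul_add]
    refine add_le_add (mul_le_mul_of_nonneg_right ((abs_cos_sub_one_le θ).trans hθw)
      (norm_nonneg _)) (mul_le_mul_of_nonneg_right ?_ (norm_nonneg _))
    exact (Real.abs_sin_le_abs (x := θ)).trans hθw
  · have hx : ∀ A : Sp K →L[ℂ] Sp K, IsSpin A → (∀ x, ‖A x‖ = ‖x‖) →
        ‖Q (A (E (Dl g v))) - A (E (Dl g v))‖ ≤ ∑ i ∈ Finset.range N,
          2 * (2 * |(⟪w, u i n⟫_ℂ).im| * ‖Dl g v‖ + ‖Dl (u i n) (Dl g v)‖) := by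
      intro A hA hAn
      refine (norm_Qs_sub_le β u N n _).trans (Finset.sum_le_sum fun i _ => ?_)
      refine mul_le_mul_of_nonneg_left ?_ zero_le_two
      rw [← hA.Dl, hAn, hE, Dl_Ez_neg, norm_U_apply]
      exact norm_inn_le _ _ _
    have h1 := hx 1 isSpin_one (fun x => rfl)
    have h2 := hx Zop isSpin_Zop norm_Zop_apply
    rw [one_apply_eq_self] at h1
    set S := ∑ i ∈ Finset.range N,
          2 * (2 * |(⟪w, u i n⟫_ℂ).im| * ‖Dl g v‖ + ‖Dl (u i n) (Dl g v)‖) with hS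
    have e4 : Q (E (Rz θ (Dl g v))) - E (Rz θ (Dl g v)) =
        ((Real.cos θ : ℝ) : ℂ) • (Q (E (Dl g v)) - E (Dl g v)) +
        (Complex.I * ((Real.sin θ : ℝ) : ℂ)) • (Q (Zop (E (Dl g v))) - Zop (E (Dl g v))) := by
      rw [Rz_eq, map_add, map_smul, map_smul, map_add, map_smul, map_smul, hE, ← Zop_Ez]
      module
    rw [e4]
    refine (norm_add_le _ _).trans ?_
    rw [norm_smul, norm_smul, Complex.norm_real, norm_mul, Complex.norm_I, one_mul,
      Complex.norm_real, Real.norm_eq_abs, Real.norm_eq_abs]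
    have c1 := Real.abs_cos_le_one θ
    have c2 := Real.abs_sin_le_one θ
    have d1 : |Real.cos θ| * ‖Q (E (Dl g v)) - E (Dl g v)‖ ≤ 1 * S :=
      mul_le_mul c1 h1 (norm_nonneg _) zero_le_one
    have d2 : |Real.sin θ| * ‖Q (Zop (E (Dl g v))) - Zop (E (Dl g v))‖ ≤ 1 * S :=
      mul_le_mul c2 h2 (norm_nonneg _) zero_le_one
    linarith

/-- Propagation of `CvH` through a label gate (`w, w'` may be unbounded). -/
lemma cvh_prop {w w' : ℕ → K} {x : K} {lam : ℕ → Sp K} {lam₀ : Sp K} (hc : CvH lam lam₀)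
    (hn : Nice lam₀) (β : ℕ → ℝ) (u : ℕ → ℕ → K) (N : ℕ)
    (hu : ∀ i < N, Tendsto (u i) atTop (𝓝 0))
    (him : ∀ i < N, Tendsto (fun n => (⟪w n, u i n⟫_ℂ).im) atTop (𝓝 0))
    (hx : Tendsto (fun n => w' n - w n) atTop (𝓝 x))
    (hr1 : Tendsto (fun n => (1 + ‖w n‖ + ‖w' n‖) * ‖((Qs β u N n : USp K) : Sp K →L[ℂ] Sp K)
      (zet w lam n) - zet w lam n‖) atTop (𝓝 0))
    (hr2 : Tendsto (fun n => (1 + ‖w n‖ + ‖w' n‖) * ‖((Qs β u N n : USp K) : Sp K →L[ℂ] Sp K)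
      (Zop (zet w lam n)) - Zop (zet w lam n)‖) atTop (𝓝 0)) :
    CvH (fun n => phs (w n) (w' n) • ((Ez (w' n) : USp K) : Sp K →L[ℂ] Sp K)
      (((Qs β u N n : USp K) : Sp K →L[ℂ] Sp K) (zet w lam n)))
      (((Ez x : USp K) : Sp K →L[ℂ] Sp K) lam₀) := by
  have h0 := hc.Ez hn hx
  obtain ⟨C, hC, hM1⟩ := hc.M1 hn
  obtain ⟨δ, hδ, hLB⟩ := hc
  obtain ⟨C', hC', h1, h2⟩ := hn
  -- the remainder
  set r1 : ℕ → ℝ := fun n => (1 + ‖w n‖ + ‖w' n‖) * ‖((Qs β u N n : USp K) : Sp K →L[ℂ] Sp K)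
      (zet w lam n) - zet w lam n‖ with hr1d
  set r2 : ℕ → ℝ := fun n => (1 + ‖w n‖ + ‖w' n‖) * ‖((Qs β u N n : USp K) : Sp K →L[ℂ] Sp K)
      (Zop (zet w lam n)) - Zop (zet w lam n)‖ with hr2d
  set R : ℕ → Sp K := fun n => phs (w n) (w' n) • ((Ez (w' n) : USp K) : Sp K →L[ℂ] Sp K)
      (((Qs β u N n : USp K) : Sp K →L[ℂ] Sp K) (zet w lam n) - zet w lam n) with hR
  have hlam : Tendsto (fun n => ‖lam n‖) atTop (𝓝 ‖lam₀‖) := by
    have : CvH lam lam₀ := ⟨δ, hδ, hLB⟩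
    exact this.tendsto.norm
  set δ' : ℕ → ℝ := fun n => 4 * r1 n + 2 * r2 n + (∑ i ∈ Finset.range N, 2 * ‖u i n‖) * ‖lam n‖ +
    2 * ∑ i ∈ Finset.range N, 2 * (2 * |(⟪w n, u i n⟫_ℂ).im| * C + (C' * ‖u i n‖ + 2 * |δ n|))
    with hδ'
  have hδ't : Tendsto δ' atTop (𝓝 0) := by
    have a1 : Tendsto (fun n => (∑ i ∈ Finset.range N, 2 * ‖u i n‖) * ‖lam n‖) atTop
        (𝓝 ((∑ i ∈ Finset.range N, 2 * ‖(0 : K)‖) * ‖lam₀‖)) := by
      refine Tendsto.mul (tendsto_finsetSum _ fun i hi => ?_) hlam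
      exact ((hu i (Finset.mem_range.mp hi)).norm).const_mul 2
    have a2 : Tendsto (fun n => 2 * ∑ i ∈ Finset.range N,
        2 * (2 * |(⟪w n, u i n⟫_ℂ).im| * C + (C' * ‖u i n‖ + 2 * |δ n|))) atTop
        (𝓝 (2 * ∑ i ∈ Finset.range N, 2 * (2 * |(0 : ℝ)| * C + (C' * ‖(0 : K)‖ + 2 * |(0 : ℝ)|)))) := by
      refine Tendsto.const_mul 2 (tendsto_finsetSum _ fun i hi => ?_)
      have b1 := (him i (Finset.mem_range.mp hi)).abs
      have b2 := (hu i (Finset.mem_range.mp hi)).norm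
      exact (((b1.const_mul 2).mul_const C).add ((b2.const_mul C').add (hδ.abs.const_mul 2))).const_mul 2
    have := (((hr1.const_mul 4).add (hr2.const_mul 2)).add a1).add a2
    simpa using this
  have hRLB : ∀ᶠ n in atTop, LB (δ' n) (R n) := by
    filter_upwards [hM1, hLB] with n hM hL
    have hz : zet w lam n = ((Ez (-w n) : USp K) : Sp K →L[ℂ] Sp K) (lam n) := rfl
    set q1 := ‖((Qs β u N n : USp K) : Sp K →L[ℂ] Sp K) (zet w lam n) - zet w lam n‖ with hq1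
    set q2 := ‖((Qs β u N n : USp K) : Sp K →L[ℂ] Sp K) (Zop (zet w lam n)) - Zop (zet w lam n)‖
      with hq2
    have hq1n : 0 ≤ q1 := norm_nonneg _
    have hq2n : 0 ≤ q2 := norm_nonneg _
    have hr1n : r1 n = (1 + ‖w n‖ + ‖w' n‖) * q1 := rfl
    have hr2n : r2 n = (1 + ‖w n‖ + ‖w' n‖) * q2 := rfl
    have hS0 : 0 ≤ (∑ i ∈ Finset.range N, 2 * ‖u i n‖) * ‖lam n‖ := by positivity
    have hT0 : 0 ≤ 2 * ∑ i ∈ Finset.range N,
        2 * (2 * |(⟪w n, u i n⟫_ℂ).im| * C + (C' * ‖u i n‖ + 2 * |δ n|)) := by positivity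
    have hw0 := norm_nonneg (w n)
    have hw'0 := norm_nonneg (w' n)
    refine ⟨?_, fun g => ?_⟩
    · rw [hR]
      simp only
      rw [norm_smul, norm_phs, one_mul, norm_U_apply, hδ']
      simp only
      rw [hr1n, hr2n]
      have : q1 ≤ (1 + ‖w n‖ + ‖w' n‖) * q1 := by nlinarith [mul_nonneg hw0 hq1n, mul_nonneg hw'0 hq1n]
      have h3 : 0 ≤ (1 + ‖w n‖ + ‖w' n‖) * q1 := by positivity
      have h4 : 0 ≤ (1 + ‖w n‖ + ‖w' n‖) * q2 := by positivity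
      linarith
    · rw [hR]
      simp only
      rw [map_smul, norm_smul, norm_phs, one_mul]
      refine (norm_Dl_Ez_le g (w' n) _).trans ?_
      have a1 := norm_Dl_Qs_sub_le β u N n (w n) g (lam n)
      rw [← hz, ← hq1, ← hq2] at a1
      have a2 : 2 * |(⟪w' n, g⟫_ℂ).im| * q1 ≤ 2 * (‖w' n‖ * ‖g‖) * q1 :=
        mul_le_mul_of_nonneg_right (mul_le_mul_of_nonneg_left (abs_im_inner_le _ _) zero_le_two) hq1n
      have a3 : ∑ i ∈ Finset.range N, 2 * (2 * |(⟪w n, u i n⟫_ℂ).im| * ‖Dl g (lam n)‖ +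
          ‖Dl (u i n) (Dl g (lam n))‖) ≤ (∑ i ∈ Finset.range N,
          2 * (2 * |(⟪w n, u i n⟫_ℂ).im| * C + (C' * ‖u i n‖ + 2 * |δ n|))) * ‖g‖ := by
        rw [Finset.sum_mul]
        refine Finset.sum_le_sum fun i _ => ?_
        have b1 := hM g
        have b2 : ‖Dl (u i n) (Dl g (lam n))‖ ≤ (C' * ‖u i n‖ + 2 * |δ n|) * ‖g‖ := by
          have e : lam n = lam₀ + (lam n - lam₀) := by abel
          rw [e, map_add, map_add]
          refine (norm_add_le _ _).trans ?_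
          have c1 := h2 (u i n) g
          have c2 := (norm_Dl_le (u i n) (Dl g (lam n - lam₀)))
          have c3 := hL.2 g
          have c4 : δ n * ‖g‖ ≤ |δ n| * ‖g‖ := mul_le_mul_of_nonneg_right (le_abs_self _)
            (norm_nonneg _)
          nlinarith
        have b3 : 2 * |(⟪w n, u i n⟫_ℂ).im| * ‖Dl g (lam n)‖ ≤
            2 * |(⟪w n, u i n⟫_ℂ).im| * (C * ‖g‖) := mul_le_mul_of_nonneg_left b1 (by positivity)
        calc _ ≤ 2 * (2 * |(⟪w n, u i n⟫_ℂ).im| * (C * ‖g‖) + (C' * ‖u i n‖ + 2 * |δ n|) * ‖g‖) := by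
              linarith
          _ = _ := by ring
      have hg := norm_nonneg g
      have a4 : 2 * (‖w' n‖ * ‖g‖) * q1 ≤ 2 * r1 n * ‖g‖ := by
        rw [hr1n]
        have : 0 ≤ (1 + ‖w n‖) * q1 * ‖g‖ := by positivity
        nlinarith
      have a5 : 2 * ‖w n‖ * ‖g‖ * (q1 + q2) ≤ (2 * r1 n + 2 * r2 n) * ‖g‖ := by
        rw [hr1n, hr2n]
        have : 0 ≤ (1 + ‖w' n‖) * (q1 + q2) * ‖g‖ := by positivity
        nlinarith
      have a6 : δ' n * ‖g‖ = (4 * r1 n + 2 * r2 n) * ‖g‖ +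
        (∑ i ∈ Finset.range N, 2 * ‖u i n‖) * ‖lam n‖ * ‖g‖ +
        2 * ((∑ i ∈ Finset.range N,
          2 * (2 * |(⟪w n, u i n⟫_ℂ).im| * C + (C' * ‖u i n‖ + 2 * |δ n|))) * ‖g‖) := by
        rw [hδ']; ring
      rw [a6]
      have a7 : (∑ i ∈ Finset.range N, 2 * ‖u i n‖) * ‖g‖ * ‖lam n‖ =
        (∑ i ∈ Finset.range N, 2 * ‖u i n‖) * ‖lam n‖ * ‖g‖ := by ring
      linarith
  have hfin := h0.add_LB hδ't hRLB
  refine (congrArg (fun f => CvH f _) (funext fun n => ?_)).mp hfin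
  rw [hR]
  simp only
  rw [map_sub, smul_sub]
  have : phs (w n) (w' n) • ((Ez (w' n) : USp K) : Sp K →L[ℂ] Sp K) (zet w lam n) =
      ((Ez (w' n - w n) : USp K) : Sp K →L[ℂ] Sp K) (lam n) := phs_Ez _ _ _
  rw [this]
  abel

/-- Strong propagation through a label gate. -/
lemma strong_prop {w w' : ℕ → K} {x : K} {xi : ℕ → Sp K} {xi₀ : Sp K}
    (hxi : Tendsto xi atTop (𝓝 xi₀)) (β : ℕ → ℝ) (u : ℕ → ℕ → K) (N : ℕ)
    (hu : ∀ i < N, Tendsto (u i) atTop (𝓝 0))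
    (him : ∀ i < N, Tendsto (fun n => (⟪w n, u i n⟫_ℂ).im) atTop (𝓝 0))
    (hx : Tendsto (fun n => w' n - w n) atTop (𝓝 x)) :
    Tendsto (fun n => phs (w n) (w' n) • ((Ez (w' n) : USp K) : Sp K →L[ℂ] Sp K)
      (((Qs β u N n : USp K) : Sp K →L[ℂ] Sp K)
        (((Ez (-w n) : USp K) : Sp K →L[ℂ] Sp K) (xi n)))) atTop
      (𝓝 (((Ez x : USp K) : Sp K →L[ℂ] Sp K) xi₀)) := by
  -- first with `xi₀` in place of `xi n`
  have h1 : Tendsto (fun n => ((Ez (w' n - w n) : USp K) : Sp K →L[ℂ] Sp K) xi₀) atTop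
      (𝓝 (((Ez x : USp K) : Sp K →L[ℂ] Sp K) xi₀)) :=
    STends_costU (fun _ => -1) (-1) tendsto_const_nhds hx xi₀
  have h2 : Tendsto (fun n => ((Qs β u N n : USp K) : Sp K →L[ℂ] Sp K)
        (((Ez (-w n) : USp K) : Sp K →L[ℂ] Sp K) xi₀) -
        ((Ez (-w n) : USp K) : Sp K →L[ℂ] Sp K) xi₀) atTop (𝓝 0) := by
    rw [tendsto_zero_iff_norm_tendsto_zero]
    have hb : Tendsto (fun n => ∑ i ∈ Finset.range N,
        2 * (2 * |(⟪w n, u i n⟫_ℂ).im| * ‖xi₀‖ + ‖Dl (u i n) xi₀‖)) atTop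
        (𝓝 (∑ i ∈ Finset.range N, 2 * (2 * |(0 : ℝ)| * ‖xi₀‖ + ‖(0 : Sp K)‖))) := by
      refine tendsto_finsetSum _ fun i hi => ?_
      have b1 := (him i (Finset.mem_range.mp hi)).abs
      have b2 := (tendsto_Dl_zero (hu i (Finset.mem_range.mp hi)) xi₀).norm
      exact (((b1.const_mul 2).mul_const _).add b2).const_mul 2
    have hb' : Tendsto (fun n => ∑ i ∈ Finset.range N,
        2 * (2 * |(⟪w n, u i n⟫_ℂ).im| * ‖xi₀‖ + ‖Dl (u i n) xi₀‖)) atTop (𝓝 0) := by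
      simpa using hb
    refine squeeze_zero (fun n => norm_nonneg _) (fun n => ?_) hb'
    refine (norm_Qs_sub_le β u N n _).trans (Finset.sum_le_sum fun i _ => ?_)
    refine mul_le_mul_of_nonneg_left ?_ zero_le_two
    rw [Dl_Ez_neg, norm_U_apply]
    exact norm_inn_le _ _ _
  rw [tendsto_iff_norm_sub_tendsto_zero] at hxi
  have h3 : Tendsto (fun n => ‖((Ez (w' n - w n) : USp K) : Sp K →L[ℂ] Sp K) xi₀ -
      ((Ez x : USp K) : Sp K →L[ℂ] Sp K) xi₀‖ + ‖((Qs β u N n : USp K) : Sp K →L[ℂ] Sp K)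
        (((Ez (-w n) : USp K) : Sp K →L[ℂ] Sp K) xi₀) -
        ((Ez (-w n) : USp K) : Sp K →L[ℂ] Sp K) xi₀‖ + ‖xi n - xi₀‖) atTop (𝓝 0) := by
    have := ((tendsto_iff_norm_sub_tendsto_zero.mp h1).add h2.norm).add hxi
    simpa using this
  rw [tendsto_iff_norm_sub_tendsto_zero]
  refine squeeze_zero (fun n => norm_nonneg _) (fun n => ?_) h3
  set Q := ((Qs β u N n : USp K) : Sp K →L[ℂ] Sp K)
  set E := ((Ez (-w n) : USp K) : Sp K →L[ℂ] Sp K)
  set E' := ((Ez (w' n) : USp K) : Sp K →L[ℂ] Sp K)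
  have e : phs (w n) (w' n) • E' (Q (E (xi n))) - ((Ez x : USp K) : Sp K →L[ℂ] Sp K) xi₀ =
      (((Ez (w' n - w n) : USp K) : Sp K →L[ℂ] Sp K) xi₀ -
        ((Ez x : USp K) : Sp K →L[ℂ] Sp K) xi₀) +
      phs (w n) (w' n) • E' (Q (E xi₀) - E xi₀) + phs (w n) (w' n) • E' (Q (E (xi n - xi₀))) := by
    rw [← phs_Ez (w n) (w' n) xi₀]
    simp only [map_sub, smul_sub]
    abel
  rw [e]
  refine (norm_add₃_le).trans (le_of_eq ?_)
  rw [norm_smul, norm_smul, norm_phs, one_mul, one_mul, norm_U_apply, norm_U_apply, norm_U_apply,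
    norm_U_apply]

end Crest.Agent.R339.Lab
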