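import Mathlib
import Crest.Agent.R339.Lab373D
import Crest.Agent.R339.Heavy682E

/-!
# Calibrated pulse sequences: the induction
-/

set_option autoImplicit false

noncomputable section

open scoped ComplexConjugate InnerProductSpace Topology
open Filter Asymptotics Crest.MathPhysics.SpinGlass Crest.Agent.R339.Site Crest.Agent.R339.Hv

namespace Crest.Agent.R339.Lab

variable {K : Type*} [NormedAddCommGroup K] [InnerProductSpace ℂ K]

/-! ### site vectors in a rotated frame -/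

/-- the site vector in the rotated frame -/
def fv (j : Sp K →ₗᵢ[ℂ] K) (β : ℝ) (V : USp K) : K := j (eVec (mixU β * V))

lemma eVec_mix (β : ℝ) (V : USp K) : eVec (mixU β * V) =
    star (V : Sp K →L[ℂ] Sp K) (Zb β ((V : Sp K →L[ℂ] Sp K) Om)) := by
  have h : star ((mixU β * V : USp K) : Sp K →L[ℂ] Sp K) =
      star (V : Sp K →L[ℂ] Sp K) * ((mixU (-β) : USp K) : Sp K →L[ℂ] Sp K) := by
    rw [← star_mixU_coe]
    show star (((mixU β : USp K) : Sp K →L[ℂ] Sp K) * (V : Sp K →L[ℂ] Sp K)) = _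
    rw [star_mul]
  show star ((mixU β * V : USp K) : Sp K →L[ℂ] Sp K) (Zop (((mixU β * V : USp K) :
    Sp K →L[ℂ] Sp K) Om)) = _
  rw [h]
  rfl

lemma eVec_eq (V : USp K) : eVec V = star (V : Sp K →L[ℂ] Sp K) (Zop ((V : Sp K →L[ℂ] Sp K) Om)) :=
  rfl

lemma norm_eVec (V : USp K) : ‖eVec V‖ = 1 := by
  rw [eVec_eq, norm_star_U_apply, norm_Zop_apply, norm_U_apply, norm_Om]

lemma norm_fv (j : Sp K →ₗᵢ[ℂ] K) (β : ℝ) (V : USp K) : ‖fv j β V‖ = 1 := by
  rw [fv, LinearIsometry.norm_map, norm_eVec]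

lemma inner_star_star (V : USp K) (x y : Sp K) : ⟪star (V : Sp K →L[ℂ] Sp K) x,
    star (V : Sp K →L[ℂ] Sp K) y⟫_ℂ = ⟪x, y⟫_ℂ := by
  rw [ContinuousLinearMap.star_eq_adjoint, ContinuousLinearMap.adjoint_inner_left,
    ← ContinuousLinearMap.star_eq_adjoint, ← mul_apply_eq_comp, U_mul_star_self]
  rfl

lemma U_star_apply (V : USp K) (x : Sp K) : (V : Sp K →L[ℂ] Sp K)
    (star (V : Sp K →L[ℂ] Sp K) x) = x := by
  rw [← mul_apply_eq_comp, U_mul_star_self]; rfl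

lemma star_U_apply (V : USp K) (x : Sp K) : star (V : Sp K →L[ℂ] Sp K)
    ((V : Sp K →L[ℂ] Sp K) x) = x := by
  rw [← mul_apply_eq_comp, star_U_mul_self]; rfl

lemma inner_U_U (V : USp K) (x y : Sp K) : ⟪(V : Sp K →L[ℂ] Sp K) x,
    (V : Sp K →L[ℂ] Sp K) y⟫_ℂ = ⟪x, y⟫_ℂ := by
  rw [← inner_star_star V, star_U_apply, star_U_apply]

/-- `e` and the rotated vector of `Q V`: the basic scalar. -/
lemma inner_eVec (β : ℝ) (Q V : USp K) : ⟪eVec V, eVec (mixU β * (Q * V))⟫_ℂ =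
    ⟪(Q : Sp K →L[ℂ] Sp K) (Zop ((V : Sp K →L[ℂ] Sp K) Om)),
      Zb β ((Q : Sp K →L[ℂ] Sp K) ((V : Sp K →L[ℂ] Sp K) Om))⟫_ℂ := by
  have h : star ((Q * V : USp K) : Sp K →L[ℂ] Sp K) =
      star (V : Sp K →L[ℂ] Sp K) * star (Q : Sp K →L[ℂ] Sp K) := by
    show star ((Q : Sp K →L[ℂ] Sp K) * (V : Sp K →L[ℂ] Sp K)) = _
    rw [star_mul]
  rw [eVec_mix, h, eVec_eq]
  show ⟪star (V : Sp K →L[ℂ] Sp K) _, star (V : Sp K →L[ℂ] Sp K) (star (Q : Sp K →L[ℂ] Sp K) _)⟫_ℂ = _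
  rw [inner_star_star, ← inner_U_U Q, U_star_apply]
  rfl

/-- how the rotated vector changes under `Q` -/
lemma norm_fv_sub_le (j : Sp K →ₗᵢ[ℂ] K) (β : ℝ) (Q V : USp K) :
    ‖fv j β (Q * V) - fv j β V‖ ≤
      ‖(Q : Sp K →L[ℂ] Sp K) ((V : Sp K →L[ℂ] Sp K) Om) - (V : Sp K →L[ℂ] Sp K) Om‖ +
      ‖(Q : Sp K →L[ℂ] Sp K) (Zb β ((V : Sp K →L[ℂ] Sp K) Om)) - Zb β ((V : Sp K →L[ℂ] Sp K) Om)‖ := by
  have h : star ((Q * V : USp K) : Sp K →L[ℂ] Sp K) =
      star (V : Sp K →L[ℂ] Sp K) * star (Q : Sp K →L[ℂ] Sp K) := by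
    show star ((Q : Sp K →L[ℂ] Sp K) * (V : Sp K →L[ℂ] Sp K)) = _
    rw [star_mul]
  set ω := (V : Sp K →L[ℂ] Sp K) Om with hω
  have e1 : fv j β (Q * V) - fv j β V = j (star (V : Sp K →L[ℂ] Sp K)
      (star (Q : Sp K →L[ℂ] Sp K) (Zb β ((Q : Sp K →L[ℂ] Sp K) ω)) - Zb β ω)) := by
    rw [fv, fv, eVec_mix, eVec_mix, h, map_sub, map_sub]
    rfl
  rw [e1, LinearIsometry.norm_map, norm_star_U_apply]
  have e2 : star (Q : Sp K →L[ℂ] Sp K) (Zb β ((Q : Sp K →L[ℂ] Sp K) ω)) - Zb β ω =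
      star (Q : Sp K →L[ℂ] Sp K) (Zb β ((Q : Sp K →L[ℂ] Sp K) ω - ω) -
        ((Q : Sp K →L[ℂ] Sp K) (Zb β ω) - Zb β ω)) := by
    rw [map_sub, map_sub, map_sub, map_sub, star_U_apply]
    abel
  rw [e2, norm_star_U_apply]
  refine (norm_sub_le _ _).trans ?_
  rw [norm_Zb_apply]

/-! ### the calibrated pulse sequence -/

/-- the calibrated pulse vector -/
def pst (j : Sp K →ₗᵢ[ℂ] K) (ε : ℝ) (y : K) (β σ : ℝ) (V : USp K) : K :=
  ((σ * Real.pi * ε / (2 * (⟪y, fv j β V⟫_ℂ).im) : ℝ) : ℂ) • fv j β V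

/-- the sequence of states -/
def Vs (j : Sp K →ₗᵢ[ℂ] K) (ε : ℝ) (y : K) (β σ : ℕ → ℝ) (V : USp K) : ℕ → USp K
  | 0 => V
  | i + 1 => Pu (β i) (pst j ε y (β i) (σ i) (Vs j ε y β σ V i)) * Vs j ε y β σ V i

/-- pulses are plain words -/
lemma pulse_plain (j : Sp K →ₗᵢ[ℂ] K) (κ β : ℝ) (V : USp K) :
    (Pu β ((κ : ℂ) • fv j β V) : USp K) * V = moveB (-β) (moveC j (-κ) (moveB β V)) := by
  rw [moveB, moveC, moveB, costU_eq_Ez, fv, Pu]
  simp only [Complex.ofReal_neg, neg_neg, mul_assoc]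

section puls

variable {j : ℕ → (Sp K →ₗᵢ[ℂ] K)} {ε : ℕ → ℝ} {y : ℕ → K} {β σ : ℕ → ℝ} {V : ℕ → USp K}

/-- the pulse vectors -/
def us (j : ℕ → (Sp K →ₗᵢ[ℂ] K)) (ε : ℕ → ℝ) (y : ℕ → K) (β σ : ℕ → ℝ) (V : ℕ → USp K)
    (i n : ℕ) : K := pst (j n) (ε n) (y n) (β i) (σ i) (Vs (j n) (ε n) (y n) β σ (V n) i)

/-- the site vectors -/
def fs (j : ℕ → (Sp K →ₗᵢ[ℂ] K)) (ε : ℕ → ℝ) (y : ℕ → K) (β σ : ℕ → ℝ) (V : ℕ → USp K)
    (i n : ℕ) : K := fv (j n) (β i) (Vs (j n) (ε n) (y n) β σ (V n) i)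

lemma Vs_eq (i n : ℕ) : Vs (j n) (ε n) (y n) β σ (V n) i = Qs β (us j ε y β σ V) i n * V n := by
  induction i with
  | zero => rw [Qs_zero, one_mul]; rfl
  | succ i ih =>
    show Pu (β i) (us j ε y β σ V i n) * Vs (j n) (ε n) (y n) β σ (V n) i =
      (Pu (β i) (us j ε y β σ V i n) * Qs β (us j ε y β σ V) i n) * V n
    rw [ih, mul_assoc]

lemma us_eq (i n : ℕ) : us j ε y β σ V i n =
    ((σ i * Real.pi * ε n / (2 * (⟪y n, fs j ε y β σ V i n⟫_ℂ).im) : ℝ) : ℂ) •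
      fs j ε y β σ V i n := rfl

lemma norm_fs (i n : ℕ) : ‖fs j ε y β σ V i n‖ = 1 := norm_fv _ _ _

lemma bdd_of_eventually {E : Type*} [SeminormedAddCommGroup E] {f : ℕ → E} {T : ℝ}
    (h : ∀ᶠ n in atTop, ‖f n‖ ≤ T) : Bdd f := by
  obtain ⟨N, hN⟩ := eventually_atTop.mp h
  refine ⟨T + ∑ i ∈ Finset.range N, ‖f i‖, fun n => ?_⟩
  have h0 : 0 ≤ ∑ i ∈ Finset.range N, ‖f i‖ := Finset.sum_nonneg fun i _ => norm_nonneg _
  rcases lt_or_ge n N with hn | hn
  · have h1 : ‖f n‖ ≤ ∑ i ∈ Finset.range N, ‖f i‖ :=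
      Finset.single_le_sum (f := fun i => ‖f i‖) (fun i _ => norm_nonneg _) (Finset.mem_range.mpr hn)
    have hT : 0 ≤ T := (norm_nonneg _).trans (hN N le_rfl)
    linarith
  · have := hN n hn
    linarith

lemma bdd_of_isBigO_one {E : Type*} [SeminormedAddCommGroup E] {f : ℕ → E}
    (h : f =O[atTop] (fun _ => (1 : ℝ))) : Bdd f := by
  obtain ⟨C, hC⟩ := h.bound
  refine bdd_of_eventually (T := C) ?_
  filter_upwards [hC] with n hn
  simpa using hn

lemma Bdd.isBigO_one {E : Type*} [SeminormedAddCommGroup E] {f : ℕ → E} (h : Bdd f) :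
    f =O[atTop] (fun _ => (1 : ℝ)) := by
  obtain ⟨T, hT⟩ := h
  exact IsBigO.of_bound T (Eventually.of_forall fun n => by simpa using hT n)

/-- A frame: light and heavy decomposition of the current state. -/
structure Frame (ε : ℕ → ℝ) (y : ℕ → K) (V : ℕ → USp K) (w : ℕ → K) (lam : ℕ → Sp K)
    (lam₀ : Sp K) (c : ℕ → ℂ) (ηp ηm : ℕ → Sp K) : Prop where
  L : Light ε w lam lam₀
  hc : ∀ n, ‖c n‖ = 1
  dec : ∀ n, c n • (V n : Sp K →L[ℂ] Sp K) Om = ((Real.cos (ε n) : ℝ) : ℂ) • zet w lam n -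
    (Complex.I * ((Real.sin (ε n) : ℝ) : ℂ)) • (ηp n + ηm n)
  bp : Bdd ηp
  bm : Bdd ηm
  by' : Bdd y

variable {w : ℕ → K} {lam : ℕ → Sp K} {lam₀ : Sp K} {c : ℕ → ℂ} {ηp ηm : ℕ → Sp K}

lemma tendsto_sin_zero {ε : ℕ → ℝ} (hε : Tendsto ε atTop (𝓝 0)) :
    Tendsto (fun n => Real.sin (ε n)) atTop (𝓝 0) := by
  have := (Real.continuous_sin.tendsto 0).comp hε
  rwa [Real.sin_zero] at this

/-- closeness of `Q` to `1` on `ω` -/
lemma Frame.Q_om (F : Frame ε y V w lam lam₀ c ηp ηm) (u : ℕ → ℕ → K) (i : ℕ)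
    (hu : ∀ k < i, Sm ε w (u k)) {A : Sp K →L[ℂ] Sp K} (hA : IsSpin A) :
    Tendsto (fun n => ‖((Qs β u i n : USp K) : Sp K →L[ℂ] Sp K) (A ((V n : Sp K →L[ℂ] Sp K) Om)) -
      A ((V n : Sp K →L[ℂ] Sp K) Om)‖) atTop (𝓝 0) := by
  obtain ⟨Cp, hCp⟩ := F.bp
  obtain ⟨Cm, hCm⟩ := F.bm
  have h1 := (F.L.prod_O β u i hu hA).trans_tendsto F.L.eps
  have h2 : Tendsto (fun n => ‖((Qs β u i n : USp K) : Sp K →L[ℂ] Sp K) (A (zet w lam n)) -
      A (zet w lam n)‖ + 2 * (|Real.sin (ε n)| * (‖A‖ * (Cp + Cm)))) atTop (𝓝 0) := by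
    have := h1.norm.add (((tendsto_sin_zero F.L.eps).abs.mul_const (‖A‖ * (Cp + Cm))).const_mul 2)
    simpa using this
  refine squeeze_zero (fun n => norm_nonneg _) (fun n => ?_) h2
  set Q := ((Qs β u i n : USp K) : Sp K →L[ℂ] Sp K)
  set ω := (V n : Sp K →L[ℂ] Sp K) Om with hω
  have e0 : ‖Q (A ω) - A ω‖ = ‖Q (A (c n • ω)) - A (c n • ω)‖ := by
    rw [map_smul, map_smul, ← smul_sub, norm_smul, F.hc, one_mul]
  rw [e0, hω, F.dec]
  have e1 : Q (A (((Real.cos (ε n) : ℝ) : ℂ) • zet w lam n -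
      (Complex.I * ((Real.sin (ε n) : ℝ) : ℂ)) • (ηp n + ηm n))) -
      A (((Real.cos (ε n) : ℝ) : ℂ) • zet w lam n -
      (Complex.I * ((Real.sin (ε n) : ℝ) : ℂ)) • (ηp n + ηm n)) =
      ((Real.cos (ε n) : ℝ) : ℂ) • (Q (A (zet w lam n)) - A (zet w lam n)) -
      (Complex.I * ((Real.sin (ε n) : ℝ) : ℂ)) • (Q (A (ηp n + ηm n)) - A (ηp n + ηm n)) := by
    simp only [map_sub, map_smul, smul_sub]
    abel
  rw [e1]
  refine (norm_sub_le _ _).trans ?_
  rw [norm_smul, norm_smul, Complex.norm_real, norm_mul, Complex.norm_I, one_mul,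
    Complex.norm_real, Real.norm_eq_abs, Real.norm_eq_abs]
  have h3 : ‖Q (A (ηp n + ηm n)) - A (ηp n + ηm n)‖ ≤ 2 * (‖A‖ * (Cp + Cm)) := by
    have h4 : ‖A (ηp n + ηm n)‖ ≤ ‖A‖ * (Cp + Cm) :=
      (A.le_opNorm _).trans (mul_le_mul_of_nonneg_left ((norm_add_le _ _).trans
        (add_le_add (hCp n) (hCm n))) (norm_nonneg _))
    refine (norm_sub_le _ _).trans ?_
    rw [norm_U_apply]
    linarith
  have h5 : |Real.cos (ε n)| * ‖Q (A (zet w lam n)) - A (zet w lam n)‖ ≤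
      1 * ‖Q (A (zet w lam n)) - A (zet w lam n)‖ :=
    mul_le_mul_of_nonneg_right (Real.abs_cos_le_one _) (norm_nonneg _)
  have h6 := mul_le_mul_of_nonneg_left h3 (abs_nonneg (Real.sin (ε n)))
  linarith

/-- The induction over the pulses. -/
lemma Frame.ind (F : Frame ε y V w lam lam₀ c ηp ηm) (hσ : ∀ i, σ i = 1 ∨ σ i = -1)
    {q : ℝ} (hq : 0 < q)
    (hlow : ∀ i, ∀ᶠ n in atTop, q ≤ |(⟪y n, fv (j n) (β i) (V n)⟫_ℂ).im|)
    (hA : ∀ i, (∀ k < i, Sm ε w (us j ε y β σ V k)) →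
      Tendsto (fun n => (⟪w n, fs j ε y β σ V i n⟫_ℂ).im) atTop (𝓝 0)) :
    ∀ i, Sm ε w (us j ε y β σ V i) ∧
      (∀ᶠ n in atTop, q / 2 ≤ |(⟪y n, fs j ε y β σ V i n⟫_ℂ).im|) ∧
      Tendsto (fun n => fs j ε y β σ V i n - fv (j n) (β i) (V n)) atTop (𝓝 0) := by
  intro i
  induction i using Nat.strong_induction_on with
  | _ i ih =>
    have hSm : ∀ k < i, Sm ε w (us j ε y β σ V k) := fun k hk => (ih k hk).1
    -- closeness of the site vectors
    have h3 : Tendsto (fun n => fs j ε y β σ V i n - fv (j n) (β i) (V n)) atTop (𝓝 0) := by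
      rw [tendsto_zero_iff_norm_tendsto_zero]
      have a1 := F.Q_om (β := β) (us j ε y β σ V) i hSm isSpin_one
      have a2 := F.Q_om (β := β) (us j ε y β σ V) i hSm (isSpin_Zb (β i))
      have a3 := a1.add a2
      rw [add_zero] at a3
      refine squeeze_zero (fun n => norm_nonneg _) (fun n => ?_) a3
      rw [fs, Vs_eq]
      exact norm_fv_sub_le _ _ _ _
    -- the lower bound
    have h2 : ∀ᶠ n in atTop, q / 2 ≤ |(⟪y n, fs j ε y β σ V i n⟫_ℂ).im| := by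
      obtain ⟨T, hT⟩ := F.by'
      have b1 : Tendsto (fun n => T * ‖fs j ε y β σ V i n - fv (j n) (β i) (V n)‖) atTop (𝓝 0) := by
        have := h3.norm.const_mul T
        simpa using this
      filter_upwards [hlow i, b1.eventually_le_const (show (0 : ℝ) < q / 2 by positivity)]
        with n hn1 hn2
      have e : (⟪y n, fv (j n) (β i) (V n)⟫_ℂ).im = (⟪y n, fs j ε y β σ V i n⟫_ℂ).im -
          (⟪y n, fs j ε y β σ V i n - fv (j n) (β i) (V n)⟫_ℂ).im := by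
        rw [inner_sub_right, Complex.sub_im]; ring
      have b2 := Lab.abs_im_inner_le (y n) (fs j ε y β σ V i n - fv (j n) (β i) (V n))
      have b3 := mul_le_mul_of_nonneg_right (hT n)
        (norm_nonneg (fs j ε y β σ V i n - fv (j n) (β i) (V n)))
      have b4 := abs_sub (⟪y n, fs j ε y β σ V i n⟫_ℂ).im
        (⟪y n, fs j ε y β σ V i n - fv (j n) (β i) (V n)⟫_ℂ).im
      rw [← e] at b4
      linarith
    refine ⟨⟨?_, ?_⟩, h2, h3⟩
    · refine IsBigO.of_bound (Real.pi / q) ?_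
      filter_upwards [h2] with n hn
      rw [us_eq, norm_smul, norm_fs, mul_one, Complex.norm_real, Real.norm_eq_abs, abs_div, abs_mul,
        abs_mul, abs_mul, abs_of_pos (F.L.eps_pos n), abs_of_pos Real.pi_pos, abs_two,
        Real.norm_of_nonneg (F.L.eps_pos n).le]
      have hs : |σ i| = 1 := by rcases hσ i with h | h <;> rw [h] <;> norm_num
      rw [hs, one_mul]
      have hpos : 0 < |(⟪y n, fs j ε y β σ V i n⟫_ℂ).im| := lt_of_lt_of_le (by positivity) hn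
      rw [div_le_iff₀ (by positivity), div_mul_eq_mul_div, div_mul_eq_mul_div, le_div_iff₀ hq]
      have : 0 ≤ Real.pi * ε n := mul_nonneg Real.pi_pos.le (F.L.eps_pos n).le
      nlinarith
    · have a1 := hA i hSm
      have a2 : (fun n => σ i * Real.pi * ε n / (2 * (⟪y n, fs j ε y β σ V i n⟫_ℂ).im))
          =O[atTop] ε := by
        refine IsBigO.of_bound (Real.pi / q) ?_
        filter_upwards [h2] with n hn
        rw [Real.norm_eq_abs, abs_div, abs_mul,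
          abs_mul, abs_mul, abs_of_pos (F.L.eps_pos n), abs_of_pos Real.pi_pos, abs_two,
          Real.norm_of_nonneg (F.L.eps_pos n).le]
        have hs : |σ i| = 1 := by rcases hσ i with h | h <;> rw [h] <;> norm_num
        rw [hs, one_mul]
        have hpos : 0 < |(⟪y n, fs j ε y β σ V i n⟫_ℂ).im| := lt_of_lt_of_le (by positivity) hn
        rw [div_le_iff₀ (by positivity), div_mul_eq_mul_div, div_mul_eq_mul_div, le_div_iff₀ hq]
        have : 0 ≤ Real.pi * ε n := mul_nonneg Real.pi_pos.le (F.L.eps_pos n).le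
        nlinarith
      have a3 : (fun n => (⟪w n, fs j ε y β σ V i n⟫_ℂ).im) =o[atTop] (fun _ => (1 : ℝ)) :=
        (isLittleO_one_iff ℝ).mpr a1
      have a4 := a2.mul_isLittleO a3
      simp only [mul_one] at a4
      refine a4.congr_left fun n => ?_
      rw [us_eq, inner_smul_right, Complex.im_ofReal_mul]

/-- The induction over the pulses. -/
lemma Frame.ind' (F : Frame ε y V w lam lam₀ c ηp ηm) (hσ : ∀ i, σ i = 1 ∨ σ i = -1)
    {q : ℝ} (hq : 0 < q)
    (hlow : ∀ i, ∀ᶠ n in atTop, q ≤ |(⟪y n, fv (j n) (β i) (V n)⟫_ℂ).im|)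
    (hA : ∀ i, (∀ k < i, Sm ε w (us j ε y β σ V k)) →
      (∀ k < i, ∀ᶠ n in atTop, q / 2 ≤ |(⟪y n, fs j ε y β σ V k n⟫_ℂ).im|) →
      Tendsto (fun n => (⟪w n, fs j ε y β σ V i n⟫_ℂ).im) atTop (𝓝 0)) :
    ∀ i, Sm ε w (us j ε y β σ V i) ∧
      (∀ᶠ n in atTop, q / 2 ≤ |(⟪y n, fs j ε y β σ V i n⟫_ℂ).im|) ∧
      Tendsto (fun n => fs j ε y β σ V i n - fv (j n) (β i) (V n)) atTop (𝓝 0) := by
  intro i
  induction i using Nat.strong_induction_on with
  | _ i ih =>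
    have hSm : ∀ k < i, Sm ε w (us j ε y β σ V k) := fun k hk => (ih k hk).1
    -- closeness of the site vectors
    have h3 : Tendsto (fun n => fs j ε y β σ V i n - fv (j n) (β i) (V n)) atTop (𝓝 0) := by
      rw [tendsto_zero_iff_norm_tendsto_zero]
      have a1 := F.Q_om (β := β) (us j ε y β σ V) i hSm isSpin_one
      have a2 := F.Q_om (β := β) (us j ε y β σ V) i hSm (isSpin_Zb (β i))
      have a3 := a1.add a2
      rw [add_zero] at a3
      refine squeeze_zero (fun n => norm_nonneg _) (fun n => ?_) a3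
      rw [fs, Vs_eq]
      exact norm_fv_sub_le _ _ _ _
    -- the lower bound
    have h2 : ∀ᶠ n in atTop, q / 2 ≤ |(⟪y n, fs j ε y β σ V i n⟫_ℂ).im| := by
      obtain ⟨T, hT⟩ := F.by'
      have b1 : Tendsto (fun n => T * ‖fs j ε y β σ V i n - fv (j n) (β i) (V n)‖) atTop (𝓝 0) := by
        have := h3.norm.const_mul T
        simpa using this
      filter_upwards [hlow i, b1.eventually_le_const (show (0 : ℝ) < q / 2 by positivity)]
        with n hn1 hn2
      have e : (⟪y n, fv (j n) (β i) (V n)⟫_ℂ).im = (⟪y n, fs j ε y β σ V i n⟫_ℂ).im -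
          (⟪y n, fs j ε y β σ V i n - fv (j n) (β i) (V n)⟫_ℂ).im := by
        rw [inner_sub_right, Complex.sub_im]; ring
      have b2 := Lab.abs_im_inner_le (y n) (fs j ε y β σ V i n - fv (j n) (β i) (V n))
      have b3 := mul_le_mul_of_nonneg_right (hT n)
        (norm_nonneg (fs j ε y β σ V i n - fv (j n) (β i) (V n)))
      have b4 := abs_sub (⟪y n, fs j ε y β σ V i n⟫_ℂ).im
        (⟪y n, fs j ε y β σ V i n - fv (j n) (β i) (V n)⟫_ℂ).im
      rw [← e] at b4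
      linarith
    refine ⟨⟨?_, ?_⟩, h2, h3⟩
    · refine IsBigO.of_bound (Real.pi / q) ?_
      filter_upwards [h2] with n hn
      rw [us_eq, norm_smul, norm_fs, mul_one, Complex.norm_real, Real.norm_eq_abs, abs_div, abs_mul,
        abs_mul, abs_mul, abs_of_pos (F.L.eps_pos n), abs_of_pos Real.pi_pos, abs_two,
        Real.norm_of_nonneg (F.L.eps_pos n).le]
      have hs : |σ i| = 1 := by rcases hσ i with h | h <;> rw [h] <;> norm_num
      rw [hs, one_mul]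
      have hpos : 0 < |(⟪y n, fs j ε y β σ V i n⟫_ℂ).im| := lt_of_lt_of_le (by positivity) hn
      rw [div_le_iff₀ (by positivity), div_mul_eq_mul_div, div_mul_eq_mul_div, le_div_iff₀ hq]
      have : 0 ≤ Real.pi * ε n := mul_nonneg Real.pi_pos.le (F.L.eps_pos n).le
      nlinarith
    · have a1 := hA i hSm fun k hk => (ih k hk).2.1
      have a2 : (fun n => σ i * Real.pi * ε n / (2 * (⟪y n, fs j ε y β σ V i n⟫_ℂ).im))
          =O[atTop] ε := by
        refine IsBigO.of_bound (Real.pi / q) ?_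
        filter_upwards [h2] with n hn
        rw [Real.norm_eq_abs, abs_div, abs_mul,
          abs_mul, abs_mul, abs_of_pos (F.L.eps_pos n), abs_of_pos Real.pi_pos, abs_two,
          Real.norm_of_nonneg (F.L.eps_pos n).le]
        have hs : |σ i| = 1 := by rcases hσ i with h | h <;> rw [h] <;> norm_num
        rw [hs, one_mul]
        have hpos : 0 < |(⟪y n, fs j ε y β σ V i n⟫_ℂ).im| := lt_of_lt_of_le (by positivity) hn
        rw [div_le_iff₀ (by positivity), div_mul_eq_mul_div, div_mul_eq_mul_div, le_div_iff₀ hq]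
        have : 0 ≤ Real.pi * ε n := mul_nonneg Real.pi_pos.le (F.L.eps_pos n).le
        nlinarith
      have a3 : (fun n => (⟪w n, fs j ε y β σ V i n⟫_ℂ).im) =o[atTop] (fun _ => (1 : ℝ)) :=
        (isLittleO_one_iff ℝ).mpr a1
      have a4 := a2.mul_isLittleO a3
      simp only [mul_one] at a4
      refine a4.congr_left fun n => ?_
      rw [us_eq, inner_smul_right, Complex.im_ofReal_mul]

end puls

section puls2

variable {j : ℕ → (Sp K →ₗᵢ[ℂ] K)} {ε : ℕ → ℝ} {y : ℕ → K} {β σ : ℕ → ℝ} {V : ℕ → USp K}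
variable {w : ℕ → K} {lam : ℕ → Sp K} {lam₀ : Sp K} {c : ℕ → ℂ} {ηp ηm : ℕ → Sp K}

/-- the calibrated pulses on a heavy family -/
lemma heavy_Qs {b b' : ℝ} {h : ℕ → Sp K} (H : Heavy ε b b' y h) (hb : Bdd h)
    (hb1 : b = 1 ∨ b = -1) (hσ : ∀ i, σ i = 1 ∨ σ i = -1) {q : ℝ} (hq : 0 < q)
    {N : ℕ} (hlow : ∀ i < N, ∀ᶠ n in atTop, q ≤ |(⟪y n, fs j ε y β σ V i n⟫_ℂ).im|) :
    ∀ i ≤ N, Tendsto (fun n => ((Qs β (us j ε y β σ V) i n : USp K) : Sp K →L[ℂ] Sp K) (h n) -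
      pulM b β σ i (h n)) atTop (𝓝 0) := by
  set τ : ℕ → ℕ → K := fun i n => ((σ i * Real.pi / (2 * (⟪y n, fs j ε y β σ V i n⟫_ℂ).im) : ℝ) : ℂ) •
      fs j ε y β σ V i n with hτ
  have hτu : ∀ i n, us j ε y β σ V i n = (ε n : ℂ) • τ i n := by
    intro i n
    rw [us_eq, hτ, smul_smul, ← Complex.ofReal_mul]
    congr 2
    ring
  refine Heavy.pulses H hb hb1 hσ (τ := τ) (N := N) (g := fun i n =>
    ((Qs β (us j ε y β σ V) i n : USp K) : Sp K →L[ℂ] Sp K) (h n)) ?_ ?_ ?_ ?_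
  · intro i hi
    refine bdd_of_eventually (T := Real.pi / (2 * q)) ?_
    filter_upwards [hlow i hi] with n hn
    rw [hτ]
    simp only
    rw [norm_smul, norm_fs, mul_one, Complex.norm_real, Real.norm_eq_abs, abs_div, abs_mul,
        abs_mul, abs_of_pos Real.pi_pos, abs_two]
    have hs : |σ i| = 1 := by rcases hσ i with h | h <;> rw [h] <;> norm_num
    rw [hs, one_mul]
    exact div_le_div_of_nonneg_left Real.pi_pos.le (by positivity) (by linarith)
  · intro i hi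
    have : ∀ᶠ n in atTop, σ i * (Real.pi / 2) = (⟪y n, τ i n⟫_ℂ).im := by
      filter_upwards [hlow i hi] with n hn
      have hne : (⟪y n, fs j ε y β σ V i n⟫_ℂ).im ≠ 0 := by
        intro h0
        rw [h0, abs_zero] at hn
        linarith
      rw [hτ]
      simp only
      rw [inner_smul_right, Complex.im_ofReal_mul]
      field_simp
    exact tendsto_const_nhds.congr' this
  · intro n; rfl
  · intro i hi n
    show ((Qs β (us j ε y β σ V) (i + 1) n : USp K) : Sp K →L[ℂ] Sp K) (h n) = _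
    rw [Qs_succ_apply, hτu]

lemma isBigO_mul_one {ε : ℕ → ℝ} {a b : ℕ → ℝ} (ha : a =O[atTop] ε)
    (hb : b =O[atTop] (fun _ => (1 : ℝ))) : (fun n => a n * b n) =O[atTop] ε := by
  simpa using ha.mul hb

/-- Overlap data: `ζ` is asymptotically orthogonal to the heavy vectors. -/
def Ov (ζ η : ℕ → Sp K) : Prop := ∀ A A' : Sp K →L[ℂ] Sp K, IsSpin A → IsSpin A' →
  Tendsto (fun n => ⟪A (ζ n), A' (η n)⟫_ℂ) atTop (𝓝 0)

lemma tendsto_inner_of_close {x x' z z' : ℕ → Sp K} (hx : Bdd x) (hz' : Bdd z')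
    (h1 : Tendsto (fun n => x n - x' n) atTop (𝓝 0)) (h2 : Tendsto (fun n => z n - z' n) atTop (𝓝 0))
    (h3 : Tendsto (fun n => ⟪x' n, z' n⟫_ℂ) atTop (𝓝 0)) :
    Tendsto (fun n => ⟪x n, z n⟫_ℂ) atTop (𝓝 0) := by
  obtain ⟨T, hT⟩ := hx
  obtain ⟨T', hT'⟩ := hz'
  have a1 : Tendsto (fun n => ⟪x n, z n - z' n⟫_ℂ) atTop (𝓝 0) := by
    refine tendsto_zero_of_norm_le (C := T) h2 fun n => ?_
    exact (norm_inner_le_norm _ _).trans (mul_le_mul_of_nonneg_right (hT n) (norm_nonneg _))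
  have a2 : Tendsto (fun n => ⟪x n - x' n, z' n⟫_ℂ) atTop (𝓝 0) := by
    refine tendsto_zero_of_norm_le (C := T') h1 fun n => ?_
    refine (norm_inner_le_norm _ _).trans ?_
    rw [mul_comm]
    exact mul_le_mul_of_nonneg_right (hT' n) (norm_nonneg _)
  have := (a1.add a2).add h3
  rw [add_zero, add_zero] at this
  refine this.congr fun n => ?_
  rw [inner_sub_right, inner_sub_left]
  ring

/-- cross term, light on the left -/
lemma cross1 {b b' : ℝ} {h : ℕ → Sp K} (H : Heavy ε b b' y h) (hb : Bdd h)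
    (hb1 : b = 1 ∨ b = -1) (L : Light ε w lam lam₀) (hov : Ov (zet w lam) h)
    (hσ : ∀ i, σ i = 1 ∨ σ i = -1) {q : ℝ} (hq : 0 < q)
    {i : ℕ} (hSm : ∀ k < i, Sm ε w (us j ε y β σ V k))
    (hlow : ∀ k < i, ∀ᶠ n in atTop, q ≤ |(⟪y n, fs j ε y β σ V k n⟫_ℂ).im|)
    {A A' : Sp K →L[ℂ] Sp K} (hA : IsSpin A) (hA' : IsSpin A') :
    Tendsto (fun n => ⟪((Qs β (us j ε y β σ V) i n : USp K) : Sp K →L[ℂ] Sp K) (A (zet w lam n)),
      A' (((Qs β (us j ε y β σ V) i n : USp K) : Sp K →L[ℂ] Sp K) (h n))⟫_ℂ) atTop (𝓝 0) := by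
  have h1 := (L.prod_O β (us j ε y β σ V) i hSm hA).trans_tendsto L.eps
  have h2 := heavy_Qs H hb hb1 hσ hq hlow i le_rfl
  have h3 : Tendsto (fun n => A' (((Qs β (us j ε y β σ V) i n : USp K) : Sp K →L[ℂ] Sp K) (h n)) -
      A' (pulM b β σ i (h n))) atTop (𝓝 0) := by
    have := (A'.continuous.tendsto 0).comp h2
    rw [map_zero] at this
    refine this.congr fun n => ?_
    simp only [Function.comp, map_sub]
  have h4 : Tendsto (fun n => ⟪A (zet w lam n), A' (pulM b β σ i (h n))⟫_ℂ) atTop (𝓝 0) := by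
    refine (hov A (A' * pulM b β σ i) hA (hA'.mul (isSpin_pulM b β σ i))).congr fun n => ?_
    rw [mul_apply_eq_comp]
  refine tendsto_inner_of_close
    (x := fun n => ((Qs β (us j ε y β σ V) i n : USp K) : Sp K →L[ℂ] Sp K) (A (zet w lam n)))
    (x' := fun n => A (zet w lam n))
    (z := fun n => A' (((Qs β (us j ε y β σ V) i n : USp K) : Sp K →L[ℂ] Sp K) (h n)))
    (z' := fun n => A' (pulM b β σ i (h n))) ?_ ?_ h1 h3 h4
  · obtain ⟨T, hT⟩ := bdd_of_isBigO_one L.zet_bdd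
    refine ⟨‖A‖ * T, fun n => ?_⟩
    rw [norm_U_apply]
    exact (A.le_opNorm _).trans (mul_le_mul_of_nonneg_left (hT n) (norm_nonneg _))
  · obtain ⟨T, hT⟩ := hb
    set M : Sp K →L[ℂ] Sp K := pulM b β σ i with hM
    refine ⟨‖A'‖ * (‖M‖ * T), fun n => ?_⟩
    refine (A'.le_opNorm _).trans (mul_le_mul_of_nonneg_left ?_ (norm_nonneg _))
    exact (M.le_opNorm _).trans (mul_le_mul_of_nonneg_left (hT n) (norm_nonneg _))

set_option maxHeartbeats 400000 in
/-- The site scalars `a c_i` tend to zero in the scrambled frame. -/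
lemma Frame.scr (F : Frame ε y V w lam lam₀ c ηp ηm) (hσ : ∀ i, σ i = 1 ∨ σ i = -1)
    {b1 b2 : ℝ} (Hp : Heavy ε 1 b1 y ηp) (Hm : Heavy ε (-1) b2 y ηm)
    (hop : Ov (zet w lam) ηp) (hom : Ov (zet w lam) ηm)
    {h : ℕ → K} (hs : Scr ε w h) {a : ℕ → ℝ} (hw : ∀ n, w n = (a n : ℂ) • j n (eVec (V n)))
    {T : ℝ} (ha : ∀ n, |a n| * ε n ≤ T)
    {q : ℝ} (hq : 0 < q) {i : ℕ} (hSm : ∀ k < i, Sm ε w (us j ε y β σ V k))
    (hlow : ∀ k < i, ∀ᶠ n in atTop, q ≤ |(⟪y n, fs j ε y β σ V k n⟫_ℂ).im|) :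
    Tendsto (fun n => (⟪w n, fs j ε y β σ V i n⟫_ℂ).im) atTop (𝓝 0) := by
  set Q : ℕ → Sp K →L[ℂ] Sp K := fun n => ((Qs β (us j ε y β σ V) i n : USp K) : Sp K →L[ℂ] Sp K)
    with hQ
  set ζ := zet w lam with hζ
  set G : ℕ → Sp K → Sp K → ℂ := fun n x x' => ⟪Q n (Zop x), Zb (β i) (Q n x')⟫_ℂ with hG
  have hGadd1 : ∀ n x x' z, G n (x + x') z = G n x z + G n x' z := by
    intro n x x' z; simp only [hG, map_add, inner_add_left]
  have hGadd2 : ∀ n x z z', G n x (z + z') = G n x z + G n x z' := by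
    intro n x x' z; simp only [hG, map_add, inner_add_right]
  have hGs1 : ∀ n (t : ℂ) x z, G n (t • x) z = conj t * G n x z := by
    intro n t x z; simp only [hG, map_smul, inner_smul_left]
  have hGs2 : ∀ n (t : ℂ) x z, G n x (t • z) = t * G n x z := by
    intro n t x z; simp only [hG, map_smul, inner_smul_right]
  have hGn : ∀ n x z, ‖G n x z‖ ≤ ‖x‖ * ‖z‖ := by
    intro n x z
    simp only [hG]
    refine (norm_inner_le_norm _ _).trans (le_of_eq ?_)
    rw [norm_Zb_apply, hQ]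
    simp only
    rw [norm_U_apply, norm_U_apply, norm_Zop_apply]
  -- the basic identity
  have hid : ∀ n, (⟪w n, fs j ε y β σ V i n⟫_ℂ).im =
      a n * (G n (c n • (V n : Sp K →L[ℂ] Sp K) Om) (c n • (V n : Sp K →L[ℂ] Sp K) Om)).im := by
    intro n
    rw [hw, inner_smul_left, Complex.conj_ofReal, Complex.im_ofReal_mul, hGs1, hGs2, ← mul_assoc]
    have hcc : conj (c n) * c n = 1 := by
      rw [← Complex.normSq_eq_conj_mul_self, Complex.normSq_eq_norm_sq, F.hc]; simp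
    rw [hcc, one_mul, fs, fv, LinearIsometry.inner_map_map, Vs_eq, inner_eVec]
  -- pieces
  have hLL : (fun n => (G n (ζ n) (ζ n)).im) =o[atTop] ε :=
    F.L.LL hs β (us j ε y β σ V) i hSm
  have hbζ : Bdd ζ := bdd_of_isBigO_one F.L.zet_bdd
  have hZp : Heavy ε 1 b1 y (fun n => Zop (ηp n)) :=
    Hp.map (A := fun _ => Zop) (fun _ => isSpin_Zop) (fun _ _ => rfl) (C := 1)
      (fun _ v => by rw [norm_Zop_apply, one_mul])
  have hZm : Heavy ε (-1) b2 y (fun n => Zop (ηm n)) :=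
    Hm.map (A := fun _ => Zop) (fun _ => isSpin_Zop) (fun _ _ => rfl) (C := 1)
      (fun _ v => by rw [norm_Zop_apply, one_mul])
  have hbZp : Bdd (fun n => Zop (ηp n)) := F.bp.mono fun n => by rw [norm_Zop_apply]
  have hbZm : Bdd (fun n => Zop (ηm n)) := F.bm.mono fun n => by rw [norm_Zop_apply]
  have hopZ : Ov ζ (fun n => Zop (ηp n)) := fun A A' hA hA' =>
    (hop A (A' * Zop) hA (hA'.mul isSpin_Zop)).congr fun n => by rw [mul_apply_eq_comp]
  have homZ : Ov ζ (fun n => Zop (ηm n)) := fun A A' hA hA' =>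
    (hom A (A' * Zop) hA (hA'.mul isSpin_Zop)).congr fun n => by rw [mul_apply_eq_comp]
  have c1 : Tendsto (fun n => G n (ζ n) (ηp n)) atTop (𝓝 0) :=
    cross1 Hp F.bp (Or.inl rfl) F.L hop hσ hq hSm hlow isSpin_Zop (isSpin_Zb _)
  have c2 : Tendsto (fun n => G n (ζ n) (ηm n)) atTop (𝓝 0) :=
    cross1 Hm F.bm (Or.inr rfl) F.L hom hσ hq hSm hlow isSpin_Zop (isSpin_Zb _)
  have hflip : ∀ (x z : ℕ → Sp K), Tendsto (fun n => ⟪Q n (x n), Zb (β i) (Q n (z n))⟫_ℂ) atTop (𝓝 0) →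
      Tendsto (fun n => ⟪Q n (z n), Zb (β i) (Q n (x n))⟫_ℂ) atTop (𝓝 0) := by
    intro x z h0
    have h1 := (Complex.continuous_conj.tendsto 0).comp h0
    rw [map_zero] at h1
    refine h1.congr fun n => ?_
    simp only [Function.comp]
    rw [inner_conj_symm, inner_Zb_left]
  have c3 : Tendsto (fun n => G n (ηp n) (ζ n)) atTop (𝓝 0) := by
    have t := cross1 (A := 1) hZp hbZp (Or.inl rfl) F.L hopZ hσ hq hSm hlow isSpin_one
      (isSpin_Zb (β i))
    simp only [one_apply_eq_self] at t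
    exact hflip (fun n => ζ n) (fun n => Zop (ηp n)) t
  have c4 : Tendsto (fun n => G n (ηm n) (ζ n)) atTop (𝓝 0) := by
    have t := cross1 (A := 1) hZm hbZm (Or.inr rfl) F.L homZ hσ hq hSm hlow isSpin_one
      (isSpin_Zb (β i))
    simp only [one_apply_eq_self] at t
    exact hflip (fun n => ζ n) (fun n => Zop (ηm n)) t
  have hsinO : (fun n => Real.sin (ε n)) =O[atTop] ε :=
    IsBigO.of_bound 1 (Eventually.of_forall fun n => by
      rw [one_mul, Real.norm_eq_abs, Real.norm_eq_abs]; exact Real.abs_sin_le_abs)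
  -- the total
  have htot : (fun n => (G n (c n • (V n : Sp K →L[ℂ] Sp K) Om)
      (c n • (V n : Sp K →L[ℂ] Sp K) Om)).im) =o[atTop] ε := by
    set η : ℕ → Sp K := fun n => ηp n + ηm n with hη
    have hx1 : (fun n => (-(Complex.I * ((Real.cos (ε n) * Real.sin (ε n) : ℝ) : ℂ)) *
        G n (ζ n) (η n)).im) =o[atTop] ε := by
      have t1 : Tendsto (fun n => G n (ζ n) (η n)) atTop (𝓝 0) := by
        have := c1.add c2
        rw [add_zero] at this
        exact this.congr fun n => (hGadd2 _ _ _ _).symm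
      have t2 : (fun n => G n (ζ n) (η n)) =o[atTop] (fun _ => (1 : ℝ)) := (isLittleO_one_iff ℝ).mpr t1
      have t3 : (fun n => -(Complex.I * ((Real.cos (ε n) * Real.sin (ε n) : ℝ) : ℂ))) =O[atTop] ε := by
        refine IsBigO.trans (IsBigO.of_bound 1 (Eventually.of_forall fun n => ?_)) hsinO
        rw [norm_neg, norm_mul, Complex.norm_I, one_mul, Complex.norm_real, norm_mul]
        exact mul_le_mul_of_nonneg_right (by rw [Real.norm_eq_abs]; exact Real.abs_cos_le_one _)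
          (norm_nonneg _)
      have t4 := t3.mul_isLittleO t2
      simp only [mul_one] at t4
      exact isLittleO_im t4
    have hx2 : (fun n => ((Complex.I * ((Real.cos (ε n) * Real.sin (ε n) : ℝ) : ℂ)) *
        G n (η n) (ζ n)).im) =o[atTop] ε := by
      have t1 : Tendsto (fun n => G n (η n) (ζ n)) atTop (𝓝 0) := by
        have := c3.add c4
        rw [add_zero] at this
        exact this.congr fun n => (hGadd1 _ _ _ _).symm
      have t2 : (fun n => G n (η n) (ζ n)) =o[atTop] (fun _ => (1 : ℝ)) := (isLittleO_one_iff ℝ).mpr t1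
      have t3 : (fun n => (Complex.I * ((Real.cos (ε n) * Real.sin (ε n) : ℝ) : ℂ))) =O[atTop] ε := by
        refine IsBigO.trans (IsBigO.of_bound 1 (Eventually.of_forall fun n => ?_)) hsinO
        rw [norm_mul, Complex.norm_I, one_mul, Complex.norm_real, norm_mul]
        exact mul_le_mul_of_nonneg_right (by rw [Real.norm_eq_abs]; exact Real.abs_cos_le_one _)
          (norm_nonneg _)
      have t4 := t3.mul_isLittleO t2
      simp only [mul_one] at t4
      exact isLittleO_im t4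
    have hx3 : (fun n => ((((Real.sin (ε n)) ^ 2 : ℝ) : ℂ) * G n (η n) (η n)).im) =o[atTop] ε := by
      obtain ⟨Cp, hCp⟩ := F.bp
      obtain ⟨Cm, hCm⟩ := F.bm
      have t1 := mul_self_isLittleO F.L.eps hsinO hsinO
      have t2 : (fun n => (((Real.sin (ε n)) ^ 2 : ℝ) : ℂ) * G n (η n) (η n)) =o[atTop] ε := by
        refine IsBigO.trans_isLittleO (IsBigO.of_bound ((Cp + Cm) * (Cp + Cm))
          (Eventually.of_forall fun n => ?_)) t1
        rw [norm_mul, Complex.norm_real, mul_comm, sq]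
        refine mul_le_mul_of_nonneg_right ((hGn _ _ _).trans ?_) (norm_nonneg _)
        have : ‖η n‖ ≤ Cp + Cm := (norm_add_le _ _).trans (add_le_add (hCp n) (hCm n))
        exact mul_le_mul this this (norm_nonneg _) ((norm_nonneg _).trans this)
      exact isLittleO_im t2
    have hx0 : (fun n => ((((Real.cos (ε n)) ^ 2 : ℝ) : ℂ) * G n (ζ n) (ζ n)).im) =o[atTop] ε := by
      refine IsBigO.trans_isLittleO (IsBigO.of_bound 1 (Eventually.of_forall fun n => ?_)) hLL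
      rw [Complex.im_ofReal_mul, one_mul, norm_mul]
      have : ‖Real.cos (ε n) ^ 2‖ ≤ 1 := by
        rw [Real.norm_of_nonneg (sq_nonneg _)]; exact Real.cos_sq_le_one _
      calc _ ≤ 1 * ‖(G n (ζ n) (ζ n)).im‖ := mul_le_mul_of_nonneg_right this (norm_nonneg _)
        _ = _ := one_mul _
    refine ((((hx0.add hx1).add hx2).add hx3)).congr_left fun n => ?_
    have hexp : ∀ (s t : ℂ) (x z : Sp K), G n (s • x + t • z) (s • x + t • z) =
        conj s * s * G n x x + conj s * t * G n x z + conj t * s * G n z x +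
          conj t * t * G n z z := by
      intro s t x z
      rw [hGadd1, hGadd2, hGadd2, hGs1, hGs1, hGs1, hGs1, hGs2, hGs2, hGs2, hGs2]
      ring
    rw [F.dec, ← Complex.add_im, ← Complex.add_im, ← Complex.add_im]
    congr 1
    rw [sub_eq_add_neg, ← neg_smul]
    show _ = G n (((Real.cos (ε n) : ℝ) : ℂ) • ζ n +
      (-(Complex.I * ((Real.sin (ε n) : ℝ) : ℂ))) • η n) (((Real.cos (ε n) : ℝ) : ℂ) • ζ n +
      (-(Complex.I * ((Real.sin (ε n) : ℝ) : ℂ))) • η n)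
    rw [hexp]
    simp only [map_neg, map_mul, Complex.conj_I, Complex.conj_ofReal]
    rw [Complex.ofReal_pow, Complex.ofReal_pow, Complex.ofReal_mul]
    linear_combination ((((Real.sin (ε n) : ℝ) : ℂ)) ^ 2 * G n (η n) (η n)) * Complex.I_sq
  -- conclusion
  have hfin : Tendsto (fun n => a n * (G n (c n • (V n : Sp K →L[ℂ] Sp K) Om)
      (c n • (V n : Sp K →L[ℂ] Sp K) Om)).im) atTop (𝓝 0) := by
    rw [← isLittleO_one_iff ℝ]
    have a1 : (fun n => a n) =O[atTop] (fun n => (ε n)⁻¹) := by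
      refine IsBigO.of_bound T (Eventually.of_forall fun n => ?_)
      have hp := F.L.eps_pos n
      rw [Real.norm_eq_abs, norm_inv, Real.norm_of_nonneg hp.le, ← div_eq_mul_inv, le_div_iff₀ hp]
      exact ha n
    have a2 := a1.mul_isLittleO htot
    refine a2.trans_isBigO (IsBigO.of_bound 1 (Eventually.of_forall fun n => ?_))
    have hp := F.L.eps_pos n
    rw [inv_mul_cancel₀ hp.ne']
    simp
  exact hfin.congr fun n => (hid n).symm

end puls2

end Crest.Agent.R339.Lab
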