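import Mathlib
import Crest.Agent.R339.Lab373E

/-!
# The scrambled rotation: all conclusions
-/

set_option autoImplicit false

noncomputable section

open scoped ComplexConjugate InnerProductSpace Topology
open Filter Asymptotics Crest.MathPhysics.SpinGlass Crest.Agent.R339.Site Crest.Agent.R339.Hv

namespace Crest.Agent.R339.Lab

variable {K : Type*} [NormedAddCommGroup K] [InnerProductSpace ℂ K]

/-! ### lower bounds for rotated site vectors -/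

lemma fv_eq (j : Sp K →ₗᵢ[ℂ] K) (β : ℝ) (V : USp K) : fv j β V =
    ((Real.cos (2 * β) : ℝ) : ℂ) • j (eVec V) + (Complex.I * ((Real.sin (2 * β) : ℝ) : ℂ)) •
      j (star (V : Sp K →L[ℂ] Sp K) (Xop (Zop ((V : Sp K →L[ℂ] Sp K) Om)))) := by
  rw [fv, eVec_mix, Zb_eq, mixU_eq, eVec_eq, Real.cos_neg, Real.sin_neg]
  simp only [map_smul, Complex.ofReal_neg, mul_neg, neg_smul, sub_neg_eq_add, map_add]

lemma fv_zero (j : Sp K →ₗᵢ[ℂ] K) (V : USp K) : fv j 0 V = j (eVec V) := by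
  rw [fv, mixU_zero, one_mul]

lemma abs_im_fv_ge (j : Sp K →ₗᵢ[ℂ] K) (β : ℝ) (V : USp K) (y : K) :
    |Real.cos (2 * β)| * |(⟪y, j (eVec V)⟫_ℂ).im| - |Real.sin (2 * β)| * ‖y‖ ≤
      |(⟪y, fv j β V⟫_ℂ).im| := by
  set x := j (star (V : Sp K →L[ℂ] Sp K) (Xop (Zop ((V : Sp K →L[ℂ] Sp K) Om)))) with hx
  have hxn : ‖x‖ = 1 := by
    rw [hx, LinearIsometry.norm_map, norm_star_U_apply, norm_Xop_apply, norm_Zop_apply,
      norm_U_apply, norm_Om]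
  have e : (⟪y, fv j β V⟫_ℂ).im = Real.cos (2 * β) * (⟪y, j (eVec V)⟫_ℂ).im +
      Real.sin (2 * β) * (Complex.I * ⟪y, x⟫_ℂ).im := by
    rw [fv_eq, inner_add_right, inner_smul_right, inner_smul_right, Complex.add_im,
      Complex.im_ofReal_mul, mul_comm Complex.I, mul_assoc, Complex.im_ofReal_mul]
  have h1 : |(Complex.I * ⟪y, x⟫_ℂ).im| ≤ ‖y‖ := by
    refine (Complex.abs_im_le_norm _).trans ?_
    rw [norm_mul, Complex.norm_I, one_mul]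
    refine (norm_inner_le_norm _ _).trans ?_
    rw [hxn, mul_one]
  rw [e]
  have h2 := abs_sub_abs_le_abs_sub (Real.cos (2 * β) * (⟪y, j (eVec V)⟫_ℂ).im)
    (-(Real.sin (2 * β) * (Complex.I * ⟪y, x⟫_ℂ).im))
  rw [abs_neg, sub_neg_eq_add, abs_mul, abs_mul] at h2
  have h3 := mul_le_mul_of_nonneg_left h1 (abs_nonneg (Real.sin (2 * β)))
  linarith

/-- normalised vectors with close directions -/
lemma tendsto_calib_sub {y f f' : ℕ → K} {q T : ℝ} (hq : 0 < q) (hy : ∀ n, ‖y n‖ ≤ T)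
    (hf : ∀ n, ‖f n‖ = 1) (h1 : ∀ᶠ n in atTop, q ≤ |(⟪y n, f n⟫_ℂ).im|)
    (h2 : ∀ᶠ n in atTop, q ≤ |(⟪y n, f' n⟫_ℂ).im|)
    (h : Tendsto (fun n => f n - f' n) atTop (𝓝 0)) :
    Tendsto (fun n => ((((⟪y n, f n⟫_ℂ).im)⁻¹ : ℝ) : ℂ) • f n -
      ((((⟪y n, f' n⟫_ℂ).im)⁻¹ : ℝ) : ℂ) • f' n) atTop (𝓝 0) := by
  rw [tendsto_zero_iff_norm_tendsto_zero] at h ⊢
  have h0 : Tendsto (fun n => (T / (q * q) + 1 / q) * ‖f n - f' n‖) atTop (𝓝 0) := by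
    simpa using h.const_mul (T / (q * q) + 1 / q)
  refine squeeze_zero' (Eventually.of_forall fun n => norm_nonneg _) ?_ h0
  filter_upwards [h1, h2] with n hn1 hn2
  set I1 := (⟪y n, f n⟫_ℂ).im with hI1
  set I2 := (⟪y n, f' n⟫_ℂ).im with hI2
  have hp1 : 0 < |I1| := lt_of_lt_of_le hq hn1
  have hp2 : 0 < |I2| := lt_of_lt_of_le hq hn2
  have hne1 : I1 ≠ 0 := abs_pos.mp hp1
  have hne2 : I2 ≠ 0 := abs_pos.mp hp2
  have e : (((I1)⁻¹ : ℝ) : ℂ) • f n - (((I2)⁻¹ : ℝ) : ℂ) • f' n =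
      (((I1)⁻¹ - (I2)⁻¹ : ℝ) : ℂ) • f n + (((I2)⁻¹ : ℝ) : ℂ) • (f n - f' n) := by
    push_cast
    module
  rw [e]
  refine (norm_add_le _ _).trans ?_
  rw [norm_smul, norm_smul, hf, mul_one, Complex.norm_real, Complex.norm_real, Real.norm_eq_abs,
    Real.norm_eq_abs, add_mul]
  refine add_le_add ?_ (mul_le_mul_of_nonneg_right ?_ (norm_nonneg _))
  · have e2 : I1⁻¹ - I2⁻¹ = (I2 - I1) / (I1 * I2) := by
      field_simp
    rw [e2, abs_div, abs_mul]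
    have h3 : |I2 - I1| ≤ T * ‖f n - f' n‖ := by
      have e3 : I2 - I1 = -(⟪y n, f n - f' n⟫_ℂ).im := by
        rw [inner_sub_right, Complex.sub_im]; ring
      rw [e3, abs_neg]
      exact (Lab.abs_im_inner_le _ _).trans (mul_le_mul_of_nonneg_right (hy n) (norm_nonneg _))
    have h4 : q * q ≤ |I1| * |I2| := mul_le_mul hn1 hn2 hq.le hp1.le
    have hT : 0 ≤ T := (norm_nonneg _).trans (hy n)
    calc |I2 - I1| / (|I1| * |I2|) ≤ (T * ‖f n - f' n‖) / (q * q) :=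
          div_le_div₀ (by positivity) h3 (by positivity) h4
      _ = T / (q * q) * ‖f n - f' n‖ := by ring
  · rw [abs_inv, one_div]
    exact inv_anti₀ hq hn2

section fin

variable {j : ℕ → (Sp K →ₗᵢ[ℂ] K)} {ε : ℕ → ℝ} {y : ℕ → K} {β σ : ℕ → ℝ} {V : ℕ → USp K}
variable {w : ℕ → K} {lam : ℕ → Sp K} {lam₀ : Sp K} {c : ℕ → ℂ} {ηp ηm : ℕ → Sp K}

/-- opposite pulses of the same axis cancel up to `o(ε)` -/
lemma us_add_o (hε : ∀ n, 0 < ε n) {T : ℝ} (hy : ∀ n, ‖y n‖ ≤ T) {q : ℝ} (hq : 0 < q) {i k : ℕ}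
    (hβ : β i = β k) (hσ : σ k = -σ i) (hσ1 : σ i = 1 ∨ σ i = -1)
    (h1 : ∀ᶠ n in atTop, q ≤ |(⟪y n, fs j ε y β σ V i n⟫_ℂ).im|)
    (h2 : ∀ᶠ n in atTop, q ≤ |(⟪y n, fs j ε y β σ V k n⟫_ℂ).im|)
    (h3 : Tendsto (fun n => fs j ε y β σ V i n - fv (j n) (β i) (V n)) atTop (𝓝 0))
    (h4 : Tendsto (fun n => fs j ε y β σ V k n - fv (j n) (β k) (V n)) atTop (𝓝 0)) :
    (fun n => us j ε y β σ V i n + us j ε y β σ V k n) =o[atTop] ε := by
  have h5 : Tendsto (fun n => fs j ε y β σ V i n - fs j ε y β σ V k n) atTop (𝓝 0) := by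
    have := h3.sub h4
    rw [sub_zero] at this
    refine this.congr fun n => ?_
    rw [hβ]
    abel
  have h6 := tendsto_calib_sub hq hy (fun n => norm_fs i n) h1 h2 h5
  rw [isLittleO_iff]
  intro δ hδ
  have h7 : ∀ᶠ n in atTop, ‖((((⟪y n, fs j ε y β σ V i n⟫_ℂ).im)⁻¹ : ℝ) : ℂ) • fs j ε y β σ V i n -
      ((((⟪y n, fs j ε y β σ V k n⟫_ℂ).im)⁻¹ : ℝ) : ℂ) • fs j ε y β σ V k n‖ ≤
        δ * (2 / Real.pi) :=
    (tendsto_zero_iff_norm_tendsto_zero.mp h6).eventually_le_const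
      (mul_pos hδ (div_pos two_pos Real.pi_pos))
  filter_upwards [h7] with n hn
  have e : us j ε y β σ V i n + us j ε y β σ V k n = ((σ i * Real.pi * ε n / 2 : ℝ) : ℂ) •
      (((((⟪y n, fs j ε y β σ V i n⟫_ℂ).im)⁻¹ : ℝ) : ℂ) • fs j ε y β σ V i n -
      ((((⟪y n, fs j ε y β σ V k n⟫_ℂ).im)⁻¹ : ℝ) : ℂ) • fs j ε y β σ V k n) := by
    rw [us_eq, us_eq, hσ, smul_sub, smul_smul, smul_smul, ← Complex.ofReal_mul,
      ← Complex.ofReal_mul, sub_eq_add_neg, ← neg_smul, ← Complex.ofReal_neg]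
    congr 3
    · rw [← div_eq_mul_inv, div_div]
    · rw [← div_eq_mul_inv, div_div]
      ring
  rw [e, norm_smul, Complex.norm_real, Real.norm_eq_abs, abs_div, abs_mul, abs_mul,
    abs_of_pos (hε n), abs_of_pos Real.pi_pos, abs_two, Real.norm_of_nonneg (hε n).le]
  have hs : |σ i| = 1 := by rcases hσ1 with h | h <;> rw [h] <;> norm_num
  rw [hs, one_mul]
  calc Real.pi * ε n / 2 * _ ≤ Real.pi * ε n / 2 * (δ * (2 / Real.pi)) :=
        mul_le_mul_of_nonneg_left hn (by have := hε n; positivity)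
    _ = δ * ε n := by
        have := Real.pi_pos.ne'
        field_simp

/-- All conclusions for the scrambled rotation. -/
theorem Frame.final (F : Frame ε y V w lam lam₀ c ηp ηm) {β₀ : ℝ}
    (hβ : ∀ i, β i = if i % 2 = 0 then β₀ else 0)
    (hσ : ∀ i, σ i = if i % 4 = 0 ∨ i % 4 = 3 then 1 else -1)
    {b1 b2 : ℝ} (Hp : Heavy ε 1 b1 y ηp) (Hm : Heavy ε (-1) b2 y ηm)
    (hop : Ov (zet w lam) ηp) (hom : Ov (zet w lam) ηm)
    {h : ℕ → K} (hs : Scr ε w h) {a : ℕ → ℝ} (hw : ∀ n, w n = (a n : ℂ) • j n (eVec (V n)))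
    {T : ℝ} (ha : ∀ n, |a n| * ε n ≤ T)
    {q : ℝ} (hq : 0 < q)
    (hlow : ∀ i, ∀ᶠ n in atTop, q ≤ |(⟪y n, fv (j n) (β i) (V n)⟫_ℂ).im|) :
    (∀ i, Sm ε w (us j ε y β σ V i)) ∧
    (∀ i, ∀ᶠ n in atTop, q / 2 ≤ |(⟪y n, fs j ε y β σ V i n⟫_ℂ).im|) ∧
    (∀ (m : ℕ) (A : Sp K →L[ℂ] Sp K), IsSpin A →
      (fun n => ((Qs β (us j ε y β σ V) (4 * m) n : USp K) : Sp K →L[ℂ] Sp K) (A (zet w lam n)) -
        A (zet w lam n)) =o[atTop] ε) ∧
    (∀ (b b' : ℝ) (g : ℕ → Sp K), (b = 1 ∨ b = -1) → Heavy ε b b' y g → Bdd g → ∀ m : ℕ,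
      Tendsto (fun n => ((Qs β (us j ε y β σ V) (4 * m) n : USp K) : Sp K →L[ℂ] Sp K) (g n) -
        ((mixU (4 * m * β₀) : USp K) : Sp K →L[ℂ] Sp K) (g n)) atTop (𝓝 0)) := by
  have hσ1 : ∀ i, σ i = 1 ∨ σ i = -1 := by
    intro i
    rw [hσ]
    split_ifs <;> simp
  have hq2 : 0 < q / 2 := by positivity
  -- the induction, with the lower bounds carried along
  have key : ∀ i, Sm ε w (us j ε y β σ V i) ∧
      (∀ᶠ n in atTop, q / 2 ≤ |(⟪y n, fs j ε y β σ V i n⟫_ℂ).im|) ∧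
      Tendsto (fun n => fs j ε y β σ V i n - fv (j n) (β i) (V n)) atTop (𝓝 0) := by
    refine F.ind' hσ1 hq hlow fun i hSm hlo => ?_
    exact F.scr hσ1 Hp Hm hop hom hs hw ha hq2 hSm hlo
  refine ⟨fun i => (key i).1, fun i => (key i).2.1, fun m A hA => ?_, fun b b' g hb H hgb m => ?_⟩
  · obtain ⟨T', hT'⟩ := F.by'
    refine F.L.fine β (us j ε y β σ V) m (fun i _ => (key i).1) (fun r _ => ?_) (fun r _ => ?_)
      (fun r _ => ?_) (fun r _ => ?_) hA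
    · rw [hβ, hβ, if_pos (by omega), if_pos (by omega)]
    · rw [hβ, hβ, if_neg (by omega), if_neg (by omega)]
    · refine us_add_o F.L.eps_pos hT' hq2 ?_ ?_ (hσ1 _) (key _).2.1 (key _).2.1 (key _).2.2
        (key _).2.2
      · rw [hβ, hβ, if_pos (by omega), if_pos (by omega)]
      · rw [hσ, hσ, if_neg (by omega), if_pos (by omega)]
    · refine us_add_o F.L.eps_pos hT' hq2 ?_ ?_ (hσ1 _) (key _).2.1 (key _).2.1 (key _).2.2
        (key _).2.2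
      · rw [hβ, hβ, if_neg (by omega), if_neg (by omega)]
      · rw [hσ, hσ, if_pos (by omega), if_neg (by omega), neg_neg]
  · have h1 := heavy_Qs (j := j) (β := β) (σ := σ) (V := V) H hgb hb hσ1 hq2 (N := 4 * m)
      (fun i _ => (key i).2.1) (4 * m) le_rfl
    refine h1.congr fun n => ?_
    rw [pulM_period hb β₀ hβ hσ]

end fin

end Crest.Agent.R339.Lab
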