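import Mathlib
import Crest.Agent.R339.Lab373F
import Crest.Agent.R339.Asm539F

/-!
# The label gate: the light side of the label step
-/

set_option autoImplicit false
set_option maxHeartbeats 400000

noncomputable section

open scoped ComplexConjugate InnerProductSpace Topology
open Filter Asymptotics Crest.MathPhysics.SpinGlass Crest.Agent.R339.Site Crest.Agent.R339.Lab

namespace Crest.Agent.R339.Mark

variable {K : Type*} [NormedAddCommGroup K] [InnerProductSpace ℂ K]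

section Step

variable {ι : Sp K →ₗᵢ[ℂ] K} {s : K} {hs : ‖s‖ = 1} {hsi : ∀ v, ⟪s, ι v⟫_ℂ = 0}
  {α0 : ℝ} {hα : α0 ≠ 0} {ε : ℕ → ℝ} {hε : ∀ n, 0 < ε n}

/-- the pulses of 539 in the language of `Vs` -/
lemma pv_eq_Vs (y : ℕ → K) (β σ : ℕ → ℝ) (V : ℕ → USp K) (i n : ℕ) :
    pv ι hs hsi hα hε y β σ V i n * Mn ι hs hsi hα hε n =
      Vs (jn ι hs hsi hα hε n) (ε n) (y n) β σ (V n * Mn ι hs hsi hα hε n) i := by
  induction i with
  | zero => rfl
  | succ i ih =>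
    show Pu (β i) ((ε n : ℂ) • ta ι hs hsi hα hε y (β i) (σ i) (pv ι hs hsi hα hε y β σ V i) n) *
      pv ι hs hsi hα hε y β σ V i n * Mn ι hs hsi hα hε n =
      Pu (β i) (pst (jn ι hs hsi hα hε n) (ε n) (y n) (β i) (σ i)
        (Vs (jn ι hs hsi hα hε n) (ε n) (y n) β σ (V n * Mn ι hs hsi hα hε n) i)) *
        Vs (jn ι hs hsi hα hε n) (ε n) (y n) β σ (V n * Mn ι hs hsi hα hε n) i
    rw [← ih, mul_assoc]
    congr 2
    rw [pst, ta, st, rd, fv, smul_smul, ← Complex.ofReal_mul, mul_assoc (mixU (β i))]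
    congr 2
    ring

/-- the read-out vectors -/
lemma rd_eq_fs (y : ℕ → K) (β σ : ℕ → ℝ) (V : ℕ → USp K) (i n : ℕ) :
    rd ι hs hsi hα hε (β i) (pv ι hs hsi hα hε y β σ V i) n =
      fs (jn ι hs hsi hα hε) ε y β σ (fun n => V n * Mn ι hs hsi hα hε n) i n := by
  rw [rd, fs, fv, ← pv_eq_Vs, mul_assoc]

lemma pv_eq_Qs (y : ℕ → K) (β σ : ℕ → ℝ) (V : ℕ → USp K) (i n : ℕ) :
    pv ι hs hsi hα hε y β σ V i n =
      Qs β (us (jn ι hs hsi hα hε) ε y β σ (fun n => V n * Mn ι hs hsi hα hε n)) i n * V n := by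
  have h1 := pv_eq_Vs (ι := ι) (hs := hs) (hsi := hsi) (hα := hα) (hε := hε) y β σ V i n
  have h2 := Vs_eq (j := jn ι hs hsi hα hε) (ε := ε) (y := y) (β := β) (σ := σ)
    (V := fun n => V n * Mn ι hs hsi hα hε n) i n
  rw [h2, ← mul_assoc] at h1
  have h3 := congrArg (fun X : USp K => X * star (Mn ι hs hsi hα hε n)) h1
  simp only [mul_assoc, Unitary.mul_star_self, mul_one] at h3
  exact h3

/-- The light side of the label step. -/
theorem lamLight_core (hε0 : Tendsto ε atTop (𝓝 0)) {V : ℕ → USp K} {U : USp K} {y : K}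
    (HL : Light ι hs hsi hα hε V U) (HN : Nice ((U : Sp K →L[ℂ] Sp K) Om))
    (h0 : (⟪y, ι (eVec U)⟫_ℂ).im ≠ 0) {α : ℝ} (hα1 : α ≠ 0) {yn : ℕ → K} {m : ℕ}
    (hy : Tendsto yn atTop (𝓝 y)) (hm0 : 0 < m)
    (hm : (⟪y, ι (eVec (mixU (-(Real.pi / 2) / (4 * m)) * U))⟫_ℂ).im ≠ 0)
    (hcos : Real.cos (2 * ((Real.pi / 2) / (4 * m))) ≠ 0)
    (hsm : 2 * |Real.sin (2 * ((Real.pi / 2) / (4 * m)))| * (‖y‖ + |α| + 1) ≤
      |Real.cos (2 * ((Real.pi / 2) / (4 * m)))| * |(⟪y, ι (eVec U)⟫_ℂ).im|)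
    (hHv : ∀ b : ℝ, b = 1 ∨ b = -1 → Hv.Heavy ε b (-b) yn
        (fun n => (V1 ι hs hsi hα hε yn V m n : Sp K →L[ℂ] Sp K)
          (Pb b (Hn ι hs hsi hα hε n Om)))) :
    (∀ j < 4 * m, ∃ q : ℝ, 0 < q ∧ ∀ᶠ n in atTop, q ≤ |(⟪y3 ι hs hsi hα hε yn V m α n,
      rd ι hs hsi hα hε (axs ((Real.pi / 2) / (4 * m)) j)
        (V3j ι hs hsi hα hε yn V m α j) n⟫_ℂ).im|) ∧
    Light ι hs hsi hα hε (V4 ι hs hsi hα hε yn V m α) (costU (-α) s * U) := by
  -- names
  set β₀ : ℝ := (Real.pi / 2) / (4 * m) with hβ₀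
  set J := jn ι hs hsi hα hε with hJ
  set e2 : ℕ → K := ee2 ι hs hsi hα hε yn V m with he2d
  set Y : ℕ → K := y3 ι hs hsi hα hε yn V m α with hYd
  set W1 : ℕ → USp K := V1 ι hs hsi hα hε yn V m with hW1
  set W2 : ℕ → USp K := V2 ι hs hsi hα hε yn V m α with hW2
  set F2 : ℕ → USp K := fun n => W2 n * Mn ι hs hsi hα hε n with hF2
  set a : ℕ → ℝ := fun n => α / (2 * ε n) with had
  set w : ℕ → K := fun n => (a n : ℂ) • e2 n with hwd
  obtain ⟨c, hc, hst, hcv⟩ := light_V1 (m := m) hε0 HL HN hy h0 hm (4 * m)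
  have hst : ∀ v, Tendsto (fun n => c n • (W1 n : Sp K →L[ℂ] Sp K)
    ((Ln ι hs hsi hα hε n : Sp K →L[ℂ] Sp K) v)) atTop (𝓝 ((U : Sp K →L[ℂ] Sp K) v)) := hst
  have hLV1 : Light ι hs hsi hα hε W1 U := ⟨c, hc, hst, hcv⟩
  set lam : ℕ → Sp K := fun n => c n • (W1 n : Sp K →L[ℂ] Sp K)
    ((Ln ι hs hsi hα hε n : Sp K →L[ℂ] Sp K) Om) with hlam
  have hcv : CvH lam ((U : Sp K →L[ℂ] Sp K) Om) := hcv
  have hW2eq : ∀ n (v : Sp K), (W2 n : Sp K →L[ℂ] Sp K) v =
      ((Ez (-w n) : USp K) : Sp K →L[ℂ] Sp K) ((W1 n : Sp K →L[ℂ] Sp K) v) := by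
    intro n v
    have : -w n = (((-(α / (2 * ε n)) : ℝ) : ℂ) • e2 n) := by
      rw [hwd]
      simp only
      rw [← neg_smul, ← Complex.ofReal_neg]
    rw [this]
    rfl
  have he2n : ∀ n, ‖e2 n‖ = 1 := by
    intro n
    show ‖J n (eVec (W1 n * Mn ι hs hsi hα hε n))‖ = 1
    rw [LinearIsometry.norm_map, norm_eVec]
  have he2V : ∀ n, e2 n = J n (eVec (F2 n)) := by
    intro n
    have : F2 n = Ez (((-(α / (2 * ε n)) : ℝ) : ℂ) • e2 n) * (W1 n * Mn ι hs hsi hα hε n) := by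
      rw [← mul_assoc]; rfl
    rw [this, eVec_Ez_mul]
    rfl
  have he2t : Tendsto e2 atTop (𝓝 (ι (eVec U))) := hLV1.tendsto_jn_eVec hε0
  have hYn : ∀ n, Y n = yn n + ((α : ℝ) : ℂ) • e2 n := fun n => rfl
  have hYt : Tendsto Y atTop (𝓝 (y + ((α : ℝ) : ℂ) • ι (eVec U))) := hy.add (he2t.const_smul _)
  have hYb : Hv.Bdd Y := bdd_of_tendsto hYt
  have hee : ∀ n, (⟪e2 n, e2 n⟫_ℂ) = 1 := by
    intro n
    rw [inner_self_eq_norm_sq_to_K, he2n]; simp
  have hYe : ∀ n, (⟪Y n, e2 n⟫_ℂ).im = (⟪yn n, e2 n⟫_ℂ).im := by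
    intro n
    rw [hYn, inner_add_left, inner_smul_left, hee, Complex.add_im, Complex.conj_ofReal, mul_one,
      Complex.ofReal_im, add_zero]
  have hYet : Tendsto (fun n => (⟪Y n, e2 n⟫_ℂ).im) atTop (𝓝 (⟪y, ι (eVec U)⟫_ℂ).im) := by
    simp only [hYe]
    exact (Complex.continuous_im.tendsto _).comp (hy.inner he2t)
  set Y0 : ℝ := (⟪y, ι (eVec U)⟫_ℂ).im with hY0
  -- light data
  have L : Lab.Light ε w lam ((U : Sp K →L[ℂ] Sp K) Om) := ⟨hε, hε0, hcv, HN⟩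
  have hzet : ∀ n, zet w lam n = c n • (W2 n : Sp K →L[ℂ] Sp K)
      ((Ln ι hs hsi hα hε n : Sp K →L[ℂ] Sp K) Om) := by
    intro n
    rw [hW2eq, zet, hlam]
    simp only
    rw [map_smul]
  -- heavy data
  set η : ℝ → ℕ → Sp K := fun b n => c n • (W2 n : Sp K →L[ℂ] Sp K)
    (Pb b (Hn ι hs hsi hα hε n Om)) with hη
  have hcb : Hv.Bdd c := ⟨1, fun n => (hc n).le⟩
  have hηb : ∀ b, (b = 1 ∨ b = -1) → Hv.Bdd (η b) := fun b hb => hcb.smul (bdd_heavy W2 hb)
  have hεne : ∀ᶠ n in atTop, ε n ≠ 0 := Eventually.of_forall fun n => (hε n).ne'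
  have hH2 : ∀ b, (b = 1 ∨ b = -1) → Hv.Heavy ε b (-b) Y
      (fun n => (W2 n : Sp K →L[ℂ] Sp K) (Pb b (Hn ι hs hsi hα hε n Om))) := by
    intro b hb
    have hbb : b * b = 1 := by rcases hb with rfl | rfl <;> norm_num
    have hb' : -b = 1 ∨ -b = -1 := by rcases hb with rfl | rfl <;> simp
    have h2 := (hHv b hb).cost hb hb' hεne (fun n => ((-(α / 2) : ℝ) : ℂ) • e2 n)
    have ey : (fun n => yn n + ((2 * (b * -b) : ℝ) : ℂ) • (((-(α / 2) : ℝ) : ℂ) • e2 n)) = Y := by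
      funext n
      rw [hYn, smul_smul, ← Complex.ofReal_mul]
      congr 3
      linear_combination α * hbb
    have eh : (fun n => ((Ez (((1 / ε n : ℝ) : ℂ) • (((-(α / 2) : ℝ) : ℂ) • e2 n)) : USp K) :
        Sp K →L[ℂ] Sp K) ((W1 n : Sp K →L[ℂ] Sp K) (Pb b (Hn ι hs hsi hα hε n Om)))) =
        fun n => (W2 n : Sp K →L[ℂ] Sp K) (Pb b (Hn ι hs hsi hα hε n Om)) := by
      funext n
      rw [hW2eq]
      have e : ((1 / ε n : ℝ) : ℂ) • (((-(α / 2) : ℝ) : ℂ) • e2 n) = -w n := by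
        rw [hwd]
        simp only
        rw [smul_smul, ← Complex.ofReal_mul, ← neg_smul, ← Complex.ofReal_neg]
        congr 2
        have := (hε n).ne'
        rw [had]
        simp only
        field_simp
      rw [e]
    rw [ey, eh] at h2
    exact h2
  have hHη : ∀ b, (b = 1 ∨ b = -1) → Hv.Heavy ε b (-b) Y (η b) := fun b hb => (hH2 b hb).smul hcb
  have hdec : ∀ n, c n • (F2 n : Sp K →L[ℂ] Sp K) Om =
      ((Real.cos (ε n) : ℝ) : ℂ) • zet w lam n -
        (Complex.I * ((Real.sin (ε n) : ℝ) : ℂ)) • (η 1 n + η (-1) n) := by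
    intro n
    have e1 : (F2 n : Sp K →L[ℂ] Sp K) Om = (W2 n : Sp K →L[ℂ] Sp K)
        ((Mn ι hs hsi hα hε n : Sp K →L[ℂ] Sp K) Om) := rfl
    rw [e1, Mn_eq, hzet, hη]
    simp only
    rw [← smul_add, ← map_add, Pb_add, map_sub, map_smul, map_smul, smul_sub, smul_comm (c n),
      smul_comm (c n)]
  have F : Frame ε Y F2 w lam ((U : Sp K →L[ℂ] Sp K) Om) c (η 1) (η (-1)) :=
    ⟨L, hc, hdec, hηb 1 (Or.inl rfl), hηb (-1) (Or.inr rfl), hYb⟩
  -- scrambling
  have hwj : ∀ n, w n = (a n : ℂ) • J n (eVec (F2 n)) := fun n => by rw [← he2V]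
  have haε : ∀ n, |a n| * ε n ≤ |α| / 2 := by
    intro n
    have := hε n
    rw [had]
    simp only
    rw [abs_div, abs_mul, abs_two, abs_of_pos this]
    apply le_of_eq
    field_simp
  set hh : ℕ → K := fun n => (Complex.I * ((Real.pi / (4 * a n) : ℝ) : ℂ)) • e2 n with hhd
  have hScr : Scr ε w hh := by
    constructor
    · refine IsBigO.of_bound (Real.pi / (2 * |α|)) (Eventually.of_forall fun n => ?_)
      have hp := hε n
      rw [hhd]
      simp only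
      rw [norm_smul, norm_mul, Complex.norm_I, one_mul, he2n, mul_one, Complex.norm_real,
        Real.norm_eq_abs, Real.norm_of_nonneg hp.le, abs_div, abs_of_pos Real.pi_pos, had]
      simp only
      rw [abs_mul, abs_div, abs_mul, abs_two, abs_of_pos hp,
        show |(4 : ℝ)| = 4 from abs_of_pos (by norm_num)]
      apply le_of_eq
      have := abs_pos.mpr hα1
      field_simp
      ring
    · refine Eventually.of_forall fun n => ?_
      have hp := hε n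
      have ha0 : a n ≠ 0 := by
        rw [had]; simp only; exact div_ne_zero hα1 (by positivity)
      rw [hwd, hhd]
      simp only
      rw [inner_smul_left, inner_smul_right, hee, Complex.conj_ofReal]
      have : ((a n : ℝ) : ℂ) * (Complex.I * ((Real.pi / (4 * a n) : ℝ) : ℂ) * 1) =
          ((Real.pi / 4 : ℝ) : ℂ) * Complex.I := by
        have ha0' : ((a n : ℝ) : ℂ) ≠ 0 := by exact_mod_cast ha0
        push_cast
        field_simp
      rw [this, Complex.im_ofReal_mul, Complex.I_im, mul_one]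
      ring
  -- overlaps
  have hOv : ∀ b, (b = 1 ∨ b = -1) → Ov (zet w lam) (η b) := by
    intro b hb A A' hA hA'
    set τ : ℝ := Real.pi / Y0 with hτ
    set f : ℕ → K := fun n => ((τ : ℝ) : ℂ) • e2 n with hf
    have hfb : Hv.Bdd f := ⟨|τ|, fun n => by
      rw [hf]; simp only
      rw [norm_smul, he2n, mul_one, Complex.norm_real, Real.norm_eq_abs]⟩
    have hSm : Sm ε w (fun n => (ε n : ℂ) • f n) := by
      constructor
      · refine IsBigO.of_bound |τ| (Eventually.of_forall fun n => ?_)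
        rw [norm_smul, Complex.norm_real, hf]
        simp only
        rw [norm_smul, he2n, mul_one, Complex.norm_real, Real.norm_eq_abs τ, mul_comm]
      · refine (isLittleO_zero _ _).congr_left fun n => ?_
        rw [hwd, hf]
        simp only
        rw [inner_smul_left, inner_smul_right, inner_smul_right, hee, Complex.conj_ofReal, mul_one,
          ← Complex.ofReal_mul, ← Complex.ofReal_mul, Complex.ofReal_im]
    have h1 : Tendsto (fun n => Wl ((ε n : ℂ) • f n) (zet w lam n) - zet w lam n) atTop (𝓝 0) :=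
      (L.Dl_zet hSm).trans_tendsto hε0
    have h2 := (hHη b hb).seq hfb
    have h3 : Tendsto (fun n => Complex.exp (Complex.I * (b * (⟪Y n, f n⟫_ℂ).im))) atTop
        (𝓝 (Complex.exp (Complex.I * (b * (τ * Y0 : ℝ))))) := by
      have h4 : Tendsto (fun n => ((⟪Y n, f n⟫_ℂ).im : ℂ)) atTop (𝓝 ((τ * Y0 : ℝ) : ℂ)) := by
        refine (Complex.continuous_ofReal.tendsto _).comp ?_
        refine (hYet.const_mul τ).congr fun n => ?_
        rw [hf]; simp only
        rw [inner_smul_right, Complex.im_ofReal_mul]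
      exact (Complex.continuous_exp.tendsto _).comp ((h4.const_mul _).const_mul _)
    refine Hv.overlap_site' (bdd_of_isBigO_one L.zet_bdd) (hηb b hb) h1 h2 h3 ?_ hA hA'
    have h5 : τ * Y0 = Real.pi := by rw [hτ]; field_simp
    rw [h5]
    have h6 : Complex.exp (Complex.I * (b * (Real.pi : ℝ))) = -1 := by
      rcases hb with rfl | rfl
      · rw [Complex.ofReal_one, one_mul, mul_comm, Complex.exp_pi_mul_I]
      · rw [Complex.ofReal_neg, Complex.ofReal_one, neg_one_mul, mul_neg, Complex.exp_neg, mul_comm,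
          Complex.exp_pi_mul_I]
        norm_num
    rw [h6]
    norm_num
  -- lower bounds
  set q : ℝ := |Real.cos (2 * β₀)| * |Y0| / 4 with hqd
  have hY0p : 0 < |Y0| := abs_pos.mpr h0
  have hcp : 0 < |Real.cos (2 * β₀)| := abs_pos.mpr hcos
  have hq : 0 < q := by positivity
  have hc1 : |Real.cos (2 * β₀)| ≤ 1 := Real.abs_cos_le_one _
  have hYa : Tendsto (fun n => |(⟪Y n, e2 n⟫_ℂ).im|) atTop (𝓝 |Y0|) := hYet.abs
  have hev1 : ∀ᶠ n in atTop, 3 / 4 * |Y0| ≤ |(⟪Y n, e2 n⟫_ℂ).im| :=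
    hYa.eventually_const_le (by linarith)
  have hev2 : ∀ᶠ n in atTop, ‖Y n‖ ≤ ‖y‖ + |α| + 1 := by
    have h1 : Tendsto (fun n => ‖yn n‖) atTop (𝓝 ‖y‖) := hy.norm
    filter_upwards [h1.eventually_le_const (show ‖y‖ < ‖y‖ + 1 by linarith)] with n hn
    rw [hYn]
    refine (norm_add_le _ _).trans ?_
    rw [norm_smul, he2n, mul_one, Complex.norm_real, Real.norm_eq_abs]
    linarith
  have hlow : ∀ i, ∀ᶠ n in atTop, q ≤ |(⟪Y n, fv (J n) (axs β₀ i) (F2 n)⟫_ℂ).im| := by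
    intro i
    filter_upwards [hev1, hev2] with n hn1 hn2
    unfold axs
    split_ifs
    · have h1 := abs_im_fv_ge (J n) β₀ (F2 n) (Y n)
      rw [← he2V] at h1
      have h2 := mul_le_mul_of_nonneg_left hn1 hcp.le
      have h3 := mul_le_mul_of_nonneg_left hn2 (abs_nonneg (Real.sin (2 * β₀)))
      rw [hqd]
      nlinarith
    · rw [fv_zero, ← he2V, hqd]
      have : |Real.cos (2 * β₀)| * |Y0| ≤ 1 * |Y0| := mul_le_mul_of_nonneg_right hc1 hY0p.le
      linarith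
  obtain ⟨hSm, hlo, hfine, hheavy⟩ := F.final (j := J) (β := axs β₀) (σ := sgs) (β₀ := β₀)
    (fun i => rfl) (fun i => rfl) (hHη 1 (Or.inl rfl)) (hHη (-1) (Or.inr rfl)) (hOv 1 (Or.inl rfl))
    (hOv (-1) (Or.inr rfl)) hScr hwj haε hq hlow
  set u := us J ε Y (axs β₀) sgs F2 with hu
  set Q : ℕ → USp K := fun n => Qs (axs β₀) u (4 * m) n with hQ
  have hV3 : ∀ n, V3 ι hs hsi hα hε yn V m α n = Q n * W2 n := fun n =>
    pv_eq_Qs Y (axs β₀) sgs W2 (4 * m) n
  refine ⟨fun i _ => ⟨q / 2, by positivity, ?_⟩, ?_⟩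
  · have := hlo i
    filter_upwards [this] with n hn
    have e := rd_eq_fs (ι := ι) (hs := hs) (hsi := hsi) (hα := hα) (hε := hε) Y (axs β₀) sgs W2 i n
    show q / 2 ≤ |(⟪Y n, rd ι hs hsi hα hε (axs β₀ i) (pv ι hs hsi hα hε Y (axs β₀) sgs W2 i) n⟫_ℂ).im|
    rw [e]
    exact hn
  -- fine estimates on `W2 (Ln Om)`
  have hf1 : (fun n => (Q n : Sp K →L[ℂ] Sp K) (zet w lam n) - zet w lam n) =o[atTop] ε :=
    hfine m 1 isSpin_one
  have hf2 : (fun n => (Q n : Sp K →L[ℂ] Sp K) (Zop (zet w lam n)) - Zop (zet w lam n))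
      =o[atTop] ε := hfine m Zop isSpin_Zop
  -- (e)-step
  have hl : Tendsto (fun n => (((ε n)⁻¹ : ℝ) : ℂ) • dZ (Q n) ((W2 n : Sp K →L[ℂ] Sp K)
      ((Ln ι hs hsi hα hε n : Sp K →L[ℂ] Sp K) Om))) atTop (𝓝 0) := by
    have h1 : (fun n => (Q n : Sp K →L[ℂ] Sp K) (zet w lam n) - zet w lam n) =o[atTop] ε := hf1
    have h2 : Tendsto (fun n => (ε n)⁻¹ * (‖(Q n : Sp K →L[ℂ] Sp K) (zet w lam n) - zet w lam n‖ +
        ‖(Q n : Sp K →L[ℂ] Sp K) (Zop (zet w lam n)) - Zop (zet w lam n)‖)) atTop (𝓝 0) := by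
      have h3 := hf1.norm_left.add hf2.norm_left
      have h4 := (isLittleO_iff_tendsto' (Eventually.of_forall fun n hn => absurd hn (hε n).ne')).mp h3
      refine h4.congr fun n => ?_
      rw [div_eq_inv_mul]
    rw [tendsto_zero_iff_norm_tendsto_zero]
    refine squeeze_zero (fun n => norm_nonneg _) (fun n => ?_) h2
    rw [norm_smul, Complex.norm_real, norm_inv, Real.norm_of_nonneg (hε n).le]
    refine mul_le_mul_of_nonneg_left ?_ (inv_nonneg.mpr (hε n).le)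
    have e1 : ‖dZ (Q n) ((W2 n : Sp K →L[ℂ] Sp K) ((Ln ι hs hsi hα hε n : Sp K →L[ℂ] Sp K) Om))‖ =
        ‖dZ (Q n) (zet w lam n)‖ := by
      rw [hzet, dZ_smul, norm_smul, hc, one_mul]
    rw [e1, norm_dZ]
    have e2' : Zop ((Q n : Sp K →L[ℂ] Sp K) (zet w lam n)) -
        (Q n : Sp K →L[ℂ] Sp K) (Zop (zet w lam n)) =
        Zop ((Q n : Sp K →L[ℂ] Sp K) (zet w lam n) - zet w lam n) -
        ((Q n : Sp K →L[ℂ] Sp K) (Zop (zet w lam n)) - Zop (zet w lam n)) := by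
      rw [map_sub]; abel
    rw [e2']
    refine (norm_sub_le _ _).trans ?_
    rw [norm_Zop_apply]
  have hmz : (m : ℝ) ≠ 0 := by exact_mod_cast hm0.ne'
  have hang : 4 * (m : ℝ) * β₀ = Real.pi / 2 := by
    rw [hβ₀]
    field_simp
  have hhd' : ∀ b : ℝ, b = 1 ∨ b = -1 → Tendsto (fun n => dZ (Q n) ((W2 n : Sp K →L[ℂ] Sp K)
      (Pb b (Hn ι hs hsi hα hε n Om))) - ((2 * b : ℝ) : ℂ) • (W2 n : Sp K →L[ℂ] Sp K)
      (Pb b (Hn ι hs hsi hα hε n Om))) atTop (𝓝 0) := by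
    intro b hb
    set g : ℕ → Sp K := fun n => (W2 n : Sp K →L[ℂ] Sp K) (Pb b (Hn ι hs hsi hα hε n Om)) with hg
    have h1 : Tendsto (fun n => (Q n : Sp K →L[ℂ] Sp K) (g n) -
        ((mixU (Real.pi / 2) : USp K) : Sp K →L[ℂ] Sp K) (g n)) atTop (𝓝 0) := by
      have := hheavy b (-b) g hb (hH2 b hb) (bdd_heavy W2 hb) m
      rw [hang] at this
      exact this
    have h2 : Tendsto (fun n => Zop (g n) - ((-b : ℝ) : ℂ) • g n) atTop (𝓝 0) := (hH2 b hb).1
    have h3 : Tendsto (fun n => 2 * ‖(Q n : Sp K →L[ℂ] Sp K) (g n) -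
        ((mixU (Real.pi / 2) : USp K) : Sp K →L[ℂ] Sp K) (g n)‖ +
        2 * ‖Zop (g n) - ((-b : ℝ) : ℂ) • g n‖) atTop (𝓝 0) := by
      simpa using (h1.norm.const_mul 2).add (h2.norm.const_mul 2)
    rw [tendsto_zero_iff_norm_tendsto_zero]
    refine squeeze_zero (fun n => norm_nonneg _) (fun n => ?_) h3
    set x := g n with hx
    set Bx := ((mixU (Real.pi / 2) : USp K) : Sp K →L[ℂ] Sp K) x with hBx
    set q' := (Q n : Sp K →L[ℂ] Sp K) x with hq'
    have hb1 : ‖((b : ℝ) : ℂ)‖ = 1 := by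
      rw [Complex.norm_real, Real.norm_eq_abs]
      rcases hb with rfl | rfl <;> norm_num
    -- Z B = - B Z
    have hZB : ∀ v : Sp K, Zop (((mixU (Real.pi / 2) : USp K) : Sp K →L[ℂ] Sp K) v) =
        -((mixU (Real.pi / 2) : USp K) : Sp K →L[ℂ] Sp K) (Zop v) := by
      intro v
      rw [mixU_pi_div_two, mixU_pi_div_two, map_smul, Zop_Xop, smul_neg]
    have e1 : dZ (Q n) x - ((2 * b : ℝ) : ℂ) • x = star (Q n : Sp K →L[ℂ] Sp K)
        (Zop (q' - Bx) - ((mixU (Real.pi / 2) : USp K) : Sp K →L[ℂ] Sp K)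
          (Zop x - ((-b : ℝ) : ℂ) • x) - ((b : ℝ) : ℂ) • (q' - Bx)) -
        (Zop x - ((-b : ℝ) : ℂ) • x) := by
      have s1 : star (Q n : Sp K →L[ℂ] Sp K) q' = x := star_U_U_apply (Q n) x
      rw [dZ, ← hq', map_sub Zop, hBx, hZB]
      simp only [map_sub, map_smul, map_neg]
      rw [s1]
      push_cast
      module
    rw [e1]
    refine (norm_sub_le _ _).trans ?_
    rw [norm_star_U_apply]
    have n1 : ‖Zop (q' - Bx) - ((mixU (Real.pi / 2) : USp K) : Sp K →L[ℂ] Sp K)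
          (Zop x - ((-b : ℝ) : ℂ) • x) - ((b : ℝ) : ℂ) • (q' - Bx)‖ ≤
        ‖q' - Bx‖ + ‖Zop x - ((-b : ℝ) : ℂ) • x‖ + ‖q' - Bx‖ := by
      refine (norm_sub_le _ _).trans (add_le_add ((norm_sub_le _ _).trans (add_le_add ?_ ?_)) ?_)
      · rw [norm_Zop_apply]
      · rw [norm_U_apply]
      · rw [norm_smul, hb1, one_mul]
    linarith
  have hE := tendsto_e_step ι hs hsi hα hε hε0 Q W2 hl hhd'
  -- the second amplified vector
  set e4 : ℕ → K := ee4 ι hs hsi hα hε yn V m α with he4d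
  set w' : ℕ → K := fun n => (a n : ℂ) • e4 n with hw'd
  have he4V : ∀ n, e4 n = J n (eVec (Q n * W2 n * Mn ι hs hsi hα hε n)) := by
    intro n
    show J n (eVec (V3 ι hs hsi hα hε yn V m α n * Mn ι hs hsi hα hε n)) = _
    rw [hV3]
  have hww : Tendsto (fun n => w' n - w n) atTop (𝓝 ((α : ℂ) • s)) := by
    have h1 := hE.const_smul ((α / 2 : ℝ) : ℂ)
    have h2 : ((α / 2 : ℝ) : ℂ) • (2 : ℂ) • s = (α : ℂ) • s := by
      rw [smul_smul]
      congr 1
      push_cast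
      ring
    rw [h2] at h1
    refine h1.congr fun n => ?_
    rw [hw'd, hwd]
    simp only
    rw [← smul_sub, he4V, he2V, smul_smul, ← Complex.ofReal_mul]
    congr 2
    rw [had]
    have := (hε n).ne'
    simp only
    field_simp
  have hw'n : ∀ n, ‖w' n‖ = |α| / (2 * ε n) := by
    intro n
    rw [hw'd]
    simp only
    rw [norm_smul, he4V, LinearIsometry.norm_map, norm_eVec, mul_one, Complex.norm_real,
      Real.norm_eq_abs, had]
    simp only
    rw [abs_div, abs_mul, abs_two, abs_of_pos (hε n)]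
  have hwn : ∀ n, ‖w n‖ = |α| / (2 * ε n) := by
    intro n
    rw [hwd]
    simp only
    rw [norm_smul, he2n, mul_one, Complex.norm_real, Real.norm_eq_abs, had]
    simp only
    rw [abs_div, abs_mul, abs_two, abs_of_pos (hε n)]
  -- amplified smallness
  have hamp : ∀ r : ℕ → Sp K, r =o[atTop] ε →
      Tendsto (fun n => (1 + ‖w n‖ + ‖w' n‖) * ‖r n‖) atTop (𝓝 0) := by
    intro r hr
    have h1 : Tendsto (fun n => ‖r n‖) atTop (𝓝 0) :=
      tendsto_zero_iff_norm_tendsto_zero.mp (hr.trans_tendsto hε0)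
    have h2 : Tendsto (fun n => ‖r n‖ / ε n) atTop (𝓝 0) :=
      (isLittleO_iff_tendsto' (Eventually.of_forall fun n hn => absurd hn (hε n).ne')).mp
        hr.norm_left
    have h3 := h1.add (h2.const_mul |α|)
    rw [mul_zero, add_zero] at h3
    refine h3.congr fun n => ?_
    rw [hwn, hw'n]
    have := (hε n).ne'
    field_simp
    ring
  have hu0 : ∀ i < 4 * m, Tendsto (u i) atTop (𝓝 0) := fun i _ => (hSm i).bd.trans_tendsto hε0
  have hui : ∀ i < 4 * m, Tendsto (fun n => (⟪w n, u i n⟫_ℂ).im) atTop (𝓝 0) := fun i _ =>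
    (hSm i).im.trans_tendsto hε0
  -- the final unitary on the light part
  have hV4 : ∀ n (v : Sp K), (phs (w n) (w' n) * c n) •
      (V4 ι hs hsi hα hε yn V m α n : Sp K →L[ℂ] Sp K) v =
      phs (w n) (w' n) • ((Ez (w' n) : USp K) : Sp K →L[ℂ] Sp K) ((Q n : Sp K →L[ℂ] Sp K)
        (((Ez (-w n) : USp K) : Sp K →L[ℂ] Sp K) (c n • (W1 n : Sp K →L[ℂ] Sp K) v))) := by
    intro n v
    have e1 : (V4 ι hs hsi hα hε yn V m α n : Sp K →L[ℂ] Sp K) v =
        ((Ez (w' n) : USp K) : Sp K →L[ℂ] Sp K)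
          ((V3 ι hs hsi hα hε yn V m α n : Sp K →L[ℂ] Sp K) v) := rfl
    rw [e1, hV3]
    show _ • ((Ez (w' n) : USp K) : Sp K →L[ℂ] Sp K) ((Q n : Sp K →L[ℂ] Sp K)
      ((W2 n : Sp K →L[ℂ] Sp K) v)) = _
    rw [hW2eq, map_smul, map_smul, map_smul, smul_smul]
  have hcE : (costU (-α) s : USp K) = Ez ((α : ℂ) • s) := by
    rw [costU_eq_Ez]
    congr 2
    push_cast
    ring
  refine ⟨fun n => phs (w n) (w' n) * c n, fun n => ?_, fun v => ?_, ?_⟩
  · rw [norm_mul, norm_phs, hc, one_mul]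
  · simp only [hV4, hcE]
    exact strong_prop (hst v) (axs β₀) u (4 * m) hu0 hui hww
  · simp only [hV4, hcE]
    exact cvh_prop hcv HN (axs β₀) u (4 * m) hu0 hui hww (hamp _ hf1) (hamp _ hf2)

end Step

end Crest.Agent.R339.Mark
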