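import Mathlib
import Crest.Agent.R339.Lab373G

/-!
# The label step
-/

set_option autoImplicit false
set_option maxHeartbeats 400000

noncomputable section

open scoped ComplexConjugate InnerProductSpace Topology
open Filter Crest.MathPhysics.SpinGlass Crest.Agent.R339.Site Crest.Agent.R339.Lab

namespace Crest.Agent.R339.Mark

variable {K : Type*} [NormedAddCommGroup K] [InnerProductSpace ℂ K]

/-- fine subdivision for the label step -/
lemma exists_subdiv' (ι : Sp K →ₗᵢ[ℂ] K) {y : K} {U : USp K}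
    (hne : (⟪y, ι (eVec U)⟫_ℂ).im ≠ 0) (α : ℝ) :
    ∃ m : ℕ, 0 < m ∧ (⟪y, ι (eVec (mixU (-(Real.pi / 2) / (4 * m)) * U))⟫_ℂ).im ≠ 0 ∧
      Real.cos (2 * ((Real.pi / 2) / (4 * m))) ≠ 0 ∧
      2 * |Real.sin (2 * ((Real.pi / 2) / (4 * m)))| * (‖y‖ + |α| + 1) ≤
        |Real.cos (2 * ((Real.pi / 2) / (4 * m)))| * |(⟪y, ι (eVec U)⟫_ℂ).im| := by
  have h0 : Tendsto (fun m : ℕ => -(Real.pi / 2) / (4 * (m : ℝ))) atTop (𝓝 0) := by
    refine Tendsto.const_div_atTop ?_ _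
    exact tendsto_natCast_atTop_atTop.const_mul_atTop (by norm_num)
  have h0' : Tendsto (fun m : ℕ => 2 * ((Real.pi / 2) / (4 * (m : ℝ)))) atTop (𝓝 0) := by
    have : Tendsto (fun m : ℕ => (Real.pi / 2) / (4 * (m : ℝ))) atTop (𝓝 0) := by
      refine Tendsto.const_div_atTop ?_ _
      exact tendsto_natCast_atTop_atTop.const_mul_atTop (by norm_num)
    simpa using this.const_mul 2
  have h1 : STends (fun m : ℕ => (mixU (-(Real.pi / 2) / (4 * (m : ℝ))) * U : USp K)) atTop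
      (mixU 0 * U) := (STends_mixU h0).mul (STends.const U)
  rw [mixU_zero, one_mul] at h1
  have h2 : Tendsto (fun m : ℕ => (⟪y, ι (eVec (mixU (-(Real.pi / 2) / (4 * (m : ℝ))) * U))⟫_ℂ).im)
      atTop (𝓝 (⟪y, ι (eVec U)⟫_ℂ).im) :=
    (Complex.continuous_im.tendsto _).comp
      (tendsto_const_nhds.inner ((ι.continuous.tendsto _).comp h1.tendsto_eVec))
  have hc : Tendsto (fun m : ℕ => Real.cos (2 * ((Real.pi / 2) / (4 * (m : ℝ))))) atTop (𝓝 1) := by
    have := (Real.continuous_cos.tendsto 0).comp h0'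
    rwa [Real.cos_zero] at this
  have hsn : Tendsto (fun m : ℕ => Real.sin (2 * ((Real.pi / 2) / (4 * (m : ℝ))))) atTop (𝓝 0) := by
    have := (Real.continuous_sin.tendsto 0).comp h0'
    rwa [Real.sin_zero] at this
  have hpos : 0 < |(⟪y, ι (eVec U)⟫_ℂ).im| := abs_pos.mpr hne
  have h3 : Tendsto (fun m : ℕ => |Real.cos (2 * ((Real.pi / 2) / (4 * (m : ℝ))))| *
      |(⟪y, ι (eVec U)⟫_ℂ).im| - 2 * |Real.sin (2 * ((Real.pi / 2) / (4 * (m : ℝ))))| *
        (‖y‖ + |α| + 1)) atTop (𝓝 |(⟪y, ι (eVec U)⟫_ℂ).im|) := by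
    have := (hc.abs.mul_const |(⟪y, ι (eVec U)⟫_ℂ).im|).sub
      ((hsn.abs.const_mul 2).mul_const (‖y‖ + |α| + 1))
    simpa using this
  obtain ⟨m, ⟨⟨hm, hm0⟩, hcm⟩, hsm⟩ := (((h2.eventually_ne hne).and (eventually_gt_atTop 0)).and
    (hc.eventually_ne one_ne_zero)).and (h3.eventually_const_le hpos) |>.exists
  exact ⟨m, hm0, hm, hcm, by linarith⟩

section Step

variable {ι : Sp K →ₗᵢ[ℂ] K} {s : K} {hs : ‖s‖ = 1} {hsi : ∀ v, ⟪s, ι v⟫_ℂ = 0}
  {α0 : ℝ} {hα : α0 ≠ 0} {ε : ℕ → ℝ} {hε : ∀ n, 0 < ε n}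

/-- calibration from a lower bound on the read-out -/
lemma calib_of_low {yn : ℕ → K} {β σ : ℝ} {V : ℕ → USp K} {q : ℝ} (hq : 0 < q)
    (h : ∀ᶠ n in atTop, q ≤ |(⟪yn n, rd ι hs hsi hα hε β V n⟫_ℂ).im|) :
    Hv.Bdd (ta ι hs hsi hα hε yn β σ V) ∧
    Tendsto (fun n => (⟪yn n, ta ι hs hsi hα hε yn β σ V n⟫_ℂ).im) atTop
      (𝓝 (σ * (Real.pi / 2))) := by
  refine ⟨?_, ?_⟩
  · refine bdd_of_eventually (T := |σ| * Real.pi / (2 * q)) ?_
    filter_upwards [h] with n hn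
    rw [ta, norm_smul, norm_rd, mul_one, Complex.norm_real, st, Real.norm_eq_abs, abs_div, abs_mul,
      abs_mul, abs_two, abs_of_pos Real.pi_pos]
    exact div_le_div_of_nonneg_left (by have := Real.pi_pos; positivity) (by positivity)
      (by linarith)
  · refine tendsto_const_nhds.congr' ?_
    filter_upwards [h] with n hn
    have hne : (⟪yn n, rd ι hs hsi hα hε β V n⟫_ℂ).im ≠ 0 := by
      intro h0
      rw [h0, abs_zero] at hn
      linarith
    rw [ta, inner_smul_right, Complex.im_ofReal_mul, st]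
    field_simp

/-- **The label step, given the light side.** -/
theorem Inv.lam' (hε0 : Tendsto ε atTop (𝓝 0)) {V : ℕ → USp K} {U : USp K} {y : K}
    (H : Inv ι hs hsi hα hε V U y) (h0 : (⟪y, ι (eVec U)⟫_ℂ).im ≠ 0) {α : ℝ} (hα1 : α ≠ 0) :
    ∃ V', Inv ι hs hsi hα hε V' (costU (-α) s * U) (y + ((2 * α : ℝ) : ℂ) • ι (eVec U)) := by
  obtain ⟨m, hm0, hm, hcos, hsm⟩ := exists_subdiv' ι h0 α
  obtain ⟨yn, hy, hhv⟩ := H.heavy
  have hH1 := fun b (hb : b = 1 ∨ b = -1) =>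
    heavy_V1 hε0 H.light H.nice hy hm0 h0 hm hb (hhv b hb)
  obtain ⟨hread, hlight⟩ := lamLight_core hε0 H.light H.nice h0 hα1 hy hm0 hm hcos hsm hH1
  have hcE : (costU (-α) s : USp K) = Ez ((α : ℂ) • s) := by
    rw [costU_eq_Ez]
    congr 2
    push_cast
    ring
  -- convergence of the site vectors
  have he2 : Tendsto (ee2 ι hs hsi hα hε yn V m) atTop (𝓝 (ι (eVec U))) :=
    (light_V1 hε0 H.light H.nice hy h0 hm (4 * m)).tendsto_jn_eVec hε0
  have he4 : Tendsto (ee4 ι hs hsi hα hε yn V m α) atTop (𝓝 (ι (eVec U))) := by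
    have h1 := hlight.tendsto_jn_eVec hε0
    rw [hcE, eVec_Ez_mul] at h1
    refine h1.congr fun n => ?_
    rw [ee4, V4, mul_assoc, eVec_Ez_mul]
  refine ⟨V4 ι hs hsi hα hε yn V m α, fun n => ?_, hlight, ?_,
    fun n => y3 ι hs hsi hα hε yn V m α n + ((α : ℝ) : ℂ) • ee4 ι hs hsi hα hε yn V m α n,
    ?_, fun b hb => ?_⟩
  · -- the word
    have r1 := reach_pv ι hs hsi hα hε yn (axs (-(Real.pi / 2) / (4 * m))) sgs (H.reach n) (4 * m)
    have r2 := exists_word_moveC r1 (α / (2 * ε n))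
    have e2 : moveC (jn ι hs hsi hα hε n) (α / (2 * ε n))
        (pv ι hs hsi hα hε yn (axs (-(Real.pi / 2) / (4 * m))) sgs V (4 * m) n *
          Mn ι hs hsi hα hε n) = V2 ι hs hsi hα hε yn V m α n * Mn ι hs hsi hα hε n := by
      rw [moveC, costU_eq_Ez, V2, ee2, V1, mul_assoc, Complex.ofReal_neg]
    rw [e2] at r2
    have r3 := reach_pv ι hs hsi hα hε (y3 ι hs hsi hα hε yn V m α)
      (axs ((Real.pi / 2) / (4 * m))) sgs r2 (4 * m)
    have r4 := exists_word_moveC r3 (-(α / (2 * ε n)))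
    have e4 : moveC (jn ι hs hsi hα hε n) (-(α / (2 * ε n)))
        (pv ι hs hsi hα hε (y3 ι hs hsi hα hε yn V m α) (axs ((Real.pi / 2) / (4 * m))) sgs
          (V2 ι hs hsi hα hε yn V m α) (4 * m) n * Mn ι hs hsi hα hε n) =
        V4 ι hs hsi hα hε yn V m α n * Mn ι hs hsi hα hε n := by
      rw [moveC, costU_eq_Ez, V4, ee4, V3, V3j, mul_assoc, Complex.ofReal_neg, neg_neg]
    rw [e4] at r4
    exact r4
  · rw [hcE]
    exact H.nice.Ez _
  · have h1 := (hy.add (he2.const_smul ((α : ℝ) : ℂ))).add (he4.const_smul ((α : ℝ) : ℂ))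
    have e : y + ((α : ℝ) : ℂ) • ι (eVec U) + ((α : ℝ) : ℂ) • ι (eVec U) =
        y + ((2 * α : ℝ) : ℂ) • ι (eVec U) := by
      push_cast
      module
    rw [e] at h1
    exact h1
  · -- the heavy branch
    have hbb : b * b = 1 := by rcases hb with rfl | rfl <;> norm_num
    have hb' : -b = 1 ∨ -b = -1 := by rcases hb with rfl | rfl <;> simp
    have hεne : ∀ᶠ n in atTop, ε n ≠ 0 := Eventually.of_forall fun n => (hε n).ne'
    -- amplified cost gate
    have h2 := (hH1 b hb).cost hb hb' hεne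
      (fun n => ((-(α / 2) : ℝ) : ℂ) • ee2 ι hs hsi hα hε yn V m n)
    have ey : (fun n => yn n + ((2 * (b * -b) : ℝ) : ℂ) • (((-(α / 2) : ℝ) : ℂ) •
        ee2 ι hs hsi hα hε yn V m n)) = y3 ι hs hsi hα hε yn V m α := by
      funext n
      rw [y3, smul_smul, ← Complex.ofReal_mul]
      congr 3
      linear_combination α * hbb
    have eh : (fun n => ((Ez (((1 / ε n : ℝ) : ℂ) • (((-(α / 2) : ℝ) : ℂ) •
        ee2 ι hs hsi hα hε yn V m n)) : USp K) : Sp K →L[ℂ] Sp K)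
        ((V1 ι hs hsi hα hε yn V m n : Sp K →L[ℂ] Sp K) (Pb b (Hn ι hs hsi hα hε n Om)))) =
        fun n => (V2 ι hs hsi hα hε yn V m α n : Sp K →L[ℂ] Sp K)
          (Pb b (Hn ι hs hsi hα hε n Om)) := by
      funext n
      have e : ((1 / ε n : ℝ) : ℂ) • (((-(α / 2) : ℝ) : ℂ) • ee2 ι hs hsi hα hε yn V m n) =
          ((-(α / (2 * ε n)) : ℝ) : ℂ) • ee2 ι hs hsi hα hε yn V m n := by
        rw [smul_smul, ← Complex.ofReal_mul]
        congr 2
        have := (hε n).ne'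
        field_simp
      rw [e, V2]
      rfl
    rw [ey, eh] at h2
    -- second rotation
    set β₀ : ℝ := (Real.pi / 2) / (4 * m) with hβ₀
    have h3 := h2.pulses (bdd_heavy _ hb) hb (β := axs β₀) (σ := sgs) sgs_or
      (τ := fun j => ta ι hs hsi hα hε (y3 ι hs hsi hα hε yn V m α) (axs β₀ j) (sgs j)
        (V3j ι hs hsi hα hε yn V m α j)) (N := 4 * m)
      (fun j hj => by
        obtain ⟨r, hr, hr'⟩ := hread j hj
        exact (calib_of_low hr hr').1)
      (fun j hj => by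
        obtain ⟨r, hr, hr'⟩ := hread j hj
        exact (calib_of_low hr hr').2)
      (g := fun j n => (V3j ι hs hsi hα hε yn V m α j n : Sp K →L[ℂ] Sp K)
        (Pb b (Hn ι hs hsi hα hε n Om))) (fun n => rfl) (fun j _ n => rfl) (4 * m) le_rfl
    have hmz : (m : ℝ) ≠ 0 := by exact_mod_cast hm0.ne'
    have e : 4 * (m : ℝ) * β₀ = Real.pi / 2 := by
      rw [hβ₀]
      field_simp
    have h4 : Hv.Heavy ε b b (y3 ι hs hsi hα hε yn V m α)
        (fun n => (V3 ι hs hsi hα hε yn V m α n : Sp K →L[ℂ] Sp K)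
          (Pb b (Hn ι hs hsi hα hε n Om))) := by
      have h5 := heavy_flip h2 (Or.inl rfl)
      rw [neg_neg] at h5
      refine h5.congr (h3.congr fun n => ?_)
      rw [Hv.pulM_period (β := axs β₀) (σ := sgs) hb β₀ (fun j => rfl) (fun j => rfl), e]
      rfl
    -- second amplified cost gate
    have h6 := h4.cost hb hb hεne (fun n => ((α / 2 : ℝ) : ℂ) • ee4 ι hs hsi hα hε yn V m α n)
    have ey' : (fun n => y3 ι hs hsi hα hε yn V m α n + ((2 * (b * b) : ℝ) : ℂ) •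
        (((α / 2 : ℝ) : ℂ) • ee4 ι hs hsi hα hε yn V m α n)) =
        fun n => y3 ι hs hsi hα hε yn V m α n + ((α : ℝ) : ℂ) •
          ee4 ι hs hsi hα hε yn V m α n := by
      funext n
      rw [smul_smul, ← Complex.ofReal_mul]
      congr 3
      linear_combination α * hbb
    have eh' : (fun n => ((Ez (((1 / ε n : ℝ) : ℂ) • (((α / 2 : ℝ) : ℂ) •
        ee4 ι hs hsi hα hε yn V m α n)) : USp K) : Sp K →L[ℂ] Sp K)
        ((V3 ι hs hsi hα hε yn V m α n : Sp K →L[ℂ] Sp K) (Pb b (Hn ι hs hsi hα hε n Om)))) =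
        fun n => (V4 ι hs hsi hα hε yn V m α n : Sp K →L[ℂ] Sp K)
          (Pb b (Hn ι hs hsi hα hε n Om)) := by
      funext n
      have e : ((1 / ε n : ℝ) : ℂ) • (((α / 2 : ℝ) : ℂ) • ee4 ι hs hsi hα hε yn V m α n) =
          ((α / (2 * ε n) : ℝ) : ℂ) • ee4 ι hs hsi hα hε yn V m α n := by
        rw [smul_smul, ← Complex.ofReal_mul]
        congr 2
        have := (hε n).ne'
        field_simp
      rw [e, V4]
      rfl
    rw [ey', eh'] at h6
    exact h6


/-- **The label step of L1'.** -/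
theorem lamStmt (hε0 : Tendsto ε atTop (𝓝 0)) : LamStmt ι hs hsi hα hε := by
  intro V U y H h0 α
  by_cases hα1 : α = 0
  · refine ⟨V, ?_⟩
    have e1 : (costU (-α) s * U : USp K) = U := by
      rw [hα1, costU_eq_Ez]
      simp
    have e2 : y + ((2 * α : ℝ) : ℂ) • ι (eVec U) = y := by
      rw [hα1]
      simp
    rw [e1, e2]
    exact H
  · exact H.lam' hε0 h0 hα1

end Step

end Crest.Agent.R339.Mark
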