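import Crest.Agent.R339.Ant575G
import Crest.Agent.R339.Lab373H

/-!
R339, block ANT (helper575), part H: `C2.AntStmt`, unconditionally.
-/

set_option autoImplicit false

noncomputable section

open scoped ComplexConjugate InnerProductSpace Topology
open Filter Set MeasureTheory ProbabilityTheory

namespace Crest.Agent.R339.Ant

open Crest.Agent.R339.LF Crest.Agent.R339.Site Crest.Agent.R339.Lab

/-- **The antenna (level `0`)** -/
theorem antStmt_holds : C2.AntStmt := by
  refine antStmt fun a ha => ?_
  obtain ⟨D⟩ := exists_bridgeData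
  have h0 : Tendsto (fun n : ℕ => 1 / ((n : ℝ) + 1)) atTop (𝓝 0) :=
    tendsto_one_div_add_atTop_nhds_zero_nat
  exact ⟨D, fun n => 1 / ((n : ℝ) + 1), fun n => by positivity, h0, Mark.lamStmt h0⟩

end Crest.Agent.R339.Ant
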