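/-
helper71, row 339 (S0530), parts (A)+(B): for every `ε > 0` there is `β` such that for every small
`η` there is a grid minimiser without gaps (up to `η`) on `[0, a/K]` and
`E max / n ≤ ∫_0^{a/K} E Φ_xx + ε` for every `n`.
-/
import Crest.Agent.R339.Var71M

set_option autoImplicit false

namespace Crest.Agent.R339.Var

open MeasureTheory ProbabilityTheory Filter Topology Set
open Crest.MathPhysics.SpinGlass Crest Crest.MathPhysics
open scoped Interval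
open Crest.Agent.R164.GC Crest.Agent.R339.B
open Crest.ProbabilityR.InvariantGlass (gaussOp)

noncomputable section

/-- Guerra's bound in terms of the functional `PL`. -/
theorem guerra_PL {β : ℝ} (hβ : 0 < β) {n : ℕ} (hn : 0 < n) {l : List (ℝ × ℝ)} (hl : Adm β l)
    (hs : (l.map Prod.snd).sum = 1) :
    (∫ J, maxPairEnergy n J ∂(gaussianCouplings n)) / n ≤ PL β l := by
  have h := Guerra.guerra hβ hn l (good_of_adm hl) (q := 0) le_rfl (by rw [zero_add]; exact hs)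
  unfold PL
  rw [PhiL_eq_Phi (V4.Adm.pos hl)]
  simpa using h

theorem guerra_PF {β : ℝ} (hβ : 0 < β) {n : ℕ} (hn : 0 < n) {K : ℕ} (hK : 0 < K) {ε : ℝ}
    (hε : 0 < ε) {m : Fin K → ℝ} (hm : m ∈ cone K ε β) :
    (∫ J, maxPairEnergy n J ∂(gaussianCouplings n)) / n ≤ PF β m :=
  guerra_PL hβ hn (adm_grid hε hm) (V4.len_grid hK m)

/-- choice of the inverse temperature -/
theorem exists_beta {ε : ℝ} (hε : 0 < ε) : ∃ β : ℝ, 4 ≤ β ∧
    Real.sqrt (2 / β) + Real.log 2 / β ≤ ε / 2 := by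
  have h1 : Tendsto (fun β : ℝ => Real.sqrt (2 / β) + Real.log 2 / β) atTop (𝓝 0) := by
    have a1 : Tendsto (fun β : ℝ => Real.sqrt (2 / β)) atTop (𝓝 (Real.sqrt 0)) :=
      (Real.continuous_sqrt.tendsto 0).comp (tendsto_const_nhds.div_atTop tendsto_id)
    have a2 : Tendsto (fun β : ℝ => Real.log 2 / β) atTop (𝓝 0) :=
      tendsto_const_nhds.div_atTop tendsto_id
    simpa using a1.add a2
  obtain ⟨β, h2, h3⟩ := ((eventually_ge_atTop (4:ℝ)).and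
    (h1.eventually (gt_mem_nhds (half_pos hε)))).exists
  exact ⟨β, h2, h3.le⟩

/-- **(A)+(B)**: the classical half before the diagonal chain. -/
theorem parisi_upper {ε : ℝ} (hε : 0 < ε) : ∃ β : ℝ, 4 ≤ β ∧ ∀ η : ℝ, 0 < η → β * η ≤ ε →
    ∃ (K : ℕ) (ε' : ℝ) (m : Fin K → ℝ) (a : ℕ), 0 < K ∧ 0 < ε' ∧ ε' < β ∧ m ∈ cone K ε' β ∧
      a ≤ K ∧ (∀ k : Fin K, a ≤ (k:ℕ) → m k = β) ∧ 1 / 2 ≤ (a:ℝ)/K ∧
      (∀ t ∈ Icc (0:ℝ) ((a:ℝ)/K), |QQ β (grid m) t 0 - t| ≤ η) ∧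
      (∀ t ∈ Icc (0:ℝ) ((a:ℝ)/K), |V4.gg β (grid m) t 0 - 1| ≤ η) ∧
      ∀ n : ℕ, 0 < n → (∫ J, maxPairEnergy n J ∂(gaussianCouplings n)) / n ≤
        (∫ s in (0:ℝ)..(a:ℝ)/K, V4.XX β (grid m) s 0) + ε := by
  obtain ⟨β, hβ, hβε⟩ := exists_beta hε
  refine ⟨β, hβ, fun η hη hβη => ?_⟩
  obtain ⟨K, ε', m, a, hK, hε', hεβ, hm, _, haK, htop, hgap, hQ, hg, hP⟩ := no_gap hβ hη
  have hβ0 : 0 < β := by linarith
  refine ⟨K, ε', m, a, hK, hε', hεβ, hm, haK, htop, ?_, hQ, hg, fun n hn => ?_⟩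
  · nlinarith
  · refine (guerra_PF hβ0 hn hK hε' hm).trans (hP.trans ?_)
    have h1 : Real.sqrt (1 - (a:ℝ)/K) ≤ Real.sqrt (2 / β) := by
      apply Real.sqrt_le_sqrt
      rw [le_div_iff₀ hβ0]
      linarith
    linarith

end

end Crest.Agent.R339.Var
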