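import Crest.Agent.R339.B107W3

/-!
Row 339 (helper107): smooth functions all of whose derivatives are bounded (`BD`) or of
exponential growth (`EGS`); the Gaussian average and the tilted average on these classes.
-/

set_option autoImplicit false

namespace Crest.Agent.R339.B

open MeasureTheory ProbabilityTheory Filter Topology Set
open Crest.Agent.R164.GC
open Crest.ProbabilityR.InvariantGlass (gaussOp)

noncomputable section

/-! ### bounded derivatives -/

/-- bounded and continuous, with bounded continuous derivatives up to order `n` -/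
def BDn : ℕ → (ℝ → ℝ) → Prop
  | 0, f => Continuous f ∧ ∃ C, ∀ x, |f x| ≤ C
  | n + 1, f => Differentiable ℝ f ∧ (∃ C, ∀ x, |f x| ≤ C) ∧ BDn n (deriv f)

/-- all derivatives (order `≥ 0`) exist and are bounded -/
def BD (f : ℝ → ℝ) : Prop := ∀ n, BDn n f

theorem BDn.cont {n : ℕ} {f : ℝ → ℝ} (h : BDn n f) : Continuous f := by
  cases n with
  | zero => exact h.1
  | succ n => exact h.1.continuous

theorem BDn.bdd {n : ℕ} {f : ℝ → ℝ} (h : BDn n f) : ∃ C, ∀ x, |f x| ≤ C := by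
  cases n with
  | zero => exact h.2
  | succ n => exact h.2.1

theorem BDn.of_succ : ∀ {n : ℕ} {f : ℝ → ℝ}, BDn (n + 1) f → BDn n f
  | 0, _, h => ⟨h.1.continuous, h.2.1⟩
  | _ + 1, _, h => ⟨h.1, h.2.1, BDn.of_succ h.2.2⟩

theorem BDn.const (c : ℝ) : ∀ n, BDn n (fun _ => c)
  | 0 => ⟨continuous_const, |c|, fun _ => le_rfl⟩
  | n + 1 => ⟨differentiable_const c, ⟨|c|, fun _ => le_rfl⟩, by
      have : deriv (fun _ : ℝ => c) = fun _ => 0 := by
        funext x; simp
      rw [this]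
      exact BDn.const 0 n⟩

theorem BDn.add : ∀ {n : ℕ} {f g : ℝ → ℝ}, BDn n f → BDn n g → BDn n (fun x => f x + g x)
  | 0, f, g, hf, hg => by
    obtain ⟨C, hC⟩ := hf.2
    obtain ⟨D, hD⟩ := hg.2
    exact ⟨hf.1.add hg.1, C + D, fun x => (abs_add_le _ _).trans (add_le_add (hC x) (hD x))⟩
  | n + 1, f, g, hf, hg => by
    obtain ⟨C, hC⟩ := hf.2.1
    obtain ⟨D, hD⟩ := hg.2.1
    refine ⟨hf.1.add hg.1, ⟨C + D, fun x => (abs_add_le _ _).trans (add_le_add (hC x) (hD x))⟩, ?_⟩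
    have e : deriv (fun x => f x + g x) = fun x => deriv f x + deriv g x := by
      funext x
      exact deriv_fun_add (hf.1 x) (hg.1 x)
    rw [e]
    exact hf.2.2.add hg.2.2

theorem BDn.mul : ∀ {n : ℕ} {f g : ℝ → ℝ}, BDn n f → BDn n g → BDn n (fun x => f x * g x)
  | 0, f, g, hf, hg => by
    obtain ⟨C, hC⟩ := hf.2
    obtain ⟨D, hD⟩ := hg.2
    exact ⟨hf.1.mul hg.1, C * D, fun x => by
      rw [abs_mul]
      exact mul_le_mul (hC x) (hD x) (abs_nonneg _) ((abs_nonneg _).trans (hC x))⟩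
  | n + 1, f, g, hf, hg => by
    obtain ⟨C, hC⟩ := hf.2.1
    obtain ⟨D, hD⟩ := hg.2.1
    refine ⟨hf.1.mul hg.1, ⟨C * D, fun x => by
      rw [abs_mul]
      exact mul_le_mul (hC x) (hD x) (abs_nonneg _) ((abs_nonneg _).trans (hC x))⟩, ?_⟩
    have e : deriv (fun x => f x * g x) = fun x => deriv f x * g x + f x * deriv g x := by
      funext x
      exact deriv_fun_mul (hf.1 x) (hg.1 x)
    rw [e]
    exact (hf.2.2.mul hg.of_succ).add (hf.of_succ.mul hg.2.2)

theorem BDn.congr {n : ℕ} {f g : ℝ → ℝ} (h : BDn n f) (e : ∀ x, g x = f x) : BDn n g := by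
  have : g = f := funext e
  rw [this]; exact h

theorem BD.const (c : ℝ) : BD (fun _ => c) := fun n => BDn.const c n
theorem BD.add {f g : ℝ → ℝ} (hf : BD f) (hg : BD g) : BD (fun x => f x + g x) :=
  fun n => (hf n).add (hg n)
theorem BD.mul {f g : ℝ → ℝ} (hf : BD f) (hg : BD g) : BD (fun x => f x * g x) :=
  fun n => (hf n).mul (hg n)
theorem BD.const_mul {f : ℝ → ℝ} (c : ℝ) (hf : BD f) : BD (fun x => c * f x) :=
  (BD.const c).mul hf
theorem BD.neg {f : ℝ → ℝ} (hf : BD f) : BD (fun x => -f x) := by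
  have := hf.const_mul (-1)
  simpa using this
theorem BD.sub {f g : ℝ → ℝ} (hf : BD f) (hg : BD g) : BD (fun x => f x - g x) := by
  have := hf.add hg.neg
  simpa [sub_eq_add_neg] using this
theorem BD.pow {f : ℝ → ℝ} (hf : BD f) (n : ℕ) : BD (fun x => f x ^ n) := by
  induction n with
  | zero => simpa using BD.const 1
  | succ n ih => simpa [pow_succ] using ih.mul hf
theorem BD.cont {f : ℝ → ℝ} (h : BD f) : Continuous f := (h 0).cont
theorem BD.bdd {f : ℝ → ℝ} (h : BD f) : ∃ C, ∀ x, |f x| ≤ C := (h 0).bdd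
theorem BD.diff {f : ℝ → ℝ} (h : BD f) : Differentiable ℝ f := (h 1).1
theorem BD.hasDerivAt {f : ℝ → ℝ} (h : BD f) (x : ℝ) : HasDerivAt f (deriv f x) x :=
  (h.diff x).hasDerivAt
theorem BD.deriv {f : ℝ → ℝ} (h : BD f) : BD (deriv f) := fun n => (h (n + 1)).2.2
theorem BD.of {f : ℝ → ℝ} (hd : Differentiable ℝ f) (hb : ∃ C, ∀ x, |f x| ≤ C)
    (h : BD (_root_.deriv f)) : BD f := by
  intro n
  cases n with
  | zero => exact ⟨hd.continuous, hb⟩
  | succ n => exact ⟨hd, hb, h n⟩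
theorem BD.eg {f : ℝ → ℝ} (h : BD f) : EG f := by
  obtain ⟨C, hC⟩ := h.bdd
  exact EG.of_bdd h.cont hC
theorem BD.bc {f : ℝ → ℝ} (h : BD f) : ∃ C, BC f C := by
  obtain ⟨C, hC⟩ := h.bdd
  exact ⟨C, h.cont, hC⟩

/-- iterated derivatives -/
theorem BD.iter {f : ℝ → ℝ} (h : BD f) (k : ℕ) : BD (iteratedDeriv k f) := by
  induction k with
  | zero => simpa using h
  | succ k ih => rw [iteratedDeriv_succ]; exact ih.deriv

theorem BD.contDiff {f : ℝ → ℝ} (h : BD f) (n : ℕ) : ContDiff ℝ n f := by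
  induction n generalizing f with
  | zero => exact contDiff_zero.2 h.cont
  | succ n ih =>
    have := (contDiff_succ_iff_deriv (n := (n : WithTop ℕ∞)) (f := f)).2
      ⟨h.diff, by simp, ih h.deriv⟩
    exact_mod_cast this

/-! ### exponential growth of all derivatives -/

/-- exponential growth of the function and its derivatives up to order `n` -/
def EGn : ℕ → (ℝ → ℝ) → Prop
  | 0, f => EG f
  | n + 1, f => EG f ∧ Differentiable ℝ f ∧ EGn n (deriv f)

/-- all derivatives exist and have exponential growth -/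
def EGS (f : ℝ → ℝ) : Prop := ∀ n, EGn n f

theorem EGn.eg {n : ℕ} {f : ℝ → ℝ} (h : EGn n f) : EG f := by
  cases n with
  | zero => exact h
  | succ n => exact h.1

theorem EGn.of_succ : ∀ {n : ℕ} {f : ℝ → ℝ}, EGn (n + 1) f → EGn n f
  | 0, _, h => h.1
  | _ + 1, _, h => ⟨h.1, h.2.1, EGn.of_succ h.2.2⟩

theorem EGn.add : ∀ {n : ℕ} {f g : ℝ → ℝ}, EGn n f → EGn n g → EGn n (fun x => f x + g x)
  | 0, f, g, hf, hg => EG.add hf hg
  | n + 1, f, g, hf, hg => by
    refine ⟨hf.1.add hg.1, hf.2.1.add hg.2.1, ?_⟩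
    have e : deriv (fun x => f x + g x) = fun x => deriv f x + deriv g x := by
      funext x
      exact deriv_fun_add (hf.2.1 x) (hg.2.1 x)
    rw [e]
    exact hf.2.2.add hg.2.2

theorem EGn.mul : ∀ {n : ℕ} {f g : ℝ → ℝ}, EGn n f → EGn n g → EGn n (fun x => f x * g x)
  | 0, f, g, hf, hg => EG.mul hf hg
  | n + 1, f, g, hf, hg => by
    refine ⟨hf.1.mul hg.1, hf.2.1.mul hg.2.1, ?_⟩
    have e : deriv (fun x => f x * g x) = fun x => deriv f x * g x + f x * deriv g x := by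
      funext x
      exact deriv_fun_mul (hf.2.1 x) (hg.2.1 x)
    rw [e]
    exact (hf.2.2.mul hg.of_succ).add (hf.of_succ.mul hg.2.2)

theorem BDn.egn : ∀ {n : ℕ} {f : ℝ → ℝ}, BDn n f → EGn n f
  | 0, f, h => by
    obtain ⟨C, hC⟩ := h.2
    exact EG.of_bdd h.1 hC
  | n + 1, f, h => by
    obtain ⟨C, hC⟩ := h.2.1
    exact ⟨EG.of_bdd h.1.continuous hC, h.1, h.2.2.egn⟩

theorem BD.egs {f : ℝ → ℝ} (h : BD f) : EGS f := fun n => (h n).egn
theorem EGS.const (c : ℝ) : EGS (fun _ => c) := (BD.const c).egs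
theorem EGS.add {f g : ℝ → ℝ} (hf : EGS f) (hg : EGS g) : EGS (fun x => f x + g x) :=
  fun n => (hf n).add (hg n)
theorem EGS.mul {f g : ℝ → ℝ} (hf : EGS f) (hg : EGS g) : EGS (fun x => f x * g x) :=
  fun n => (hf n).mul (hg n)
theorem EGS.const_mul {f : ℝ → ℝ} (c : ℝ) (hf : EGS f) : EGS (fun x => c * f x) :=
  (EGS.const c).mul hf
theorem EGS.neg {f : ℝ → ℝ} (hf : EGS f) : EGS (fun x => -f x) := by
  have := hf.const_mul (-1)
  simpa using this
theorem EGS.sub {f g : ℝ → ℝ} (hf : EGS f) (hg : EGS g) : EGS (fun x => f x - g x) := by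
  have := hf.add hg.neg
  simpa [sub_eq_add_neg] using this
theorem EGS.pow {f : ℝ → ℝ} (hf : EGS f) (n : ℕ) : EGS (fun x => f x ^ n) := by
  induction n with
  | zero => simpa using EGS.const 1
  | succ n ih => simpa [pow_succ] using ih.mul hf
theorem EGS.eg {f : ℝ → ℝ} (h : EGS f) : EG f := h 0
theorem EGS.diff {f : ℝ → ℝ} (h : EGS f) : Differentiable ℝ f := (h 1).2.1
theorem EGS.hasDerivAt {f : ℝ → ℝ} (h : EGS f) (x : ℝ) : HasDerivAt f (deriv f x) x :=
  (h.diff x).hasDerivAt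
theorem EGS.deriv {f : ℝ → ℝ} (h : EGS f) : EGS (deriv f) := fun n => (h (n + 1)).2.2
theorem EGS.of {f : ℝ → ℝ} (h0 : EG f) (hd : Differentiable ℝ f)
    (h : EGS (_root_.deriv f)) : EGS f := by
  intro n
  cases n with
  | zero => exact h0
  | succ n => exact ⟨h0, hd, h n⟩
theorem EGS.iter {f : ℝ → ℝ} (h : EGS f) (k : ℕ) : EGS (iteratedDeriv k f) := by
  induction k with
  | zero => simpa using h
  | succ k ih => rw [iteratedDeriv_succ]; exact ih.deriv

/-- growth of the Gaussian average -/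
theorem H_eg {φ : ℝ → ℝ} (hφ : EG φ) (t : ℝ) : EG (H t φ) := by
  obtain ⟨K, A, hK, hA, h⟩ := hφ.bd
  have hc : Continuous (H t φ) :=
    (H_continuous hφ).comp (by fun_prop : Continuous fun x : ℝ => (t, x))
  have hI : 0 ≤ ∫ g, Real.exp (A * |t| * |g|) ∂gaussianReal 0 1 :=
    integral_nonneg fun g => (Real.exp_pos _).le
  refine ⟨hc, K * ∫ g, Real.exp (A * |t| * |g|) ∂gaussianReal 0 1, A, by positivity, hA,
    fun x => ?_⟩
  unfold H
  have h1 : ∀ g, |φ (x + t * g)| ≤ K * Real.exp (A * |x|) * Real.exp (A * |t| * |g|) :=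
    fun g => shift_bd hK hA h le_rfl le_rfl g
  calc |∫ g, φ (x + t * g) ∂gaussianReal 0 1| ≤ ∫ g, |φ (x + t * g)| ∂gaussianReal 0 1 :=
        abs_integral_le_integral_abs
    _ ≤ ∫ g, K * Real.exp (A * |x|) * Real.exp (A * |t| * |g|) ∂gaussianReal 0 1 :=
        integral_mono (hφ.int t x).abs ((integrable_exp_abs _).const_mul _) h1
    _ = _ := by rw [integral_const_mul]; ring

theorem H_hasDerivAt {φ : ℝ → ℝ} (h : EGS φ) (t x : ℝ) :
    HasDerivAt (H t φ) (H t (deriv φ) x) x :=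
  H_deriv_x h.eg h.deriv.eg h.hasDerivAt t x

theorem H_deriv {φ : ℝ → ℝ} (h : EGS φ) (t : ℝ) : deriv (H t φ) = H t (deriv φ) :=
  funext fun x => (H_hasDerivAt h t x).deriv

theorem H_egs {φ : ℝ → ℝ} (h : EGS φ) (t : ℝ) : EGS (H t φ) := by
  intro n
  induction n generalizing φ with
  | zero => exact H_eg h.eg t
  | succ n ih =>
    refine ⟨H_eg h.eg t, fun x => (H_hasDerivAt h t x).differentiableAt, ?_⟩
    rw [H_deriv h]
    exact ih h.deriv

theorem H_iter {φ : ℝ → ℝ} (h : EGS φ) (t : ℝ) (k : ℕ) :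
    iteratedDeriv k (H t φ) = H t (iteratedDeriv k φ) := by
  induction k with
  | zero => simp
  | succ k ih => rw [iteratedDeriv_succ, ih, H_deriv (h.iter k), iteratedDeriv_succ]

/-- exponentials -/
theorem EGS.exp {Φ : ℝ → ℝ} (hd : Differentiable ℝ Φ) (hl : ∀ x, |_root_.deriv Φ x| ≤ 1)
    (hb : BD (_root_.deriv Φ)) (m : ℝ) : EGS (fun x => Real.exp (m * Φ x)) := by
  have hlip : Lip1 Φ := by
    intro x y
    have h1 := Convex.norm_image_sub_le_of_norm_hasDerivWithin_le (f := Φ)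
      (f' := _root_.deriv Φ) (C := 1)
      (s := univ) (fun x _ => (hd x).hasDerivAt.hasDerivWithinAt) (fun x _ => hl x) convex_univ
      (mem_univ y) (mem_univ x)
    rw [Real.norm_eq_abs, Real.norm_eq_abs, one_mul] at h1
    have := le_abs_self (Φ x - Φ y)
    linarith
  have hE : EG (fun x => Real.exp (m * Φ x)) := EG.exp_lip hlip m
  have hdd : Differentiable ℝ (fun x => Real.exp (m * Φ x)) := (hd.const_mul m).exp
  have e : _root_.deriv (fun x => Real.exp (m * Φ x)) =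
      fun x => (m * _root_.deriv Φ x) * Real.exp (m * Φ x) := by
    funext x
    have := (((hd x).hasDerivAt).const_mul m).exp
    rw [this.deriv]
    ring
  intro n
  induction n with
  | zero => exact hE
  | succ n ih =>
    refine ⟨hE, hdd, ?_⟩
    rw [e]
    exact ((hb.const_mul m n).egn).mul ih

end

end Crest.Agent.R339.B
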