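import Crest.Agent.R339.B107PhiL

/-!
Row 339 (helper107): calculus inside one block of the Parisi scheme.

`Wk Φ m k v x = H (√v) (w₀^{(k)}) x`, `w₀ = e^{mΦ}`, `Dk = Wk k / Wk 0`; `UG` = jointly continuous
functions of exponential growth, locally uniformly in `v`; `TB F LF Fx` = test functions, with
generator `LF = -∂_v F + ½ F'' + D₁ F'`. Derivative of `τ ↦ ∫ H (√τ) (W F)(d-τ) dν`.
-/

set_option autoImplicit false

namespace Crest.Agent.R339.B

open MeasureTheory ProbabilityTheory Filter Topology Set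
open Crest.Agent.R164.GC
open Crest.ProbabilityR.InvariantGlass (gaussOp)

noncomputable section

/-- joint differentiability from continuous partial derivatives -/
theorem hasFDerivAt_of_partial {f f1 f2 : ℝ → ℝ → ℝ} {v x : ℝ}
    (d1 : ∀ᶠ p : ℝ × ℝ in 𝓝 (v, x), HasDerivAt (fun s => f s p.2) (f1 p.1 p.2) p.1)
    (d2 : ∀ᶠ p : ℝ × ℝ in 𝓝 (v, x), HasDerivAt (fun y => f p.1 y) (f2 p.1 p.2) p.2)
    (c1 : Continuous fun p : ℝ × ℝ => f1 p.1 p.2) (c2 : Continuous fun p : ℝ × ℝ => f2 p.1 p.2) :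
    HasFDerivAt (fun p : ℝ × ℝ => f p.1 p.2)
      ((ContinuousLinearMap.toSpanSingleton ℝ (f1 v x)).coprod
        (ContinuousLinearMap.toSpanSingleton ℝ (f2 v x))) (v, x) := by
  have h := hasStrictFDerivAt_uncurry_coprod (𝕜 := ℝ) (u := (v, x)) (f := f)
    (f₁ := fun a b => ContinuousLinearMap.toSpanSingleton ℝ (f1 a b))
    (f₂ := fun a b => ContinuousLinearMap.toSpanSingleton ℝ (f2 a b))
    (by
      filter_upwards [d1] with p hp
      exact hp.hasFDerivAt)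
    (by
      filter_upwards [d2] with p hp
      exact hp.hasFDerivAt)
    (by
      refine Continuous.continuousAt ?_
      have : Continuous fun c : ℝ => ContinuousLinearMap.toSpanSingleton ℝ c :=
        (ContinuousLinearMap.toSpanSingletonCLE (𝕜 := ℝ) (E := ℝ)).continuous
      exact this.comp c1)
    (by
      refine Continuous.continuousAt ?_
      have : Continuous fun c : ℝ => ContinuousLinearMap.toSpanSingleton ℝ c :=
        (ContinuousLinearMap.toSpanSingletonCLE (𝕜 := ℝ) (E := ℝ)).continuous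
      exact this.comp c2)
  exact h.hasFDerivAt

/-- chain rule along a curve -/
theorem hasDerivAt_curve {f f1 f2 : ℝ → ℝ → ℝ} {a b : ℝ → ℝ} {a' b' τ : ℝ}
    (d1 : ∀ᶠ p : ℝ × ℝ in 𝓝 (a τ, b τ), HasDerivAt (fun s => f s p.2) (f1 p.1 p.2) p.1)
    (d2 : ∀ᶠ p : ℝ × ℝ in 𝓝 (a τ, b τ), HasDerivAt (fun y => f p.1 y) (f2 p.1 p.2) p.2)
    (c1 : Continuous fun p : ℝ × ℝ => f1 p.1 p.2) (c2 : Continuous fun p : ℝ × ℝ => f2 p.1 p.2)
    (ha : HasDerivAt a a' τ) (hb : HasDerivAt b b' τ) :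
    HasDerivAt (fun τ => f (a τ) (b τ)) (f1 (a τ) (b τ) * a' + f2 (a τ) (b τ) * b') τ := by
  have h := hasFDerivAt_of_partial d1 d2 c1 c2
  have h2 := h.comp_hasDerivAt τ (ha.prodMk hb)
  refine h2.congr_deriv ?_
  simp [ContinuousLinearMap.coprod_apply, ContinuousLinearMap.toSpanSingleton_apply]
  ring

/-! ### locally uniform exponential growth -/

/-- jointly continuous, exponential growth in `x` locally uniformly in `v` -/
structure UG (G : ℝ → ℝ → ℝ) : Prop where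
  cont : Continuous fun p : ℝ × ℝ => G p.1 p.2
  bd : ∀ d : ℝ, ∃ K A : ℝ, 0 ≤ K ∧ 0 ≤ A ∧ ∀ v x, v ≤ d → |G v x| ≤ K * Real.exp (A * |x|)

theorem UG.eg {G : ℝ → ℝ → ℝ} (h : UG G) (v : ℝ) : EG (G v) := by
  obtain ⟨K, A, hK, hA, hb⟩ := h.bd v
  exact ⟨h.cont.comp (by fun_prop : Continuous fun x : ℝ => (v, x)), K, A, hK, hA,
    fun x => hb v x le_rfl⟩

theorem UG.const (c : ℝ) : UG (fun _ _ => c) :=
  ⟨continuous_const, fun _ => ⟨|c|, 0, abs_nonneg c, le_rfl, fun v x _ => by simp⟩⟩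

theorem UG.add {G G' : ℝ → ℝ → ℝ} (h : UG G) (h' : UG G') : UG (fun v x => G v x + G' v x) := by
  refine ⟨h.cont.add h'.cont, fun d => ?_⟩
  obtain ⟨K, A, hK, hA, hb⟩ := h.bd d
  obtain ⟨K', A', hK', hA', hb'⟩ := h'.bd d
  refine ⟨K + K', A + A', by positivity, by positivity, fun v x hv => ?_⟩
  have h1 : Real.exp (A * |x|) ≤ Real.exp ((A + A') * |x|) := by
    refine Real.exp_le_exp.2 ?_
    have := abs_nonneg x
    nlinarith
  have h2 : Real.exp (A' * |x|) ≤ Real.exp ((A + A') * |x|) := by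
    refine Real.exp_le_exp.2 ?_
    have := abs_nonneg x
    nlinarith
  calc |G v x + G' v x| ≤ |G v x| + |G' v x| := abs_add_le _ _
    _ ≤ K * Real.exp (A * |x|) + K' * Real.exp (A' * |x|) := add_le_add (hb v x hv) (hb' v x hv)
    _ ≤ K * Real.exp ((A + A') * |x|) + K' * Real.exp ((A + A') * |x|) :=
        add_le_add (mul_le_mul_of_nonneg_left h1 hK) (mul_le_mul_of_nonneg_left h2 hK')
    _ = _ := by ring

theorem UG.mul {G G' : ℝ → ℝ → ℝ} (h : UG G) (h' : UG G') : UG (fun v x => G v x * G' v x) := by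
  refine ⟨h.cont.mul h'.cont, fun d => ?_⟩
  obtain ⟨K, A, hK, hA, hb⟩ := h.bd d
  obtain ⟨K', A', hK', hA', hb'⟩ := h'.bd d
  refine ⟨K * K', A + A', by positivity, by positivity, fun v x hv => ?_⟩
  calc |G v x * G' v x| = |G v x| * |G' v x| := abs_mul _ _
    _ ≤ (K * Real.exp (A * |x|)) * (K' * Real.exp (A' * |x|)) :=
        mul_le_mul (hb v x hv) (hb' v x hv) (abs_nonneg _) (by positivity)
    _ = K * K' * (Real.exp (A * |x|) * Real.exp (A' * |x|)) := by ring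
    _ = _ := by rw [← Real.exp_add]; ring_nf

theorem UG.congr {G G' : ℝ → ℝ → ℝ} (h : UG G) (e : ∀ v x, G' v x = G v x) : UG G' := by
  have : G' = G := by funext v x; exact e v x
  rw [this]; exact h

theorem UG.const_mul {G : ℝ → ℝ → ℝ} (c : ℝ) (h : UG G) : UG (fun v x => c * G v x) :=
  (UG.const c).mul h

theorem UG.neg {G : ℝ → ℝ → ℝ} (h : UG G) : UG (fun v x => -G v x) :=
  (h.const_mul (-1)).congr fun v x => by ring

theorem UG.sub {G G' : ℝ → ℝ → ℝ} (h : UG G) (h' : UG G') : UG (fun v x => G v x - G' v x) :=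
  (h.add h'.neg).congr fun v x => by ring

theorem UG.pow {G : ℝ → ℝ → ℝ} (h : UG G) (n : ℕ) : UG (fun v x => G v x ^ n) := by
  induction n with
  | zero => exact (UG.const 1).congr fun v x => by simp
  | succ n ih => exact (ih.mul h).congr fun v x => by rw [pow_succ]

theorem UG.id : UG (fun _ x => x) := by
  refine ⟨continuous_snd, fun d => ⟨1, 1, zero_le_one, zero_le_one, fun v x _ => ?_⟩⟩
  rw [one_mul, one_mul]
  have := Real.add_one_le_exp |x|
  linarith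

/-! ### the functions of a block -/

/-- `w₀ = e^{mΦ}` -/
def w0 (Φ : ℝ → ℝ) (m x : ℝ) : ℝ := Real.exp (m * Φ x)

/-- the heat flow of the derivatives of `w₀` -/
def Wk (Φ : ℝ → ℝ) (m : ℝ) (k : ℕ) (v x : ℝ) : ℝ := H (Real.sqrt v) (iteratedDeriv k (w0 Φ m)) x

/-- the ratios `w^{(k)} / w` -/
def Dk (Φ : ℝ → ℝ) (m : ℝ) (k : ℕ) (v x : ℝ) : ℝ := Wk Φ m k v x / Wk Φ m 0 v x

section Block

variable {Φ : ℝ → ℝ} (h : Prof Φ) (m : ℝ)
include h

theorem w0_egs : EGS (w0 Φ m) := h.exp_egs m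

theorem w0_iter (k : ℕ) : ∃ P : ℝ → ℝ, BD P ∧
    ∀ x, iteratedDeriv k (w0 Φ m) x = P x * Real.exp (m * Φ x) := by
  induction k with
  | zero => exact ⟨fun _ => 1, BD.const 1, fun x => by simp [w0]⟩
  | succ k ih =>
    obtain ⟨P, hP, e⟩ := ih
    refine ⟨fun x => deriv P x + P x * (m * deriv Φ x),
      hP.deriv.add (hP.mul (h.bd.const_mul m)), fun x => ?_⟩
    rw [iteratedDeriv_succ]
    have : iteratedDeriv k (w0 Φ m) = fun x => P x * Real.exp (m * Φ x) := funext e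
    rw [this]
    have h1 := (hP.hasDerivAt x).fun_mul ((h.d1 x).const_mul m).exp
    rw [h1.deriv]
    ring

theorem Wk_pos (v x : ℝ) : 0 < Wk Φ m 0 v x := by
  unfold Wk
  rw [iteratedDeriv_zero]
  exact den_pos h.lip m _ x

theorem Wk_cont (k : ℕ) : Continuous fun p : ℝ × ℝ => Wk Φ m k p.1 p.2 := by
  unfold Wk
  have hs : Continuous (fun p : ℝ × ℝ => (Real.sqrt p.1, p.2)) := by fun_prop
  exact (H_continuous ((w0_egs h m).iter k).eg).comp hs

theorem Wk_dx (k : ℕ) (v x : ℝ) :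
    HasDerivAt (fun y => Wk Φ m k v y) (Wk Φ m (k + 1) v x) x := by
  unfold Wk
  have := H_hasDerivAt ((w0_egs h m).iter k) (Real.sqrt v) x
  rw [← iteratedDeriv_succ] at this
  exact this

theorem Wk_dv (k : ℕ) {v : ℝ} (hv : 0 < v) (x : ℝ) :
    HasDerivAt (fun s => Wk Φ m k s x) (1 / 2 * Wk Φ m (k + 2) v x) v := by
  unfold Wk
  have hE := (w0_egs h m).iter
  have e1 : deriv (iteratedDeriv k (w0 Φ m)) = iteratedDeriv (k + 1) (w0 Φ m) :=
    (iteratedDeriv_succ).symm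
  have e2 : deriv (iteratedDeriv (k + 1) (w0 Φ m)) = iteratedDeriv (k + 2) (w0 Φ m) :=
    (iteratedDeriv_succ).symm
  exact H_deriv_v (hE k).eg (hE (k + 1)).eg (hE (k + 2)).eg
    (fun x => by rw [← e1]; exact (hE k).hasDerivAt x)
    (fun x => by rw [← e2]; exact (hE (k + 1)).hasDerivAt x) hv x

omit h in
/-- uniform exponential growth of the Gaussian averages -/
theorem UG_heat {φ : ℝ → ℝ} (hφ : EG φ) : UG (fun v x => H (Real.sqrt v) φ x) := by
  refine ⟨(H_continuous hφ).comp (by fun_prop : Continuous fun p : ℝ × ℝ => (√p.1, p.2)),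
    fun d => ?_⟩
  obtain ⟨K, A, hK, hA, hb⟩ := hφ.bd
  have hI : 0 ≤ ∫ g, Real.exp (A * Real.sqrt d * |g|) ∂gaussianReal 0 1 :=
    integral_nonneg fun g => (Real.exp_pos _).le
  refine ⟨K * ∫ g, Real.exp (A * Real.sqrt d * |g|) ∂gaussianReal 0 1, A, by positivity, hA,
    fun v x hv => ?_⟩
  have hs : |Real.sqrt v| ≤ Real.sqrt d := by
    rw [abs_of_nonneg (Real.sqrt_nonneg v)]
    exact Real.sqrt_le_sqrt hv
  unfold H
  calc |∫ g, φ (x + Real.sqrt v * g) ∂gaussianReal 0 1|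
      ≤ ∫ g, |φ (x + Real.sqrt v * g)| ∂gaussianReal 0 1 := abs_integral_le_integral_abs
    _ ≤ ∫ g, K * Real.exp (A * |x|) * Real.exp (A * Real.sqrt d * |g|) ∂gaussianReal 0 1 :=
        integral_mono (hφ.int _ x).abs ((integrable_exp_abs _).const_mul _)
          fun g => shift_bd hK hA hb le_rfl hs g
    _ = _ := by rw [integral_const_mul]; ring

theorem Wk_ug (k : ℕ) : UG (Wk Φ m k) := UG_heat ((w0_egs h m).iter k).eg

theorem Dk_bdd (k : ℕ) : ∃ C, ∀ v x, |Dk Φ m k v x| ≤ C := by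
  obtain ⟨P, hP, e⟩ := w0_iter h m k
  obtain ⟨C, hC⟩ := hP.bc
  refine ⟨C, fun v x => ?_⟩
  have := tE_abs_le h.lip m v hC x
  have e2 : Dk Φ m k v x = tE m v Φ P x := by
    unfold Dk Wk tE
    rw [iteratedDeriv_zero]
    have : iteratedDeriv k (w0 Φ m) = fun y => P y * Real.exp (m * Φ y) := funext e
    rw [this]
    rfl
  rw [e2]
  exact this

theorem Dk_ug (k : ℕ) : UG (Dk Φ m k) := by
  obtain ⟨C, hC⟩ := Dk_bdd h m k
  refine ⟨(Wk_cont h m k).div (Wk_cont h m 0) fun p => (Wk_pos h m _ _).ne', fun d => ?_⟩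
  exact ⟨C, 0, (abs_nonneg _).trans (hC 0 0), le_rfl, fun v x _ => by simpa using hC v x⟩

theorem Dk_dx (k : ℕ) (v x : ℝ) : HasDerivAt (fun y => Dk Φ m k v y)
    (Dk Φ m (k + 1) v x - Dk Φ m k v x * Dk Φ m 1 v x) x := by
  have h1 := (Wk_dx h m k v x).fun_div (Wk_dx h m 0 v x) (Wk_pos h m v x).ne'
  refine h1.congr_deriv ?_
  unfold Dk
  have := (Wk_pos h m v x).ne'
  field_simp

theorem Dk_dv (k : ℕ) {v : ℝ} (hv : 0 < v) (x : ℝ) : HasDerivAt (fun s => Dk Φ m k s x)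
    (1 / 2 * (Dk Φ m (k + 2) v x - Dk Φ m k v x * Dk Φ m 2 v x)) v := by
  have h1 := (Wk_dv h m k hv x).fun_div (Wk_dv h m 0 hv x) (Wk_pos h m v x).ne'
  refine h1.congr_deriv ?_
  unfold Dk
  have := (Wk_pos h m v x).ne'
  field_simp

end Block

/-- test functions of a block: `LF` is the generator applied to `F`, `Fx` the derivative -/
def TB (Φ : ℝ → ℝ) (m : ℝ) (F LF Fx : ℝ → ℝ → ℝ) : Prop :=
  ∃ Fv Fxx : ℝ → ℝ → ℝ,
    (∀ v x, 0 < v → HasDerivAt (fun s => F s x) (Fv v x) v) ∧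
    (∀ v x, HasDerivAt (fun y => F v y) (Fx v x) x) ∧
    (∀ v x, HasDerivAt (fun y => Fx v y) (Fxx v x) x) ∧
    UG F ∧ UG Fv ∧ UG Fx ∧ UG Fxx ∧
    ∀ v x, LF v x = -Fv v x + 1 / 2 * Fxx v x + Dk Φ m 1 v x * Fx v x

section TBsec

variable {Φ : ℝ → ℝ} {m : ℝ} {F LF Fx G LG Gx : ℝ → ℝ → ℝ}

theorem TB.ug (h : TB Φ m F LF Fx) : UG F := by
  obtain ⟨_, _, _, _, _, h, _⟩ := h
  exact h

theorem TB.ugx (h : TB Φ m F LF Fx) : UG Fx := by
  obtain ⟨_, _, _, _, _, _, _, h, _⟩ := h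
  exact h

theorem TB.dx (h : TB Φ m F LF Fx) (v x : ℝ) : HasDerivAt (fun y => F v y) (Fx v x) x := by
  obtain ⟨_, _, _, h, _⟩ := h
  exact h v x

theorem TB.ugL (h : TB Φ m F LF Fx) (hΦ : Prof Φ) : UG LF := by
  obtain ⟨Fv, Fxx, _, _, _, h0, hv, hx, hxx, e⟩ := h
  exact ((hv.neg.add (hxx.const_mul (1 / 2))).add ((Dk_ug hΦ m 1).mul hx)).congr e

theorem TB.congr {F' LF' Fx' : ℝ → ℝ → ℝ} (h : TB Φ m F LF Fx) (e1 : ∀ v x, F' v x = F v x)
    (e2 : ∀ v x, LF' v x = LF v x) (e3 : ∀ v x, Fx' v x = Fx v x) : TB Φ m F' LF' Fx' := by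
  have h1 : F' = F := by funext v x; exact e1 v x
  have h2 : LF' = LF := by funext v x; exact e2 v x
  have h3 : Fx' = Fx := by funext v x; exact e3 v x
  rw [h1, h2, h3]; exact h

theorem TB.const (c : ℝ) : TB Φ m (fun _ _ => c) (fun _ _ => 0) (fun _ _ => 0) :=
  ⟨fun _ _ => 0, fun _ _ => 0, fun v x _ => hasDerivAt_const v c, fun v x => hasDerivAt_const x c,
    fun v x => hasDerivAt_const x 0, UG.const c, UG.const 0, UG.const 0, UG.const 0,
    fun v x => by ring⟩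

theorem TB.add (hF : TB Φ m F LF Fx) (hG : TB Φ m G LG Gx) :
    TB Φ m (fun v x => F v x + G v x) (fun v x => LF v x + LG v x)
      (fun v x => Fx v x + Gx v x) := by
  obtain ⟨Fv, Fxx, a1, a2, a3, a4, a5, a6, a7, a8⟩ := hF
  obtain ⟨Gv, Gxx, b1, b2, b3, b4, b5, b6, b7, b8⟩ := hG
  refine ⟨fun v x => Fv v x + Gv v x, fun v x => Fxx v x + Gxx v x,
    fun v x hv => (a1 v x hv).fun_add (b1 v x hv), fun v x => (a2 v x).fun_add (b2 v x),
    fun v x => (a3 v x).fun_add (b3 v x), a4.add b4, a5.add b5, a6.add b6, a7.add b7,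
    fun v x => ?_⟩
  beta_reduce
  rw [a8, b8]
  ring

theorem TB.mul (hF : TB Φ m F LF Fx) (hG : TB Φ m G LG Gx) :
    TB Φ m (fun v x => F v x * G v x)
      (fun v x => F v x * LG v x + G v x * LF v x + Fx v x * Gx v x)
      (fun v x => Fx v x * G v x + F v x * Gx v x) := by
  obtain ⟨Fv, Fxx, a1, a2, a3, a4, a5, a6, a7, a8⟩ := hF
  obtain ⟨Gv, Gxx, b1, b2, b3, b4, b5, b6, b7, b8⟩ := hG
  refine ⟨fun v x => Fv v x * G v x + F v x * Gv v x,
    fun v x => Fxx v x * G v x + Fx v x * Gx v x + (Fx v x * Gx v x + F v x * Gxx v x),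
    fun v x hv => (a1 v x hv).fun_mul (b1 v x hv), fun v x => (a2 v x).fun_mul (b2 v x),
    fun v x => ((a3 v x).fun_mul (b2 v x)).fun_add ((a2 v x).fun_mul (b3 v x)),
    a4.mul b4, (a5.mul b4).add (a4.mul b5), (a6.mul b4).add (a4.mul b6),
    ((a7.mul b4).add (a6.mul b6)).add ((a6.mul b6).add (a4.mul b7)), fun v x => ?_⟩
  beta_reduce
  rw [a8, b8]
  ring

theorem TB.const_mul (c : ℝ) (hF : TB Φ m F LF Fx) :
    TB Φ m (fun v x => c * F v x) (fun v x => c * LF v x) (fun v x => c * Fx v x) :=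
  ((TB.const c).mul hF).congr (fun _ _ => rfl) (fun v x => by ring) (fun v x => by ring)

theorem TB.sub (hF : TB Φ m F LF Fx) (hG : TB Φ m G LG Gx) :
    TB Φ m (fun v x => F v x - G v x) (fun v x => LF v x - LG v x)
      (fun v x => Fx v x - Gx v x) :=
  (hF.add (hG.const_mul (-1))).congr (fun v x => by ring) (fun v x => by ring)
    (fun v x => by ring)

/-- the ratios are martingales -/
theorem tb_Dk (h : Prof Φ) (m : ℝ) (k : ℕ) : TB Φ m (Dk Φ m k) (fun _ _ => 0)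
    (fun v x => Dk Φ m (k + 1) v x - Dk Φ m k v x * Dk Φ m 1 v x) := by
  refine ⟨fun v x => 1 / 2 * (Dk Φ m (k + 2) v x - Dk Φ m k v x * Dk Φ m 2 v x),
    fun v x => (Dk Φ m (k + 1 + 1) v x - Dk Φ m (k + 1) v x * Dk Φ m 1 v x) -
      ((Dk Φ m (k + 1) v x - Dk Φ m k v x * Dk Φ m 1 v x) * Dk Φ m 1 v x +
        Dk Φ m k v x * (Dk Φ m (1 + 1) v x - Dk Φ m 1 v x * Dk Φ m 1 v x)),
    fun v x hv => Dk_dv h m k hv x, fun v x => Dk_dx h m k v x,
    fun v x => (Dk_dx h m (k + 1) v x).fun_sub ((Dk_dx h m k v x).fun_mul (Dk_dx h m 1 v x)),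
    Dk_ug h m k,
    ((Dk_ug h m (k + 2)).sub ((Dk_ug h m k).mul (Dk_ug h m 2))).const_mul _,
    (Dk_ug h m (k + 1)).sub ((Dk_ug h m k).mul (Dk_ug h m 1)),
    ((Dk_ug h m (k + 1 + 1)).sub ((Dk_ug h m (k + 1)).mul (Dk_ug h m 1))).sub
      ((((Dk_ug h m (k + 1)).sub ((Dk_ug h m k).mul (Dk_ug h m 1))).mul (Dk_ug h m 1)).add
        ((Dk_ug h m k).mul ((Dk_ug h m (1 + 1)).sub ((Dk_ug h m 1).mul (Dk_ug h m 1))))),
    fun v x => ?_⟩
  show (0 : ℝ) = _
  have e1 : k + 1 + 1 = k + 2 := rfl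
  have e2 : 1 + 1 = 2 := rfl
  rw [e1, e2]
  ring

/-- the coordinate -/
theorem tb_id (Φ : ℝ → ℝ) (m : ℝ) : TB Φ m (fun _ x => x) (Dk Φ m 1) (fun _ _ => 1) :=
  ⟨fun _ _ => 0, fun _ _ => 0, fun v x _ => hasDerivAt_const v x, fun v x => hasDerivAt_id' x,
    fun v x => hasDerivAt_const x 1, UG.id, UG.const 0, UG.const 1, UG.const 0,
    fun v x => by ring⟩

end TBsec

end

end Crest.Agent.R339.B
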