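import Crest.Agent.R339.GTree

/-!
# Row 339, part (A): the tree functional, upper bound by Jensen
-/

set_option autoImplicit false

namespace Crest.Agent.R339.Guerra

open MeasureTheory ProbabilityTheory Real

noncomputable section

/-- Levels: list of pairs `(m_k, δ_k)`, outermost first. -/
abbrev Lev := List (ℝ × ℝ)

/-- the exponent of the next level -/
def mh (β : ℝ) : Lev → ℝ
  | [] => β
  | x :: _ => x.1

/-- `0 < m_1 ≤ ... ≤ m_K ≤ β`, `δ_k ≥ 0` -/
def Good (β : ℝ) : Lev → Prop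
  | [] => True
  | x :: ℓ => 0 < x.1 ∧ x.1 ≤ mh β ℓ ∧ 0 ≤ x.2 ∧ Good β ℓ

theorem mh_pos {β : ℝ} (hβ : 0 < β) : ∀ {ℓ : Lev}, Good β ℓ → 0 < mh β ℓ
  | [], _ => hβ
  | _ :: _, h => h.1

/-- index set of the tree -/
def Idx (N : ℕ) (S : Type) : Lev → Type
  | [] => S
  | _ :: ℓ => Fin N × Idx N S ℓ

instance Idx.fintype (N : ℕ) (S : Type) [Fintype S] : ∀ ℓ, Fintype (Idx N S ℓ)
  | [] => inferInstanceAs (Fintype S)
  | _ :: ℓ => letI := Idx.fintype N S ℓ; inferInstanceAs (Fintype (Fin N × Idx N S ℓ))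

instance Idx.deceq (N : ℕ) (S : Type) [DecidableEq S] : ∀ ℓ, DecidableEq (Idx N S ℓ)
  | [] => inferInstanceAs (DecidableEq S)
  | _ :: ℓ => letI := Idx.deceq N S ℓ; inferInstanceAs (DecidableEq (Fin N × Idx N S ℓ))

def leaf {N : ℕ} {S : Type} : ∀ ℓ : Lev, Idx N S ℓ → S
  | [], a => a
  | _ :: ℓ, a => leaf ℓ a.2

/-- the nested power average -/
def W (β : ℝ) {N : ℕ} {S : Type} [Fintype S] : ∀ ℓ : Lev, (Idx N S ℓ → ℝ) → ℝ
  | [], h => ∑ a : S, Real.exp (β * h a)
  | x :: ℓ, h => (1 / (N:ℝ)) * ∑ c : Fin N, (W β ℓ (fun a => h (c, a))) ^ (x.1 / mh β ℓ)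

theorem inCls_W {β : ℝ} (hβ : 0 < β) {N : ℕ} (hN : 0 < N) {S : Type} [Fintype S]
    [DecidableEq S] [Nonempty S] : ∀ ℓ : Lev, Good β ℓ → InCls (W β (N := N) (S := S) ℓ)
  | [], _ => inCls_base (I := S) β hβ
  | x :: ℓ, h => by
    have h1 := inCls_W hβ hN (S := S) ℓ h.2.2.2
    have h2 := mh_pos hβ h.2.2.2
    have h3 := inCls_pow (p := x.1 / mh β ℓ) (div_pos h.1 h2) ((div_le_one h2).2 h.2.1) h1
    exact inCls_block hN h3

/-- integrability of class functions of a Gaussian vector -/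
theorem InCls.integrable {I ι : Type*} [Fintype I] [Fintype ι] {W : (I → ℝ) → ℝ}
    (hW : InCls W) (u : I → ℝ) (A : I → ι → ℝ) :
    Integrable (fun g => W (fun a => u a + lin A g a)) (G ι) := by
  obtain ⟨c, P, H, hc, hF, -, -, hPb, -, -⟩ := hW.log one_pos
  have hWc : Continuous W := by
    obtain ⟨_, _, _, _, h⟩ := hW; exact h.cW
  have hWp : ∀ h, 0 < W h := by
    obtain ⟨_, _, _, _, h⟩ := hW; exact h.pos
  set K := c * Fintype.card I with hK
  have hK0 : 0 ≤ K := by positivity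
  set K2 := ∑ a, ∑ j, |A a j| with hK2
  have hcont : Continuous (fun g : ι → ℝ => W (fun a => u a + lin A g a)) := by
    refine hWc.comp ?_
    have := continuous_lin A
    fun_prop
  refine integrable_of_exp_bound hcont.aestronglyMeasurable
    (Real.exp (|(1 / (1:ℝ)) * Real.log (W 0)| + K * ‖u‖)) (K * K2) fun g => ?_
  rw [abs_of_pos (hWp _)]
  have h1 := growth hF hc hPb (fun a => u a + lin A g a)
  have h2 : ‖(fun a => u a + lin A g a)‖ ≤ ‖u‖ + K2 * ∑ j, |g j| := by
    calc ‖(fun a => u a + lin A g a)‖ = ‖u + lin A g‖ := rfl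
      _ ≤ ‖u‖ + ‖lin A g‖ := norm_add_le _ _
      _ ≤ _ := by have := norm_lin_le A g; linarith
  have h3 := mul_le_mul_of_nonneg_left h2 hK0
  have h4 : Real.log (W fun a => u a + lin A g a) ≤
      |(1 / (1:ℝ)) * Real.log (W 0)| + K * ‖u‖ + K * K2 * ∑ j, |g j| := by
    have := le_abs_self ((1 / (1:ℝ)) * Real.log (W fun a => u a + lin A g a))
    rw [← hK] at h1
    linarith
  rw [← Real.exp_add, ← Real.log_le_iff_le_exp (hWp _)]
  exact h4

theorem InCls.pos {I : Type*} [Fintype I] {W : (I → ℝ) → ℝ} (hW : InCls W) (h : I → ℝ) :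
    0 < W h := by
  obtain ⟨_, _, _, _, h'⟩ := hW; exact h'.pos h

theorem InCls.cont {I : Type*} [Fintype I] {W : (I → ℝ) → ℝ} (hW : InCls W) :
    Continuous W := by
  obtain ⟨_, _, _, _, h'⟩ := hW; exact h'.cW

theorem InCls.integrable_log {I ι : Type*} [Fintype I] [Fintype ι] {W : (I → ℝ) → ℝ}
    (hW : InCls W) (u : I → ℝ) (A : I → ι → ℝ) :
    Integrable (fun g => Real.log (W (fun a => u a + lin A g a))) (G ι) := by
  obtain ⟨c, P, H, hc, hF, -, -, hPb, -, -⟩ := hW.log one_pos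
  have h1 := integrable_comp_lin (F := fun h => (1 / (1:ℝ)) * Real.log (W (u + h)))
    (P := fun a h => P a (u + h)) (c := c) (fun h => by
      have h2 : HasFDerivAt (fun h : I → ℝ => u + h) (ContinuousLinearMap.id ℝ (I → ℝ)) h :=
        (hasFDerivAt_id h).const_add u
      have h3 := (hF (u + h)).comp h h2
      exact h3) hc (fun a h => hPb a _) A
  refine h1.congr (Filter.Eventually.of_forall fun g => ?_)
  simp only [one_div, inv_one, one_mul]
  rfl

/-! ### the Parisi recursion -/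

/-- one step of the recursion -/
def T (m δ : ℝ) (f : ℝ → ℝ) (x : ℝ) : ℝ :=
  (1 / m) * Real.log (∫ y, Real.exp (m * f (x + Real.sqrt δ * y)) ∂γ)

/-- the Parisi function `Φ(0,·)` -/
def Phi (β : ℝ) : Lev → ℝ → ℝ
  | [] => fun x => Real.log (2 * Real.cosh (β * x)) / β
  | x :: ℓ => T x.1 x.2 (Phi β ℓ)

/-- one-sided form of being 1-Lipschitz -/
def Lip (f : ℝ → ℝ) : Prop := ∀ x y, f x ≤ f y + |x - y|

theorem Lip.continuous {f : ℝ → ℝ} (hf : Lip f) : Continuous f := by
  have : LipschitzWith 1 f := LipschitzWith.of_dist_le_mul fun x y => by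
    rw [Real.dist_eq, Real.dist_eq, NNReal.coe_one, one_mul, abs_le]
    have h1 := hf x y
    have h2 := hf y x
    rw [abs_sub_comm] at h2
    constructor <;> linarith
  exact this.continuous

theorem Lip.abs_le {f : ℝ → ℝ} (hf : Lip f) (x : ℝ) : |f x| ≤ |f 0| + |x| := by
  have h1 := hf x 0
  have h2 := hf 0 x
  rw [zero_sub, abs_neg] at h2
  rw [sub_zero] at h1
  rw [abs_le']
  have h3 := le_abs_self (f 0)
  have h4 := neg_abs_le (f 0)
  constructor <;> linarith

theorem Lip.integrable_exp {f : ℝ → ℝ} (hf : Lip f) (m x s : ℝ) :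
    Integrable (fun y : ℝ => Real.exp (m * f (x + s * y))) γ := by
  have hc := hf.continuous
  refine ((integrable_exp_abs1 (|m| * |s|)).const_mul
    (Real.exp (|m| * (|f 0| + |x|)))).mono' (by fun_prop) ?_
  filter_upwards with y
  rw [Real.norm_eq_abs, abs_of_pos (Real.exp_pos _), ← Real.exp_add]
  apply Real.exp_le_exp.mpr
  have h1 := hf.abs_le (x + s * y)
  have h2 : |x + s * y| ≤ |x| + |s| * |y| := by
    refine (abs_add_le _ _).trans ?_
    rw [abs_mul]
  calc m * f (x + s * y) ≤ |m * f (x + s * y)| := le_abs_self _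
    _ = |m| * |f (x + s * y)| := abs_mul _ _
    _ ≤ |m| * (|f 0| + (|x| + |s| * |y|)) :=
        mul_le_mul_of_nonneg_left (by linarith) (abs_nonneg _)
    _ = _ := by ring

theorem Lip.integrable {f : ℝ → ℝ} (hf : Lip f) (x s : ℝ) :
    Integrable (fun y : ℝ => f (x + s * y)) γ := by
  have hc := hf.continuous
  refine ((integrable_const (|f 0| + |x|)).add ((integrable_id_γ.abs).const_mul |s|)).mono'
    (by fun_prop) ?_
  filter_upwards with y
  rw [Real.norm_eq_abs]
  have h1 := hf.abs_le (x + s * y)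
  have h2 : |x + s * y| ≤ |x| + |s| * |y| := by
    refine (abs_add_le _ _).trans ?_
    rw [abs_mul]
  simp only [Pi.add_apply]
  linarith

theorem lip_T {m δ : ℝ} (hm : 0 < m) {f : ℝ → ℝ} (hf : Lip f) : Lip (T m δ f) := by
  intro x y
  have h1 : ∫ z, Real.exp (m * f (x + Real.sqrt δ * z)) ∂γ ≤
      Real.exp (m * |x - y|) * ∫ z, Real.exp (m * f (y + Real.sqrt δ * z)) ∂γ := by
    rw [← integral_const_mul]
    refine integral_mono (hf.integrable_exp _ _ _) ((hf.integrable_exp _ _ _).const_mul _)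
      fun z => ?_
    simp only
    rw [← Real.exp_add]
    apply Real.exp_le_exp.mpr
    have h2 := hf (x + Real.sqrt δ * z) (y + Real.sqrt δ * z)
    have e : x + Real.sqrt δ * z - (y + Real.sqrt δ * z) = x - y := by ring
    rw [e] at h2
    nlinarith
  have hp : ∀ x, 0 < ∫ z, Real.exp (m * f (x + Real.sqrt δ * z)) ∂γ := fun x =>
    integral_exp_pos (hf.integrable_exp _ _ _)
  have h3 := Real.log_le_log (hp x) h1
  rw [Real.log_mul (Real.exp_pos _).ne' (hp y).ne', Real.log_exp] at h3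
  unfold T
  have h4 : 0 < 1 / m := by positivity
  have h5 := mul_le_mul_of_nonneg_left h3 h4.le
  have e2 : 1 / m * (m * |x - y| + Real.log (∫ z, Real.exp (m * f (y + Real.sqrt δ * z)) ∂γ)) =
    |x - y| + 1 / m * Real.log (∫ z, Real.exp (m * f (y + Real.sqrt δ * z)) ∂γ) := by
    field_simp
  linarith

theorem lip_base {β : ℝ} (hβ : 0 < β) : Lip (fun x => Real.log (2 * Real.cosh (β * x)) / β) := by
  intro x y
  have h0 : ∀ x, 2 * Real.cosh (β * x) = Real.exp (β * x) + Real.exp (-(β * x)) := by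
    intro x; rw [Real.cosh_eq]; ring
  have hp : ∀ x, 0 < 2 * Real.cosh (β * x) := fun x => by have := Real.cosh_pos (β * x); linarith
  have h1 : 2 * Real.cosh (β * x) ≤ Real.exp (β * |x - y|) * (2 * Real.cosh (β * y)) := by
    rw [h0, h0, mul_add, ← Real.exp_add, ← Real.exp_add]
    have h2 := le_abs_self (x - y)
    have h3 := neg_abs_le (x - y)
    refine add_le_add (Real.exp_le_exp.mpr ?_) (Real.exp_le_exp.mpr ?_) <;> nlinarith
  have h3 := Real.log_le_log (hp x) h1
  rw [Real.log_mul (Real.exp_pos _).ne' (hp y).ne', Real.log_exp] at h3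
  simp only
  rw [div_le_iff₀ hβ]
  have e : (Real.log (2 * Real.cosh (β * y)) / β + |x - y|) * β =
    β * |x - y| + Real.log (2 * Real.cosh (β * y)) := by
    field_simp
    ring
  rw [e]; exact h3

theorem lip_Phi {β : ℝ} (hβ : 0 < β) : ∀ ℓ : Lev, Good β ℓ → Lip (Phi β ℓ)
  | [], _ => lip_base hβ
  | x :: ℓ, h => lip_T h.1 (lip_Phi hβ ℓ h.2.2.2)

/-! ### the Gaussian fields `Y` -/

def JB (N n : ℕ) : Lev → Type
  | [] => Empty
  | _ :: ℓ => (Fin N × Fin n) ⊕ (Fin N × JB N n ℓ)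

instance JB.fintype (N n : ℕ) : ∀ ℓ, Fintype (JB N n ℓ)
  | [] => inferInstanceAs (Fintype Empty)
  | _ :: ℓ => letI := JB.fintype N n ℓ
    inferInstanceAs (Fintype ((Fin N × Fin n) ⊕ (Fin N × JB N n ℓ)))

instance JB.deceq (N n : ℕ) : ∀ ℓ, DecidableEq (JB N n ℓ)
  | [] => inferInstanceAs (DecidableEq Empty)
  | _ :: ℓ => letI := JB.deceq N n ℓ
    inferInstanceAs (DecidableEq ((Fin N × Fin n) ⊕ (Fin N × JB N n ℓ)))

/-- coefficients of the field `Y` -/
def Bm {N n : ℕ} {S : Type} (s : Fin n → S → ℝ) : ∀ ℓ : Lev, Idx N S ℓ → JB N n ℓ → ℝ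
  | [], _, _ => 0
  | x :: _, a, Sum.inl j => if a.1 = j.1 then Real.sqrt x.2 * s j.2 (leaf _ a.2) else 0
  | _ :: ℓ, a, Sum.inr j => if a.1 = j.1 then Bm s ℓ a.2 j.2 else 0

theorem lin_Bm_cons {N n : ℕ} {S : Type} [Fintype S] (s : Fin n → S → ℝ) (x : ℝ × ℝ) (ℓ : Lev)
    (g : JB N n (x :: ℓ) → ℝ) (c : Fin N) (a : Idx N S ℓ) :
    lin (Bm s (x :: ℓ)) g ((c, a) : Fin N × Idx N S ℓ) =
      (∑ i, s i (leaf ℓ a) * (Real.sqrt x.2 * g (Sum.inl (c, i)))) +
        lin (Bm s ℓ) (fun j => g (Sum.inr (c, j))) a := by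
  unfold lin
  have e : ∑ j : JB N n (x :: ℓ), Bm s (x :: ℓ) ((c, a) : Fin N × Idx N S ℓ) j * g j =
    ∑ j : (Fin N × Fin n) ⊕ (Fin N × JB N n ℓ),
      Bm s (x :: ℓ) ((c, a) : Fin N × Idx N S ℓ) j * g j := rfl
  rw [e, Fintype.sum_sum_type, Fintype.sum_prod_type, Fintype.sum_prod_type]
  congr 1
  · rw [Finset.sum_eq_single c]
    · refine Finset.sum_congr rfl fun i _ => ?_
      simp only [Bm, if_true]; ring
    · intro c' _ hc
      refine Finset.sum_eq_zero fun i _ => ?_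
      simp only [Bm]
      rw [if_neg (Ne.symm hc)]; ring
    · intro h; exact absurd (Finset.mem_univ _) h
  · rw [Finset.sum_eq_single c]
    · refine Finset.sum_congr rfl fun i _ => ?_
      simp only [Bm, if_true]
    · intro c' _ hc
      refine Finset.sum_eq_zero fun i _ => ?_
      simp only [Bm]
      rw [if_neg (Ne.symm hc)]; ring
    · intro h; exact absurd (Finset.mem_univ _) h

/-- the spin of site `i` -/
def sp {n : ℕ} (i : Fin n) (σ : Fin n → Bool) : ℝ := if σ i then -1 else 1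

theorem upper_base {β : ℝ} (hβ : 0 < β) {n : ℕ} (x : Fin n → ℝ) :
    ∑ σ : Fin n → Bool, Real.exp (β * ∑ i, sp i σ * x i) =
      Real.exp (β * ∑ i, Phi β [] (x i)) := by
  have h1 : ∀ σ : Fin n → Bool, Real.exp (β * ∑ i, sp i σ * x i) =
      ∏ i, Real.exp (β * ((if σ i then (-1:ℝ) else 1) * x i)) := by
    intro σ
    rw [Finset.mul_sum, Real.exp_sum]
    rfl
  simp only [h1]
  have h2 := (Finset.prod_univ_sum (fun _ : Fin n => (Finset.univ : Finset Bool))
    (fun i b => Real.exp (β * ((if b then (-1:ℝ) else 1) * x i)))).symm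
  rw [Fintype.piFinset_univ] at h2
  rw [h2, Finset.mul_sum, Real.exp_sum]
  refine Finset.prod_congr rfl fun i _ => ?_
  have hp : 0 < 2 * Real.cosh (β * x i) := by have := Real.cosh_pos (β * x i); linarith
  simp only [Phi]
  rw [mul_div_cancel₀ _ hβ.ne', Real.exp_log hp, Real.cosh_eq]
  simp
  ring

/-- upper bound by Jensen's inequality -/
theorem upper {β : ℝ} (hβ : 0 < β) {N n : ℕ} (hN : 0 < N) : ∀ (ℓ : Lev), Good β ℓ →
    ∀ x : Fin n → ℝ,
    ∫ g, W β ℓ (fun a : Idx N (Fin n → Bool) ℓ => (∑ i, sp i (leaf ℓ a) * x i) +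
      lin (Bm sp ℓ) g a) ∂(G (JB N n ℓ)) ≤ Real.exp (mh β ℓ * ∑ i, Phi β ℓ (x i))
  | [], _, x => by
    have h1 : ∀ g : JB N n [] → ℝ, W β [] (fun a : Idx N (Fin n → Bool) [] =>
        (∑ i, sp i (leaf [] a) * x i) + lin (Bm sp []) g a) =
        Real.exp (β * ∑ i, Phi β [] (x i)) := by
      intro g
      rw [← upper_base hβ]
      simp only [W]
      refine Finset.sum_congr rfl fun a _ => ?_
      congr 2
      have : lin (Bm (N := N) sp []) g a = 0 := by
        unfold lin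
        refine Finset.sum_eq_zero fun j _ => ?_
        exact (show Empty from j).elim
      rw [this, add_zero]
      rfl
    simp only [h1]
    rw [integral_const]
    simp [mh]
  | lv :: ℓ, hG, x => by
    obtain ⟨hm, hmm, hδ, hG'⟩ := hG
    have hm2 := mh_pos hβ hG'
    set p := lv.1 / mh β ℓ with hp
    have hp0 : 0 < p := div_pos hm hm2
    have hp1 : p ≤ 1 := (div_le_one hm2).2 hmm
    have hN' : (0:ℝ) < N := by exact_mod_cast hN
    have hcls := inCls_W hβ hN (S := Fin n → Bool) ℓ hG'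
    have hclsp := inCls_pow hp0 hp1 hcls
    -- the function of one child
    set Ψ : (Fin n ⊕ JB N n ℓ → ℝ) → ℝ := fun k =>
      (W β ℓ (fun a : Idx N (Fin n → Bool) ℓ =>
        (∑ i, sp i (leaf ℓ a) * (x i + Real.sqrt lv.2 * k (Sum.inl i))) +
        lin (Bm sp ℓ) (fun j => k (Sum.inr j)) a)) ^ p with hΨ
    have hΨi : Integrable Ψ (G (Fin n ⊕ JB N n ℓ)) := by
      have h1 := hclsp.integrable (ι := Fin n ⊕ JB N n ℓ)
        (fun a => ∑ i, sp i (leaf ℓ a) * x i)
        (fun a => Sum.elim (fun i => sp i (leaf ℓ a) * Real.sqrt lv.2) (fun j => Bm sp ℓ a j))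
      refine h1.congr (Filter.Eventually.of_forall fun k => ?_)
      simp only [hΨ, lin, Fintype.sum_sum_type, Sum.elim_inl, Sum.elim_inr]
      congr 2
      ext a
      rw [← add_assoc, ← Finset.sum_add_distrib]
      congr 1
      refine Finset.sum_congr rfl fun i _ => by ring
    have hchild : ∀ (g : JB N n (lv :: ℓ) → ℝ), W β (lv :: ℓ)
        (fun a : Idx N (Fin n → Bool) (lv :: ℓ) => (∑ i, sp i (leaf (lv :: ℓ) a) * x i) +
          lin (Bm sp (lv :: ℓ)) g a) =
        (1 / (N:ℝ)) * ∑ c : Fin N, Ψ (fun k => g (Sum.map (Prod.mk c) (Prod.mk c) k)) := by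
      intro g
      simp only [W, hΨ]
      congr 1
      refine Finset.sum_congr rfl fun c _ => ?_
      congr 2
      ext a
      rw [lin_Bm_cons, ← add_assoc]
      congr 1
      rw [← Finset.sum_add_distrib]
      refine Finset.sum_congr rfl fun i _ => ?_
      simp only [leaf, Sum.map_inl]
      ring
    simp only [hchild]
    have hmp : ∀ c : Fin N, MeasurePreserving
        (fun (g : (Fin N × Fin n) ⊕ (Fin N × JB N n ℓ) → ℝ) =>
          fun k => g (Sum.map (Prod.mk c) (Prod.mk c) k))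
        (G ((Fin N × Fin n) ⊕ (Fin N × JB N n ℓ))) (G (Fin n ⊕ JB N n ℓ)) := by
      intro c
      refine mp_comp (Sum.map (Prod.mk c) (Prod.mk c)) ?_
      exact Function.Injective.sumMap (Prod.mk_right_injective c) (Prod.mk_right_injective c)
    have hint : ∀ c : Fin N, ∫ g : (Fin N × Fin n) ⊕ (Fin N × JB N n ℓ) → ℝ,
        Ψ (fun k => g (Sum.map (Prod.mk c) (Prod.mk c) k)) ∂(G _) = ∫ k, Ψ k ∂(G _) :=
      fun c => mp_int (hmp c) hΨi.aestronglyMeasurable
    have hmain : ∫ g, (1 / (N:ℝ)) * ∑ c : Fin N, Ψ (fun k => g (Sum.map (Prod.mk c) (Prod.mk c) k))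
        ∂(G ((Fin N × Fin n) ⊕ (Fin N × JB N n ℓ))) = ∫ k, Ψ k ∂(G _) := by
      rw [integral_const_mul, integral_finsetSum]
      · simp only [hint, Finset.sum_const, Finset.card_univ, Fintype.card_fin, nsmul_eq_mul]
        field_simp
      · intro c _
        exact (hmp c).integrable_comp_of_integrable hΨi
    refine (le_of_eq hmain).trans ?_
    -- split
    have hsum := mp_sum (ι := Fin n) (κ := JB N n ℓ)
    rw [← mp_int hsum hΨi.aestronglyMeasurable]
    have hΨi2 : Integrable (fun q : (Fin n → ℝ) × (JB N n ℓ → ℝ) => Ψ (Sum.elim q.1 q.2))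
        ((G (Fin n)).prod (G (JB N n ℓ))) := hsum.integrable_comp_of_integrable hΨi
    rw [integral_prod _ hΨi2]
    -- inner Jensen and induction
    have hinner : ∀ y : Fin n → ℝ, ∫ g, Ψ (Sum.elim y g) ∂(G (JB N n ℓ)) ≤
        ∏ i, Real.exp (lv.1 * Phi β ℓ (x i + Real.sqrt lv.2 * y i)) := by
      intro y
      have h1 := hcls.integrable (ι := JB N n ℓ)
        (fun a => ∑ i, sp i (leaf ℓ a) * (x i + Real.sqrt lv.2 * y i)) (Bm sp ℓ)
      have h2 := hclsp.integrable (ι := JB N n ℓ)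
        (fun a => ∑ i, sp i (leaf ℓ a) * (x i + Real.sqrt lv.2 * y i)) (Bm sp ℓ)
      have h3 := (Real.concaveOn_rpow hp0.le hp1).le_map_integral
        (μ := G (JB N n ℓ)) (f := fun g => W β ℓ (fun a : Idx N (Fin n → Bool) ℓ =>
          (∑ i, sp i (leaf ℓ a) * (x i + Real.sqrt lv.2 * y i)) + lin (Bm sp ℓ) g a))
        (Real.continuous_rpow_const hp0.le).continuousOn isClosed_Ici
        (Filter.Eventually.of_forall fun g => (hcls.pos _).le) h1 h2
      have h4 : ∫ g, Ψ (Sum.elim y g) ∂(G (JB N n ℓ)) =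
        ∫ g, (W β ℓ (fun a : Idx N (Fin n → Bool) ℓ =>
          (∑ i, sp i (leaf ℓ a) * (x i + Real.sqrt lv.2 * y i)) + lin (Bm sp ℓ) g a)) ^ p
          ∂(G (JB N n ℓ)) := by
        simp only [hΨ, Sum.elim_inl, Sum.elim_inr]
      rw [h4]
      refine h3.trans ?_
      have h5 := upper hβ hN ℓ hG' (fun i => x i + Real.sqrt lv.2 * y i)
      have h6 : 0 ≤ ∫ g, W β ℓ (fun a : Idx N (Fin n → Bool) ℓ =>
          (∑ i, sp i (leaf ℓ a) * (x i + Real.sqrt lv.2 * y i)) + lin (Bm sp ℓ) g a)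
          ∂(G (JB N n ℓ)) := integral_nonneg fun g => (hcls.pos _).le
      refine (Real.rpow_le_rpow h6 h5 hp0.le).trans (le_of_eq ?_)
      rw [← Real.exp_mul, ← Real.exp_sum]
      congr 1
      rw [Finset.mul_sum, Finset.sum_mul]
      refine Finset.sum_congr rfl fun i _ => ?_
      rw [hp]
      field_simp
    have hL := lip_Phi hβ ℓ hG'
    have hprodi : Integrable (fun y : Fin n → ℝ =>
        ∏ i, Real.exp (lv.1 * Phi β ℓ (x i + Real.sqrt lv.2 * y i))) (G (Fin n)) :=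
      Integrable.fintype_prod (f := fun i y => Real.exp (lv.1 * Phi β ℓ (x i + Real.sqrt lv.2 * y)))
        (fun i => hL.integrable_exp _ _ _)
    calc ∫ y, ∫ g, Ψ (Sum.elim y g) ∂(G (JB N n ℓ)) ∂(G (Fin n))
        ≤ ∫ y, ∏ i, Real.exp (lv.1 * Phi β ℓ (x i + Real.sqrt lv.2 * y i)) ∂(G (Fin n)) :=
          integral_mono (hΨi2.integral_prod_left) hprodi hinner
      _ = ∏ i, ∫ y, Real.exp (lv.1 * Phi β ℓ (x i + Real.sqrt lv.2 * y)) ∂γ :=
          integral_fintype_prod_eq_prod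
            (f := fun i y => Real.exp (lv.1 * Phi β ℓ (x i + Real.sqrt lv.2 * y)))
      _ = Real.exp (mh β (lv :: ℓ) * ∑ i, Phi β (lv :: ℓ) (x i)) := by
          rw [Finset.mul_sum, Real.exp_sum]
          refine Finset.prod_congr rfl fun i _ => ?_
          have hpos : 0 < ∫ y, Real.exp (lv.1 * Phi β ℓ (x i + Real.sqrt lv.2 * y)) ∂γ :=
            integral_exp_pos (hL.integrable_exp _ _ _)
          simp only [mh, Phi, T]
          rw [← mul_assoc, mul_one_div, div_self hm.ne', one_mul, Real.exp_log hpos]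

end

end Crest.Agent.R339.Guerra
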