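import Crest.Agent.R339.B107PhiL
import Crest.Agent.R339.GUp

/-!
Row 339 (helper107): the Parisi function of `Guerra.lean` is `PhiL`.
-/

set_option autoImplicit false

namespace Crest.Agent.R339.B

open Crest.ProbabilityR.InvariantGlass (gaussOp)

theorem T_eq_gaussOp {m : ℝ} (hm : m ≠ 0) (δ : ℝ) (f : ℝ → ℝ) :
    Guerra.T m δ f = gaussOp m δ f := by
  funext x
  unfold Guerra.T gaussOp
  rw [if_neg hm, one_div]

theorem mh_eq (β : ℝ) : ∀ l : List (ℝ × ℝ), Guerra.mh β l = headLv β l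
  | [] => rfl
  | _ :: _ => rfl

theorem good_iff (β : ℝ) : ∀ l : List (ℝ × ℝ), Guerra.Good β l ↔ Adm β l
  | [] => Iff.rfl
  | p :: l => by
    show (0 < p.1 ∧ p.1 ≤ Guerra.mh β l ∧ 0 ≤ p.2 ∧ Guerra.Good β l) ↔
      (0 < p.1 ∧ p.1 ≤ headLv β l ∧ 0 ≤ p.2 ∧ Adm β l)
    rw [mh_eq, good_iff β l]

/-- the two recursions agree -/
theorem Phi_eq (β : ℝ) : ∀ {l : List (ℝ × ℝ)}, Adm β l → Guerra.Phi β l = PhiL β l
  | [], _ => rfl
  | p :: l, h => by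
    show Guerra.T p.1 p.2 (Guerra.Phi β l) = gaussOp p.1 p.2 (PhiL β l)
    rw [T_eq_gaussOp h.1.ne', Phi_eq β h.2.2.2]

end Crest.Agent.R339.B
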