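import Mathlib

/-!
Row 339: helper350's exact rational certificate (written in Lean by helper107).
-/

set_option autoImplicit false

namespace Crest.Agent.R339.B

/-- the test polynomial -/
noncomputable def chi (p k l v y : ℝ) : ℝ :=
  5 * p ^ 3 + 34 / 5 * p ^ 2 * k + 29 / 10 * p * k ^ 2 + 2 / 5 * k ^ 3 - 49 / 5 * p * v
    - 22 / 5 * k * v + 7 / 10 * l * v - 7 / 10 * p * l * y - 2 * p ^ 2 * l - 8 / 5 * p * k * l
    - 1 / 5 * k ^ 2 * l - 1 / 10 * p ^ 2 * y - 1 / 10 * k ^ 2 * y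

/-- its derivative along `p' = v`, `k' = w`, `l' = o`, `v' = -(k+2p) v`, `y' = -y²` -/
noncomputable def chi' (p k l v y w o : ℝ) : ℝ :=
  15 * p ^ 2 * v + 34 / 5 * (2 * p * v * k + p ^ 2 * w) + 29 / 10 * (v * k ^ 2 + 2 * p * k * w)
    + 6 / 5 * k ^ 2 * w - 49 / 5 * (v * v - p * (k + 2 * p) * v)
    - 22 / 5 * (w * v - k * (k + 2 * p) * v) + 7 / 10 * (o * v - l * (k + 2 * p) * v)
    - 7 / 10 * (v * l * y + p * o * y - p * l * y ^ 2) - 2 * (2 * p * v * l + p ^ 2 * o)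
    - 8 / 5 * (v * k * l + p * w * l + p * k * o) - 1 / 5 * (2 * k * w * l + k ^ 2 * o)
    - 1 / 10 * (2 * p * v * y - p ^ 2 * y ^ 2) - 1 / 10 * (2 * k * w * y - k ^ 2 * y ^ 2)

/-- the full expression -/
noncomputable def Qc (p k l v y w o : ℝ) : ℝ :=
  ((k + 2 * p) ^ 2 - 2 * v - w) ^ 2 - 12 * (k + 2 * p) ^ 2 * v + 6 * v ^ 2
    + chi' p k l v y w o - (l + 3 * p + 2 * k) * chi p k l v y

/-- the certificate in cone coordinates -/
theorem cert_cone (p k l e z o w : ℝ) (hp : 0 ≤ p) (hk : 0 ≤ k) (hl : 0 ≤ l) (he : 0 ≤ e)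
    (hz : 0 ≤ z) (ho : 0 ≤ o) : 0 ≤ Qc p k l (p * e) (e + z) w (l * (e + z) - o) := by
  have key : Qc p k l (p * e) (e + z) w (l * (e + z) - o) =
      (w - (2 / 5 * k ^ 2 + 11 / 10 * p * k + 3 / 5 * p ^ 2 + 1 / 5 * (p * e)
        + 1 / 10 * k * (e + z) + 1 / 5 * k * l + 4 / 5 * p * l)) ^ 2
      + (-(1 / 5) * k ^ 2 + 1 / 5 * (p * e) - 3 / 10 * k * (e + z) + 2 / 5 * k * l
        + 7 / 10 * p * l) ^ 2
      + (1 / 5 * k ^ 2 * o + 7 / 10 * p * z * o + 8 / 5 * p * k * o + 2 * p ^ 2 * o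
        + 1 / 10 * k ^ 2 * l * z + 1 / 10 * k ^ 2 * l * e + 7 / 10 * p * l ^ 2 * z
        + 2 / 25 * p * k * e * z + 2 / 25 * p * k * e ^ 2 + 3 / 50 * p * k * l * z
        + 13 / 25 * p * k * l * e + 18 / 25 * p * k * l ^ 2 + 2 / 25 * p * k ^ 2 * z
        + 1 / 10 * p * k ^ 2 * e + 1 / 10 * p * k ^ 2 * l + 3 / 25 * p * k ^ 3
        + 1 / 10 * p ^ 2 * z ^ 2 + 1 / 50 * p ^ 2 * e ^ 2 + 1 / 5 * p ^ 2 * l * z
        + 19 / 10 * p ^ 2 * l * e + 87 / 100 * p ^ 2 * l ^ 2 + 2 / 25 * p ^ 2 * k * z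
        + 16 / 25 * p ^ 2 * k * e + 1 / 100 * p ^ 2 * k ^ 2 + 3 / 10 * p ^ 3 * z
        + 3 / 50 * p ^ 3 * e + 1 / 25 * p ^ 3 * l + 7 / 25 * p ^ 3 * k
        + 16 / 25 * p ^ 4) := by
    unfold Qc chi chi'
    ring
  rw [key]
  positivity

/-- **the certificate** -/
theorem cert {p k l v y w o : ℝ} (hp : 0 < p) (hk : 0 ≤ k) (hl : 0 ≤ l) (hv : 0 ≤ v)
    (hvy : v ≤ p * y) (ho : o ≤ l * y) : 0 ≤ Qc p k l v y w o := by
  have h := cert_cone p k l (v / p) (y - v / p) (l * y - o) w hp.le hk hl (by positivity)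
    (by rw [sub_nonneg, div_le_iff₀ hp]; linarith) (by linarith)
  have e1 : p * (v / p) = v := by field_simp
  have e2 : v / p + (y - v / p) = y := by ring
  have e3 : l * y - (l * y - o) = o := by ring
  rw [e1, e2, e3] at h
  exact h

end Crest.Agent.R339.B
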