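import Crest.Agent.R339.B107Red
import Crest.Agent.R339.B107Cert

/-!
Row 339 (helper107): **no gap**. For a profile in the class `Inv` and a weight in the class (G) the
function `E u_xx²` is convex in time on a block.
-/

set_option autoImplicit false

namespace Crest.Agent.R339.B

open MeasureTheory ProbabilityTheory Filter Topology Set
open Crest.Agent.R164.GC
open Crest.ProbabilityR.InvariantGlass (gaussOp)

noncomputable section

theorem slope_tendsto {F : ℝ → ℝ} {F' : ℝ} (h0 : F 0 = 0) (hF : HasDerivAt F F' 0) :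
    Tendsto (fun x => F x * (1 / x)) (𝓝[>] 0) (𝓝 F') := by
  have h1 := hasDerivAt_iff_tendsto_slope.1 hF
  have h2 := h1.mono_left (nhdsWithin_mono (0 : ℝ) (show Ioi (0 : ℝ) ⊆ {0}ᶜ from
    fun z hz => (ne_of_gt hz)))
  refine h2.congr fun x => ?_
  rw [slope_def_field, h0, sub_zero, sub_zero]
  ring

/-- chain rule for `chi` -/
theorem chi_hasDerivAt {p k l v y : ℝ → ℝ} {w o : ℝ} {x : ℝ}
    (hp : HasDerivAt p (v x) x) (hk : HasDerivAt k w x) (hl : HasDerivAt l o x)
    (hv : HasDerivAt v (-((k x + 2 * p x) * v x)) x) (hy : HasDerivAt y (-(y x) ^ 2) x) :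
    HasDerivAt (fun x => chi (p x) (k x) (l x) (v x) (y x))
      (chi' (p x) (k x) (l x) (v x) (y x) w o) x := by
  have e : (fun x => chi (p x) (k x) (l x) (v x) (y x)) = fun x =>
      5 * (p x) ^ 3 + 34 / 5 * ((p x) ^ 2 * k x) + 29 / 10 * (p x * (k x) ^ 2)
      + 2 / 5 * (k x) ^ 3 + (-(49 / 5)) * (p x * v x) + (-(22 / 5)) * (k x * v x)
      + 7 / 10 * (l x * v x) + (-(7 / 10)) * (p x * l x * y x) + (-2) * ((p x) ^ 2 * l x)
      + (-(8 / 5)) * (p x * k x * l x) + (-(1 / 5)) * ((k x) ^ 2 * l x)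
      + (-(1 / 10)) * ((p x) ^ 2 * y x) + (-(1 / 10)) * ((k x) ^ 2 * y x) := by
    funext x
    unfold chi
    ring
  rw [e]
  refine ((((((((((((((hp.fun_pow 3).const_mul 5).fun_add
    (((hp.fun_pow 2).fun_mul hk).const_mul (34 / 5))).fun_add
    ((hp.fun_mul (hk.fun_pow 2)).const_mul (29 / 10))).fun_add
    ((hk.fun_pow 3).const_mul (2 / 5))).fun_add
    ((hp.fun_mul hv).const_mul (-(49 / 5)))).fun_add
    ((hk.fun_mul hv).const_mul (-(22 / 5)))).fun_add
    ((hl.fun_mul hv).const_mul (7 / 10))).fun_add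
    (((hp.fun_mul hl).fun_mul hy).const_mul (-(7 / 10)))).fun_add
    (((hp.fun_pow 2).fun_mul hl).const_mul (-2))).fun_add
    (((hp.fun_mul hk).fun_mul hl).const_mul (-(8 / 5)))).fun_add
    (((hk.fun_pow 2).fun_mul hl).const_mul (-(1 / 5)))).fun_add
    (((hp.fun_pow 2).fun_mul hy).const_mul (-(1 / 10)))).fun_add
    (((hk.fun_pow 2).fun_mul hy).const_mul (-(1 / 10)))).congr_deriv ?_
  unfold chi'
  norm_num
  ring

/-- the integrand -/
def phiI (m : ℝ) (R f : ℝ → ℝ) (x : ℝ) : ℝ :=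
  R x * (Real.exp (m * f x) * (deriv (deriv (deriv (deriv f))) x ^ 2
    - 12 * m * deriv (deriv f) x * deriv (deriv (deriv f)) x ^ 2
    + 6 * m ^ 2 * deriv (deriv f) x ^ 4))

theorem SD.congr {R S : ℝ → ℝ} (h : SD R) (e : ∀ x, S x = R x) : SD S := by
  have : S = R := funext e
  rw [this]; exact h

/-- **The no-gap inequality.** -/
theorem core {β m : ℝ} {f R : ℝ → ℝ} (h : Inv β m f) (hm : 0 < m) (hR : GW R) :
    0 ≤ ∫ x, phiI m R f x := by
  -- basic functions
  have hE : EG fun x => Real.exp (m * f x) := (h.prof.exp_egs m).eg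
  have h2 := h.prof.bd.deriv.eg
  have h3 := h.prof.bd.deriv.deriv.eg
  have h4 := h.prof.bd.deriv.deriv.deriv.eg
  have hI : EG fun x => Real.exp (m * f x) * (deriv (deriv (deriv (deriv f))) x ^ 2
      - 12 * m * deriv (deriv f) x * deriv (deriv (deriv f)) x ^ 2
      + 6 * m ^ 2 * deriv (deriv f) x ^ 4) := by
    refine hE.mul (((h4.pow 2).sub (((h2.const_mul (12 * m)).mul (h3.pow 2)))).add
      ((h2.pow 4).const_mul (6 * m ^ 2)))
  have hφ : SD (phiI m R f) := hR.sds.sd.mul hI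
  set p := fM m f with hp
  set k : ℝ → ℝ := fun x => fb f x - 2 * fM m f x with hk
  set l := fr R with hl
  set v := fa m f with hv
  set W : ℝ → ℝ := fun x => R x * (Real.exp (m * f x) * deriv (deriv f) x ^ 2) with hW
  have dp : ∀ x, HasDerivAt p (v x) x := fM_d h
  have dk : ∀ x, HasDerivAt k (fE m f x) x := fun x =>
    ((fb_d h x).fun_sub ((fM_d h x).const_mul 2)).congr_deriv (by ring)
  have dl : ∀ x, HasDerivAt l (fo R x) x := fr_d hR
  have dv : ∀ x, HasDerivAt v (-((k x + 2 * p x) * v x)) x := fun x =>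
    (fa_d h x).congr_deriv (by simp only [hk, hp, hv]; ring)
  have dy : ∀ x : ℝ, x ≠ 0 → HasDerivAt (fun x : ℝ => 1 / x) (-(1 / x) ^ 2) x := fun x hx => by
    have := hasDerivAt_inv hx
    refine (this.congr_deriv ?_).congr_of_eventuallyEq ?_
    · field_simp
    · exact Eventually.of_forall fun y => one_div y
  have dW : ∀ x, HasDerivAt W (-(W x * (l x + 3 * p x + 2 * k x))) x := fun x => by
    have e1 := ((h.prof.d1 x).const_mul m).exp
    have e2 := (h.prof.bd.deriv.hasDerivAt x).fun_pow 2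
    refine ((Rd hR x).fun_mul (e1.fun_mul e2)).congr_deriv ?_
    simp only [hW, hl, hp, hk]
    rw [u3_eq h]
    unfold fM
    norm_num
    ring
  have hWpos : ∀ x, 0 < W x := fun x =>
    mul_pos (hR.pos x) (mul_pos (Real.exp_pos _) (pow_pos (u2_pos h x) 2))
  set G : ℝ → ℝ := fun x => W x * chi (p x) (k x) (l x) (v x) (1 / x) with hG
  refine integral_nonneg_of_cert (G := G)
    (G' := fun x => -(W x * (l x + 3 * p x + 2 * k x)) * chi (p x) (k x) (l x) (v x) (1 / x) +
      W x * chi' (p x) (k x) (l x) (v x) (1 / x) (fE m f x) (fo R x))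
    hφ.cont hφ.integrable ?_ ?_ ?_ ?_ ?_
  · -- evenness
    intro x
    unfold phiI
    rw [hR.even, h.even, u4_even h, u3_odd h, u2_even h]
    ring
  · intro x hx
    exact (dW x).fun_mul (chi_hasDerivAt (y := fun x => 1 / x) (dp x) (dk x) (dl x) (dv x)
      (dy x hx.ne'))
  · intro x hx
    have hq := cert (p := p x) (k := k x) (l := l x) (v := v x) (y := 1 / x) (w := fE m f x)
      (o := fo R x) ?_ ?_ (fr_nonneg hR hx) (fa_pos h hm x).le ?_ (fo_le hR hx)
    · have e : phiI m R f x + (-(W x * (l x + 3 * p x + 2 * k x)) *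
          chi (p x) (k x) (l x) (v x) (1 / x) +
          W x * chi' (p x) (k x) (l x) (v x) (1 / x) (fE m f x) (fo R x)) =
          W x * Qc (p x) (k x) (l x) (v x) (1 / x) (fE m f x) (fo R x) := by
        have e1 : phiI m R f x = W x * (((k x + 2 * p x) ^ 2 - 2 * v x - fE m f x) ^ 2 -
            12 * (k x + 2 * p x) ^ 2 * v x + 6 * v x ^ 2) := by
          unfold phiI
          rw [u4_eq h, u3_eq h]
          simp only [hW, hk, hp, hv]
          unfold fa
          ring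
        rw [e1]
        unfold Qc
        ring
      rw [e]
      exact mul_nonneg (hWpos x).le hq
    · -- `p x > 0`
      have := h.strictMono hx
      rw [h.d0] at this
      exact mul_pos hm this
    · have := fb_ge h hx.le (m := m)
      simp only [hk]
      linarith
    · have := fa_le h hm hx.le
      rw [mul_one_div, le_div_iff₀ hx]
      simp only [hp, hv]
      linarith
  · -- limit at zero
    have tp : Tendsto p (𝓝[>] 0) (𝓝 0) := by
      have := (dp 0).continuousAt.tendsto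
      rw [hp, fM0 h] at this
      exact this.mono_left nhdsWithin_le_nhds
    have tk : Tendsto k (𝓝[>] 0) (𝓝 0) := by
      have := (dk 0).continuousAt.tendsto
      have e : k 0 = 0 := by simp only [hk]; rw [fb0 h, fM0 h]; ring
      rw [e] at this
      exact this.mono_left nhdsWithin_le_nhds
    have tl : Tendsto l (𝓝[>] 0) (𝓝 0) := by
      have := (dl 0).continuousAt.tendsto
      rw [hl, fr0 hR] at this
      exact this.mono_left nhdsWithin_le_nhds
    have tv : Tendsto v (𝓝[>] 0) (𝓝 (v 0)) :=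
      (dv 0).continuousAt.tendsto.mono_left nhdsWithin_le_nhds
    have tW : Tendsto W (𝓝[>] 0) (𝓝 (W 0)) :=
      (dW 0).continuousAt.tendsto.mono_left nhdsWithin_le_nhds
    have tpy : Tendsto (fun x => p x * (1 / x)) (𝓝[>] 0) (𝓝 (v 0)) :=
      slope_tendsto (fM0 h) (dp 0)
    have tky : Tendsto (fun x => k x * (1 / x)) (𝓝[>] 0) (𝓝 (fE m f 0)) := by
      refine slope_tendsto ?_ (dk 0)
      simp only [hk]; rw [fb0 h, fM0 h]; ring
    have e : G = fun x => W x * (5 * (p x) ^ 3 + 34 / 5 * ((p x) ^ 2 * k x)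
      + 29 / 10 * (p x * (k x) ^ 2)
      + 2 / 5 * (k x) ^ 3 + (-(49 / 5)) * (p x * v x) + (-(22 / 5)) * (k x * v x)
      + 7 / 10 * (l x * v x) + (-(7 / 10)) * (l x * (p x * (1 / x))) + (-2) * ((p x) ^ 2 * l x)
      + (-(8 / 5)) * (p x * k x * l x) + (-(1 / 5)) * ((k x) ^ 2 * l x)
      + (-(1 / 10)) * (p x * (p x * (1 / x))) + (-(1 / 10)) * (k x * (k x * (1 / x)))) := by
      funext x
      simp only [hG]
      unfold chi
      ring
    rw [e]
    have t := tW.mul (((((((((((((((tp.pow 3).const_mul 5).add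
      (((tp.pow 2).mul tk).const_mul (34 / 5))).add
      ((tp.mul (tk.pow 2)).const_mul (29 / 10))).add
      ((tk.pow 3).const_mul (2 / 5))).add
      ((tp.mul tv).const_mul (-(49 / 5)))).add
      ((tk.mul tv).const_mul (-(22 / 5)))).add
      ((tl.mul tv).const_mul (7 / 10))).add
      ((tl.mul tpy).const_mul (-(7 / 10)))).add
      (((tp.pow 2).mul tl).const_mul (-2))).add
      (((tp.mul tk).mul tl).const_mul (-(8 / 5)))).add
      (((tk.pow 2).mul tl).const_mul (-(1 / 5)))).add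
      ((tp.mul tpy).const_mul (-(1 / 10)))).add
      ((tk.mul tky).const_mul (-(1 / 10)))))
    refine t.congr' ?_ |>.trans ?_
    · exact Eventually.of_forall fun x => rfl
    · norm_num
  · -- limit at infinity
    have hEp : EG p := (h.prof.bd.const_mul m).eg
    have hEv : EG v := (h.prof.bd.deriv.const_mul m).eg
    have hEk : EG k := (fb_eg h).sub (hEp.const_mul 2)
    have hS0 : SD W := hR.sds.sd.mul (hE.mul (h2.pow 2))
    have hS1 : SD (fun x => W x * l x) := by
      have : SD fun x => deriv R x * (-1 * (Real.exp (m * f x) * deriv (deriv f) x ^ 2)) :=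
        hR.sds.deriv.sd.mul ((hE.mul (h2.pow 2)).const_mul (-1))
      refine this.congr fun x => ?_
      simp only [hW, hl]
      unfold fr
      have := (hR.pos x).ne'
      field_simp
    have hA : SD fun x => W x * (5 * (p x) ^ 3 + 34 / 5 * ((p x) ^ 2 * k x)
        + 29 / 10 * (p x * (k x) ^ 2) + 2 / 5 * (k x) ^ 3 + (-(49 / 5)) * (p x * v x)
        + (-(22 / 5)) * (k x * v x)) :=
      hS0.mul (((((((hEp.pow 3).const_mul 5).add (((hEp.pow 2).mul hEk).const_mul (34 / 5))).add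
        ((hEp.mul (hEk.pow 2)).const_mul (29 / 10))).add ((hEk.pow 3).const_mul (2 / 5))).add
        ((hEp.mul hEv).const_mul (-(49 / 5)))).add ((hEk.mul hEv).const_mul (-(22 / 5))))
    have hB : SD fun x => (W x * l x) * (7 / 10 * v x + (-2) * (p x) ^ 2 +
        (-(8 / 5)) * (p x * k x) + (-(1 / 5)) * (k x) ^ 2) :=
      hS1.mul ((((hEv.const_mul (7 / 10)).add ((hEp.pow 2).const_mul (-2))).add
        ((hEp.mul hEk).const_mul (-(8 / 5)))).add ((hEk.pow 2).const_mul (-(1 / 5))))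
    have hC : SD fun x => W x * ((-(1 / 10)) * (p x) ^ 2 + (-(1 / 10)) * (k x) ^ 2) :=
      hS0.mul (((hEp.pow 2).const_mul (-(1 / 10))).add ((hEk.pow 2).const_mul (-(1 / 10))))
    have hD : SD fun x => (W x * l x) * ((-(7 / 10)) * p x) :=
      hS1.mul (hEp.const_mul (-(7 / 10)))
    have ty : Tendsto (fun x : ℝ => 1 / x) atTop (𝓝 0) := by
      simpa using tendsto_inv_atTop_zero (𝕜 := ℝ)
    have t := ((hA.tendsto.add hB.tendsto).add ((hC.tendsto.add hD.tendsto).mul ty))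
    have e0 : (0 : ℝ) + 0 + (0 + 0) * 0 = 0 := by norm_num
    rw [e0] at t
    refine t.congr fun x => ?_
    simp only [hG]
    unfold chi
    ring

/-! ### convexity of `E u_xx²` on a block -/

/-- the block integrand in terms of `phiI` -/
theorem block_phiI {β m : ℝ} {Φ : ℝ → ℝ} (h : Inv β m Φ) (hm : 0 < m) (S : ℝ → ℝ) (v y : ℝ) :
    S y * (Wk Φ m 0 v y * (U Φ m 4 v y ^ 2 - 12 * m * U Φ m 2 v y * U Φ m 3 v y ^ 2 +
      6 * m ^ 2 * U Φ m 2 v y ^ 4)) = phiI m S (gaussOp m v Φ) y := by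
  unfold phiI
  rw [W0_eq h.prof hm.ne', U_succ Φ m 3, U_three, U_two, U_zero]

theorem convexOn_of_second {g g1 g2 : ℝ → ℝ} {d : ℝ} (hc : Continuous g)
    (h1 : ∀ τ, 0 < τ → τ < d → HasDerivAt g (g1 τ) τ)
    (h2 : ∀ τ, 0 < τ → τ < d → HasDerivAt g1 (g2 τ) τ)
    (h3 : ∀ τ, 0 < τ → τ < d → 0 ≤ g2 τ) : ConvexOn ℝ (Icc 0 d) g := by
  refine convexOn_of_hasDerivWithinAt2_nonneg (convex_Icc 0 d) hc.continuousOn
    (f' := g1) (f'' := g2) ?_ ?_ ?_
  · intro x hx
    rw [interior_Icc] at hx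
    exact (h1 x hx.1 hx.2).hasDerivWithinAt
  · intro x hx
    rw [interior_Icc] at hx
    exact (h2 x hx.1 hx.2).hasDerivWithinAt
  · intro x hx
    rw [interior_Icc] at hx
    exact h3 x hx.1 hx.2

/-- **No gap**, start from a density `R` whose heat flow is in the class (G). -/
theorem conv_dens {β m : ℝ} {Φ : ℝ → ℝ} (h : Inv β m Φ) (hm : 0 < m) (hmβ : m ≤ β) {R : ℝ → ℝ}
    (hR : SD R) (h0 : ∀ x, 0 ≤ R x) (hG : ∀ τ, 0 < τ → GW (H (√τ) R)) (d : ℝ) :
    ConvexOn ℝ (Icc 0 d) (EE Φ m d (dens R) fun v x => U Φ m 2 v x ^ 2) := by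
  have hν := dens_em hR h0
  refine convexOn_of_second (EE_cont h.prof m (tb_U2sq h.prof hm.ne').ug hν d)
    (fun τ h1 h2 => dE_U2sq h.prof hm.ne' hν h1 h2)
    (fun τ h1 h2 => ddE_U2sq h.prof hm.ne' hν h1 h2) fun τ h1 h2 => ?_
  rw [EE_dens h.prof m hR h0 ((tb_LU2sq h.prof hm.ne').ugL h.prof) d h1]
  have := core (h.step hm hmβ (d - τ)) hm (hG τ h1)
  refine this.trans (le_of_eq ?_)
  refine integral_congr_ae (Eventually.of_forall fun y => ?_)
  exact (block_phiI h hm _ _ _).symm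

/-- **No gap**, start from a point mass at `0`. -/
theorem conv_dirac {β m : ℝ} {Φ : ℝ → ℝ} (h : Inv β m Φ) (hm : 0 < m) (hmβ : m ≤ β)
    {c : ENNReal} (hc : c ≠ ⊤) (hG : ∀ τ, 0 < τ → GW (gd τ)) (d : ℝ) :
    ConvexOn ℝ (Icc 0 d) (EE Φ m d (c • Measure.dirac 0) fun v x => U Φ m 2 v x ^ 2) := by
  have hν : EM (c • Measure.dirac (0 : ℝ)) := (EM.dirac 0).smul hc
  refine convexOn_of_second (EE_cont h.prof m (tb_U2sq h.prof hm.ne').ug hν d)
    (fun τ h1 h2 => dE_U2sq h.prof hm.ne' hν h1 h2)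
    (fun τ h1 h2 => ddE_U2sq h.prof hm.ne' hν h1 h2) fun τ h1 h2 => ?_
  rw [EE_dirac m c _ d h1]
  have := core (h.step hm hmβ (d - τ)) hm (hG τ h1)
  have e : ∫ y, c.toReal * gd τ y * (Wk Φ m 0 (d - τ) y * (U Φ m 4 (d - τ) y ^ 2 -
      12 * m * U Φ m 2 (d - τ) y * U Φ m 3 (d - τ) y ^ 2 + 6 * m ^ 2 * U Φ m 2 (d - τ) y ^ 4)) =
      c.toReal * ∫ x, phiI m (gd τ) (gaussOp m (d - τ) Φ) x := by
    rw [← integral_const_mul]
    refine integral_congr_ae (Eventually.of_forall fun y => ?_)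
    show c.toReal * gd τ y * (Wk Φ m 0 (d - τ) y * (U Φ m 4 (d - τ) y ^ 2 -
      12 * m * U Φ m 2 (d - τ) y * U Φ m 3 (d - τ) y ^ 2 + 6 * m ^ 2 * U Φ m 2 (d - τ) y ^ 4)) =
      c.toReal * phiI m (gd τ) (gaussOp m (d - τ) Φ) y
    rw [← block_phiI h hm, mul_assoc]
  rw [e]
  exact mul_nonneg ENNReal.toReal_nonneg this

/-- the Gaussian density is in the class (G) -/
theorem gd_gw {σ : ℝ} (hσ : 0 < σ) : GW (gd σ) := by
  have e : ∀ x, -deriv (gd σ) x / gd σ x = x / σ := by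
    intro x
    rw [(gd_hasDerivAt hσ.ne' x).deriv]
    have := (gd_pos hσ x).ne'
    field_simp
  refine ⟨gd_sds hσ, gd_pos hσ, gd_neg σ, fun x hx => ?_, ?_⟩
  · rw [e]
    positivity
  · intro x hx y hy _
    simp only [e]
    have hx' : x ≠ 0 := (mem_Ioi.1 hx).ne'
    have hy' : y ≠ 0 := (mem_Ioi.1 hy).ne'
    refine le_of_eq ?_
    field_simp

/-- **No gap** on the first block. -/
theorem conv_first {β m : ℝ} {Φ : ℝ → ℝ} (h : Inv β m Φ) (hm : 0 < m) (hmβ : m ≤ β)
    {c : ENNReal} (hc : c ≠ ⊤) (d : ℝ) :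
    ConvexOn ℝ (Icc 0 d) (EE Φ m d (c • Measure.dirac 0) fun v x => U Φ m 2 v x ^ 2) :=
  conv_dirac h hm hmβ hc (fun _ hτ => gd_gw hτ) d

end

end Crest.Agent.R339.B
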