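import Crest.Agent.R339.B107U

/-!
Row 339 (helper107): densities. Superexponential decay (`SD`, `SDS`), the symmetry of the heat
flow, the expectation of a block as an integral against the density, integration by parts.
-/

set_option autoImplicit false

namespace Crest.Agent.R339.B

open MeasureTheory ProbabilityTheory Filter Topology Set
open Crest.Agent.R164.GC
open Crest.ProbabilityR.InvariantGlass (gaussOp)

noncomputable section

/-- superexponential decay -/
structure SD (R : ℝ → ℝ) : Prop where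
  cont : Continuous R
  bd : ∀ A : ℝ, ∃ K : ℝ, 0 ≤ K ∧ ∀ x, |R x| ≤ K * Real.exp (-(A * |x|))

theorem SD.eg {R : ℝ → ℝ} (h : SD R) : EG R := by
  obtain ⟨K, hK, hb⟩ := h.bd 0
  exact EG.of_bdd h.cont (K := K) fun x => by simpa using hb x

theorem SD.mul {R φ : ℝ → ℝ} (h : SD R) (hφ : EG φ) : SD (fun x => R x * φ x) := by
  obtain ⟨K', A', hK', hA', hb'⟩ := hφ.bd
  refine ⟨h.cont.mul hφ.cont, fun A => ?_⟩
  obtain ⟨K, hK, hb⟩ := h.bd (A + A')
  refine ⟨K * K', by positivity, fun x => ?_⟩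
  calc |R x * φ x| = |R x| * |φ x| := abs_mul _ _
    _ ≤ (K * Real.exp (-((A + A') * |x|))) * (K' * Real.exp (A' * |x|)) :=
        mul_le_mul (hb x) (hb' x) (abs_nonneg _) (by positivity)
    _ = K * K' * (Real.exp (-((A + A') * |x|)) * Real.exp (A' * |x|)) := by ring
    _ = _ := by rw [← Real.exp_add]; ring_nf

theorem SD.mul' {R φ : ℝ → ℝ} (h : SD R) (hφ : EG φ) : SD (fun x => φ x * R x) := by
  have := h.mul hφ
  have e : (fun x => φ x * R x) = fun x => R x * φ x := by funext x; ring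
  rw [e]; exact this

theorem SD.add {R S : ℝ → ℝ} (h : SD R) (h' : SD S) : SD (fun x => R x + S x) := by
  refine ⟨h.cont.add h'.cont, fun A => ?_⟩
  obtain ⟨K, hK, hb⟩ := h.bd A
  obtain ⟨K', hK', hb'⟩ := h'.bd A
  refine ⟨K + K', by positivity, fun x => ?_⟩
  calc |R x + S x| ≤ |R x| + |S x| := abs_add_le _ _
    _ ≤ K * Real.exp (-(A * |x|)) + K' * Real.exp (-(A * |x|)) := add_le_add (hb x) (hb' x)
    _ = _ := by ring

theorem integrable_exp_neg_abs : Integrable (fun x : ℝ => Real.exp (-|x|)) := by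
  refine Integrable.mono' (integrable_inv_one_add_sq.const_mul 2) (by fun_prop)
    (Eventually.of_forall fun x => ?_)
  rw [Real.norm_eq_abs, abs_of_pos (Real.exp_pos _), Real.exp_neg]
  have h1 := Real.quadratic_le_exp_of_nonneg (abs_nonneg x)
  have h2 : |x| ^ 2 = x ^ 2 := sq_abs x
  have h3 := abs_nonneg x
  have h4 : (1 + x ^ 2) / 2 ≤ Real.exp |x| := by nlinarith
  have h5 : (0 : ℝ) < (1 + x ^ 2) / 2 := by positivity
  calc (Real.exp |x|)⁻¹ ≤ ((1 + x ^ 2) / 2)⁻¹ := inv_anti₀ h5 h4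
    _ = 2 * (1 + x ^ 2)⁻¹ := by field_simp

theorem SD.integrable {R : ℝ → ℝ} (h : SD R) : Integrable R := by
  obtain ⟨K, hK, hb⟩ := h.bd 1
  refine Integrable.mono' (integrable_exp_neg_abs.const_mul K) h.cont.aestronglyMeasurable
    (Eventually.of_forall fun x => ?_)
  rw [Real.norm_eq_abs]
  simpa using hb x

theorem SD.heat {R : ℝ → ℝ} (h : SD R) (t : ℝ) : SD (H t R) := by
  refine ⟨(H_eg h.eg t).cont, fun A => ?_⟩
  obtain ⟨K, hK, hb⟩ := h.bd |A|
  have hI : 0 ≤ ∫ g, Real.exp (|A| * |t| * |g|) ∂gaussianReal 0 1 :=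
    integral_nonneg fun g => (Real.exp_pos _).le
  refine ⟨K * ∫ g, Real.exp (|A| * |t| * |g|) ∂gaussianReal 0 1, by positivity, fun x => ?_⟩
  unfold H
  have h1 : ∀ g, |R (x + t * g)| ≤ K * Real.exp (-(|A| * |x|)) * Real.exp (|A| * |t| * |g|) := by
    intro g
    refine (hb _).trans ?_
    rw [mul_assoc, ← Real.exp_add]
    refine mul_le_mul_of_nonneg_left (Real.exp_le_exp.2 ?_) hK
    have h2 : |x| ≤ |x + t * g| + |t| * |g| := by
      have := abs_sub_abs_le_abs_sub x (x + t * g)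
      have e : x - (x + t * g) = -(t * g) := by ring
      rw [e, abs_neg, abs_mul] at this
      linarith
    have := mul_le_mul_of_nonneg_left h2 (abs_nonneg A)
    linarith
  have h3 : Real.exp (-(|A| * |x|)) ≤ Real.exp (-(A * |x|)) := by
    refine Real.exp_le_exp.2 ?_
    have := mul_le_mul_of_nonneg_right (le_abs_self A) (abs_nonneg x)
    linarith
  calc |∫ g, R (x + t * g) ∂gaussianReal 0 1| ≤ ∫ g, |R (x + t * g)| ∂gaussianReal 0 1 :=
        abs_integral_le_integral_abs
    _ ≤ ∫ g, K * Real.exp (-(|A| * |x|)) * Real.exp (|A| * |t| * |g|) ∂gaussianReal 0 1 :=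
        integral_mono (h.eg.int t x).abs ((integrable_exp_abs _).const_mul _) h1
    _ = (K * ∫ g, Real.exp (|A| * |t| * |g|) ∂gaussianReal 0 1) * Real.exp (-(|A| * |x|)) := by
        rw [integral_const_mul]; ring
    _ ≤ _ := mul_le_mul_of_nonneg_left h3 (by positivity)

/-- Gaussian decay gives `SD` -/
theorem SD.of_gauss {R : ℝ → ℝ} (hc : Continuous R) {K c : ℝ} (hK : 0 ≤ K) (hcp : 0 < c)
    (hb : ∀ x, |R x| ≤ K * Real.exp (-(c * x ^ 2))) : SD R := by
  refine ⟨hc, fun A => ⟨K * Real.exp (A ^ 2 / (4 * c)), by positivity, fun x => ?_⟩⟩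
  refine (hb x).trans ?_
  rw [mul_assoc, ← Real.exp_add]
  refine mul_le_mul_of_nonneg_left (Real.exp_le_exp.2 ?_) hK
  have h1 : 0 ≤ c * (|x| - A / (2 * c)) ^ 2 := by positivity
  have h2 : c * (|x| - A / (2 * c)) ^ 2 = c * x ^ 2 - A * |x| + A ^ 2 / (4 * c) := by
    have h3 : |x| ^ 2 = x ^ 2 := sq_abs x
    field_simp
    rw [← h3]
    ring
  linarith

/-- all derivatives have superexponential decay -/
def SDn : ℕ → (ℝ → ℝ) → Prop
  | 0, f => SD f
  | n + 1, f => SD f ∧ Differentiable ℝ f ∧ SDn n (deriv f)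

/-- all derivatives have superexponential decay -/
def SDS (f : ℝ → ℝ) : Prop := ∀ n, SDn n f

theorem SDn.sd {n : ℕ} {f : ℝ → ℝ} (h : SDn n f) : SD f := by
  cases n with
  | zero => exact h
  | succ n => exact h.1

theorem SDn.of_succ : ∀ {n : ℕ} {f : ℝ → ℝ}, SDn (n + 1) f → SDn n f
  | 0, _, h => h.1
  | _ + 1, _, h => ⟨h.1, h.2.1, SDn.of_succ h.2.2⟩

theorem SDn.add : ∀ {n : ℕ} {f g : ℝ → ℝ}, SDn n f → SDn n g → SDn n (fun x => f x + g x)
  | 0, f, g, hf, hg => SD.add hf hg
  | n + 1, f, g, hf, hg => by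
    refine ⟨hf.1.add hg.1, hf.2.1.add hg.2.1, ?_⟩
    have e : deriv (fun x => f x + g x) = fun x => deriv f x + deriv g x := by
      funext x
      exact deriv_fun_add (hf.2.1 x) (hg.2.1 x)
    rw [e]
    exact hf.2.2.add hg.2.2

theorem SDn.mul : ∀ {n : ℕ} {f g : ℝ → ℝ}, SDn n f → EGn n g → SDn n (fun x => f x * g x)
  | 0, f, g, hf, hg => SD.mul hf hg
  | n + 1, f, g, hf, hg => by
    refine ⟨hf.1.mul hg.1, hf.2.1.mul hg.2.1, ?_⟩
    have e : deriv (fun x => f x * g x) = fun x => deriv f x * g x + f x * deriv g x := by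
      funext x
      exact deriv_fun_mul (hf.2.1 x) (hg.2.1 x)
    rw [e]
    exact (hf.2.2.mul hg.of_succ).add (hf.of_succ.mul hg.2.2)

theorem SDn.egn : ∀ {n : ℕ} {f : ℝ → ℝ}, SDn n f → EGn n f
  | 0, _, h => SD.eg h
  | _ + 1, _, h => ⟨h.1.eg, h.2.1, h.2.2.egn⟩

theorem SDS.egs {f : ℝ → ℝ} (h : SDS f) : EGS f := fun n => (h n).egn
theorem SDS.sd {f : ℝ → ℝ} (h : SDS f) : SD f := h 0
theorem SDS.diff {f : ℝ → ℝ} (h : SDS f) : Differentiable ℝ f := (h 1).2.1
theorem SDS.hasDerivAt {f : ℝ → ℝ} (h : SDS f) (x : ℝ) : HasDerivAt f (deriv f x) x :=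
  (h.diff x).hasDerivAt
theorem SDS.deriv {f : ℝ → ℝ} (h : SDS f) : SDS (deriv f) := fun n => (h (n + 1)).2.2
theorem SDS.mul {f g : ℝ → ℝ} (hf : SDS f) (hg : EGS g) : SDS (fun x => f x * g x) :=
  fun n => (hf n).mul (hg n)
theorem SDS.add {f g : ℝ → ℝ} (hf : SDS f) (hg : SDS g) : SDS (fun x => f x + g x) :=
  fun n => (hf n).add (hg n)

theorem SDS.heat {f : ℝ → ℝ} (hf : SDS f) (t : ℝ) : SDS (H t f) := by
  intro n
  induction n generalizing f with
  | zero => exact SD.heat hf.sd t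
  | succ n ih =>
    refine ⟨SD.heat hf.sd t, fun x => (H_hasDerivAt hf.egs t x).differentiableAt, ?_⟩
    rw [H_deriv hf.egs]
    exact ih hf.deriv

/-- polynomials are of exponential growth -/
theorem id_egs : EGS (fun x : ℝ => x) := by
  refine EGS.of (UG.id.eg 0) differentiable_id ?_
  have : deriv (fun x : ℝ => x) = fun _ => 1 := by funext x; simp
  rw [this]
  exact EGS.const 1

/-- the Gaussian density of variance `σ > 0` -/
def gd (σ x : ℝ) : ℝ := (√(2 * Real.pi * σ))⁻¹ * Real.exp (-x ^ 2 / (2 * σ))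

theorem gd_hasDerivAt {σ : ℝ} (hσ : σ ≠ 0) (x : ℝ) :
    HasDerivAt (gd σ) (gd σ x * (-(1 / σ) * x)) x := by
  unfold gd
  have h1 : HasDerivAt (fun x : ℝ => -x ^ 2 / (2 * σ)) (-(1 / σ) * x) x := by
    have h2 : HasDerivAt (fun x : ℝ => x ^ 2) (2 * x) x := by
      have := hasDerivAt_pow 2 x
      simpa using this
    refine (h2.fun_neg.div_const (2 * σ)).congr_deriv ?_
    field_simp
  refine (h1.exp.const_mul _).congr_deriv ?_
  ring

theorem gd_sd {σ : ℝ} (hσ : 0 < σ) : SD (gd σ) := by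
  have hc : Continuous (gd σ) := by unfold gd; fun_prop
  refine SD.of_gauss hc (K := (√(2 * Real.pi * σ))⁻¹) (c := 1 / (2 * σ)) (by positivity)
    (by positivity) fun x => ?_
  unfold gd
  rw [abs_of_pos (by positivity)]
  refine le_of_eq ?_
  congr 2
  field_simp

theorem gd_sds {σ : ℝ} (hσ : 0 < σ) : SDS (gd σ) := by
  intro n
  have hd : Differentiable ℝ (gd σ) := fun x => (gd_hasDerivAt hσ.ne' x).differentiableAt
  induction n with
  | zero => exact gd_sd hσ
  | succ n ih =>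
    refine ⟨gd_sd hσ, hd, ?_⟩
    have e : deriv (gd σ) = fun x => gd σ x * (-(1 / σ) * x) :=
      funext fun x => (gd_hasDerivAt hσ.ne' x).deriv
    rw [e]
    exact ih.mul (id_egs.const_mul _ n)

theorem gd_pos {σ : ℝ} (hσ : 0 < σ) (x : ℝ) : 0 < gd σ x := by
  unfold gd
  positivity

theorem pdf_eq_gd {τ : ℝ} (hτ : 0 < τ) (x y : ℝ) :
    gaussianPDFReal x (vv √τ) y = gd τ (y - x) := by
  rw [gaussianPDFReal_def]
  unfold gd
  rw [vv_coe, Real.sq_sqrt hτ.le]

/-- the heat flow as a convolution with the Gaussian density -/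
theorem H_eq_gd (φ : ℝ → ℝ) {τ : ℝ} (hτ : 0 < τ) (x : ℝ) :
    H (√τ) φ x = ∫ y, gd τ (y - x) * φ y := by
  rw [H_eq_pdf φ (Real.sqrt_pos.2 hτ).ne' x]
  refine integral_congr_ae (Eventually.of_forall fun y => ?_)
  show gaussianPDFReal x (vv √τ) y * φ y = _
  rw [pdf_eq_gd hτ]

theorem gd_neg (σ x : ℝ) : gd σ (-x) = gd σ x := by
  unfold gd
  rw [neg_sq]

/-- **Symmetry of the heat flow.** -/
theorem heat_symm {R φ : ℝ → ℝ} (hR : SD R) (hφ : EG φ) {τ : ℝ} (hτ : 0 < τ) :
    ∫ x, R x * H (√τ) φ x = ∫ y, H (√τ) R y * φ y := by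
  have ht : √τ ≠ 0 := (Real.sqrt_pos.2 hτ).ne'
  have hgc : Continuous (gd τ) := by unfold gd; fun_prop
  have hRc := hR.cont
  have hφc := hφ.cont
  -- the double integrand
  have hint : Integrable (Function.uncurry fun x y : ℝ => R x * (gd τ (y - x) * φ y))
      ((volume : Measure ℝ).prod volume) := by
    have hm : AEStronglyMeasurable (Function.uncurry fun x y : ℝ => R x * (gd τ (y - x) * φ y))
        ((volume : Measure ℝ).prod volume) :=
      (by fun_prop : Continuous fun p : ℝ × ℝ =>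
        R p.1 * (gd τ (p.2 - p.1) * φ p.2)).aestronglyMeasurable
    rw [integrable_prod_iff hm]
    have habs : EG fun y => |φ y| := by
      obtain ⟨K, A, hK, hA, hb⟩ := hφ.bd
      exact ⟨hφc.abs, K, A, hK, hA, fun x => by rw [abs_abs]; exact hb x⟩
    constructor
    · refine Eventually.of_forall fun x => ?_
      have := (pdf_integrable hφ ht x).const_mul (R x)
      refine this.congr (Eventually.of_forall fun y => ?_)
      show R x * (gaussianPDFReal x (vv √τ) y * φ y) = R x * (gd τ (y - x) * φ y)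
      rw [pdf_eq_gd hτ]
    · have h1 : (fun x => ∫ y, ‖Function.uncurry (fun x y : ℝ => R x * (gd τ (y - x) * φ y))
          (x, y)‖) = fun x => |R x| * H (√τ) (fun y => |φ y|) x := by
        funext x
        rw [H_eq_gd _ hτ, ← integral_const_mul]
        refine integral_congr_ae (Eventually.of_forall fun y => ?_)
        show ‖R x * (gd τ (y - x) * φ y)‖ = |R x| * (gd τ (y - x) * |φ y|)
        rw [Real.norm_eq_abs, abs_mul, abs_mul, abs_of_pos (gd_pos hτ _)]
      rw [h1]
      have h2 : SD fun x => |R x| := ⟨hRc.abs, fun A => by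
        obtain ⟨K, hK, hb⟩ := hR.bd A
        exact ⟨K, hK, fun x => by rw [abs_abs]; exact hb x⟩⟩
      exact (h2.mul (H_eg habs (√τ))).integrable
  calc ∫ x, R x * H (√τ) φ x = ∫ x, ∫ y, R x * (gd τ (y - x) * φ y) := by
        refine integral_congr_ae (Eventually.of_forall fun x => ?_)
        show R x * H (√τ) φ x = ∫ y, R x * (gd τ (y - x) * φ y)
        rw [H_eq_gd _ hτ, ← integral_const_mul]
    _ = ∫ y, ∫ x, R x * (gd τ (y - x) * φ y) := integral_integral_swap hint
    _ = ∫ y, H (√τ) R y * φ y := by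
        refine integral_congr_ae (Eventually.of_forall fun y => ?_)
        show ∫ x, R x * (gd τ (y - x) * φ y) = H (√τ) R y * φ y
        rw [H_eq_gd _ hτ, ← integral_mul_const]
        refine integral_congr_ae (Eventually.of_forall fun x => ?_)
        show R x * (gd τ (y - x) * φ y) = gd τ (x - y) * R x * φ y
        rw [← gd_neg τ (y - x), neg_sub]
        ring

/-- the measure with density `R` -/
def dens (R : ℝ → ℝ) : Measure ℝ := volume.withDensity fun x => ENNReal.ofReal (R x)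

theorem integral_dens {R : ℝ → ℝ} (hR : SD R) (h0 : ∀ x, 0 ≤ R x) (φ : ℝ → ℝ) :
    ∫ x, φ x ∂dens R = ∫ x, R x * φ x := by
  unfold dens
  rw [integral_withDensity_eq_integral_toReal_smul (by
      exact (hR.cont.measurable).ennreal_ofReal) (Eventually.of_forall fun x =>
      ENNReal.ofReal_lt_top)]
  refine integral_congr_ae (Eventually.of_forall fun x => ?_)
  show (ENNReal.ofReal (R x)).toReal • φ x = R x * φ x
  rw [ENNReal.toReal_ofReal (h0 x), smul_eq_mul]

theorem dens_em {R : ℝ → ℝ} (hR : SD R) (h0 : ∀ x, 0 ≤ R x) : EM (dens R) := by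
  intro A
  unfold dens
  rw [integrable_withDensity_iff_integrable_smul₀'
    ((hR.cont.measurable).ennreal_ofReal).aemeasurable
    (Eventually.of_forall fun x => ENNReal.ofReal_lt_top)]
  have h1 : EG fun x : ℝ => Real.exp (A * |x|) := by
    refine ⟨by fun_prop, 1, |A|, zero_le_one, abs_nonneg A, fun x => ?_⟩
    rw [abs_of_pos (Real.exp_pos _), one_mul]
    exact Real.exp_le_exp.2 (mul_le_mul_of_nonneg_right (le_abs_self A) (abs_nonneg x))
  refine (hR.mul h1).integrable.congr (Eventually.of_forall fun x => ?_)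
  show R x * Real.exp (A * |x|) = (ENNReal.ofReal (R x)).toReal • Real.exp (A * |x|)
  rw [ENNReal.toReal_ofReal (h0 x), smul_eq_mul]

section EEd

variable {Φ : ℝ → ℝ} (h : Prof Φ) (m : ℝ)
include h

/-- the expectation of a block through the density, initial law with a density -/
theorem EE_dens {R : ℝ → ℝ} (hR : SD R) (h0 : ∀ x, 0 ≤ R x) {F : ℝ → ℝ → ℝ} (hF : UG F) (d : ℝ)
    {τ : ℝ} (hτ : 0 < τ) : EE Φ m d (dens R) F τ =
      ∫ y, H (√τ) R y * (Wk Φ m 0 (d - τ) y * F (d - τ) y) := by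
  unfold EE
  rw [integral_dens hR h0]
  exact heat_symm hR (((Wk_ug h m 0).mul hF).eg (d - τ)) hτ

omit h in
/-- the expectation of a block through the density, start from a point mass at `0` -/
theorem EE_dirac (c : ENNReal) (F : ℝ → ℝ → ℝ) (d : ℝ)
    {τ : ℝ} (hτ : 0 < τ) : EE Φ m d (c • Measure.dirac 0) F τ =
      ∫ y, (c.toReal * gd τ y) * (Wk Φ m 0 (d - τ) y * F (d - τ) y) := by
  unfold EE
  rw [integral_smul_measure, integral_dirac, H_eq_gd _ hτ, smul_eq_mul, ← integral_const_mul]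
  refine integral_congr_ae (Eventually.of_forall fun y => ?_)
  simp only [sub_zero]
  ring

end EEd

/-- integration by parts on the line -/
theorem integral_deriv_zero {f f' : ℝ → ℝ} (hd : ∀ x, HasDerivAt f (f' x) x) (hf : SD f)
    (hf' : SD f') : ∫ x, f' x = 0 :=
  integral_eq_zero_of_hasDerivAt_of_integrable hd hf'.integrable hf.integrable

end

end Crest.Agent.R339.B
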