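import Mathlib

/-!
Row 339 (helper107): determinants. Andréief's identity, signs of products of determinants of
functions, the 3×3 Rolle lemma, total positivity of order three of the exponential kernel.
-/

set_option autoImplicit false

namespace Crest.Agent.R339.B

open MeasureTheory Finset

/-- **Andréief's identity.** -/
theorem andreief {n : ℕ} (μ : Measure ℝ) [SigmaFinite μ] (k F : Fin n → ℝ → ℝ)
    (hint : ∀ i j, Integrable (fun u => k i u * F j u) μ) :
    ∫ u : Fin n → ℝ, Matrix.det (Matrix.of fun i j => k i (u j)) *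
      Matrix.det (Matrix.of fun i j => F i (u j)) ∂(Measure.pi fun _ => μ) =
      (n.factorial : ℝ) * Matrix.det (Matrix.of fun i j => ∫ u, k i u * F j u ∂μ) := by
  have h1 : ∀ u : Fin n → ℝ, Matrix.det (Matrix.of fun i j => k i (u j)) *
      Matrix.det (Matrix.of fun i j => F i (u j)) =
      ∑ σ : Equiv.Perm (Fin n), ∑ τ : Equiv.Perm (Fin n),
        ((Equiv.Perm.sign σ : ℤ) : ℝ) * ((Equiv.Perm.sign τ : ℤ) : ℝ) *
          ∏ j, (k (σ j) (u j) * F (τ j) (u j)) := by
    intro u
    rw [Matrix.det_apply', Matrix.det_apply', Finset.sum_mul_sum]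
    refine Finset.sum_congr rfl fun σ _ => Finset.sum_congr rfl fun τ _ => ?_
    rw [Finset.prod_mul_distrib]
    simp only [Matrix.of_apply]
    ring
  have hI : ∀ σ τ : Equiv.Perm (Fin n), Integrable
      (fun u : Fin n → ℝ => ∏ j, (k (σ j) (u j) * F (τ j) (u j))) (Measure.pi fun _ => μ) := by
    intro σ τ
    exact Integrable.fintype_prod (f := fun j (x : ℝ) => k (σ j) x * F (τ j) x)
      (fun j => hint (σ j) (τ j))
  simp only [h1]
  rw [integral_finsetSum _ fun σ _ => integrable_finsetSum _ fun τ _ =>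
    (hI σ τ).const_mul _]
  have h2 : ∀ σ : Equiv.Perm (Fin n), ∫ u : Fin n → ℝ, ∑ τ : Equiv.Perm (Fin n),
        ((Equiv.Perm.sign σ : ℤ) : ℝ) * ((Equiv.Perm.sign τ : ℤ) : ℝ) *
          ∏ j, (k (σ j) (u j) * F (τ j) (u j)) ∂(Measure.pi fun _ => μ) =
      ∑ τ : Equiv.Perm (Fin n), ((Equiv.Perm.sign σ : ℤ) : ℝ) *
        ((Equiv.Perm.sign τ : ℤ) : ℝ) * ∏ j, ∫ x, k (σ j) x * F (τ j) x ∂μ := by
    intro σ
    rw [integral_finsetSum _ fun τ _ => (hI σ τ).const_mul _]
    refine Finset.sum_congr rfl fun τ _ => ?_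
    rw [integral_const_mul]
    congr 1
    exact integral_fintype_prod_eq_prod (f := fun j (x : ℝ) => k (σ j) x * F (τ j) x)
  simp only [h2]
  rw [Finset.sum_comm]
  have h3 : ∀ τ : Equiv.Perm (Fin n), ∑ σ : Equiv.Perm (Fin n), ((Equiv.Perm.sign σ : ℤ) : ℝ) *
        ((Equiv.Perm.sign τ : ℤ) : ℝ) * ∏ j, ∫ x, k (σ j) x * F (τ j) x ∂μ =
      Matrix.det (Matrix.of fun i j => ∫ u, k i u * F j u ∂μ) := by
    intro τ
    rw [Matrix.det_apply']
    refine Fintype.sum_equiv (Equiv.mulRight τ⁻¹) _ _ fun σ => ?_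
    rw [Equiv.coe_mulRight, Equiv.Perm.sign_mul, Equiv.Perm.sign_inv]
    have e1 : (∏ j, ∫ x, k (σ j) x * F (τ j) x ∂μ) =
        ∏ j, Matrix.of (fun i j => ∫ u, k i u * F j u ∂μ) ((σ * τ⁻¹) j) j := by
      refine Fintype.prod_equiv τ _ _ fun j => ?_
      simp [Matrix.of_apply]
    rw [e1]
    push_cast
    ring
  simp only [h3]
  rw [Finset.sum_const, Finset.card_univ, Fintype.card_perm, Fintype.card_fin, nsmul_eq_mul]

/-- the sign of a product of two determinants of functions from the ordered case -/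
theorem det_mul_det_nonpos {n : ℕ} (k F : Fin n → ℝ → ℝ)
    (hk : ∀ u : Fin n → ℝ, StrictMono u → 0 ≤ Matrix.det (Matrix.of fun i j => k i (u j)))
    (hF : ∀ u : Fin n → ℝ, StrictMono u → Matrix.det (Matrix.of fun i j => F i (u j)) ≤ 0)
    (u : Fin n → ℝ) :
    Matrix.det (Matrix.of fun i j => k i (u j)) * Matrix.det (Matrix.of fun i j => F i (u j))
      ≤ 0 := by
  by_cases hinj : Function.Injective u
  · have hm : StrictMono (u ∘ Tuple.sort u) :=
      (Tuple.monotone_sort u).strictMono_of_injective (hinj.comp (Tuple.sort u).injective)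
    have e : ∀ f : Fin n → ℝ → ℝ, Matrix.det (Matrix.of fun i j => f i ((u ∘ Tuple.sort u) j)) =
        ((Equiv.Perm.sign (Tuple.sort u) : ℤ) : ℝ) *
          Matrix.det (Matrix.of fun i j => f i (u j)) := by
      intro f
      have := Matrix.det_permute' (Tuple.sort u) (Matrix.of fun i j => f i (u j))
      rw [← this]
      rfl
    have h1 := hk _ hm
    have h2 := hF _ hm
    have h3 := mul_nonpos_of_nonneg_of_nonpos h1 h2
    rw [e k, e F] at h3
    have hs : ((Equiv.Perm.sign (Tuple.sort u) : ℤ) : ℝ) *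
        ((Equiv.Perm.sign (Tuple.sort u) : ℤ) : ℝ) = 1 := by
      rcases Int.units_eq_one_or (Equiv.Perm.sign (Tuple.sort u)) with h | h <;> simp [h]
    calc _ = (((Equiv.Perm.sign (Tuple.sort u) : ℤ) : ℝ) *
        ((Equiv.Perm.sign (Tuple.sort u) : ℤ) : ℝ)) *
        (Matrix.det (Matrix.of fun i j => k i (u j)) *
          Matrix.det (Matrix.of fun i j => F i (u j))) := by rw [hs, one_mul]
      _ = _ := by ring
      _ ≤ 0 := h3
  · have : ∃ a b, u a = u b ∧ a ≠ b := by
      simpa [Function.Injective] using hinj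
    obtain ⟨a, b, hab, hne⟩ := this
    have h0 : Matrix.det (Matrix.of fun i j => k i (u j)) = 0 := by
      refine Matrix.det_zero_of_column_eq hne fun i => ?_
      simp [Matrix.of_apply, hab]
    rw [h0, zero_mul]

end Crest.Agent.R339.B
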