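import Crest.Agent.R339.B107Conv
import Crest.Agent.R339.Var71I

/-!
Row 339 (helper107): the class of starting measures, closure under the passage to the next block.
-/

set_option autoImplicit false

namespace Crest.Agent.R339.B

open MeasureTheory ProbabilityTheory Filter Topology Set
open Crest.Agent.R164.GC
open Crest.ProbabilityR.InvariantGlass (gaussOp)

noncomputable section

theorem GW.cmul {R : ℝ → ℝ} (h : GW R) {c : ℝ} (hc : 0 < c) : GW (fun x => c * R x) := by
  have hd : ∀ x, deriv (fun x => c * R x) x = c * deriv R x := fun x =>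
    ((h.sds.hasDerivAt x).const_mul c).deriv
  have e : ∀ x, -deriv (fun x => c * R x) x / (c * R x) = -deriv R x / R x := by
    intro x
    rw [hd]
    have := (h.pos x).ne'
    field_simp
  refine ⟨?_, fun x => mul_pos hc (h.pos x), fun x => by rw [h.even], fun x hx => ?_, ?_⟩
  · have := h.sds.mul (EGS.const c)
    have e : (fun x => c * R x) = fun x => R x * c := by funext x; ring
    rw [e]; exact this
  · rw [e]; exact h.r0 x hx
  · have e2 : (fun x => (-deriv (fun x => c * R x) x / (c * R x)) / x) =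
        fun x => (-deriv R x / R x) / x := by funext x; rw [e]
    rw [e2]; exact h.r1

/-- multiplication by `e^{-cΦ}` -/
theorem GW.mulExp {R : ℝ → ℝ} (h : GW R) {β m : ℝ} {Φ : ℝ → ℝ} (hΦ : Inv β m Φ) (hm : 0 < m) {c : ℝ}
    (hc : 0 ≤ c) : GW (fun x => R x * Real.exp (-c * Φ x)) := by
  have hE := hΦ.prof.exp_egs (-c)
  have hd : ∀ x, deriv (fun x => R x * Real.exp (-c * Φ x)) x =
      (deriv R x - R x * (c * deriv Φ x)) * Real.exp (-c * Φ x) := fun x => by
    have := (h.sds.hasDerivAt x).fun_mul ((hΦ.prof.d1 x).const_mul (-c)).exp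
    rw [this.deriv]
    ring
  have e : ∀ x, -deriv (fun x => R x * Real.exp (-c * Φ x)) x / (R x * Real.exp (-c * Φ x)) =
      -deriv R x / R x + c * deriv Φ x := by
    intro x
    rw [hd]
    have h1 := (h.pos x).ne'
    have h2 := (Real.exp_pos (-c * Φ x)).ne'
    field_simp
    ring
  -- `Φ'/x` is nonincreasing
  have hΦ1 : AntitoneOn (fun x => deriv Φ x / x) (Ioi 0) := by
    have hdd : ∀ x, 0 < x → HasDerivAt (fun x => deriv Φ x / x)
        ((deriv (deriv Φ) x * x - deriv Φ x * 1) / x ^ 2) x := fun x hx =>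
      (hΦ.prof.bd.hasDerivAt x).fun_div (hasDerivAt_id' x) hx.ne'
    refine antitoneOn_of_deriv_nonpos (convex_Ioi 0) (fun x hx =>
      (hdd x hx).continuousAt.continuousWithinAt) (fun x hx => ?_) fun x hx => ?_
    · rw [interior_Ioi] at hx
      exact (hdd x hx).differentiableAt.differentiableWithinAt
    · rw [interior_Ioi] at hx
      have hx' : (0 : ℝ) < x := hx
      rw [(hdd x hx').deriv]
      refine div_nonpos_of_nonpos_of_nonneg ?_ (by positivity)
      have h2 := fa_le hΦ hm hx'.le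
      unfold fa fM at h2
      have h3 : m * (deriv (deriv Φ) x * x - deriv Φ x * 1) ≤ 0 := by linarith
      exact nonpos_of_mul_nonpos_right h3 hm
  refine ⟨h.sds.mul hE, fun x => mul_pos (h.pos x) (Real.exp_pos _), fun x => by
    rw [h.even, hΦ.even], fun x hx => ?_, ?_⟩
  · rw [e]
    exact add_nonneg (h.r0 x hx) (mul_nonneg hc (hΦ.nonneg hx.le))
  · intro x hx y hy hxy
    simp only [e]
    rw [add_div, add_div]
    refine add_le_add (h.r1 hx hy hxy) ?_
    have := hΦ1 hx hy hxy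
    simp only at this
    rw [mul_div_assoc, mul_div_assoc]
    exact mul_le_mul_of_nonneg_left this hc

/-- the class of starting measures -/
def GC (ν : Measure ℝ) : Prop :=
  (∃ c : ℝ, 0 < c ∧ ν = ENNReal.ofReal c • Measure.dirac 0) ∨ (∃ R, GW R ∧ ν = dens R)

/-- preservation of the class (G) by the heat flow, as a hypothesis -/
def HeatGW : Prop := ∀ R : ℝ → ℝ, GW R → ∀ τ : ℝ, 0 < τ → GW (H (√τ) R)

theorem GC.em {ν : Measure ℝ} (h : GC ν) : EM ν := by
  rcases h with ⟨c, _, rfl⟩ | ⟨R, hR, rfl⟩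
  · exact (EM.dirac 0).smul ENNReal.ofReal_ne_top
  · exact dens_em hR.sds.sd fun x => (hR.pos x).le

theorem conv_pt (hH : HeatGW) {β m : ℝ} {Φ : ℝ → ℝ} (h : Inv β m Φ) (hm : 0 < m) (hmβ : m ≤ β)
    {ν : Measure ℝ} (hν : GC ν) {d τ : ℝ} (h1 : 0 < τ) (_h2 : τ < d) :
    0 ≤ EE Φ m d ν (fun v x => U Φ m 4 v x ^ 2 - 12 * m * U Φ m 2 v x * U Φ m 3 v x ^ 2 +
      6 * m ^ 2 * U Φ m 2 v x ^ 4) τ := by
  rcases hν with ⟨c, hc, rfl⟩ | ⟨R, hR, rfl⟩
  · rw [EE_dirac m _ _ d h1]
    have := core (h.step hm hmβ (d - τ)) hm (gd_gw h1)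
    have e : ∫ y, (ENNReal.ofReal c).toReal * gd τ y * (Wk Φ m 0 (d - τ) y *
        (U Φ m 4 (d - τ) y ^ 2 -
        12 * m * U Φ m 2 (d - τ) y * U Φ m 3 (d - τ) y ^ 2 + 6 * m ^ 2 * U Φ m 2 (d - τ) y ^ 4)) =
        (ENNReal.ofReal c).toReal * ∫ x, phiI m (gd τ) (gaussOp m (d - τ) Φ) x := by
      rw [← integral_const_mul]
      refine integral_congr_ae (Eventually.of_forall fun y => ?_)
      show (ENNReal.ofReal c).toReal * gd τ y * (Wk Φ m 0 (d - τ) y * (U Φ m 4 (d - τ) y ^ 2 -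
        12 * m * U Φ m 2 (d - τ) y * U Φ m 3 (d - τ) y ^ 2 + 6 * m ^ 2 * U Φ m 2 (d - τ) y ^ 4)) =
        (ENNReal.ofReal c).toReal * phiI m (gd τ) (gaussOp m (d - τ) Φ) y
      rw [← block_phiI h hm, mul_assoc]
    rw [e]
    exact mul_nonneg ENNReal.toReal_nonneg this
  · rw [EE_dens h.prof m hR.sds.sd (fun x => (hR.pos x).le)
      ((tb_LU2sq h.prof hm.ne').ugL h.prof) d h1]
    have := core (h.step hm hmβ (d - τ)) hm (hH R hR τ h1)
    refine this.trans (le_of_eq ?_)
    refine integral_congr_ae (Eventually.of_forall fun y => ?_)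
    exact (block_phiI h hm _ _ _).symm

theorem GC.next (hH : HeatGW) {ν : Measure ℝ} (hν : GC ν) {β m m' : ℝ} {Φ : ℝ → ℝ} {d : ℝ}
    (hΦ : Inv β m' Φ) (hm : 0 < m) (hmm : m ≤ m') (hd : 0 < d) :
    ∃ ν', GC ν' ∧ ∀ φ : ℝ → ℝ, EG φ → ∫ y, φ y ∂ν' = ∫ x, H (√d)
      (fun y => φ y * Real.exp ((m - m') * Φ y)) x ∂ν := by
  have hE : EG fun y => Real.exp ((m - m') * Φ y) := (hΦ.prof.exp_egs _).eg
  have hc0 : 0 ≤ m' - m := sub_nonneg.2 hmm
  have hexp : ∀ y, Real.exp (-(m' - m) * Φ y) = Real.exp ((m - m') * Φ y) := by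
    intro y; congr 1; ring
  rcases hν with ⟨c, hc, rfl⟩ | ⟨R, hR, rfl⟩
  · have hG := ((gd_gw hd).cmul hc).mulExp hΦ (hm.trans_le hmm) hc0
    refine ⟨dens fun x => c * gd d x * Real.exp (-(m' - m) * Φ x), Or.inr ⟨_, hG, rfl⟩,
      fun φ hφ => ?_⟩
    rw [integral_dens hG.sds.sd (fun x => (hG.pos x).le), integral_smul_measure, integral_dirac,
      ENNReal.toReal_ofReal hc.le, H_eq_gd _ hd, smul_eq_mul, ← integral_const_mul]
    refine integral_congr_ae (Eventually.of_forall fun y => ?_)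
    simp only [hexp, sub_zero]
    ring
  · have hG := (hH R hR d hd).mulExp hΦ (hm.trans_le hmm) hc0
    refine ⟨dens fun x => H (√d) R x * Real.exp (-(m' - m) * Φ x), Or.inr ⟨_, hG, rfl⟩,
      fun φ hφ => ?_⟩
    rw [integral_dens hG.sds.sd (fun x => (hG.pos x).le),
      integral_dens hR.sds.sd (fun x => (hR.pos x).le), heat_symm hR.sds.sd (hφ.mul hE) hd]
    refine integral_congr_ae (Eventually.of_forall fun y => ?_)
    simp only [hexp]
    ring

/-- the structure used by the gluing -/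
theorem gclass_of_heat (hH : HeatGW) (β : ℝ) : Var.GClass β GC where
  em := fun _ h => h.em
  dirac := fun c hc => Or.inl ⟨c, hc, rfl⟩
  next := fun _ hν _ _ _ _ hΦ hm hmm _ hd => GC.next hH hν hΦ hm hmm hd
  conv := fun _ hν _ _ _ _ h hm hmβ h1 h2 => conv_pt hH h hm hmβ hν h1 h2

end

end Crest.Agent.R339.B
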