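import Crest.Agent.R339.B107Block

/-!
Row 339 (helper107): differentiation of expectations inside a block.
-/

set_option autoImplicit false

namespace Crest.Agent.R339.B

open MeasureTheory ProbabilityTheory Filter Topology Set
open Crest.Agent.R164.GC
open Crest.ProbabilityR.InvariantGlass (gaussOp)

noncomputable section

/-- all exponential moments -/
def EM (ν : Measure ℝ) : Prop := ∀ A : ℝ, Integrable (fun x => Real.exp (A * |x|)) ν

theorem EM.of_eg {ν : Measure ℝ} (hν : EM ν) {φ : ℝ → ℝ} (hφ : EG φ) : Integrable φ ν := by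
  obtain ⟨K, A, _, _, hb⟩ := hφ.bd
  refine Integrable.mono' ((hν A).const_mul K) hφ.cont.aestronglyMeasurable
    (Eventually.of_forall fun x => ?_)
  rw [Real.norm_eq_abs]
  exact hb x

theorem EM.dirac (a : ℝ) : EM (Measure.dirac a) := fun A => integrable_dirac (by simp)

theorem EM.smul {ν : Measure ℝ} (hν : EM ν) {c : ENNReal} (hc : c ≠ ⊤) : EM (c • ν) :=
  fun A => (hν A).smul_measure hc

/-- differentiation under the Gaussian integral, first form -/
theorem heat_deriv {Ψ Ψv Ψx Ψxx : ℝ → ℝ → ℝ}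
    (hv : ∀ v x, 0 < v → HasDerivAt (fun s => Ψ s x) (Ψv v x) v)
    (hx : ∀ v x, HasDerivAt (fun y => Ψ v y) (Ψx v x) x)
    (hxx : ∀ v x, HasDerivAt (fun y => Ψx v y) (Ψxx v x) x)
    (u : UG Ψ) (uv : UG Ψv) (ux : UG Ψx) (uxx : UG Ψxx) {d τ : ℝ} (h0 : 0 < τ) (h1 : τ < d)
    (x : ℝ) : HasDerivAt (fun τ => H (√τ) (Ψ (d - τ)) x)
      (H (√τ) (fun y => -Ψv (d - τ) y + 1 / 2 * Ψxx (d - τ) y) x) τ := by
  obtain ⟨K, A, hK, hA, hb⟩ := uv.bd d
  obtain ⟨K', A', hK', hA', hb'⟩ := ux.bd d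
  set ε := min τ (d - τ) / 2 with hε
  have hε0 : 0 < ε := by
    have : 0 < min τ (d - τ) := lt_min h0 (sub_pos.2 h1)
    linarith
  have hball : ∀ s ∈ Metric.ball τ ε, τ / 2 < s ∧ s < d ∧ 0 < s := by
    intro s hs
    rw [Metric.mem_ball, Real.dist_eq, abs_lt] at hs
    have m1 : min τ (d - τ) ≤ τ := min_le_left _ _
    have m2 : min τ (d - τ) ≤ d - τ := min_le_right _ _
    refine ⟨by linarith, by linarith, by linarith⟩
  have hd0 : 0 < d := h0.trans h1
  have hcv := uv.cont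
  have hcx := ux.cont
  have hc := u.cont
  -- the derivative of the integrand
  have hderiv : ∀ g : ℝ, ∀ s, 0 < s → s < d → HasDerivAt (fun τ => Ψ (d - τ) (x + √τ * g))
      (-Ψv (d - s) (x + √s * g) + Ψx (d - s) (x + √s * g) * (g / (2 * √s))) s := by
    intro g s hs0 hsd
    have ha : HasDerivAt (fun τ : ℝ => d - τ) (-1) s := by
      simpa using (hasDerivAt_id s).const_sub d
    have hb : HasDerivAt (fun τ : ℝ => x + √τ * g) (1 / (2 * √s) * g) s :=
      ((Real.hasDerivAt_sqrt hs0.ne').mul_const g).const_add x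
    have hmem : ∀ᶠ p : ℝ × ℝ in 𝓝 (d - s, x + √s * g), 0 < p.1 := by
      have : IsOpen {p : ℝ × ℝ | 0 < p.1} := isOpen_lt continuous_const continuous_fst
      exact this.mem_nhds (show (0 : ℝ) < d - s by linarith)
    have := hasDerivAt_curve (f := Ψ) (f1 := Ψv) (f2 := Ψx) (a := fun τ => d - τ)
      (b := fun τ => x + √τ * g) (τ := s)
      (by filter_upwards [hmem] with p hp using hv p.1 p.2 hp)
      (Eventually.of_forall fun p => hx p.1 p.2) hcv hcx ha hb
    refine this.congr_deriv ?_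
    ring
  have key := (hasDerivAt_integral_of_dominated_loc_of_deriv_le (μ := gaussianReal 0 1)
    (F := fun τ g => Ψ (d - τ) (x + √τ * g))
    (F' := fun s g => -Ψv (d - s) (x + √s * g) + Ψx (d - s) (x + √s * g) * (g / (2 * √s)))
    (bound := fun g => K * Real.exp (A * |x|) * Real.exp (A * √d * |g|) +
      K' * Real.exp (A' * |x|) / (2 * √(τ / 2)) * (|g| * Real.exp (A' * √d * |g|)))
    (Metric.ball_mem_nhds τ hε0) ?_ ((u.eg (d - τ)).int (√τ) x) ?_ ?_ ?_ ?_).2
  · refine key.congr_deriv ?_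
    have i1 : Integrable (fun g => -Ψv (d - τ) (x + √τ * g)) (gaussianReal 0 1) :=
      ((uv.eg (d - τ)).int (√τ) x).neg
    have i2 : Integrable (fun g => Ψx (d - τ) (x + √τ * g) * (g / (2 * √τ)))
        (gaussianReal 0 1) := by
      have := ((ux.eg (d - τ)).int_mul (√τ) x).const_mul (1 / (2 * √τ))
      refine this.congr (Eventually.of_forall fun g => ?_)
      simp only
      ring
    rw [integral_add i1 i2]
    have e2 : ∫ g, Ψx (d - τ) (x + √τ * g) * (g / (2 * √τ)) ∂gaussianReal 0 1 =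
        1 / 2 * H (√τ) (Ψxx (d - τ)) x := by
      have hst := stein (ux.eg (d - τ)) (uxx.eg (d - τ)) (hxx (d - τ)) (√τ) x
      have e3 : ∫ g, Ψx (d - τ) (x + √τ * g) * (g / (2 * √τ)) ∂gaussianReal 0 1 =
          1 / (2 * √τ) * ∫ g, g * Ψx (d - τ) (x + √τ * g) ∂gaussianReal 0 1 := by
        rw [← integral_const_mul]
        refine integral_congr_ae (Eventually.of_forall fun g => ?_)
        simp only
        ring
      rw [e3, hst]
      have : √τ ≠ 0 := (Real.sqrt_pos.2 h0).ne'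
      field_simp
    rw [e2]
    have e4 := H_add (t := √τ) (x := x) (uv.eg (d - τ)).neg ((uxx.eg (d - τ)).const_mul (1 / 2))
    rw [e4, H_const_mul]
    rfl
  · refine Eventually.of_forall fun s => ?_
    have : Continuous fun g : ℝ => Ψ (d - s) (x + √s * g) :=
      hc.comp (by fun_prop : Continuous fun g : ℝ => (d - s, x + √s * g))
    exact this.aestronglyMeasurable
  · have c1 : Continuous fun g : ℝ => Ψv (d - τ) (x + √τ * g) :=
      hcv.comp (by fun_prop : Continuous fun g : ℝ => (d - τ, x + √τ * g))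
    have c2 : Continuous fun g : ℝ => Ψx (d - τ) (x + √τ * g) :=
      hcx.comp (by fun_prop : Continuous fun g : ℝ => (d - τ, x + √τ * g))
    exact (c1.neg.add (c2.mul (by fun_prop))).aestronglyMeasurable
  · refine Eventually.of_forall fun g s hs => ?_
    obtain ⟨s1, s2, s3⟩ := hball s hs
    rw [Real.norm_eq_abs]
    have hsq : |√s| ≤ √d := by
      rw [abs_of_nonneg (Real.sqrt_nonneg s)]
      exact Real.sqrt_le_sqrt s2.le
    have b1 : |Ψv (d - s) (x + √s * g)| ≤ K * Real.exp (A * |x|) * Real.exp (A * √d * |g|) :=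
      shift_bd (φ := Ψv (d - s)) hK hA (fun y => hb _ y (by linarith)) le_rfl hsq g
    have b2 : |Ψx (d - s) (x + √s * g)| ≤ K' * Real.exp (A' * |x|) * Real.exp (A' * √d * |g|) :=
      shift_bd (φ := Ψx (d - s)) hK' hA' (fun y => hb' _ y (by linarith)) le_rfl hsq g
    have b3 : |g / (2 * √s)| ≤ |g| / (2 * √(τ / 2)) := by
      rw [abs_div, abs_of_pos (by positivity : (0 : ℝ) < 2 * √s)]
      refine div_le_div_of_nonneg_left (abs_nonneg g) (by positivity) ?_
      exact mul_le_mul_of_nonneg_left (Real.sqrt_le_sqrt s1.le) (by norm_num)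
    calc |-Ψv (d - s) (x + √s * g) + Ψx (d - s) (x + √s * g) * (g / (2 * √s))|
        ≤ |-Ψv (d - s) (x + √s * g)| + |Ψx (d - s) (x + √s * g) * (g / (2 * √s))| :=
          abs_add_le _ _
      _ = |Ψv (d - s) (x + √s * g)| + |Ψx (d - s) (x + √s * g)| * |g / (2 * √s)| := by
          rw [abs_neg, abs_mul]
      _ ≤ K * Real.exp (A * |x|) * Real.exp (A * √d * |g|) +
          (K' * Real.exp (A' * |x|) * Real.exp (A' * √d * |g|)) * (|g| / (2 * √(τ / 2))) :=
          add_le_add b1 (mul_le_mul b2 b3 (abs_nonneg _) (by positivity))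
      _ = _ := by ring
  · exact ((integrable_exp_abs _).const_mul _).add ((integrable_mul_exp_abs _).const_mul _)
  · refine Eventually.of_forall fun g s hs => ?_
    obtain ⟨s1, s2, s3⟩ := hball s hs
    exact hderiv g s s3 s2

/-- uniform growth bound for the forward average -/
theorem heat_bound {G : ℝ → ℝ → ℝ} (u : UG G) (d D : ℝ) : ∃ K A : ℝ, 0 ≤ K ∧ 0 ≤ A ∧
    ∀ τ x, τ ≤ D → d - τ ≤ D → |H (√τ) (G (d - τ)) x| ≤ K * Real.exp (A * |x|) := by
  obtain ⟨K, A, hK, hA, hb⟩ := u.bd D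
  have hI : 0 ≤ ∫ g, Real.exp (A * √D * |g|) ∂gaussianReal 0 1 :=
    integral_nonneg fun g => (Real.exp_pos _).le
  refine ⟨K * ∫ g, Real.exp (A * √D * |g|) ∂gaussianReal 0 1, A, by positivity, hA,
    fun τ x h1 h2 => ?_⟩
  have hs : |√τ| ≤ √D := by
    rw [abs_of_nonneg (Real.sqrt_nonneg τ)]
    exact Real.sqrt_le_sqrt h1
  unfold H
  calc |∫ g, G (d - τ) (x + √τ * g) ∂gaussianReal 0 1|
      ≤ ∫ g, |G (d - τ) (x + √τ * g)| ∂gaussianReal 0 1 := abs_integral_le_integral_abs
    _ ≤ ∫ g, K * Real.exp (A * |x|) * Real.exp (A * √D * |g|) ∂gaussianReal 0 1 :=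
        integral_mono ((u.eg (d - τ)).int _ x).abs ((integrable_exp_abs _).const_mul _)
          fun g => shift_bd (φ := G (d - τ)) hK hA (fun y => hb _ y h2) le_rfl hs g
    _ = _ := by rw [integral_const_mul]; ring

/-- joint continuity of the forward average -/
theorem heat_cont {G : ℝ → ℝ → ℝ} (u : UG G) (d : ℝ) :
    Continuous fun p : ℝ × ℝ => H (√p.1) (G (d - p.1)) p.2 := by
  have hc := u.cont
  rw [continuous_iff_continuousAt]
  intro p
  obtain ⟨K, A, hK, hA, hb⟩ := u.bd (d - p.1 + 1)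
  unfold H
  refine continuousAt_of_dominated (bound := fun g => K * Real.exp (A * (|p.2| + 1)) *
    Real.exp (A * √(p.1 + 1) * |g|)) ?_ ?_ ?_ ?_
  · refine Eventually.of_forall fun q => ?_
    have : Continuous fun g : ℝ => G (d - q.1) (q.2 + √q.1 * g) :=
      hc.comp (by fun_prop : Continuous fun g : ℝ => (d - q.1, q.2 + √q.1 * g))
    exact this.aestronglyMeasurable
  · have hB : Metric.ball p 1 ∈ 𝓝 p := Metric.ball_mem_nhds p one_pos
    filter_upwards [hB] with q hq
    rw [Metric.mem_ball, Prod.dist_eq, max_lt_iff, Real.dist_eq, Real.dist_eq] at hq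
    obtain ⟨q1, q2⟩ := hq
    rw [abs_lt] at q1
    refine Eventually.of_forall fun g => ?_
    rw [Real.norm_eq_abs]
    refine shift_bd (φ := G (d - q.1)) hK hA (fun y => hb _ y (by linarith)) ?_ ?_ g
    · have := abs_sub_abs_le_abs_sub q.2 p.2
      linarith
    · rw [abs_of_nonneg (Real.sqrt_nonneg _)]
      exact Real.sqrt_le_sqrt (by linarith)
  · exact (integrable_exp_abs _).const_mul _
  · refine Eventually.of_forall fun g => ?_
    have : Continuous fun q : ℝ × ℝ => G (d - q.1) (q.2 + √q.1 * g) :=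
      hc.comp (by fun_prop : Continuous fun q : ℝ × ℝ => (d - q.1, q.2 + √q.1 * g))
    exact this.continuousAt

/-- the forward average is of exponential growth -/
theorem heat_eg {G : ℝ → ℝ → ℝ} (u : UG G) (d τ : ℝ) : EG fun x => H (√τ) (G (d - τ)) x :=
  H_eg (u.eg _) _

/-- expectation at forward time `τ` in a block of length `d`, started from `ν` -/
def EE (Φ : ℝ → ℝ) (m d : ℝ) (ν : Measure ℝ) (F : ℝ → ℝ → ℝ) (τ : ℝ) : ℝ :=
  ∫ x, H (√τ) (fun y => Wk Φ m 0 (d - τ) y * F (d - τ) y) x ∂ν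

section EEsec

variable {Φ : ℝ → ℝ} (h : Prof Φ) (m : ℝ)
include h

/-- **The block calculus lemma**, pointwise in the starting point. -/
theorem EX_deriv {F LF Fx : ℝ → ℝ → ℝ} (hF : TB Φ m F LF Fx) {d τ : ℝ} (h0 : 0 < τ) (h1 : τ < d)
    (x : ℝ) : HasDerivAt (fun τ => H (√τ) (fun y => Wk Φ m 0 (d - τ) y * F (d - τ) y) x)
      (H (√τ) (fun y => Wk Φ m 0 (d - τ) y * LF (d - τ) y) x) τ := by
  obtain ⟨Fv, Fxx, a1, a2, a3, a4, a5, a6, a7, a8⟩ := hF
  have hW := Wk_ug h m
  have key := heat_deriv (Ψ := fun v y => Wk Φ m 0 v y * F v y)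
    (Ψv := fun v y => 1 / 2 * Wk Φ m 2 v y * F v y + Wk Φ m 0 v y * Fv v y)
    (Ψx := fun v y => Wk Φ m 1 v y * F v y + Wk Φ m 0 v y * Fx v y)
    (Ψxx := fun v y => (Wk Φ m 2 v y * F v y + Wk Φ m 1 v y * Fx v y) +
      (Wk Φ m 1 v y * Fx v y + Wk Φ m 0 v y * Fxx v y))
    (fun v y hv => (Wk_dv h m 0 hv y).fun_mul (a1 v y hv))
    (fun v y => (Wk_dx h m 0 v y).fun_mul (a2 v y))
    (fun v y => ((Wk_dx h m 1 v y).fun_mul (a2 v y)).fun_add
      ((Wk_dx h m 0 v y).fun_mul (a3 v y)))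
    ((hW 0).mul a4) ((((hW 2).const_mul (1 / 2)).mul a4).add ((hW 0).mul a5))
    (((hW 1).mul a4).add ((hW 0).mul a6))
    ((((hW 2).mul a4).add ((hW 1).mul a6)).add (((hW 1).mul a6).add ((hW 0).mul a7))) h0 h1 x
  refine key.congr_deriv ?_
  congr 1
  funext y
  rw [a8]
  unfold Dk
  have := (Wk_pos h m (d - τ) y).ne'
  field_simp
  ring

/-- **The block calculus lemma.** -/
theorem EE_deriv {F LF Fx : ℝ → ℝ → ℝ} (hF : TB Φ m F LF Fx) {ν : Measure ℝ} (hν : EM ν)
    {d τ : ℝ} (h0 : 0 < τ) (h1 : τ < d) :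
    HasDerivAt (EE Φ m d ν F) (EE Φ m d ν LF τ) τ := by
  have hW := Wk_ug h m 0
  have uF := hW.mul hF.ug
  have uL := hW.mul (hF.ugL h)
  obtain ⟨K, A, hK, hA, hb⟩ := heat_bound uL d d
  set ε := min τ (d - τ) with hε
  have hε0 : 0 < ε := lt_min h0 (sub_pos.2 h1)
  have hball : ∀ s ∈ Metric.ball τ ε, 0 < s ∧ s < d := by
    intro s hs
    rw [Metric.mem_ball, Real.dist_eq, abs_lt] at hs
    have m1 : min τ (d - τ) ≤ τ := min_le_left _ _
    have m2 : min τ (d - τ) ≤ d - τ := min_le_right _ _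
    exact ⟨by linarith, by linarith⟩
  unfold EE
  refine (hasDerivAt_integral_of_dominated_loc_of_deriv_le (μ := ν)
    (F' := fun s x => H (√s) (fun y => Wk Φ m 0 (d - s) y * LF (d - s) y) x)
    (bound := fun x => K * Real.exp (A * |x|))
    (Metric.ball_mem_nhds τ hε0) ?_ (hν.of_eg (heat_eg uF d τ)) ?_ ?_ ((hν A).const_mul K) ?_).2
  · exact Eventually.of_forall fun s => (heat_eg uF d s).cont.aestronglyMeasurable
  · exact (heat_eg uL d τ).cont.aestronglyMeasurable
  · refine Eventually.of_forall fun x s hs => ?_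
    obtain ⟨s1, s2⟩ := hball s hs
    rw [Real.norm_eq_abs]
    exact hb s x s2.le (by linarith)
  · refine Eventually.of_forall fun x s hs => ?_
    obtain ⟨s1, s2⟩ := hball s hs
    exact EX_deriv h m hF s1 s2 x

/-- continuity of expectations -/
theorem EE_cont {F : ℝ → ℝ → ℝ} (hF : UG F) {ν : Measure ℝ} (hν : EM ν) (d : ℝ) :
    Continuous (EE Φ m d ν F) := by
  have uF := (Wk_ug h m 0).mul hF
  rw [continuous_iff_continuousAt]
  intro τ
  obtain ⟨K, A, hK, hA, hb⟩ := heat_bound uF d (|d| + |τ| + 1)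
  unfold EE
  refine continuousAt_of_dominated (bound := fun x => K * Real.exp (A * |x|)) ?_ ?_
    ((hν A).const_mul K) ?_
  · exact Eventually.of_forall fun s => (heat_eg uF d s).cont.aestronglyMeasurable
  · have hB : Metric.ball τ 1 ∈ 𝓝 τ := Metric.ball_mem_nhds τ one_pos
    filter_upwards [hB] with s hs
    rw [Metric.mem_ball, Real.dist_eq, abs_lt] at hs
    refine Eventually.of_forall fun x => ?_
    rw [Real.norm_eq_abs]
    have h1 := le_abs_self τ
    have h2 := neg_abs_le τ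
    have h3 := le_abs_self d
    have h4 := abs_nonneg d
    exact hb s x (by linarith) (by linarith)
  · refine Eventually.of_forall fun x => ?_
    exact ((heat_cont uF d).comp (by fun_prop : Continuous fun s : ℝ => (s, x))).continuousAt

end EEsec

end

end Crest.Agent.R339.B
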