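import Crest.Agent.R339.B107BD

/-!
Row 339 (helper107): Parisi profiles. The Cole–Hopf step `gaussOp m v Φ`, the class `Prof`, the
property (P1) `2mΦ' + Φ'''/Φ''` nonincreasing and its preservation.
-/

set_option autoImplicit false

namespace Crest.Agent.R339.B

open MeasureTheory ProbabilityTheory Filter Topology Set
open Crest.Agent.R164.GC
open Crest.ProbabilityR.InvariantGlass (gaussOp)

noncomputable section

/-- smooth functions with `|Φ'| ≤ 1` and bounded derivatives -/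
structure Prof (Φ : ℝ → ℝ) : Prop where
  diff : Differentiable ℝ Φ
  b1 : ∀ x, |deriv Φ x| ≤ 1
  bd : BD (deriv Φ)

namespace Prof

variable {Φ : ℝ → ℝ}

theorem lip (h : Prof Φ) : Lip1 Φ := by
  intro x y
  have h1 := Convex.norm_image_sub_le_of_norm_hasDerivWithin_le (f := Φ)
    (f' := deriv Φ) (C := 1)
    (s := univ) (fun x _ => (h.diff x).hasDerivAt.hasDerivWithinAt) (fun x _ => h.b1 x)
    convex_univ (mem_univ y) (mem_univ x)
  rw [Real.norm_eq_abs, Real.norm_eq_abs, one_mul] at h1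
  have := le_abs_self (Φ x - Φ y)
  linarith

theorem d1 (h : Prof Φ) (x : ℝ) : HasDerivAt Φ (deriv Φ x) x := (h.diff x).hasDerivAt

theorem sm (h : Prof Φ) : ∃ C, Sm Φ (deriv Φ) (deriv (deriv Φ)) C := by
  obtain ⟨C, hC⟩ := h.bd.deriv.bdd
  exact ⟨C, h.d1, h.bd.hasDerivAt, h.bd.deriv.cont, h.b1, hC⟩

theorem egs (h : Prof Φ) : EGS Φ := EGS.of (EG.lip h.lip) h.diff h.bd.egs

theorem exp_egs (h : Prof Φ) (m : ℝ) : EGS (fun x => Real.exp (m * Φ x)) :=
  EGS.exp h.diff h.b1 h.bd m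

theorem tE_hasDerivAt (h : Prof Φ) (a v : ℝ) {φ : ℝ → ℝ} (hφ : EGS φ) (x : ℝ) :
    HasDerivAt (tE a v Φ φ)
      (tE a v Φ (deriv φ) x + a * (tE a v Φ (fun y => φ y * deriv Φ y) x -
        tE a v Φ φ x * tE a v Φ (deriv Φ) x)) x := by
  obtain ⟨C, hC⟩ := h.sm
  exact tE_deriv_x hC a v hφ.eg hφ.deriv.eg hφ.hasDerivAt x

theorem tE_bdn (h : Prof Φ) (a v : ℝ) : ∀ {n : ℕ} {φ : ℝ → ℝ}, EGS φ → BDn n φ →
    BDn n (tE a v Φ φ)
  | 0, φ, _, hφ => by
    obtain ⟨C, hC⟩ := hφ.2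
    have := tE_BC h.lip a v (φ := φ) (K := C) ⟨hφ.1, hC⟩
    exact ⟨this.cont, C, this.bd⟩
  | n + 1, φ, hs, hφ => by
    obtain ⟨C, hC⟩ := hφ.2.1
    have h1 := tE_BC h.lip a v (φ := φ) (K := C) ⟨hφ.1.continuous, hC⟩
    refine ⟨fun x => (h.tE_hasDerivAt a v hs x).differentiableAt, ⟨C, h1.bd⟩, ?_⟩
    have e : deriv (tE a v Φ φ) = fun x => tE a v Φ (deriv φ) x +
        a * (tE a v Φ (fun y => φ y * deriv Φ y) x -
        tE a v Φ φ x * tE a v Φ (deriv Φ) x) :=
      funext fun x => (h.tE_hasDerivAt a v hs x).deriv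
    rw [e]
    have i1 := h.tE_bdn a v hs.deriv hφ.2.2
    have i2 := h.tE_bdn a v (hs.mul h.bd.egs) (hφ.of_succ.mul (h.bd n))
    have i3 := h.tE_bdn a v hs hφ.of_succ
    have i4 := h.tE_bdn a v h.bd.egs (h.bd n)
    have i5 := (BDn.const (-1) n).mul (i3.mul i4)
    have i6 := i1.add ((BDn.const a n).mul (i2.add i5))
    exact i6.congr fun x => by ring

theorem tE_bd (h : Prof Φ) (a v : ℝ) {φ : ℝ → ℝ} (hφ : BD φ) : BD (tE a v Φ φ) :=
  fun n => h.tE_bdn a v hφ.egs (hφ n)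

theorem gaussOp_hasDerivAt (h : Prof Φ) (a v x : ℝ) :
    HasDerivAt (gaussOp a v Φ) (tE a v Φ (deriv Φ) x) x := by
  obtain ⟨C, hC⟩ := h.sm
  exact gaussOp_deriv_x hC a v x

theorem gaussOp_deriv (h : Prof Φ) (a v : ℝ) :
    deriv (gaussOp a v Φ) = tE a v Φ (deriv Φ) :=
  funext fun x => (h.gaussOp_hasDerivAt a v x).deriv

theorem gaussOp_deriv2 (h : Prof Φ) (a v : ℝ) :
    deriv (deriv (gaussOp a v Φ)) = fun x => tE a v Φ (deriv (deriv Φ)) x +
      a * (tE a v Φ (fun y => deriv Φ y * deriv Φ y) x -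
        tE a v Φ (deriv Φ) x * tE a v Φ (deriv Φ) x) := by
  rw [h.gaussOp_deriv]
  exact funext fun x => (h.tE_hasDerivAt a v h.bd.egs x).deriv

/-- one Cole–Hopf step -/
theorem step (h : Prof Φ) (a v : ℝ) : Prof (gaussOp a v Φ) := by
  refine ⟨fun x => (h.gaussOp_hasDerivAt a v x).differentiableAt, fun x => ?_, ?_⟩
  · rw [h.gaussOp_deriv]
    exact tE_abs_le h.lip a v ⟨h.bd.cont, h.b1⟩ x
  · rw [h.gaussOp_deriv]
    exact h.tE_bd a v h.bd

/-- the exponential of the Cole–Hopf step is the heat flow -/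
theorem exp_gaussOp (h : Prof Φ) {a : ℝ} (ha : a ≠ 0) (v x : ℝ) :
    Real.exp (a * Crest.ProbabilityR.InvariantGlass.gaussOp a v Φ x) =
      H (Real.sqrt v) (fun y => Real.exp (a * Φ y)) x := by
  rw [gaussOp_ne ha, ← mul_assoc, mul_inv_cancel₀ ha, one_mul,
    Real.exp_log (den_pos h.lip a _ x)]

end Prof

/-! ### evenness -/

theorem H_neg (φ : ℝ → ℝ) (t x : ℝ) : H t φ (-x) = H t (fun y => φ (-y)) x := by
  unfold H
  have h1 : (gaussianReal 0 1).map (fun x : ℝ => -x) = gaussianReal 0 1 := by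
    have := gaussianReal_map_neg (μ := 0) (v := 1)
    simpa using this
  have h2 : MeasurableEmbedding (fun x : ℝ => -x) := (Homeomorph.neg ℝ).measurableEmbedding
  conv_lhs => rw [← h1]
  rw [h2.integral_map]
  refine integral_congr_ae (Eventually.of_forall fun g => ?_)
  show φ (-x + t * -g) = φ (-(x + t * g))
  congr 1
  ring

theorem gaussOp_even {Φ : ℝ → ℝ} (he : ∀ x, Φ (-x) = Φ x) (a v x : ℝ) :
    gaussOp a v Φ (-x) = gaussOp a v Φ x := by
  by_cases ha : a = 0
  · subst ha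
    rw [gaussOp_zero, gaussOp_zero, H_neg]
    congr 1
    funext y
    exact he y
  · rw [gaussOp_ne ha, gaussOp_ne ha, H_neg]
    congr 3
    funext y
    rw [he]

theorem deriv_neg_of_even {f : ℝ → ℝ} (he : ∀ x, f (-x) = f x) (x : ℝ) :
    deriv f (-x) = -deriv f x := by
  have h : (fun x => f (-x)) = f := funext he
  have := deriv_comp_neg f x
  rw [h] at this
  linarith

theorem deriv_neg_of_odd {f : ℝ → ℝ} (ho : ∀ x, f (-x) = -f x) (x : ℝ) :
    deriv f (-x) = deriv f x := by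
  have h : (fun x => f (-x)) = fun x => -f x := funext ho
  have := deriv_comp_neg f x
  rw [h, deriv.fun_neg] at this
  linarith

/-! ### lower and upper bounds for the second derivative -/

/-- exponential lower bound -/
def Low (f : ℝ → ℝ) : Prop := ∃ c A : ℝ, 0 < c ∧ 0 ≤ A ∧ ∀ x, c * Real.exp (-(A * |x|)) ≤ f x

theorem Low.pos {f : ℝ → ℝ} (h : Low f) (x : ℝ) : 0 < f x := by
  obtain ⟨c, A, hc, _, h⟩ := h
  exact (mul_pos hc (Real.exp_pos _)).trans_le (h x)

theorem var_nonneg {Φ : ℝ → ℝ} (h : Lip1 Φ) (a v : ℝ) {φ : ℝ → ℝ} (hφ : EG φ) (x : ℝ) :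
    0 ≤ tE a v Φ (fun y => φ y * φ y) x - tE a v Φ φ x * tE a v Φ φ x := by
  have := tE_sq_le h a v hφ x
  have e : (fun y => φ y * φ y) = fun y => φ y ^ 2 := by
    funext y; ring
  rw [e]
  nlinarith

theorem Low.tE {Φ : ℝ → ℝ} (h : Lip1 Φ) (a v : ℝ) {φ : ℝ → ℝ} (hφ : EG φ) (hl : Low φ) :
    Low (tE a v Φ φ) := by
  obtain ⟨c, A, hc, hA, hl⟩ := hl
  set t := Real.sqrt v
  set I1 := ∫ g, Real.exp (-((A + |a|) * |t| * |g|)) ∂gaussianReal 0 1 with hI1
  set I2 := ∫ g, Real.exp (|a| * |t| * |g|) ∂gaussianReal 0 1 with hI2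
  have hi1 : Integrable (fun g : ℝ => Real.exp (-((A + |a|) * |t| * |g|))) (gaussianReal 0 1) := by
    have := integrable_exp_abs (-((A + |a|) * |t|))
    refine this.congr (Eventually.of_forall fun g => ?_)
    show Real.exp _ = Real.exp _
    congr 1
    ring
  have hi2 : Integrable (fun g : ℝ => Real.exp (|a| * |t| * |g|)) (gaussianReal 0 1) :=
    integrable_exp_abs _
  have p1 : 0 < I1 := by
    rw [hI1, integral_pos_iff_support_of_nonneg (fun _ => (Real.exp_pos _).le) hi1]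
    have : Function.support (fun g : ℝ => Real.exp (-((A + |a|) * |t| * |g|))) = univ := by
      ext g
      simp [(Real.exp_pos _).ne']
    rw [this, measure_univ]
    exact one_pos
  have p2 : 0 < I2 := by
    rw [hI2, integral_pos_iff_support_of_nonneg (fun _ => (Real.exp_pos _).le) hi2]
    have : Function.support (fun g : ℝ => Real.exp (|a| * |t| * |g|)) = univ := by
      ext g
      simp [(Real.exp_pos _).ne']
    rw [this, measure_univ]
    exact one_pos
  refine ⟨c * I1 / I2, A, by positivity, hA, fun x => ?_⟩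
  have hE := EG.exp_lip h a
  have hphi : ∀ y, |Φ y - Φ x| ≤ |y - x| := by
    intro y
    have h1 := h y x
    have h2 := h x y
    rw [abs_sub_comm] at h2
    rw [abs_le]
    constructor <;> linarith
  have hnum : c * Real.exp (-(A * |x|)) * Real.exp (a * Φ x) * I1 ≤
      H t (fun y => φ y * Real.exp (a * Φ y)) x := by
    unfold H
    rw [hI1, ← integral_const_mul]
    refine integral_mono (hi1.const_mul _) ((hφ.mul hE).int t x) fun g => ?_
    have e1 : Real.exp (-(A * |x|)) * Real.exp (a * Φ x) * Real.exp (-((A + |a|) * |t| * |g|)) ≤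
        Real.exp (-(A * |x + t * g|)) * Real.exp (a * Φ (x + t * g)) := by
      rw [← Real.exp_add, ← Real.exp_add, ← Real.exp_add]
      refine Real.exp_le_exp.2 ?_
      have h3 : |x + t * g| ≤ |x| + |t| * |g| := by
        refine (abs_add_le _ _).trans ?_
        rw [abs_mul]
      have h4 := hphi (x + t * g)
      have h5 : x + t * g - x = t * g := by ring
      rw [h5, abs_mul] at h4
      have h6 : |a * (Φ (x + t * g) - Φ x)| ≤ |a| * (|t| * |g|) := by
        rw [abs_mul]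
        exact mul_le_mul_of_nonneg_left h4 (abs_nonneg _)
      have h7 := (abs_le.1 h6).1
      have h8 := mul_le_mul_of_nonneg_left h3 hA
      nlinarith
    have e2 := hl (x + t * g)
    calc c * Real.exp (-(A * |x|)) * Real.exp (a * Φ x) * Real.exp (-((A + |a|) * |t| * |g|)) =
        c * (Real.exp (-(A * |x|)) * Real.exp (a * Φ x) *
          Real.exp (-((A + |a|) * |t| * |g|))) := by ring
      _ ≤ c * (Real.exp (-(A * |x + t * g|)) * Real.exp (a * Φ (x + t * g))) :=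
          mul_le_mul_of_nonneg_left e1 hc.le
      _ = (c * Real.exp (-(A * |x + t * g|))) * Real.exp (a * Φ (x + t * g)) := by ring
      _ ≤ φ (x + t * g) * Real.exp (a * Φ (x + t * g)) :=
          mul_le_mul_of_nonneg_right e2 (Real.exp_pos _).le
  have hden : H t (fun y => Real.exp (a * Φ y)) x ≤ Real.exp (a * Φ x) * I2 := by
    unfold H
    rw [hI2, ← integral_const_mul]
    refine integral_mono (hE.int t x) (hi2.const_mul _) fun g => ?_
    simp only
    rw [← Real.exp_add]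
    refine Real.exp_le_exp.2 ?_
    have h4 := hphi (x + t * g)
    have h5 : x + t * g - x = t * g := by ring
    rw [h5, abs_mul] at h4
    have h6 : |a * (Φ (x + t * g) - Φ x)| ≤ |a| * (|t| * |g|) := by
      rw [abs_mul]
      exact mul_le_mul_of_nonneg_left h4 (abs_nonneg _)
    have h7 := (abs_le.1 h6).2
    nlinarith
  have hd0 := den_pos h a t x
  unfold Crest.Agent.R164.GC.tE
  rw [le_div_iff₀ hd0]
  calc c * I1 / I2 * Real.exp (-(A * |x|)) * H t (fun y => Real.exp (a * Φ y)) x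
      ≤ c * I1 / I2 * Real.exp (-(A * |x|)) * (Real.exp (a * Φ x) * I2) :=
        mul_le_mul_of_nonneg_left hden (by positivity)
    _ = c * Real.exp (-(A * |x|)) * Real.exp (a * Φ x) * I1 := by
        field_simp
    _ ≤ _ := hnum

theorem Low.add_nonneg {f g : ℝ → ℝ} (h : Low f) (hg : ∀ x, 0 ≤ g x) : Low fun x => f x + g x := by
  obtain ⟨c, A, hc, hA, h⟩ := h
  exact ⟨c, A, hc, hA, fun x => by have := h x; have := hg x; linarith⟩

theorem Prof.low {Φ : ℝ → ℝ} (h : Prof Φ) (hl : Low (deriv (deriv Φ))) {a : ℝ} (ha : 0 ≤ a)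
    (v : ℝ) : Low (deriv (deriv (gaussOp a v Φ))) := by
  rw [h.gaussOp_deriv2]
  refine (Low.tE h.lip a v h.bd.deriv.eg hl).add_nonneg fun x => ?_
  exact mul_nonneg ha (var_nonneg h.lip a v h.bd.eg x)

/-- the upper bound `Φ'' ≤ β (1 - Φ'²)` is preserved for levels `0 ≤ a ≤ β` -/
theorem Prof.up {Φ : ℝ → ℝ} (h : Prof Φ) {β : ℝ}
    (hu : ∀ x, deriv (deriv Φ) x ≤ β * (1 - deriv Φ x ^ 2)) {a : ℝ} (ha : a ≤ β)
    (v x : ℝ) : deriv (deriv (gaussOp a v Φ)) x ≤ β * (1 - deriv (gaussOp a v Φ) x ^ 2) := by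
  rw [h.gaussOp_deriv2, h.gaussOp_deriv]
  have h1 := tE_mono h.lip a v h.bd.deriv.eg
    ((EG.const 1).sub (h.bd.eg.pow 2) |>.const_mul β) hu x
  rw [tE_const_mul, tE_sub h.lip a v (EG.const 1) (h.bd.eg.pow 2), tE_const h.lip] at h1
  have h2 := tE_sq_le h.lip a v h.bd.eg x
  have e : (fun y => deriv Φ y * deriv Φ y) = fun y => deriv Φ y ^ 2 := by
    funext y; ring
  simp only [e]
  nlinarith

/-! ### the property (P1) -/

/-- (P1) at level `m`: `2 m Φ' + Φ''' / Φ''` is nonincreasing -/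
def P1 (m : ℝ) (Φ : ℝ → ℝ) : Prop :=
  Antitone fun x => 2 * m * deriv Φ x + deriv (deriv (deriv Φ)) x / deriv (deriv Φ) x

theorem P1.mono {Φ : ℝ → ℝ} (h : Prof Φ) (hl : Low (deriv (deriv Φ))) {m m' : ℝ}
    (hm : m' ≤ m) (hP : P1 m Φ) : P1 m' Φ := by
  have hmono : Monotone (deriv Φ) := monotone_of_deriv_nonneg h.bd.diff fun x => (hl.pos x).le
  intro x y hxy
  have h1 := hP hxy
  have h2 := hmono hxy
  simp only at h1 ⊢
  nlinarith

section ExpCalc

variable {Φ : ℝ → ℝ} (h : Prof Φ) (m : ℝ)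
include h

theorem exp_d1 : deriv (fun x => Real.exp (m * Φ x)) =
    fun x => (m * deriv Φ x) * Real.exp (m * Φ x) := by
  funext x
  have := ((h.d1 x).const_mul m).exp
  rw [this.deriv]
  ring

theorem exp_d2 : deriv (deriv (fun x => Real.exp (m * Φ x))) =
    fun x => (m ^ 2 * deriv Φ x ^ 2 + m * deriv (deriv Φ) x) * Real.exp (m * Φ x) := by
  rw [exp_d1 h]
  funext x
  have h1 := ((h.d1 x).const_mul m).exp
  have h2 := ((h.bd.hasDerivAt x).const_mul m).fun_mul h1
  rw [h2.deriv]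
  ring

end ExpCalc

/-- (P1) and W3 are equivalent -/
theorem P1_iff_W3 {Φ : ℝ → ℝ} (h : Prof Φ) (hl : Low (deriv (deriv Φ))) {m : ℝ} (hm : 0 < m) :
    P1 m Φ ↔ W3 (fun x => Real.exp (m * Φ x)) (deriv (fun x => Real.exp (m * Φ x)))
      (deriv (deriv (fun x => Real.exp (m * Φ x)))) := by
  rw [W3_iff (fun x => Real.exp_pos _), exp_d2 h, exp_d1 h]
  have e1 : ∀ x, (m * deriv Φ x) * Real.exp (m * Φ x) / Real.exp (m * Φ x) = m * deriv Φ x :=
    fun x => mul_div_cancel_right₀ _ (Real.exp_pos _).ne'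
  have e2 : ∀ x, (m ^ 2 * deriv Φ x ^ 2 + m * deriv (deriv Φ) x) * Real.exp (m * Φ x) /
      Real.exp (m * Φ x) = m ^ 2 * deriv Φ x ^ 2 + m * deriv (deriv Φ) x :=
    fun x => mul_div_cancel_right₀ _ (Real.exp_pos _).ne'
  simp only [e1, e2]
  have hp : ∀ x, HasDerivAt (fun x => m * deriv Φ x) (m * deriv (deriv Φ) x) x :=
    fun x => (h.bd.hasDerivAt x).const_mul m
  have hq : ∀ x, HasDerivAt (fun x => m ^ 2 * deriv Φ x ^ 2 + m * deriv (deriv Φ) x)
      (m ^ 2 * (2 * deriv Φ x * deriv (deriv Φ) x) + m * deriv (deriv (deriv Φ)) x) x := by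
    intro x
    have h1 := (((h.bd.hasDerivAt x).fun_pow 2).const_mul (m ^ 2)).fun_add
      ((h.bd.deriv.hasDerivAt x).const_mul m)
    refine h1.congr_deriv ?_
    norm_num
  have hpos : ∀ x, 0 < m * deriv (deriv Φ) x := fun x => mul_pos hm (hl.pos x)
  have e3 : (fun x => (m ^ 2 * (2 * deriv Φ x * deriv (deriv Φ) x) +
      m * deriv (deriv (deriv Φ)) x) / (m * deriv (deriv Φ) x)) =
      fun x => 2 * m * deriv Φ x + deriv (deriv (deriv Φ)) x / deriv (deriv Φ) x := by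
    funext x
    have := (hl.pos x).ne'
    field_simp
  constructor
  · intro hP x y z hxy hyz
    refine slope_of_anti hp hq hpos ?_ hxy hyz
    rw [e3]
    exact hP
  · intro hW
    have := anti_of_slope hp hq hpos hW
    rw [e3] at this
    exact this

/-- **(P1) is preserved by the Cole–Hopf step.** -/
theorem P1.step {Φ : ℝ → ℝ} (h : Prof Φ) (hl : Low (deriv (deriv Φ))) {m : ℝ} (hm : 0 < m)
    (hP : P1 m Φ) (v : ℝ) : P1 m (gaussOp m v Φ) := by
  rw [P1_iff_W3 (h.step m v) (h.low hl hm.le v) hm]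
  rw [P1_iff_W3 h hl hm] at hP
  have hE := h.exp_egs m
  have e : (fun x => Real.exp (m * gaussOp m v Φ x)) =
      H (Real.sqrt v) (fun y => Real.exp (m * Φ y)) := funext fun x => h.exp_gaussOp hm.ne' v x
  rw [e, H_deriv hE, H_deriv hE.deriv]
  exact hP.heat hE.eg hE.deriv.eg hE.deriv.deriv.eg _

end

end Crest.Agent.R339.B
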