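import Crest.Agent.R339.B107Dens

/-!
Row 339 (helper107): reduction of the no-gap inequality to a pointwise certificate.
-/

set_option autoImplicit false

namespace Crest.Agent.R339.B

open MeasureTheory ProbabilityTheory Filter Topology Set
open Crest.Agent.R164.GC
open Crest.ProbabilityR.InvariantGlass (gaussOp)

noncomputable section

/-! ### abstract reduction -/

/-- an integral of an even function is nonnegative if it dominates a derivative of a function
vanishing at both ends of `(0,∞)` -/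
theorem integral_nonneg_of_cert {φ G G' : ℝ → ℝ} (hφc : Continuous φ) (hφ : Integrable φ)
    (heven : ∀ x, φ (-x) = φ x) (hG : ∀ x, 0 < x → HasDerivAt G (G' x) x)
    (hle : ∀ x, 0 < x → 0 ≤ φ x + G' x)
    (h0 : Tendsto G (𝓝[>] 0) (𝓝 0)) (hinf : Tendsto G atTop (𝓝 0)) : 0 ≤ ∫ x, φ x := by
  -- the half line integral
  have key : ∀ a b : ℝ, 0 < a → a ≤ b → G a - G b ≤ ∫ x in a..b, φ x := by
    intro a b ha hab
    have hc : ContinuousOn (fun x => -G x) (Icc a b) := fun x hx =>
      ((hG x (ha.trans_le hx.1)).continuousAt.neg).continuousWithinAt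
    have := intervalIntegral.sub_le_integral_of_hasDeriv_right_of_le hab hc
      (g' := fun x => -G' x)
      (fun x hx => ((hG x (ha.trans hx.1)).fun_neg).hasDerivWithinAt)
      (hφc.continuousOn.integrableOn_compact isCompact_Icc)
      (fun x hx => by have := hle x (ha.trans hx.1); linarith)
    linarith
  -- limit at infinity
  have h1 : ∀ a : ℝ, 0 < a → G a ≤ ∫ x in Ioi a, φ x := by
    intro a ha
    have l1 : Tendsto (fun b => ∫ x in a..b, φ x) atTop (𝓝 (∫ x in Ioi a, φ x)) :=
      intervalIntegral_tendsto_integral_Ioi a hφ.integrableOn tendsto_id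
    have l2 : Tendsto (fun b => G a - G b) atTop (𝓝 (G a - 0)) := tendsto_const_nhds.sub hinf
    rw [sub_zero] at l2
    refine le_of_tendsto_of_tendsto l2 l1 ?_
    filter_upwards [eventually_ge_atTop a] with b hb
    exact key a b ha hb
  -- limit at zero
  have h2 : 0 ≤ ∫ x in Ioi (0 : ℝ), φ x := by
    have l1 : Tendsto (fun a => ∫ x in Ioi a, φ x) (𝓝[>] (0 : ℝ)) (𝓝 (∫ x in Ioi (0 : ℝ), φ x)) := by
      have e : ∀ a : ℝ, ∫ x in Ioi a, φ x = (∫ x in Ioi (0 : ℝ), φ x) - ∫ x in (0 : ℝ)..a, φ x := by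
        intro a
        have := intervalIntegral.integral_Ioi_sub_Ioi' (a := 0) (b := a) (f := φ) (μ := volume)
          hφ.integrableOn hφ.integrableOn
        linarith
      have l2 : Tendsto (fun a => ∫ x in (0 : ℝ)..a, φ x) (𝓝[>] (0 : ℝ)) (𝓝 0) := by
        have hc := intervalIntegral.continuous_primitive (μ := volume) (f := φ)
          (fun a b => hφ.intervalIntegrable) 0
        have := hc.tendsto 0
        rw [intervalIntegral.integral_same] at this
        exact this.mono_left nhdsWithin_le_nhds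
      have l3 := (tendsto_const_nhds (x := ∫ x in Ioi (0 : ℝ), φ x)).sub l2
      rw [sub_zero] at l3
      refine l3.congr fun a => ?_
      rw [e a]
    refine le_of_tendsto_of_tendsto h0 l1 ?_
    filter_upwards [self_mem_nhdsWithin] with a ha
    exact h1 a ha
  have h3 : ∫ x, φ x = 2 * ∫ x in Ioi (0 : ℝ), φ x := by
    rw [← integral_comp_abs]
    refine integral_congr_ae (Eventually.of_forall fun x => ?_)
    show φ x = φ |x|
    rcases abs_cases x with ⟨h, _⟩ | ⟨h, _⟩
    · rw [h]
    · rw [h, heven]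
  rw [h3]
  positivity

theorem SD.tendsto {R : ℝ → ℝ} (h : SD R) : Tendsto R atTop (𝓝 0) := by
  obtain ⟨K, hK, hb⟩ := h.bd 1
  have l1 : Tendsto (fun x : ℝ => K * Real.exp (-x)) atTop (𝓝 0) := by
    have := (Real.tendsto_exp_neg_atTop_nhds_zero).const_mul K
    simpa using this
  refine squeeze_zero_norm' ?_ l1
  filter_upwards [eventually_ge_atTop (0 : ℝ)] with x hx
  have := hb x
  rw [one_mul, abs_of_nonneg hx] at this
  rw [Real.norm_eq_abs]
  exact this

/-! ### the profile functions -/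

/-- class (G): even positive weights with `-R'/R ≥ 0` and `(-R'/R)/x` nonincreasing on `x > 0` -/
structure GW (R : ℝ → ℝ) : Prop where
  sds : SDS R
  pos : ∀ x, 0 < R x
  even : ∀ x, R (-x) = R x
  r0 : ∀ x, 0 < x → 0 ≤ -deriv R x / R x
  r1 : AntitoneOn (fun x => (-deriv R x / R x) / x) (Ioi 0)

/-- the profile functions in units `m = 1` -/
def fM (m : ℝ) (f : ℝ → ℝ) (x : ℝ) : ℝ := m * deriv f x
def fa (m : ℝ) (f : ℝ → ℝ) (x : ℝ) : ℝ := m * deriv (deriv f) x
def fb (f : ℝ → ℝ) (x : ℝ) : ℝ := -deriv (deriv (deriv f)) x / deriv (deriv f) x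
def fE (m : ℝ) (f : ℝ → ℝ) (x : ℝ) : ℝ := deriv (fb f) x - 2 * fa m f x
def fr (R : ℝ → ℝ) (x : ℝ) : ℝ := -deriv R x / R x
def fo (R : ℝ → ℝ) (x : ℝ) : ℝ := deriv (fr R) x

section Prof

variable {β m : ℝ} {f : ℝ → ℝ} (h : Inv β m f)
include h

theorem u2_pos (x : ℝ) : 0 < deriv (deriv f) x := h.low.pos x

theorem fM_d (x : ℝ) : HasDerivAt (fM m f) (fa m f x) x := (h.prof.bd.hasDerivAt x).const_mul m

theorem fa_d (x : ℝ) : HasDerivAt (fa m f) (-(fa m f x * fb f x)) x := by
  refine ((h.prof.bd.deriv.hasDerivAt x).const_mul m).congr_deriv ?_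
  unfold fa fb
  have := (u2_pos h x).ne'
  field_simp

theorem fb_d0 (x : ℝ) : HasDerivAt (fb f)
    (fb f x ^ 2 - deriv (deriv (deriv (deriv f))) x / deriv (deriv f) x) x := by
  refine (((h.prof.bd.deriv.deriv.hasDerivAt x).fun_neg).fun_div
    (h.prof.bd.deriv.hasDerivAt x) (u2_pos h x).ne').congr_deriv ?_
  unfold fb
  have := (u2_pos h x).ne'
  field_simp
  ring

theorem fb_d (x : ℝ) : HasDerivAt (fb f) (fE m f x + 2 * fa m f x) x := by
  have := fb_d0 h x
  unfold fE
  rw [this.deriv]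
  refine this.congr_deriv ?_
  ring

theorem u4_eq (x : ℝ) : deriv (deriv (deriv (deriv f))) x =
    deriv (deriv f) x * (fb f x ^ 2 - 2 * fa m f x - fE m f x) := by
  have := fb_d0 h x
  unfold fE
  rw [this.deriv]
  have := (u2_pos h x).ne'
  field_simp
  ring

theorem u3_eq (x : ℝ) : deriv (deriv (deriv f)) x = -(deriv (deriv f) x * fb f x) := by
  unfold fb
  have := (u2_pos h x).ne'
  field_simp

theorem fE_nonneg (x : ℝ) : 0 ≤ fE m f x := by
  have h1 : HasDerivAt (fun x => 2 * m * deriv f x + deriv (deriv (deriv f)) x /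
      deriv (deriv f) x) (-fE m f x) x := by
    have h2 := ((h.prof.bd.hasDerivAt x).const_mul (2 * m)).fun_sub (fb_d h x)
    have e : (fun x => 2 * m * deriv f x + deriv (deriv (deriv f)) x / deriv (deriv f) x) =
        fun x => 2 * m * deriv f x - fb f x := by
      funext y
      unfold fb
      ring
    rw [e]
    refine h2.congr_deriv ?_
    unfold fa
    ring
  have := h1.nonpos_of_antitone h.p1
  linarith

theorem fM_odd (x : ℝ) : fM m f (-x) = -fM m f x := by
  unfold fM
  rw [h.odd]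
  ring

theorem u2_even (x : ℝ) : deriv (deriv f) (-x) = deriv (deriv f) x := deriv_neg_of_odd h.odd x

theorem u3_odd (x : ℝ) : deriv (deriv (deriv f)) (-x) = -deriv (deriv (deriv f)) x :=
  deriv_neg_of_even (u2_even h) x

theorem u4_even (x : ℝ) : deriv (deriv (deriv (deriv f))) (-x) =
    deriv (deriv (deriv (deriv f))) x := deriv_neg_of_odd (u3_odd h) x

theorem fb_odd (x : ℝ) : fb f (-x) = -fb f x := by
  unfold fb
  rw [u3_odd h, u2_even h]
  ring

theorem fb0 : fb f 0 = 0 := by
  have := fb_odd h 0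
  rw [neg_zero] at this
  linarith

theorem fM0 : fM m f 0 = 0 := by
  have := fM_odd h 0
  rw [neg_zero] at this
  linarith

theorem fa_pos (hm : 0 < m) (x : ℝ) : 0 < fa m f x := mul_pos hm (u2_pos h x)

theorem fM_nonneg (hm : 0 < m) {x : ℝ} (hx : 0 ≤ x) : 0 ≤ fM m f x :=
  mul_nonneg hm.le (h.nonneg hx)

theorem fb_ge {x : ℝ} (hx : 0 ≤ x) : 2 * fM m f x ≤ fb f x := by
  have h1 : Monotone fun x => fb f x - 2 * fM m f x := by
    refine monotone_of_deriv_nonneg (fun x => ((fb_d h x).fun_sub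
      ((fM_d h x).const_mul 2)).differentiableAt) fun x => ?_
    rw [((fb_d h x).fun_sub ((fM_d h x).const_mul 2)).deriv]
    have := fE_nonneg h x
    linarith
  have := h1 hx
  simp only [fb0 h, fM0 h] at this
  linarith

theorem fb_nonneg (hm : 0 < m) {x : ℝ} (hx : 0 ≤ x) : 0 ≤ fb f x := by
  have h1 := fb_ge h hx
  have h2 := fM_nonneg h hm hx
  linarith

/-- `x a ≤ M` -/
theorem fa_le (hm : 0 < m) {x : ℝ} (hx : 0 ≤ x) : x * fa m f x ≤ fM m f x := by
  have h1 : MonotoneOn (fun x => fM m f x - x * fa m f x) (Ici 0) := by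
    have hd : ∀ x, HasDerivAt (fun x => fM m f x - x * fa m f x)
        (x * (fa m f x * fb f x)) x := by
      intro x
      refine ((fM_d h x).fun_sub ((hasDerivAt_id' x).fun_mul (fa_d h x))).congr_deriv ?_
      ring
    refine monotoneOn_of_deriv_nonneg (convex_Ici 0) (fun x _ =>
      (hd x).continuousAt.continuousWithinAt) (fun x _ =>
      (hd x).differentiableAt.differentiableWithinAt) fun x hx => ?_
    rw [interior_Ici] at hx
    rw [(hd x).deriv]
    have hx' : (0 : ℝ) ≤ x := (mem_Ioi.1 hx).le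
    exact mul_nonneg hx' (mul_nonneg (fa_pos h hm x).le (fb_nonneg h hm hx'))
  have := h1 (mem_Ici.2 le_rfl) (mem_Ici.2 hx) hx
  simp only [fM0 h, zero_mul, sub_zero] at this
  linarith

/-- exponential bound for `b` -/
theorem fb_eg : EG (fb f) := by
  obtain ⟨C, hC⟩ := h.prof.bd.deriv.deriv.bdd
  obtain ⟨c, A, hc, hA, hl⟩ := h.low
  have hC0 : 0 ≤ C := (abs_nonneg _).trans (hC 0)
  refine ⟨continuous_iff_continuousAt.2 fun x => (fb_d h x).continuousAt, C / c, A,
    by positivity, hA, fun x => ?_⟩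
  unfold fb
  rw [abs_div, abs_neg, abs_of_pos (u2_pos h x)]
  have h1 : 0 < c * Real.exp (-(A * |x|)) := by positivity
  calc |deriv (deriv (deriv f)) x| / deriv (deriv f) x
      ≤ C / (c * Real.exp (-(A * |x|))) := div_le_div₀ hC0 (hC x) h1 (hl x)
    _ = C / c * Real.exp (A * |x|) := by
        rw [Real.exp_neg]
        field_simp

end Prof

section Weight

variable {R : ℝ → ℝ} (hR : GW R)
include hR

theorem fr_d (x : ℝ) : HasDerivAt (fr R) (fo R x) x := by
  unfold fo
  have : DifferentiableAt ℝ (fr R) x := by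
    unfold fr
    exact (hR.sds.deriv.diff x).neg.div (hR.sds.diff x) (hR.pos x).ne'
  exact this.hasDerivAt

theorem Rd (x : ℝ) : HasDerivAt R (-(R x * fr R x)) x := by
  refine (hR.sds.hasDerivAt x).congr_deriv ?_
  unfold fr
  have := (hR.pos x).ne'
  field_simp

theorem fr_odd (x : ℝ) : fr R (-x) = -fr R x := by
  unfold fr
  rw [deriv_neg_of_even hR.even, hR.even]
  ring

theorem fr0 : fr R 0 = 0 := by
  have := fr_odd hR 0
  rw [neg_zero] at this
  linarith

theorem fr_nonneg {x : ℝ} (hx : 0 < x) : 0 ≤ fr R x := hR.r0 x hx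

/-- `r' ≤ r / x` -/
theorem fo_le {x : ℝ} (hx : 0 < x) : fo R x ≤ fr R x * (1 / x) := by
  have h1 : HasDerivAt (fun x => fr R x / x) ((fo R x * x - fr R x * 1) / x ^ 2) x :=
    (fr_d hR x).fun_div (hasDerivAt_id' x) hx.ne'
  have h2 : (fo R x * x - fr R x * 1) / x ^ 2 ≤ 0 := by
    have h2 := AntitoneOn.derivWithin_nonpos (g := fun x => fr R x / x) (x := x) hR.r1
    rwa [h1.hasDerivWithinAt.derivWithin (isOpen_Ioi.uniqueDiffWithinAt (mem_Ioi.2 hx))] at h2
  have h3 : fo R x * x - fr R x * 1 ≤ 0 := by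
    by_contra hcon
    push Not at hcon
    have : 0 < (fo R x * x - fr R x * 1) / x ^ 2 := div_pos hcon (by positivity)
    linarith
  have h4 : fr R x * (1 / x) * x = fr R x := by field_simp
  have h5 : fo R x * x ≤ (fr R x * (1 / x)) * x := by rw [h4]; linarith
  exact le_of_mul_le_mul_right h5 hx

end Weight

end

end Crest.Agent.R339.B
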