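import Crest.Agent.R339.B107Det
import Crest.Agent.R164.GCalc2

/-!
Row 339 (helper107): the property W3 (the curve `(w'/w, w''/w)` is concave) and its
preservation under the heat flow.
-/

set_option autoImplicit false

namespace Crest.Agent.R339.B

open MeasureTheory ProbabilityTheory Filter Topology Set
open Crest.Agent.R164.GC

noncomputable section

/-- the generalized mean value theorem, in the form `Δq = κ(ξ) Δp` -/
theorem cmvt {p q p' q' : ℝ → ℝ} (hp : ∀ x, HasDerivAt p (p' x) x)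
    (hq : ∀ x, HasDerivAt q (q' x) x) (hpos : ∀ x, 0 < p' x) {x y : ℝ} (hxy : x < y) :
    ∃ ξ, x < ξ ∧ ξ < y ∧ q y - q x = q' ξ / p' ξ * (p y - p x) := by
  obtain ⟨ξ, hξ, h⟩ := exists_ratio_hasDerivAt_eq_ratio_slope p p' hxy
    (fun z _ => (hp z).continuousAt.continuousWithinAt) (fun z _ => hp z) q q'
    (fun z _ => (hq z).continuousAt.continuousWithinAt) (fun z _ => hq z)
  refine ⟨ξ, hξ.1, hξ.2, ?_⟩
  have h0 := (hpos ξ).ne'
  field_simp
  linarith

/-- slopes of `q` along `p` decrease if `q'/p'` is antitone -/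
theorem slope_of_anti {p q p' q' : ℝ → ℝ} (hp : ∀ x, HasDerivAt p (p' x) x)
    (hq : ∀ x, HasDerivAt q (q' x) x) (hpos : ∀ x, 0 < p' x)
    (hanti : Antitone fun x => q' x / p' x) {x y z : ℝ} (hxy : x < y) (hyz : y < z) :
    (p y - p x) * (q z - q y) ≤ (p z - p y) * (q y - q x) := by
  obtain ⟨ξ, h1, h2, h3⟩ := cmvt hp hq hpos hxy
  obtain ⟨η, h4, h5, h6⟩ := cmvt hp hq hpos hyz
  have hmono : StrictMono p := strictMono_of_hasDerivAt_pos hp hpos
  have a1 : 0 < p y - p x := sub_pos.2 (hmono hxy)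
  have a2 : 0 < p z - p y := sub_pos.2 (hmono hyz)
  have h7 : q' η / p' η ≤ q' ξ / p' ξ := hanti (h2.trans h4).le
  rw [h3, h6]
  have := mul_le_mul_of_nonneg_left h7 (mul_pos a1 a2).le
  nlinarith

/-- slopes of `q` along `p` increase if `q'/p'` is monotone -/
theorem slope_of_mono {p q p' q' : ℝ → ℝ} (hp : ∀ x, HasDerivAt p (p' x) x)
    (hq : ∀ x, HasDerivAt q (q' x) x) (hpos : ∀ x, 0 < p' x)
    (hmono : Monotone fun x => q' x / p' x) {x y z : ℝ} (hxy : x < y) (hyz : y < z) :
    (p z - p y) * (q y - q x) ≤ (p y - p x) * (q z - q y) := by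
  have := slope_of_anti (q := fun x => -q x) (q' := fun x => -q' x) hp
    (fun x => (hq x).fun_neg) hpos (fun a b hab => by
      have := hmono hab
      simp only [neg_div, neg_le_neg_iff]
      exact this) hxy hyz
  nlinarith

/-- a monotone differentiable family of slopes: the derivative ratio is antitone -/
theorem anti_of_slope {p q p' q' : ℝ → ℝ} (hp : ∀ x, HasDerivAt p (p' x) x)
    (hq : ∀ x, HasDerivAt q (q' x) x) (hpos : ∀ x, 0 < p' x)
    (h : ∀ x y z : ℝ, x < y → y < z →
      (p y - p x) * (q z - q y) ≤ (p z - p y) * (q y - q x)) :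
    Antitone fun x => q' x / p' x := by
  have hmono : StrictMono p := strictMono_of_hasDerivAt_pos hp hpos
  -- the ratio is the limit of the slopes
  have hlim : ∀ x, Tendsto (fun y => (q y - q x) / (p y - p x)) (𝓝[≠] x) (𝓝 (q' x / p' x)) := by
    intro x
    have h1 := (hasDerivAt_iff_tendsto_slope.1 (hq x))
    have h2 := (hasDerivAt_iff_tendsto_slope.1 (hp x))
    have h3 := h1.div h2 (hpos x).ne'
    refine h3.congr' ?_
    filter_upwards [self_mem_nhdsWithin] with y hy
    have hy' : y - x ≠ 0 := sub_ne_zero.2 hy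
    have hy2 : p y - p x ≠ 0 := by
      intro h0
      exact hy (hmono.injective (sub_eq_zero.1 h0))
    simp only [Pi.div_apply, slope_def_field]
    field_simp
  intro x y hxy
  rcases hxy.eq_or_lt with rfl | hlt
  · exact le_rfl
  -- slope on [x, y] is below the ratio at x
  have hA : (q y - q x) / (p y - p x) ≤ q' x / p' x := by
    have hl := (hlim x).mono_left (nhdsWithin_mono x (show Ioi x ⊆ {x}ᶜ from
      fun z hz => (ne_of_gt hz)))
    refine ge_of_tendsto hl ?_
    have : Ioo x y ∈ 𝓝[>] x := Ioo_mem_nhdsGT hlt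
    filter_upwards [this] with z hz
    have h1 := h x z y hz.1 hz.2
    have a1 : 0 < p z - p x := sub_pos.2 (hmono hz.1)
    have a2 : 0 < p y - p z := sub_pos.2 (hmono hz.2)
    have a3 : 0 < p y - p x := sub_pos.2 (hmono hlt)
    rw [div_le_div_iff₀ a3 a1]
    nlinarith
  have hB : q' y / p' y ≤ (q y - q x) / (p y - p x) := by
    have hl := (hlim y).mono_left (nhdsWithin_mono y (show Iio y ⊆ {y}ᶜ from
      fun z hz => (ne_of_lt hz)))
    refine le_of_tendsto hl ?_
    have : Ioo x y ∈ 𝓝[<] y := Ioo_mem_nhdsLT hlt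
    filter_upwards [this] with z hz
    have h1 := h x z y hz.1 hz.2
    have a1 : 0 < p z - p x := sub_pos.2 (hmono hz.1)
    have a2 : 0 < p y - p z := sub_pos.2 (hmono hz.2)
    have a3 : 0 < p y - p x := sub_pos.2 (hmono hlt)
    have e : (q z - q y) / (p z - p y) = (q y - q z) / (p y - p z) := by
      rw [← neg_sub (q y), ← neg_sub (p y), neg_div_neg_eq]
    rw [e, div_le_div_iff₀ a2 a3]
    nlinarith
  exact hB.trans hA

/-- the 3×3 determinant -/
theorem det3 (f : Fin 3 → ℝ → ℝ) (u : Fin 3 → ℝ) :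
    Matrix.det (Matrix.of fun i j => f i (u j)) =
      f 0 (u 0) * f 1 (u 1) * f 2 (u 2) - f 0 (u 0) * f 1 (u 2) * f 2 (u 1)
      - f 0 (u 1) * f 1 (u 0) * f 2 (u 2) + f 0 (u 1) * f 1 (u 2) * f 2 (u 0)
      + f 0 (u 2) * f 1 (u 0) * f 2 (u 1) - f 0 (u 2) * f 1 (u 1) * f 2 (u 0) := by
  rw [Matrix.det_fin_three]
  simp only [Matrix.of_apply]
  try ring

theorem sm3 {u : Fin 3 → ℝ} (hu : StrictMono u) : u 0 < u 1 ∧ u 1 < u 2 :=
  ⟨hu (by decide), hu (by decide)⟩

/-- **Total positivity of order three of the exponential kernel.** -/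
theorem exp_det_nonneg {z : Fin 3 → ℝ} (hz : StrictMono z) (u : Fin 3 → ℝ) (hu : StrictMono u) :
    0 ≤ Matrix.det (Matrix.of fun i j => (fun (i : Fin 3) (x : ℝ) => Real.exp (z i * x)) i (u j)) := by
  obtain ⟨z1, z2⟩ := sm3 hz
  obtain ⟨u1, u2⟩ := sm3 hu
  rw [det3 (fun (i : Fin 3) (x : ℝ) => Real.exp (z i * x)) u]
  have a1 : 0 < z 1 - z 0 := sub_pos.2 z1
  have a2 : 0 < z 2 - z 1 := sub_pos.2 z2
  have a3 : 0 < z 2 - z 0 := by linarith
  have hd : ∀ c x : ℝ, HasDerivAt (fun x => Real.exp (c * x)) (c * Real.exp (c * x)) x := by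
    intro c x
    have := ((hasDerivAt_id x).const_mul c).exp
    simp only [id, mul_one] at this
    rw [mul_comm] at this
    exact this
  have hs := slope_of_mono (hd (z 1 - z 0)) (hd (z 2 - z 0))
    (fun x => mul_pos a1 (Real.exp_pos _)) (fun x y hxy => by
      have e : ∀ x, (z 2 - z 0) * Real.exp ((z 2 - z 0) * x) /
          ((z 1 - z 0) * Real.exp ((z 1 - z 0) * x)) =
          (z 2 - z 0) / (z 1 - z 0) * Real.exp ((z 2 - z 1) * x) := by
        intro x
        have e1 : Real.exp ((z 2 - z 0) * x) =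
            Real.exp ((z 2 - z 1) * x) * Real.exp ((z 1 - z 0) * x) := by
          rw [← Real.exp_add]; ring_nf
        rw [e1]
        have := Real.exp_pos ((z 1 - z 0) * x)
        field_simp
      simp only [e]
      refine mul_le_mul_of_nonneg_left (Real.exp_le_exp.2 ?_) (div_pos a3 a1).le
      exact mul_le_mul_of_nonneg_left hxy a2.le) u1 u2
  have f1 : ∀ x, Real.exp (z 1 * x) = Real.exp ((z 1 - z 0) * x) * Real.exp (z 0 * x) := by
    intro x; rw [← Real.exp_add]; ring_nf
  have f2 : ∀ x, Real.exp (z 2 * x) = Real.exp ((z 2 - z 0) * x) * Real.exp (z 0 * x) := by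
    intro x; rw [← Real.exp_add]; ring_nf
  simp only [f1, f2]
  set A0 := Real.exp ((z 1 - z 0) * u 0)
  set A1 := Real.exp ((z 1 - z 0) * u 1)
  set A2 := Real.exp ((z 1 - z 0) * u 2)
  set B0 := Real.exp ((z 2 - z 0) * u 0)
  set B1 := Real.exp ((z 2 - z 0) * u 1)
  set B2 := Real.exp ((z 2 - z 0) * u 2)
  have c0 := Real.exp_pos (z 0 * u 0)
  have c1 := Real.exp_pos (z 0 * u 1)
  have c2 := Real.exp_pos (z 0 * u 2)
  set C0 := Real.exp (z 0 * u 0)
  set C1 := Real.exp (z 0 * u 1)
  set C2 := Real.exp (z 0 * u 2)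
  have hpos := mul_pos (mul_pos c0 c1) c2
  have key := mul_nonneg hpos.le (sub_nonneg.2 hs)
  nlinarith [key]

/-- **W3**: all ordered determinants of `(w, w', w'')` are nonpositive -/
def W3 (w w1 w2 : ℝ → ℝ) : Prop :=
  ∀ u : Fin 3 → ℝ, StrictMono u →
    Matrix.det (Matrix.of fun i j => (![w, w1, w2] : Fin 3 → ℝ → ℝ) i (u j)) ≤ 0

theorem W3_iff {w w1 w2 : ℝ → ℝ} (hw : ∀ x, 0 < w x) :
    W3 w w1 w2 ↔ ∀ x y z : ℝ, x < y → y < z →
      (w1 y / w y - w1 x / w x) * (w2 z / w z - w2 y / w y) ≤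
        (w1 z / w z - w1 y / w y) * (w2 y / w y - w2 x / w x) := by
  have key : ∀ x y z : ℝ,
      (w x * w1 y * w2 z - w x * w1 z * w2 y - w y * w1 x * w2 z + w y * w1 z * w2 x
        + w z * w1 x * w2 y - w z * w1 y * w2 x) =
      w x * w y * w z * ((w1 y / w y - w1 x / w x) * (w2 z / w z - w2 y / w y) -
        (w1 z / w z - w1 y / w y) * (w2 y / w y - w2 x / w x)) := by
    intro x y z
    have h1 := (hw x).ne'
    have h2 := (hw y).ne'
    have h3 := (hw z).ne'
    field_simp
    ring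
  constructor
  · intro h x y z hxy hyz
    have hu : StrictMono (![x, y, z] : Fin 3 → ℝ) := by
      intro a b hab
      fin_cases a <;> fin_cases b <;> simp at hab ⊢ <;> linarith
    have h1 := h _ hu
    rw [det3] at h1
    simp only [Matrix.cons_val_zero, Matrix.cons_val_one, Matrix.cons_val] at h1
    rw [key x y z] at h1
    have hp := mul_pos (mul_pos (hw x) (hw y)) (hw z)
    by_contra hcon
    push Not at hcon
    have := mul_pos hp (sub_pos.2 hcon)
    linarith
  · intro h u hu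
    obtain ⟨u1, u2⟩ := sm3 hu
    rw [det3]
    simp only [Matrix.cons_val_zero, Matrix.cons_val_one, Matrix.cons_val]
    rw [key]
    have hp := mul_pos (mul_pos (hw (u 0)) (hw (u 1))) (hw (u 2))
    exact mul_nonpos_of_nonneg_of_nonpos hp.le (sub_nonpos.2 (h _ _ _ u1 u2))

/-- the variance `t²` -/
def vv (t : ℝ) : NNReal := ⟨t ^ 2, sq_nonneg t⟩

theorem vv_coe (t : ℝ) : (vv t : ℝ) = t ^ 2 := rfl

theorem vv_ne {t : ℝ} (ht : t ≠ 0) : vv t ≠ 0 := by
  intro h
  have h2 : (vv t : ℝ) = 0 := by rw [h]; rfl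
  rw [vv_coe] at h2
  exact ht (pow_eq_zero_iff (two_ne_zero)|>.1 h2)

theorem map_vv (t x : ℝ) : (gaussianReal 0 1).map (fun g => x + t * g) = gaussianReal x (vv t) := by
  have h1 : (gaussianReal 0 1).map (fun g => t * g) = gaussianReal 0 (vv t) := by
    rw [gaussianReal_map_const_mul, mul_zero]
    congr 1
    ext
    rw [mul_one]
    rfl
  have h2 := gaussianReal_map_const_add (μ := 0) (v := vv t) x
  rw [← h1, Measure.map_map (by fun_prop) (by fun_prop), zero_add] at h2
  exact h2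

theorem emb_vv {t : ℝ} (ht : t ≠ 0) (x : ℝ) : MeasurableEmbedding (fun g : ℝ => x + t * g) := by
  have e : (fun g : ℝ => x + t * g) = (fun y => x + y) ∘ (fun g => t * g) := rfl
  rw [e]
  exact (measurableEmbedding_addLeft x).comp (measurableEmbedding_mulLeft₀ ht)

/-- the Gaussian average as an integral over Lebesgue measure -/
theorem H_eq_pdf (φ : ℝ → ℝ) {t : ℝ} (ht : t ≠ 0) (x : ℝ) :
    H t φ x = ∫ u, gaussianPDFReal x (vv t) u * φ u := by
  unfold H
  rw [← (emb_vv ht x).integral_map (fun y => φ y), map_vv,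
    integral_gaussianReal_eq_integral_smul (vv_ne ht)]
  rfl

theorem pdf_integrable {φ : ℝ → ℝ} (hφ : EG φ) {t : ℝ} (ht : t ≠ 0) (x : ℝ) :
    Integrable (fun u => gaussianPDFReal x (vv t) u * φ u) := by
  have h1 : Integrable φ (gaussianReal x (vv t)) := by
    rw [← map_vv, (emb_vv ht x).integrable_map_iff]
    exact hφ.int t x
  rw [gaussianReal_of_var_ne_zero x (vv_ne ht)] at h1
  have h2 := (integrable_withDensity_iff_integrable_smul₀'
    (measurable_gaussianPDF x _).aemeasurable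
    (Eventually.of_forall fun g => gaussianPDF_lt_top)).1 h1
  refine h2.congr (Eventually.of_forall fun g => ?_)
  show (gaussianPDF x (vv t) g).toReal * φ g = gaussianPDFReal x (vv t) g * φ g
  rw [toReal_gaussianPDF]

/-- **Total positivity of order three of the Gaussian kernel.** -/
theorem pdf_det_nonneg {v : NNReal} (hv : v ≠ 0) {z : Fin 3 → ℝ} (hz : StrictMono z)
    (u : Fin 3 → ℝ) (hu : StrictMono u) :
    0 ≤ Matrix.det (Matrix.of fun i j =>
      (fun (i : Fin 3) (x : ℝ) => gaussianPDFReal (z i) v x) i (u j)) := by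
  have hv' : (0 : ℝ) < v := by
    have := pos_iff_ne_zero.2 hv
    exact_mod_cast this
  have e : (Matrix.of fun i j =>
      (fun (i : Fin 3) (x : ℝ) => gaussianPDFReal (z i) v x) i (u j)) =
      Matrix.of fun i j => ((√(2 * Real.pi * v))⁻¹ * Real.exp (-(z i) ^ 2 / (2 * v))) *
        (Matrix.of fun (i j : Fin 3) => Real.exp (-(u j) ^ 2 / (2 * v)) *
          (Matrix.of fun (i j : Fin 3) => Real.exp ((z i / v) * u j)) i j) i j := by
    ext i j
    simp only [Matrix.of_apply, gaussianPDFReal_def]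
    have e1 : Real.exp (-(u j - z i) ^ 2 / (2 * (v : ℝ))) =
        Real.exp (-(z i) ^ 2 / (2 * v)) * (Real.exp (-(u j) ^ 2 / (2 * v)) *
          Real.exp ((z i / v) * u j)) := by
      rw [← Real.exp_add, ← Real.exp_add]
      congr 1
      field_simp
      ring
    rw [e1]
    ring
  rw [e, Matrix.det_mul_column, Matrix.det_mul_row]
  refine mul_nonneg (Finset.prod_nonneg fun i _ => by positivity)
    (mul_nonneg (Finset.prod_nonneg fun i _ => by positivity) ?_)
  refine exp_det_nonneg (z := fun i => z i / v) (fun a b hab => ?_) u hu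
  exact div_lt_div_of_pos_right (hz hab) hv'

/-- **W3 is preserved by the heat flow.** -/
theorem W3.heat {w w1 w2 : ℝ → ℝ} (h : W3 w w1 w2) (hw : EG w) (hw1 : EG w1) (hw2 : EG w2)
    (t : ℝ) : W3 (H t w) (H t w1) (H t w2) := by
  by_cases ht : t = 0
  · subst ht
    have e : ∀ φ : ℝ → ℝ, H 0 φ = φ := fun φ => funext fun x => H_zero φ x
    rw [e, e, e]
    exact h
  intro z hz
  have hEG : ∀ j : Fin 3, EG ((![w, w1, w2] : Fin 3 → ℝ → ℝ) j) := by
    intro j
    fin_cases j
    · exact hw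
    · exact hw1
    · exact hw2
  have key := andreief (n := 3) volume (fun i x => gaussianPDFReal (z i) (vv t) x)
    (![w, w1, w2] : Fin 3 → ℝ → ℝ) (fun i j => pdf_integrable (hEG j) ht (z i))
  have e2 : Matrix.det (Matrix.of fun i j => (![H t w, H t w1, H t w2] :
      Fin 3 → ℝ → ℝ) i (z j)) = Matrix.det (Matrix.of fun i j =>
        ∫ u, gaussianPDFReal (z i) (vv t) u * (![w, w1, w2] : Fin 3 → ℝ → ℝ) j u) := by
    rw [← Matrix.det_transpose]
    congr 1
    ext i j
    simp only [Matrix.transpose_apply, Matrix.of_apply]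
    fin_cases j <;> simp [H_eq_pdf _ ht]
  rw [e2]
  have h6 : (0 : ℝ) < ((3 : ℕ).factorial : ℝ) := by positivity
  refine nonpos_of_mul_nonpos_right ?_ h6
  rw [← key]
  refine integral_nonpos fun u => ?_
  exact det_mul_det_nonpos _ _ (fun u hu => pdf_det_nonneg (vv_ne ht) hz u hu) h u

end

end Crest.Agent.R339.B
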