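import Crest.Agent.R339.Cel90B

/-!
# R339 (G2): one cell of the gadget, definitions and the final state

`pV B U T = P_B U* T U Om`.
-/

set_option autoImplicit false
set_option linter.unusedSectionVars false
set_option linter.style.haveILetI false

noncomputable section

open scoped ComplexConjugate InnerProductSpace Topology
open Filter MeasureTheory

namespace Crest.Agent.R339.Cel

open Crest.Agent.R339.Li Crest.Agent.R339.Li.ILSys Crest.Agent.R339.MF

variable {Λ H : Type*} [MeasurableSpace Λ] [NormedAddCommGroup H] [InnerProductSpace ℂ H]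
  [CompleteSpace H] 

/-- `P_B U* T U Om` -/
def pV (I : ILSys Λ H) (B : Set Λ) (U : UH H) (T : H →L[ℂ] H) : H :=
  I.P B (star (U : H →L[ℂ] H) (T ((U : H →L[ℂ] H) I.Om)))

/-- label function `Σ c_k sin φ(u_k)` -/
abbrev TL (I : ILSys Λ H) {n : ℕ} (c : Fin n → ℝ) (u : Fin n → H) : H →L[ℂ] H :=
  ∑ k, (c k : ℂ) • I.sW (u k)

section cell

variable (I : ILSys Λ H) (N B M : Set Λ) (g t κ : ℝ) (T : H →L[ℂ] H) (U : UH H)

/-- the bath vector `P_M U* Y U Om` -/
def cy : H := pV I M U I.Y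
/-- the node vector `P_N U* Z U Om` -/
abbrev cf : H := I.eA N U
/-- the target vector `P_B U* Z U Om` -/
abbrev ch : H := I.eA B U
/-- bath after the first coupling -/
def cU1 : UH H := yWU I ((g : ℂ) • I.eA N U) * U
/-- the bath vector `P_M U1* Z U1 Om` -/
def cz : H := I.eA M (cU1 I N g U)
/-- the adaptive frequency -/
def cτ : ℝ := Real.pi / (4 * g * (⟪cy I M U, cz I N M g U⟫_ℂ).im)

/-- `sin (t φ(h)) / t` -/
def sinq (h : H) : H →L[ℂ] H := ((t : ℂ)⁻¹) • I.sW ((t : ℂ) • h)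

/-- node generator `T (sin (t φ(h)) / t) cos (τ φ(z))` -/
def cF : H →L[ℂ] H :=
  T * (sinq I t (I.eA B U) * I.cW ((cτ I N M g U : ℂ) • cz I N M g U))

/-- target kick `-κ P_N U* T cos (t φ(h)) cos (τ φ(z)) U Om` -/
def ca : H := ((-κ : ℝ) : ℂ) • pV I N U
  (T * (I.cW ((t : ℂ) • I.eA B U) * I.cW ((cτ I N M g U : ℂ) • cz I N M g U)))

/-- bath kick `κ τ P_N U* T (sin (t φ(h)) / t) sin (τ φ(z)) U Om` -/
def cζ : H := ((κ * cτ I N M g U : ℝ) : ℂ) • pV I N U
  (T * (sinq I t (I.eA B U) * I.sW ((cτ I N M g U : ℂ) • cz I N M g U)))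

/-- `P_M U2* Y U2 Om` -/
def cy2 : H := pV I M (zWU I (cζ I N B M g t κ T U) * cU1 I N g U) I.Y

/-- bath gate `e^{-i g Y φ(f)} e^{i Z φ(ζ)} e^{i g Y φ(f)}` -/
def cK : UH H := yWU I (-((g : ℂ) • I.eA N U)) *
  (zWU I (cζ I N B M g t κ T U) * yWU I ((g : ℂ) • I.eA N U))

end cell

end Crest.Agent.R339.Cel
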