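import Mathlib

/-!
# Strong convergence calculus and cell operators (R339, label induction, block G3)
-/

set_option autoImplicit false
set_option linter.unusedSectionVars false

open scoped InnerProductSpace Topology ComplexConjugate
open Filter

namespace Crest.Agent.R339.Cell

variable {S : Type*} [NormedAddCommGroup S] [InnerProductSpace ℂ S] [CompleteSpace S]

/-! ### Strong convergence with uniform bounds -/

/-- strong convergence of a (eventually) uniformly bounded family of operators -/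
structure BS {α : Type*} (l : Filter α) (T : α → S →L[ℂ] S) (A : S →L[ℂ] S) : Prop where
  bd : ∃ C : ℝ, ∀ᶠ n in l, ‖T n‖ ≤ C
  lim : ∀ x : S, Tendsto (fun n => T n x) l (𝓝 (A x))

variable {α : Type*} {l : Filter α}

theorem BS.const (A : S →L[ℂ] S) : BS l (fun _ => A) A :=
  ⟨⟨‖A‖, Eventually.of_forall fun _ => le_rfl⟩, fun _ => tendsto_const_nhds⟩

theorem BS.congr {T T' : α → S →L[ℂ] S} {A : S →L[ℂ] S} (h : BS l T A)
    (hT : ∀ᶠ n in l, T n = T' n) : BS l T' A := by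
  obtain ⟨C, hC⟩ := h.bd
  refine ⟨⟨C, ?_⟩, fun x => ?_⟩
  · filter_upwards [hC, hT] with n h1 h2
    rwa [← h2]
  · refine (h.lim x).congr' ?_
    filter_upwards [hT] with n h2
    rw [h2]

/-- applied to converging vectors -/
theorem BS.apply {T : α → S →L[ℂ] S} {A : S →L[ℂ] S} (h : BS l T A) {x : α → S} {x₀ : S}
    (hx : Tendsto x l (𝓝 x₀)) : Tendsto (fun n => T n (x n)) l (𝓝 (A x₀)) := by
  obtain ⟨C, hC⟩ := h.bd
  have h1 : Tendsto (fun n => T n (x n) - T n x₀) l (𝓝 0) := by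
    rw [tendsto_zero_iff_norm_tendsto_zero]
    have h2 : Tendsto (fun n => |C| * ‖x n - x₀‖) l (𝓝 (|C| * 0)) :=
      (tendsto_iff_norm_sub_tendsto_zero.mp hx).const_mul _
    rw [mul_zero] at h2
    refine squeeze_zero_norm' ?_ h2
    filter_upwards [hC] with n hn
    rw [norm_norm, ← map_sub]
    exact (ContinuousLinearMap.le_opNorm _ _).trans
      (mul_le_mul_of_nonneg_right (hn.trans (le_abs_self C)) (norm_nonneg _))
  simpa using h1.add (h.lim x₀)

theorem BS.mul {T T' : α → S →L[ℂ] S} {A A' : S →L[ℂ] S} (h : BS l T A) (h' : BS l T' A') :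
    BS l (fun n => T n * T' n) (A * A') := by
  obtain ⟨C, hC⟩ := h.bd
  obtain ⟨C', hC'⟩ := h'.bd
  refine ⟨⟨|C| * |C'|, ?_⟩, fun x => ?_⟩
  · filter_upwards [hC, hC'] with n h1 h2
    exact (norm_mul_le _ _).trans (mul_le_mul (h1.trans (le_abs_self _)) (h2.trans (le_abs_self _))
      (norm_nonneg _) (abs_nonneg _))
  · exact h.apply (h'.lim x)

theorem BS.add {T T' : α → S →L[ℂ] S} {A A' : S →L[ℂ] S} (h : BS l T A) (h' : BS l T' A') :
    BS l (fun n => T n + T' n) (A + A') := by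
  obtain ⟨C, hC⟩ := h.bd
  obtain ⟨C', hC'⟩ := h'.bd
  refine ⟨⟨C + C', ?_⟩, fun x => ?_⟩
  · filter_upwards [hC, hC'] with n h1 h2
    exact (norm_add_le _ _).trans (add_le_add h1 h2)
  · exact (h.lim x).add (h'.lim x)

theorem BS.smul {T : α → S →L[ℂ] S} {A : S →L[ℂ] S} (h : BS l T A) {c : α → ℂ} {c₀ : ℂ}
    (hc : Tendsto c l (𝓝 c₀)) : BS l (fun n => c n • T n) (c₀ • A) := by
  obtain ⟨C, hC⟩ := h.bd
  refine ⟨⟨(‖c₀‖ + 1) * |C|, ?_⟩, fun x => ?_⟩
  · have h1 : ∀ᶠ n in l, ‖c n‖ < ‖c₀‖ + 1 := hc.norm.eventually_lt_const (lt_add_one _)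
    filter_upwards [hC, h1] with n h2 h3
    rw [norm_smul]
    exact mul_le_mul h3.le (h2.trans (le_abs_self _)) (norm_nonneg _) (by positivity)
  · exact hc.smul (h.lim x)

theorem BS.const_smul {T : α → S →L[ℂ] S} {A : S →L[ℂ] S} (h : BS l T A) (c : ℂ) :
    BS l (fun n => c • T n) (c • A) := h.smul tendsto_const_nhds

theorem BS.neg {T : α → S →L[ℂ] S} {A : S →L[ℂ] S} (h : BS l T A) :
    BS l (fun n => - T n) (-A) := by
  have h1 := h.const_smul (-1)
  simp only [neg_smul, one_smul] at h1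
  exact h1

theorem BS.sub {T T' : α → S →L[ℂ] S} {A A' : S →L[ℂ] S} (h : BS l T A) (h' : BS l T' A') :
    BS l (fun n => T n - T' n) (A - A') := by
  simpa only [sub_eq_add_neg] using h.add h'.neg

theorem BS.sum {κ : Type*} (s : Finset κ) {T : κ → α → S →L[ℂ] S} {A : κ → S →L[ℂ] S}
    (h : ∀ k ∈ s, BS l (T k) (A k)) : BS l (fun n => ∑ k ∈ s, T k n) (∑ k ∈ s, A k) := by
  classical
  induction s using Finset.induction_on with
  | empty => simpa using BS.const (0 : S →L[ℂ] S)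
  | insert a s ha ih =>
    simp only [Finset.sum_insert ha]
    exact (h a (Finset.mem_insert_self _ _)).add
      (ih fun k hk => h k (Finset.mem_insert_of_mem hk))

theorem BS.pow {T : α → S →L[ℂ] S} {A : S →L[ℂ] S} (h : BS l T A) (k : ℕ) :
    BS l (fun n => T n ^ k) (A ^ k) := by
  induction k with
  | zero => simpa using BS.const (1 : S →L[ℂ] S)
  | succ k ih => simpa only [pow_succ] using ih.mul h

theorem hasSum_exp_apply (B : S →L[ℂ] S) (x : S) :
    HasSum (fun k : ℕ => ((k.factorial : ℝ))⁻¹ • (B ^ k) x) (NormedSpace.exp B x) := by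
  have h := NormedSpace.exp_series_hasSum_exp' (𝕂 := ℝ) B
  have h2 := (ContinuousLinearMap.apply ℂ S x).hasSum h
  simpa using h2

theorem norm_pow_apply_le (B : S →L[ℂ] S) {C : ℝ} (hB : ‖B‖ ≤ C) (k : ℕ) (x : S) :
    ‖(B ^ k) x‖ ≤ C ^ k * ‖x‖ := by
  have hC : 0 ≤ C := (norm_nonneg _).trans hB
  induction k with
  | zero => simp
  | succ k ih =>
    rw [pow_succ', mul_apply_eq_comp]
    calc ‖B ((B ^ k) x)‖ ≤ ‖B‖ * ‖(B ^ k) x‖ := B.le_opNorm _
      _ ≤ C * (C ^ k * ‖x‖) := mul_le_mul hB ih (norm_nonneg _) hC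
      _ = C ^ (k + 1) * ‖x‖ := by ring

theorem norm_exp_apply_le (B : S →L[ℂ] S) {C : ℝ} (hB : ‖B‖ ≤ C) (x : S) :
    ‖NormedSpace.exp B x‖ ≤ Real.exp C * ‖x‖ := by
  have h1 : HasSum (fun k : ℕ => ((k.factorial : ℝ))⁻¹ • C ^ k) (Real.exp C) := by
    have := NormedSpace.exp_series_hasSum_exp' (𝕂 := ℝ) (C : ℝ)
    rwa [← Real.exp_eq_exp_ℝ] at this
  have h2 := h1.mul_right ‖x‖
  refine (hasSum_exp_apply B x).norm_le_of_bounded h2 fun k => ?_
  rw [norm_smul, Real.norm_of_nonneg (by positivity), smul_eq_mul, mul_assoc]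
  exact mul_le_mul_of_nonneg_left (norm_pow_apply_le B hB k x) (by positivity)

/-- strong convergence of bounded generators implies strong convergence of the exponentials -/
theorem BS.exp {T : α → S →L[ℂ] S} {A : S →L[ℂ] S} (h : BS l T A) :
    BS l (fun n => NormedSpace.exp (T n)) (NormedSpace.exp A) := by
  obtain ⟨C, hC⟩ := h.bd
  refine ⟨⟨Real.exp C, ?_⟩, fun x => ?_⟩
  · filter_upwards [hC] with n hn
    exact ContinuousLinearMap.opNorm_le_bound _ (Real.exp_pos _).le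
      fun x => norm_exp_apply_le _ hn x
  · have h1 : ∀ n, NormedSpace.exp (T n) x = ∑' k : ℕ, ((k.factorial : ℝ))⁻¹ • (T n ^ k) x :=
      fun n => (hasSum_exp_apply _ x).tsum_eq.symm
    have h2 : NormedSpace.exp A x = ∑' k : ℕ, ((k.factorial : ℝ))⁻¹ • (A ^ k) x :=
      (hasSum_exp_apply _ x).tsum_eq.symm
    simp only [h1, h2]
    have h3 : Summable (fun k : ℕ => ((k.factorial : ℝ))⁻¹ * |C| ^ k * ‖x‖) := by
      have := NormedSpace.exp_series_hasSum_exp' (𝕂 := ℝ) (|C| : ℝ)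
      simpa only [smul_eq_mul] using this.summable.mul_right ‖x‖
    refine tendsto_tsum_of_dominated_convergence h3 (fun k => ?_) ?_
    · exact ((h.pow k).lim x).const_smul _
    · filter_upwards [hC] with n hn k
      rw [norm_smul, Real.norm_of_nonneg (by positivity), mul_assoc]
      exact mul_le_mul_of_nonneg_left
        (norm_pow_apply_le _ (hn.trans (le_abs_self C)) k x) (by positivity)

/-! ### Cell operators -/

/-- `∑_{r < R} Q r * T r` -/
noncomputable def blk (R : ℕ) (Q T : ℕ → S →L[ℂ] S) : S →L[ℂ] S :=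
  ∑ r ∈ Finset.range R, Q r * T r

/-- the first `R` operators of the family are mutually orthogonal projections -/
structure OP (R : ℕ) (Q : ℕ → S →L[ℂ] S) : Prop where
  idem : ∀ r < R, Q r * Q r = Q r
  orth : ∀ r < R, ∀ s < R, r ≠ s → Q r * Q s = 0
  sa : ∀ r < R, star (Q r) = Q r

theorem blk_apply (R : ℕ) (Q T : ℕ → S →L[ℂ] S) (x : S) :
    blk R Q T x = ∑ r ∈ Finset.range R, Q r (T r x) := by
  simp [blk]

theorem OP.inner {R : ℕ} {Q : ℕ → S →L[ℂ] S} (h : OP R Q) {r s : ℕ} (hr : r < R) (hs : s < R)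
    (x y : S) : ⟪Q r x, Q s y⟫_ℂ = if r = s then ⟪x, Q r y⟫_ℂ else 0 := by
  rw [← ContinuousLinearMap.adjoint_inner_right, ← ContinuousLinearMap.star_eq_adjoint, h.sa r hr,
    ← mul_apply_eq_comp]
  split_ifs with hrs
  · rw [← hrs, h.idem r hr]
  · rw [h.orth r hr s hs hrs]
    simp

theorem OP.norm_sum_sq {R : ℕ} {Q : ℕ → S →L[ℂ] S} (h : OP R Q) (x : ℕ → S) :
    ‖∑ r ∈ Finset.range R, Q r (x r)‖ ^ 2 = ∑ r ∈ Finset.range R, ‖Q r (x r)‖ ^ 2 := by
  have key : ⟪∑ r ∈ Finset.range R, Q r (x r), ∑ r ∈ Finset.range R, Q r (x r)⟫_ℂ =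
      ∑ r ∈ Finset.range R, ⟪Q r (x r), Q r (x r)⟫_ℂ := by
    rw [sum_inner]
    refine Finset.sum_congr rfl fun r hr => ?_
    rw [inner_sum]
    rw [Finset.sum_eq_single r]
    · intro s hs hsr
      rw [h.inner (Finset.mem_range.mp hr) (Finset.mem_range.mp hs), if_neg (Ne.symm hsr)]
    · intro hr'
      exact absurd hr hr'
  have h2 := congrArg Complex.re key
  rw [Complex.re_sum] at h2
  have h3 : ∀ y : S, (⟪y, y⟫_ℂ).re = ‖y‖ ^ 2 := fun y => by
    rw [inner_self_eq_norm_sq_to_K]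
    norm_cast
  simpa only [h3] using h2

theorem OP.sum_norm_sq_le {R : ℕ} {Q : ℕ → S →L[ℂ] S} (h : OP R Q) (x : S) :
    ∑ r ∈ Finset.range R, ‖Q r x‖ ^ 2 ≤ ‖x‖ ^ 2 := by
  have h1 := h.norm_sum_sq (fun _ => x)
  set y := ∑ r ∈ Finset.range R, Q r x with hy
  have h3 : ∀ y : S, (⟪y, y⟫_ℂ).re = ‖y‖ ^ 2 := fun y => by
    rw [inner_self_eq_norm_sq_to_K]
    norm_cast
  have h2 : (⟪y, x⟫_ℂ).re = ‖y‖ ^ 2 := by
    rw [h1, hy, sum_inner, Complex.re_sum]
    refine Finset.sum_congr rfl fun r hr => ?_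
    rw [← h3, h.inner (Finset.mem_range.mp hr) (Finset.mem_range.mp hr), if_pos rfl,
      ← ContinuousLinearMap.adjoint_inner_right, ← ContinuousLinearMap.star_eq_adjoint,
      h.sa r (Finset.mem_range.mp hr)]
  rw [← h1]
  have h4 : ‖y‖ ^ 2 ≤ ‖y‖ * ‖x‖ := by
    rw [← h2]
    exact (Complex.re_le_norm _).trans (norm_inner_le_norm _ _)
  rcases eq_or_lt_of_le (norm_nonneg y) with h5 | h5
  · rw [← h5, zero_pow two_ne_zero]
    exact sq_nonneg _
  · have h6 : ‖y‖ ≤ ‖x‖ := by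
      rw [sq] at h4
      exact le_of_mul_le_mul_left h4 h5
    exact pow_le_pow_left₀ (norm_nonneg _) h6 2

theorem norm_blk_le {R : ℕ} {Q T : ℕ → S →L[ℂ] S} (h : OP R Q)
    (hc : ∀ r < R, Q r * T r = T r * Q r) {C : ℝ} (hC : 0 ≤ C) (hT : ∀ r < R, ‖T r‖ ≤ C) :
    ‖blk R Q T‖ ≤ C := by
  refine ContinuousLinearMap.opNorm_le_bound _ hC fun x => ?_
  have h1 : ‖blk R Q T x‖ ^ 2 ≤ (C * ‖x‖) ^ 2 := by
    rw [blk_apply, h.norm_sum_sq, mul_pow]
    calc ∑ r ∈ Finset.range R, ‖Q r (T r x)‖ ^ 2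
        ≤ ∑ r ∈ Finset.range R, C ^ 2 * ‖Q r x‖ ^ 2 := by
          refine Finset.sum_le_sum fun r hr => ?_
          rw [← mul_apply_eq_comp, hc r (Finset.mem_range.mp hr), mul_apply_eq_comp, ← mul_pow]
          exact pow_le_pow_left₀ (norm_nonneg _) (((T r).le_opNorm _).trans
            (mul_le_mul_of_nonneg_right (hT r (Finset.mem_range.mp hr)) (norm_nonneg _))) 2
      _ = C ^ 2 * ∑ r ∈ Finset.range R, ‖Q r x‖ ^ 2 := by rw [Finset.mul_sum]
      _ ≤ C ^ 2 * ‖x‖ ^ 2 := mul_le_mul_of_nonneg_left (h.sum_norm_sq_le x) (by positivity)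
  exact (pow_le_pow_iff_left₀ (norm_nonneg _) (by positivity) two_ne_zero).mp h1

theorem blk_mul_blk {R : ℕ} {Q T T' : ℕ → S →L[ℂ] S} (h : OP R Q)
    (hc : ∀ r < R, ∀ s < R, Q s * T r = T r * Q s) :
    blk R Q T * blk R Q T' = blk R Q fun r => T r * T' r := by
  rw [blk, blk, blk, Finset.sum_mul]
  refine Finset.sum_congr rfl fun r hr => ?_
  rw [Finset.mul_sum, Finset.sum_eq_single r]
  · rw [mul_assoc, ← mul_assoc (T r), ← hc r (Finset.mem_range.mp hr) r (Finset.mem_range.mp hr),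
      mul_assoc, ← mul_assoc (Q r), h.idem r (Finset.mem_range.mp hr)]
  · intro s hs hsr
    rw [mul_assoc, ← mul_assoc (T r), ← hc r (Finset.mem_range.mp hr) s (Finset.mem_range.mp hs),
      mul_assoc, ← mul_assoc (Q r), h.orth r (Finset.mem_range.mp hr) s (Finset.mem_range.mp hs)
        (Ne.symm hsr), zero_mul]
  · intro hr'
    exact absurd hr hr'

theorem blk_add (R : ℕ) (Q T T' : ℕ → S →L[ℂ] S) :
    blk R Q T + blk R Q T' = blk R Q fun r => T r + T' r := by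
  simp [blk, mul_add, Finset.sum_add_distrib]

theorem blk_smul (R : ℕ) (Q T : ℕ → S →L[ℂ] S) (c : ℂ) :
    c • blk R Q T = blk R Q fun r => c • T r := by
  simp [blk, Finset.smul_sum]

end Crest.Agent.R339.Cell
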