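import Mathlib
import Crest.Agent.R339.Li728A
import Crest.Agent.R339.Cell220A

/-!
# Cell-uniform strong convergence on an IL system (R339, label induction, block G3)
-/

set_option autoImplicit false
set_option linter.unusedSectionVars false

open scoped InnerProductSpace Topology ComplexConjugate
open Filter MeasureTheory

namespace Crest.Agent.R339.Cell

open Crest.Agent.R339.Li Crest.Agent.R339.Li.ILSys

variable {Λ H : Type*} [MeasurableSpace Λ] [NormedAddCommGroup H] [InnerProductSpace ℂ H]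
  [CompleteSpace H] {I : ILSys Λ H}

/-! ### Basic estimates -/

theorem norm_sq_eq_re_inner (x : H) : ‖x‖ ^ 2 = (⟪x, x⟫_ℂ).re := by
  rw [inner_self_eq_norm_sq_to_K]
  norm_cast

theorem inner_W_W (I : ILSys Λ H) (f : H) (x y : H) : ⟪I.W f x, I.W f y⟫_ℂ = ⟪x, y⟫_ℂ := by
  rw [← ContinuousLinearMap.adjoint_inner_right, ← ContinuousLinearMap.star_eq_adjoint, I.W_star,
    ← mul_apply_eq_comp, W_neg_mul]
  rfl

theorem norm_W (I : ILSys Λ H) (f x : H) : ‖I.W f x‖ = ‖x‖ := by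
  have h : ‖I.W f x‖ ^ 2 = ‖x‖ ^ 2 := by
    rw [norm_sq_eq_re_inner, norm_sq_eq_re_inner, inner_W_W]
  exact (pow_left_inj₀ (norm_nonneg _) (norm_nonneg _) two_ne_zero).mp h

theorem norm_W_le (I : ILSys Λ H) (f : H) : ‖I.W f‖ ≤ 1 :=
  ContinuousLinearMap.opNorm_le_bound _ zero_le_one fun x => by rw [norm_W, one_mul]

theorem norm_P_apply_sq {A : Set Λ} (hA : MeasurableSet A) (x : H) :
    ‖I.P A x‖ ^ 2 = (⟪x, I.P A x⟫_ℂ).re := by
  rw [norm_sq_eq_re_inner, ← ContinuousLinearMap.adjoint_inner_right,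
    ← ContinuousLinearMap.star_eq_adjoint, I.P_star A hA, ← mul_apply_eq_comp, P_sq hA]

theorem norm_P_apply_le {A : Set Λ} (hA : MeasurableSet A) (x : H) : ‖I.P A x‖ ≤ ‖x‖ := by
  have h1 : ‖I.P A x‖ ^ 2 ≤ ‖x‖ * ‖I.P A x‖ := by
    rw [norm_P_apply_sq hA]
    exact (Complex.re_le_norm _).trans (norm_inner_le_norm _ _)
  rcases eq_or_lt_of_le (norm_nonneg (I.P A x)) with h | h
  · rw [← h]
    exact norm_nonneg _
  · rw [sq] at h1
    exact le_of_mul_le_mul_right h1 h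

theorem norm_P_le {A : Set Λ} (hA : MeasurableSet A) : ‖I.P A‖ ≤ 1 :=
  ContinuousLinearMap.opNorm_le_bound _ zero_le_one fun x => by
    rw [one_mul]
    exact norm_P_apply_le hA x

theorem inner_Om_P {A : Set Λ} (hA : MeasurableSet A) :
    ⟪I.Om, I.P A I.Om⟫_ℂ = (I.μ.real A : ℂ) := by
  have h := I.inner_Om A 0 hA
  rw [I.W_zero] at h
  simpa using h

theorem norm_P_Om_sq {A : Set Λ} (hA : MeasurableSet A) : ‖I.P A I.Om‖ ^ 2 = I.μ.real A := by
  rw [norm_P_apply_sq hA, inner_Om_P hA, Complex.ofReal_re]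

theorem norm_Om : ‖I.Om‖ = 1 := by
  have h := norm_P_Om_sq (I := I) MeasurableSet.univ
  rw [I.P_univ] at h
  have h2 : ‖I.Om‖ ^ 2 = 1 := by
    simpa using h
  exact (pow_eq_one_iff_of_nonneg (norm_nonneg _) two_ne_zero).mp h2

theorem W_W_comm (f g : H) : I.W f * I.W g =
    Complex.exp (-(Complex.I * ((2 * (⟪f, g⟫_ℂ).im : ℝ) : ℂ))) • (I.W g * I.W f) := by
  rw [I.W_mul, I.W_mul, smul_smul, ← Complex.exp_add, add_comm g f]
  congr 2
  have : (⟪g, f⟫_ℂ).im = -(⟪f, g⟫_ℂ).im := by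
    rw [← inner_conj_symm, Complex.conj_im]
  rw [this]
  push_cast
  ring

theorem inner_P_W_P {A : Set Λ} (hA : MeasurableSet A) (d : H) :
    ⟪I.P A I.Om, I.W d (I.P A I.Om)⟫_ℂ =
      (I.μ.real A : ℂ) * Complex.exp (-((‖d‖ ^ 2 / 2 : ℝ) : ℂ)) := by
  have h1 : I.W d (I.P A I.Om) = I.P A (I.W d I.Om) := by
    rw [← mul_apply_eq_comp, ← mul_apply_eq_comp, (I.P_W A d hA).eq]
  have h2 : ⟪I.P A I.Om, I.P A (I.W d I.Om)⟫_ℂ = ⟪I.Om, I.P A (I.P A (I.W d I.Om))⟫_ℂ := by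
    rw [← ContinuousLinearMap.adjoint_inner_right (I.P A), ← ContinuousLinearMap.star_eq_adjoint,
      I.P_star A hA]
  rw [h1, h2, ← mul_apply_eq_comp (I.P A) (I.P A), P_sq hA, I.inner_Om A d hA]

theorem one_sub_cos_mul_exp_le (θ a : ℝ) (ha : 0 ≤ a) :
    1 - Real.cos θ * Real.exp (-a) ≤ θ ^ 2 / 2 + a := by
  have h1 := Real.one_sub_sq_div_two_le_cos (x := θ)
  have h2 := Real.add_one_le_exp (-a)
  have h3 : Real.exp (-a) ≤ 1 := Real.exp_le_one_iff.mpr (by linarith)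
  have h4 := Real.exp_pos (-a)
  nlinarith [Real.cos_le_one θ, sq_nonneg θ]

/-- The basic continuity estimate, on the vectors `W f (P A Om)`. -/
theorem norm_W_sub_sq {A : Set Λ} (hA : MeasurableSet A) (d f : H) :
    ‖I.W d (I.W f (I.P A I.Om)) - I.W f (I.P A I.Om)‖ ^ 2 ≤
      (1 + 4 * ‖f‖ ^ 2) * ‖d‖ ^ 2 * I.μ.real A := by
  set θ : ℝ := -(2 * (⟪d, f⟫_ℂ).im) with hθ
  have h1 : I.W d (I.W f (I.P A I.Om)) = I.W f (Complex.exp ((θ : ℂ) * Complex.I) •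
      I.W d (I.P A I.Om)) := by
    rw [← mul_apply_eq_comp, W_W_comm, map_smul]
    have : Complex.exp (-(Complex.I * ((2 * (⟪d, f⟫_ℂ).im : ℝ) : ℂ))) =
        Complex.exp ((θ : ℂ) * Complex.I) := by
      congr 1
      rw [hθ]
      push_cast
      ring
    rw [this]
    rfl
  rw [h1, ← map_sub, norm_W]
  have hc : ‖Complex.exp ((θ : ℂ) * Complex.I)‖ = 1 := Complex.norm_exp_ofReal_mul_I θ
  have h3 : (⟪Complex.exp ((θ : ℂ) * Complex.I) • I.W d (I.P A I.Om), I.P A I.Om⟫_ℂ).re =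
      I.μ.real A * (Real.cos θ * Real.exp (-(‖d‖ ^ 2 / 2))) := by
    rw [inner_smul_left, ← inner_conj_symm, inner_P_W_P hA, ← map_mul, Complex.conj_re,
      Complex.exp_mul_I, ← Complex.ofReal_neg, ← Complex.ofReal_exp, ← Complex.ofReal_cos,
      ← Complex.ofReal_sin, ← Complex.ofReal_mul]
    simp only [Complex.mul_re, Complex.add_re, Complex.ofReal_re, Complex.ofReal_im, Complex.I_re,
      Complex.I_im, Complex.mul_im, Complex.add_im, mul_zero, sub_zero, add_zero, zero_mul, mul_one,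
      zero_add]
    ring
  have h2 : ‖Complex.exp ((θ : ℂ) * Complex.I) • I.W d (I.P A I.Om) - I.P A I.Om‖ ^ 2 =
      2 * I.μ.real A * (1 - Real.cos θ * Real.exp (-(‖d‖ ^ 2 / 2))) := by
    have h4 : RCLike.re ⟪Complex.exp ((θ : ℂ) * Complex.I) • I.W d (I.P A I.Om), I.P A I.Om⟫_ℂ =
      I.μ.real A * (Real.cos θ * Real.exp (-(‖d‖ ^ 2 / 2))) := h3
    rw [@norm_sub_sq ℂ, norm_smul, hc, one_mul, norm_W, norm_P_Om_sq hA, h4]
    ring
  rw [h2]
  have h5 := one_sub_cos_mul_exp_le θ (‖d‖ ^ 2 / 2) (by positivity)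
  have h6 : θ ^ 2 ≤ 4 * (‖d‖ ^ 2 * ‖f‖ ^ 2) := by
    have h7 : |(⟪d, f⟫_ℂ).im| ≤ ‖d‖ * ‖f‖ := (Complex.abs_im_le_norm _).trans
      (norm_inner_le_norm _ _)
    have h8 : θ ^ 2 = 4 * |(⟪d, f⟫_ℂ).im| ^ 2 := by
      rw [hθ, sq_abs]
      ring
    rw [h8, ← mul_pow]
    have := pow_le_pow_left₀ (abs_nonneg _) h7 2
    linarith
  have h9 : 0 ≤ I.μ.real A := measureReal_nonneg
  calc 2 * I.μ.real A * (1 - Real.cos θ * Real.exp (-(‖d‖ ^ 2 / 2)))
      ≤ 2 * I.μ.real A * (θ ^ 2 / 2 + ‖d‖ ^ 2 / 2) :=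
        mul_le_mul_of_nonneg_left h5 (by positivity)
    _ = I.μ.real A * (θ ^ 2 + ‖d‖ ^ 2) := by ring
    _ ≤ I.μ.real A * (4 * (‖d‖ ^ 2 * ‖f‖ ^ 2) + ‖d‖ ^ 2) :=
        mul_le_mul_of_nonneg_left (by linarith) h9
    _ = (1 + 4 * ‖f‖ ^ 2) * ‖d‖ ^ 2 * I.μ.real A := by ring

/-- Vectors on which all Weyl operators are uniformly Lipschitz, cell by cell. -/
def Nice (I : ILSys Λ H) (x : H) : Prop :=
  ∃ C : ℝ, 0 ≤ C ∧ ∀ A : Set Λ, MeasurableSet A → ∀ d : H,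
    ‖I.W d (I.P A x) - I.P A x‖ ^ 2 ≤ C * ‖d‖ ^ 2 * I.μ.real A

theorem nice_gen {B : Set Λ} (hB : MeasurableSet B) (M : Matrix Bool Bool ℂ) (f : H) :
    Nice I (I.P B (I.sg M (I.W f I.Om))) := by
  refine ⟨‖I.sg M‖ ^ 2 * (1 + 4 * ‖f‖ ^ 2), by positivity, fun A hA d => ?_⟩
  have h1 : I.P A (I.P B (I.sg M (I.W f I.Om))) = I.sg M (I.W f (I.P (A ∩ B) I.Om)) := by
    rw [← mul_apply_eq_comp (I.P A), ← I.P_inter A B hA hB,
      ← mul_apply_eq_comp (I.P (A ∩ B)), (I.P_sg _ _ (hA.inter hB)).eq, mul_apply_eq_comp,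
      ← mul_apply_eq_comp (I.P (A ∩ B)), (I.P_W _ _ (hA.inter hB)).eq, mul_apply_eq_comp]
  have h2 : I.W d (I.sg M (I.W f (I.P (A ∩ B) I.Om))) =
      I.sg M (I.W d (I.W f (I.P (A ∩ B) I.Om))) := by
    rw [← mul_apply_eq_comp (I.W d), ← (I.sg_W M d).eq, mul_apply_eq_comp]
  rw [h1, h2, ← map_sub]
  have h3 := norm_W_sub_sq (I := I) (hA.inter hB) d f
  have h4 : I.μ.real (A ∩ B) ≤ I.μ.real A := measureReal_mono Set.inter_subset_left
  calc ‖I.sg M (I.W d (I.W f (I.P (A ∩ B) I.Om)) - I.W f (I.P (A ∩ B) I.Om))‖ ^ 2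
      ≤ (‖I.sg M‖ * ‖I.W d (I.W f (I.P (A ∩ B) I.Om)) - I.W f (I.P (A ∩ B) I.Om)‖) ^ 2 :=
        pow_le_pow_left₀ (norm_nonneg _) ((I.sg M).le_opNorm _) 2
    _ = ‖I.sg M‖ ^ 2 *
        ‖I.W d (I.W f (I.P (A ∩ B) I.Om)) - I.W f (I.P (A ∩ B) I.Om)‖ ^ 2 := by rw [mul_pow]
    _ ≤ ‖I.sg M‖ ^ 2 * ((1 + 4 * ‖f‖ ^ 2) * ‖d‖ ^ 2 * I.μ.real (A ∩ B)) :=
        mul_le_mul_of_nonneg_left h3 (by positivity)
    _ ≤ ‖I.sg M‖ ^ 2 * ((1 + 4 * ‖f‖ ^ 2) * ‖d‖ ^ 2 * I.μ.real A) := by gcongr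
    _ = ‖I.sg M‖ ^ 2 * (1 + 4 * ‖f‖ ^ 2) * ‖d‖ ^ 2 * I.μ.real A := by ring

theorem Nice.add {x y : H} (hx : Nice I x) (hy : Nice I y) : Nice I (x + y) := by
  obtain ⟨C, hC0, hC⟩ := hx
  obtain ⟨C', hC0', hC'⟩ := hy
  refine ⟨2 * C + 2 * C', by positivity, fun A hA d => ?_⟩
  have h1 := hC A hA d
  have h2 := hC' A hA d
  have h3 : I.W d (I.P A (x + y)) - I.P A (x + y) =
      (I.W d (I.P A x) - I.P A x) + (I.W d (I.P A y) - I.P A y) := by
    simp only [map_add]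
    abel
  rw [h3]
  have h4 := norm_add_le (I.W d (I.P A x) - I.P A x) (I.W d (I.P A y) - I.P A y)
  have h5 := pow_le_pow_left₀ (norm_nonneg _) h4 2
  nlinarith [sq_nonneg (‖I.W d (I.P A x) - I.P A x‖ - ‖I.W d (I.P A y) - I.P A y‖)]

theorem Nice.smul {x : H} (hx : Nice I x) (c : ℂ) : Nice I (c • x) := by
  obtain ⟨C, hC0, hC⟩ := hx
  refine ⟨‖c‖ ^ 2 * C, by positivity, fun A hA d => ?_⟩
  have h1 := hC A hA d
  rw [map_smul, map_smul, ← smul_sub, norm_smul, mul_pow]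
  calc ‖c‖ ^ 2 * ‖I.W d (I.P A x) - I.P A x‖ ^ 2 ≤ ‖c‖ ^ 2 * (C * ‖d‖ ^ 2 * I.μ.real A) :=
        mul_le_mul_of_nonneg_left h1 (by positivity)
    _ = ‖c‖ ^ 2 * C * ‖d‖ ^ 2 * I.μ.real A := by ring

theorem nice_zero : Nice I (0 : H) := ⟨0, le_rfl, fun A hA d => by simp⟩

theorem nice_of_mem_span {x : H} (hx : x ∈ Submodule.span ℂ
    {v : H | ∃ A M f, MeasurableSet A ∧ v = I.P A (I.sg M (I.W f I.Om))}) : Nice I x := by
  induction hx using Submodule.span_induction with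
  | mem x h =>
    obtain ⟨A, M, f, hA, rfl⟩ := h
    exact nice_gen hA M f
  | zero => exact nice_zero
  | add x y _ _ hx hy => exact hx.add hy
  | smul c x _ hx => exact hx.smul c

theorem exists_nice_near (I : ILSys Λ H) (x : H) {ε : ℝ} (hε : 0 < ε) :
    ∃ y, Nice I y ∧ ‖x - y‖ < ε := by
  have h1 : x ∈ (Submodule.span ℂ
      {v : H | ∃ A M f, MeasurableSet A ∧ v = I.P A (I.sg M (I.W f I.Om))}).topologicalClosure := by
    rw [I.total]
    exact Submodule.mem_top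
  have h2 := (Metric.mem_closure_iff.mp h1) ε hε
  obtain ⟨y, hy, hxy⟩ := h2
  exact ⟨y, nice_of_mem_span hy, by rwa [← dist_eq_norm]⟩

/-! ### Partitions into cells -/

/-- `N 0, …, N (R-1)` is a partition of `Mn` into measurable cells -/
structure Part (Mn : Set Λ) (R : ℕ) (N : ℕ → Set Λ) : Prop where
  meas : ∀ r < R, MeasurableSet (N r)
  disj : ∀ r < R, ∀ s < R, r ≠ s → Disjoint (N r) (N s)
  union : ⋃ r ∈ Finset.range R, N r = Mn

theorem Part.op (I : ILSys Λ H) {Mn : Set Λ} {R : ℕ} {N : ℕ → Set Λ} (h : Part Mn R N) :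
    OP R (fun r => I.P (N r)) where
  idem r hr := P_sq (h.meas r hr)
  orth r hr s hs hrs := P_disj (h.meas r hr) (h.meas s hs) (h.disj r hr s hs hrs)
  sa r hr := I.P_star _ (h.meas r hr)

theorem P_biUnion (I : ILSys Λ H) {R : ℕ} {N : ℕ → Set Λ} (hm : ∀ r < R, MeasurableSet (N r))
    (hd : ∀ r < R, ∀ s < R, r ≠ s → Disjoint (N r) (N s)) :
    I.P (⋃ r ∈ Finset.range R, N r) = ∑ r ∈ Finset.range R, I.P (N r) := by
  induction R with
  | zero => simp [P_empty]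
  | succ R ih =>
    have h1 : (⋃ r ∈ Finset.range (R + 1), N r) = (⋃ r ∈ Finset.range R, N r) ∪ N R := by
      rw [Finset.range_add_one, Finset.set_biUnion_insert, Set.union_comm]
    have h2 : MeasurableSet (⋃ r ∈ Finset.range R, N r) :=
      Finset.measurableSet_biUnion _ fun r hr => hm r ((Finset.mem_range.mp hr).trans (Nat.lt_succ_self R))
    have h3 : Disjoint (⋃ r ∈ Finset.range R, N r) (N R) := by
      rw [Set.disjoint_iUnion₂_left]
      intro r hr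
      exact hd r ((Finset.mem_range.mp hr).trans (Nat.lt_succ_self R)) R (Nat.lt_succ_self R)
        (Finset.mem_range.mp hr).ne
    rw [h1, I.P_union _ _ h2 (hm R (Nat.lt_succ_self R)) h3, Finset.sum_range_succ,
      ih (fun r hr => hm r (hr.trans (Nat.lt_succ_self R)))
        (fun r hr s hs => hd r (hr.trans (Nat.lt_succ_self R)) s (hs.trans (Nat.lt_succ_self R)))]

theorem Part.measMn {Mn : Set Λ} {R : ℕ} {N : ℕ → Set Λ} (h : Part Mn R N) : MeasurableSet Mn := by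
  rw [← h.union]
  exact Finset.measurableSet_biUnion _ fun r hr => h.meas r (Finset.mem_range.mp hr)

theorem Part.sum_P (I : ILSys Λ H) {Mn : Set Λ} {R : ℕ} {N : ℕ → Set Λ} (h : Part Mn R N) :
    ∑ r ∈ Finset.range R, I.P (N r) = I.P Mn := by
  rw [← h.union, P_biUnion I h.meas h.disj]

theorem Part.sum_mass (I : ILSys Λ H) {Mn : Set Λ} {R : ℕ} {N : ℕ → Set Λ} (h : Part Mn R N) :
    ∑ r ∈ Finset.range R, I.μ.real (N r) ≤ 1 := by
  have h1 := (h.op I).sum_norm_sq_le I.Om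
  rw [norm_Om, one_pow] at h1
  refine le_trans (le_of_eq ?_) h1
  refine Finset.sum_congr rfl fun r hr => ?_
  rw [norm_P_Om_sq (h.meas r (Finset.mem_range.mp hr))]

theorem Part.sub {Mn : Set Λ} {R : ℕ} {N : ℕ → Set Λ} (h : Part Mn R N) {r : ℕ} (hr : r < R) :
    N r ⊆ Mn := by
  rw [← h.union]
  exact Set.subset_biUnion_of_mem (u := N) (Finset.mem_coe.mpr (Finset.mem_range.mpr hr))

variable {α : Type*} {l : Filter α}

/-- **cell-uniform strong continuity of the Weyl operators** -/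
theorem BS_blk_W (I : ILSys Λ H) {Mn : Set Λ} {R : α → ℕ} {N : α → ℕ → Set Λ}
    (hp : ∀ n, Part Mn (R n) (N n)) {d : α → ℕ → H} {δ : α → ℝ} (hδ : Tendsto δ l (𝓝 0))
    (hd : ∀ n, ∀ r < R n, ‖d n r‖ ≤ δ n) :
    BS l (fun n => blk (R n) (fun r => I.P (N n r)) (fun r => I.W (d n r))) (I.P Mn) := by
  have hbd : ∀ n, ‖blk (R n) (fun r => I.P (N n r)) (fun r => I.W (d n r))‖ ≤ 1 := fun n =>
    norm_blk_le ((hp n).op I) (fun r hr => (I.P_W _ _ ((hp n).meas r hr)).eq) zero_le_one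
      fun r _ => norm_W_le I _
  refine ⟨⟨1, Eventually.of_forall hbd⟩, fun x => ?_⟩
  rw [Metric.tendsto_nhds]
  intro ε hε
  obtain ⟨y, ⟨C, hC0, hC⟩, hxy⟩ := exists_nice_near I x (ε := ε / 4) (by positivity)
  have h1 : Tendsto (fun n => C * δ n ^ 2) l (𝓝 0) := by
    have := (hδ.pow 2).const_mul C
    simpa using this
  have h2 : ∀ᶠ n in l, C * δ n ^ 2 < (ε / 4) ^ 2 :=
    h1.eventually_lt_const (by positivity)
  filter_upwards [h2] with n hn
  have hsum : ∀ z : H, I.P Mn z = ∑ r ∈ Finset.range (R n), I.P (N n r) z := fun z => by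
    rw [← (hp n).sum_P I, ContinuousLinearMap.sum_apply]
  have h3 : ‖blk (R n) (fun r => I.P (N n r)) (fun r => I.W (d n r)) y - I.P Mn y‖ ^ 2 ≤
      C * δ n ^ 2 := by
    rw [blk_apply, hsum, ← Finset.sum_sub_distrib]
    have h4 : ∀ r ∈ Finset.range (R n), I.P (N n r) (I.W (d n r) y) - I.P (N n r) y =
        I.P (N n r) (I.W (d n r) y - y) := fun r _ => by rw [map_sub]
    rw [Finset.sum_congr rfl h4, ((hp n).op I).norm_sum_sq (fun r => I.W (d n r) y - y)]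
    calc ∑ r ∈ Finset.range (R n), ‖I.P (N n r) (I.W (d n r) y - y)‖ ^ 2
        ≤ ∑ r ∈ Finset.range (R n), C * δ n ^ 2 * I.μ.real (N n r) := by
          refine Finset.sum_le_sum fun r hr => ?_
          have hr' := Finset.mem_range.mp hr
          have h5 := hC _ ((hp n).meas r hr') (d n r)
          have h6 : I.P (N n r) (I.W (d n r) y - y) = I.W (d n r) (I.P (N n r) y) -
              I.P (N n r) y := by
            rw [map_sub, ← mul_apply_eq_comp, (I.P_W _ _ ((hp n).meas r hr')).eq,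
              mul_apply_eq_comp]
          rw [h6]
          refine h5.trans ?_
          have h7 : ‖d n r‖ ^ 2 ≤ δ n ^ 2 := pow_le_pow_left₀ (norm_nonneg _) (hd n r hr') 2
          have h8 : 0 ≤ I.μ.real (N n r) := measureReal_nonneg
          gcongr
      _ = C * δ n ^ 2 * ∑ r ∈ Finset.range (R n), I.μ.real (N n r) := by rw [Finset.mul_sum]
      _ ≤ C * δ n ^ 2 * 1 :=
        mul_le_mul_of_nonneg_left ((hp n).sum_mass I) (by positivity)
      _ = C * δ n ^ 2 := mul_one _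
  have h9 : ‖blk (R n) (fun r => I.P (N n r)) (fun r => I.W (d n r)) y - I.P Mn y‖ < ε / 4 :=
    lt_of_pow_lt_pow_left₀ 2 (by positivity) (h3.trans_lt hn)
  set T := blk (R n) (fun r => I.P (N n r)) (fun r => I.W (d n r)) with hT
  have h10 : T x - I.P Mn x = T (x - y) + (T y - I.P Mn y) + I.P Mn (y - x) := by
    simp only [map_sub]
    abel
  rw [dist_eq_norm, h10]
  have h11 : ‖T (x - y)‖ ≤ ε / 4 := by
    refine (T.le_opNorm _).trans ?_
    calc ‖T‖ * ‖x - y‖ ≤ 1 * ‖x - y‖ := mul_le_mul_of_nonneg_right (hbd n) (norm_nonneg _)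
      _ ≤ ε / 4 := by rw [one_mul]; exact hxy.le
  have h12 : ‖I.P Mn (y - x)‖ ≤ ε / 4 := by
    refine (norm_P_apply_le (hp n).measMn _).trans ?_
    rw [norm_sub_rev]
    exact hxy.le
  calc ‖T (x - y) + (T y - I.P Mn y) + I.P Mn (y - x)‖
      ≤ ‖T (x - y)‖ + ‖T y - I.P Mn y‖ + ‖I.P Mn (y - x)‖ := norm_add₃_le
    _ < ε := by linarith

end Crest.Agent.R339.Cell
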