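import Crest.Agent.R339.Li728B
import Crest.Agent.R339.Trot716

/-!
# R339, block LI (G1): mean-field function gates (helper569)

`Bl H = TrivSqZeroExt B(H) (Fin 2 → B(H))`: node operator `g` together with `m i = -i ∂_i g`
(`i = 0, 1` : the two partner classes).  The kick of the partner `i` is `c i = g* m i`.
-/

set_option autoImplicit false
set_option linter.style.haveILetI false
set_option linter.unusedSectionVars false

noncomputable section

open scoped ComplexConjugate InnerProductSpace Topology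
open Filter MeasureTheory NormedSpace

namespace Crest.Agent.R339.MF

open Crest.Agent.R339.Li Crest.Agent.R339.Li.ILSys Crest.Agent.R339.Trot

/-- block algebra -/
abbrev Bl (H : Type*) [NormedAddCommGroup H] [InnerProductSpace ℂ H] : Type _ :=
  TrivSqZeroExt (H →L[ℂ] H) (Fin 2 → (H →L[ℂ] H))

section ExpLemmas

variable {𝔸 : Type*} [NormedRing 𝔸] [NormedAlgebra ℝ 𝔸] [CompleteSpace 𝔸]

/-- exponential of an operator of square `-1` -/
theorem exp_smul_of_sq_neg_one {A : 𝔸} (hA : A * A = -1) (t : ℝ) :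
    exp (t • A) = Real.cos t • (1 : 𝔸) + Real.sin t • A := by
  letI : NormedAlgebra ℚ 𝔸 := NormedAlgebra.restrictScalars ℚ ℝ 𝔸
  set u : ℝ → 𝔸 := fun t => exp (t • (-A)) * (Real.cos t • (1 : 𝔸) + Real.sin t • A) with hu
  have hd : ∀ t, HasDerivAt u 0 t := by
    intro t
    have h1 : HasDerivAt (fun t : ℝ => exp (t • (-A))) (exp (t • (-A)) * (-A)) t :=
      hasDerivAt_exp_smul_const (𝕂 := ℝ) (-A) t
    have h2 : HasDerivAt (fun t : ℝ => Real.cos t • (1 : 𝔸) + Real.sin t • A)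
        ((-Real.sin t) • (1 : 𝔸) + Real.cos t • A) t :=
      ((Real.hasDerivAt_cos t).smul_const 1).add ((Real.hasDerivAt_sin t).smul_const A)
    have h3 := h1.fun_mul h2
    have e : exp (t • (-A)) * (-A) * (Real.cos t • (1 : 𝔸) + Real.sin t • A) +
        exp (t • (-A)) * ((-Real.sin t) • (1 : 𝔸) + Real.cos t • A) = 0 := by
      rw [mul_assoc, ← mul_add]
      have : -A * (Real.cos t • (1 : 𝔸) + Real.sin t • A) +
          ((-Real.sin t) • (1 : 𝔸) + Real.cos t • A) = 0 := by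
        rw [mul_add, mul_smul_comm, mul_smul_comm, mul_one, neg_mul, hA]
        simp only [smul_neg, neg_smul, neg_neg]
        abel
      rw [this, mul_zero]
    rw [e] at h3
    exact h3
  have hc : u t = u 0 :=
    is_const_of_deriv_eq_zero (fun t => (hd t).differentiableAt) (fun t => (hd t).deriv) t 0
  have h0 : u 0 = 1 := by simp [hu]
  rw [h0] at hc
  have hinv : exp (t • A) * exp (t • (-A)) = 1 := by
    rw [← exp_add_of_commute (by
      rw [smul_neg]; exact (Commute.refl (t • A)).neg_right)]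
    simp
  calc exp (t • A) = exp (t • A) * u t := by rw [hc, mul_one]
    _ = _ := by rw [hu]; simp only; rw [← mul_assoc, hinv, one_mul]

end ExpLemmas

variable {Λ H : Type*} [MeasurableSpace Λ] [NormedAddCommGroup H] [InnerProductSpace ℂ H]
  [CompleteSpace H]

theorem exp_bl (x : Bl H) (hx : ∀ i, Commute x.fst (x.snd i)) :
    exp x = TrivSqZeroExt.inl (exp x.fst) + TrivSqZeroExt.inr (fun i => exp x.fst * x.snd i) := by
  letI : NormedAlgebra ℚ (H →L[ℂ] H) := NormedAlgebra.restrictScalars ℚ ℝ (H →L[ℂ] H)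
  letI : Module ℚ (Fin 2 → (H →L[ℂ] H)) := inferInstance
  rw [TrivSqZeroExt.exp_def_of_smul_comm]
  · congr 1
  · funext i
    exact (hx i).eq.symm

/-! ### Node gates, phases -/

/-- commutation with all class projections -/
def PC (I : ILSys Λ H) (T : H →L[ℂ] H) : Prop := ∀ B, MeasurableSet B → Commute (I.P B) T

lemma PC.star {I : ILSys Λ H} {T : H →L[ℂ] H} (h : PC I T) : PC I (star T) := by
  intro B hB
  have := congrArg Star.star (h B hB).eq
  rw [star_mul, star_mul, I.P_star B hB] at this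
  exact this.symm

lemma PC.mul {I : ILSys Λ H} {T T' : H →L[ℂ] H} (h : PC I T) (h' : PC I T') : PC I (T * T') :=
  fun B hB => (h B hB).mul_right (h' B hB)

lemma PC.add {I : ILSys Λ H} {T T' : H →L[ℂ] H} (h : PC I T) (h' : PC I T') : PC I (T + T') :=
  fun B hB => (h B hB).add_right (h' B hB)

lemma PC.one {I : ILSys Λ H} : PC I 1 := fun _ _ => Commute.one_right _

lemma PC.P {I : ILSys Λ H} {A : Set Λ} (hA : MeasurableSet A) : PC I (I.P A) :=
  fun _ hB => P_comm hB hA

lemma PC.smul {I : ILSys Λ H} {T : H →L[ℂ] H} (h : PC I T) (c : ℂ) : PC I (c • T) :=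
  fun B hB => (h B hB).smul_right c

lemma PC.blk {I : ILSys Λ H} {A : Set Λ} (hA : MeasurableSet A) {T : H →L[ℂ] H} (h : PC I T) :
    PC I (I.blk A T) := (PC.P hA.compl).add ((PC.P hA).mul h)

lemma PC.zW {I : ILSys Λ H} (f : H) : PC I (I.zW f) := fun _ hB => P_zW hB f

variable (I : ILSys Λ H)

/-- `g` on the class `N`, identity elsewhere -/
def nd {N : Set Λ} (hN : MeasurableSet N) (g : UH H) (hg : PC I (g : H →L[ℂ] H)) : UH H :=
  ⟨I.blk N g, by
    rw [Unitary.mem_iff, star_blk hN (hg.star N hN), blk_mul_blk hN hg.star, blk_mul_blk hN hg,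
      star_U_mul_self, U_mul_star_self, blk_one hN]
    exact ⟨rfl, rfl⟩⟩

/-- the scalar phase `e^{iθ}` -/
def ph (θ : ℝ) : UH H :=
  ⟨Complex.exp (Complex.I * θ) • (1 : H →L[ℂ] H), by
    rw [Unitary.mem_iff, star_smul, star_one, smul_mul_smul_comm, smul_mul_smul_comm, mul_one]
    have h : star (Complex.exp (Complex.I * θ)) * Complex.exp (Complex.I * θ) = 1 := by
      rw [← starRingEnd_apply, ← Complex.exp_conj, ← Complex.exp_add]
      simp
    rw [mul_comm (Complex.exp (Complex.I * θ)), h, one_smul]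
    exact ⟨rfl, rfl⟩⟩

lemma PC_ph (θ : ℝ) : PC I ((ph θ : UH H) : H →L[ℂ] H) := PC.one.smul _

variable {I}

@[simp] lemma nd_coe {N : Set Λ} (hN : MeasurableSet N) (g : UH H) (hg : PC I (g : H →L[ℂ] H)) :
    ((nd I hN g hg : UH H) : H →L[ℂ] H) = I.blk N g := rfl

@[simp] lemma cst_coe {N : Set Λ} (hN : MeasurableSet N) (f : H) :
    ((I.cst hN f : UH H) : H →L[ℂ] H) = I.blk N (I.zW f) := rfl

@[simp] lemma ph_coe (θ : ℝ) : ((ph θ : UH H) : H →L[ℂ] H) = Complex.exp (Complex.I * θ) • 1 := rfl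

/-- blocks of disjoint classes commute -/
lemma blk_comm {A B : Set Λ} (hA : MeasurableSet A) (hB : MeasurableSet B) (hd : Disjoint A B)
    {a b : H →L[ℂ] H} (ha : PC I a) (hb : PC I b) : Commute (I.blk A a) (I.blk B b) := by
  have eA : I.P Aᶜ = 1 - I.P A := by rw [← P_compl_add (I := I) hA]; abel
  have eB : I.P Bᶜ = 1 - I.P B := by rw [← P_compl_add (I := I) hB]; abel
  have e0 : I.P A * I.P B = 0 := P_disj hA hB hd
  have e0' : I.P B * I.P A = 0 := P_disj hB hA hd.symm
  have h1 : I.P A * a * (I.P B * b) = 0 := by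
    rw [mul_assoc, ← mul_assoc a, ← (ha B hB).eq, mul_assoc, ← mul_assoc, e0, zero_mul]
  have h2 : I.P B * b * (I.P A * a) = 0 := by
    rw [mul_assoc, ← mul_assoc b, ← (hb A hA).eq, mul_assoc, ← mul_assoc, e0', zero_mul]
  have h3 : I.P A * (I.P B * b) = 0 := by rw [← mul_assoc, e0, zero_mul]
  have h4 : I.P B * (I.P A * a) = 0 := by rw [← mul_assoc, e0', zero_mul]
  have h5 : I.P A * a * I.P B = 0 := by
    rw [mul_assoc, ← (ha B hB).eq, ← mul_assoc, e0, zero_mul]
  have h6 : I.P B * b * I.P A = 0 := by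
    rw [mul_assoc, ← (hb A hA).eq, ← mul_assoc, e0', zero_mul]
  show I.blk A a * I.blk B b = I.blk B b * I.blk A a
  rw [ILSys.blk, ILSys.blk, eA, eB]
  simp only [add_mul, mul_add, sub_mul, mul_sub, one_mul, mul_one, h1, h2, h3, h4, h5, h6, e0, e0']
  abel

/-- phase gate on the class `A` -/
abbrev phc {A : Set Λ} (hA : MeasurableSet A) (θ : ℝ) : UH H := nd I hA (ph θ) (PC_ph I θ)

lemma uh_ext {U V : UH H} (h : (U : H →L[ℂ] H) = V) : U = V := Subtype.ext h

lemma cst_mul_cst {A : Set Λ} (hA : MeasurableSet A) (f g : H) :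
    I.cst hA f * I.cst hA g = phc (I := I) hA (-(⟪f, g⟫_ℂ).im) * I.cst hA (f + g) := by
  apply uh_ext
  show I.blk A (I.zW f) * I.blk A (I.zW g) = I.blk A (Complex.exp (Complex.I * ((-(⟪f, g⟫_ℂ).im : ℝ) : ℂ)) • 1) * I.blk A (I.zW (f + g))
  rw [blk_mul_blk hA (PC.zW f), blk_mul_blk hA (PC.one.smul _), zW_mul, smul_mul_assoc, one_mul]
  congr 3
  push_cast
  ring

lemma nd_mul_nd {N : Set Λ} (hN : MeasurableSet N) (g g' : UH H) (hg : PC I (g : H →L[ℂ] H))
    (hg' : PC I (g' : H →L[ℂ] H)) (hgg : PC I ((g * g' : UH H) : H →L[ℂ] H)) :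
    nd I hN g hg * nd I hN g' hg' = nd I hN (g * g') hgg := by
  apply uh_ext
  exact blk_mul_blk hN hg

lemma nd_comm_cst {N A : Set Λ} (hN : MeasurableSet N) (hA : MeasurableSet A) (hd : Disjoint N A)
    (g : UH H) (hg : PC I (g : H →L[ℂ] H)) (f : H) :
    nd I hN g hg * I.cst hA f = I.cst hA f * nd I hN g hg :=
  uh_ext (blk_comm hN hA hd hg (PC.zW f)).eq

lemma cst_comm_cst {N A : Set Λ} (hN : MeasurableSet N) (hA : MeasurableSet A) (hd : Disjoint N A)
    (f f' : H) : I.cst hN f * I.cst hA f' = I.cst hA f' * I.cst hN f :=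
  uh_ext (blk_comm hN hA hd (PC.zW f) (PC.zW f')).eq

/-! ### Invariance of `Good` under central unitaries -/

section Central

variable {S : Set Λ} {L : Set H} {c : ℝ}

/-- operators commuting with spin, Weyl operators and class projections -/
structure Cen (I : ILSys Λ H) (T : H →L[ℂ] H) : Prop where
  P : PC I T
  sg : ∀ M, Commute (I.sg M) T
  W : ∀ f, Commute (I.W f) T

lemma Cen.zW {T : H →L[ℂ] H} (h : Cen I T) (f : H) : Commute (I.zW f) T :=
  ((h.sg _).mul_left (h.W _)).add_left ((h.sg _).mul_left (h.W _))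

lemma Cen.blk {T : H →L[ℂ] H} (h : Cen I T) {A : Set Λ} (hA : MeasurableSet A) {a : H →L[ℂ] H}
    (ha : Commute a T) : Commute (I.blk A a) T :=
  (h.P _ hA.compl).add_left ((h.P _ hA).mul_left ha)

lemma Cen.eV {Θ : UH H} (h : Cen I (Θ : H →L[ℂ] H)) (U : UH H) : I.eV (Θ * U) = I.eV U := by
  have h1 : (I.Z : H →L[ℂ] H) * (Θ : H →L[ℂ] H) = Θ * I.Z := (h.sg zM).eq
  show (star ((Θ : H →L[ℂ] H) * (U : H →L[ℂ] H)) * (I.Z * ((Θ : H →L[ℂ] H) * U))) I.Om
    = (star (U : H →L[ℂ] H) * (I.Z * U)) I.Om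
  rw [star_mul, ← mul_assoc I.Z, h1, mul_assoc (star (U : H →L[ℂ] H)), mul_assoc (Θ : H →L[ℂ] H),
    ← mul_assoc (star (Θ : H →L[ℂ] H)), star_U_mul_self, one_mul]

lemma Cen.step {Θ : UH H} (h : Cen I (Θ : H →L[ℂ] H)) {U U' : UH H} (hs : I.Step S L U U') :
    I.Step S L (Θ * U) (Θ * U') := by
  have key : ∀ {A : Set Λ} (hA : MeasurableSet A) (f : H) (V : UH H),
      Θ * (I.cst hA f * V) = I.cst hA f * (Θ * V) := by
    intro A hA f V
    rw [← mul_assoc, ← mul_assoc]
    congr 1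
    exact uh_ext (h.blk hA (h.zW f)).eq.symm
  cases hs with
  | rot hA hS β U =>
    have : Θ * (I.rot (I.Cl_meas _ hA) β * U) = I.rot (I.Cl_meas _ hA) β * (Θ * U) := by
      rw [← mul_assoc, ← mul_assoc]
      congr 1
      apply uh_ext
      exact (h.blk (I.Cl_meas _ hA)
        (((Commute.one_left _).smul_left _).sub_left ((h.sg _).smul_left _))).eq.symm
    rw [this]
    exact Step.rot hA hS β _
  | cpl hA hB hAS hBS hd g U =>
    have : Θ * I.cpl (I.Cl_meas _ hA) (I.Cl_meas _ hB) g U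
        = I.cpl (I.Cl_meas _ hA) (I.Cl_meas _ hB) g (Θ * U) := by
      rw [ILSys.cpl, ILSys.cpl, key, key, ILSys.eA, ILSys.eA, ILSys.eA, ILSys.eA, h.eV]
    rw [this]
    exact Step.cpl hA hB hAS hBS hd g _
  | lab hA hS hl a U =>
    rw [key]
    exact Step.lab hA hS hl a _

theorem Cen.good {Θ : UH H} (h : Cen I (Θ : H →L[ℂ] H)) {U : UH H} (hg : I.Good S L c (Θ * U)) :
    I.Good S L c U := by
  intro U' hU'
  have h1 : Relation.ReflTransGen (I.Step S L) (Θ * U) (Θ * U') :=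
    Relation.ReflTransGen.lift (fun V => Θ * V) (fun _ _ => h.step) _ _ hU'
  have h2 := hg _ h1
  rwa [ILSys.energy, h.eV] at h2

lemma Cen_phc {A : Set Λ} (hA : MeasurableSet A) (θ : ℝ) :
    Cen I ((phc (I := I) hA θ : UH H) : H →L[ℂ] H) := by
  refine ⟨PC.blk hA (PC_ph I θ), fun M => ?_, fun f => ?_⟩
  · exact ((I.P_sg _ M hA.compl).symm).add_right (((I.P_sg _ M hA).symm).mul_right
      ((Commute.one_right _).smul_right _))
  · exact ((I.P_W _ f hA.compl).symm).add_right (((I.P_W _ f hA).symm).mul_right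
      ((Commute.one_right _).smul_right _))

lemma Cen.mul {T T' : H →L[ℂ] H} (h : Cen I T) (h' : Cen I T') : Cen I (T * T') :=
  ⟨h.P.mul h'.P, fun M => (h.sg M).mul_right (h'.sg M), fun f => (h.W f).mul_right (h'.W f)⟩

end Central

end Crest.Agent.R339.MF
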