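import Mathlib
import Crest.Agent.R339.Li728C
import Crest.Agent.R339.MF569A
import Crest.Agent.R339.Cel90C
import Crest.Agent.R339.Cell220B

/-!
# One-mode estimates for the bath (R339, label induction, block G3)
-/

set_option autoImplicit false
set_option linter.unusedSectionVars false

open scoped InnerProductSpace Topology ComplexConjugate
open Filter MeasureTheory

namespace Crest.Agent.R339.Cell

open Crest.Agent.R339.Li Crest.Agent.R339.Li.ILSys Crest.Agent.R339.MF Crest.Agent.R339.Cel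

variable {Λ H : Type*} [MeasurableSpace Λ] [NormedAddCommGroup H] [InnerProductSpace ℂ H]
  [CompleteSpace H] {I : ILSys Λ H}

/-! ### elementary facts -/

theorem Y_Z : I.Y * I.Z = Complex.I • I.X := by
  have hXZ : I.X * I.Z = -(I.Z * I.X) := by rw [Z_X]; simp
  rw [ILSys.Y, smul_mul_assoc, mul_assoc, hXZ, mul_neg, ← mul_assoc, Z_mul_Z, one_mul]
  simp

theorem Z_Y : I.Z * I.Y = -(I.Y * I.Z) := by
  rw [Y_Z, ILSys.Y, mul_smul_comm, ← mul_assoc, Z_mul_Z, one_mul, neg_smul]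

theorem mx_W (β : ℝ) (f : H) : Commute (I.mx β) (I.W f) :=
  ((Commute.one_left _).smul_left _).sub_left ((X_W f).smul_left _)

theorem Y_yW (f : H) : Commute I.Y (yW I f) := by
  rw [yW]
  exact (Y_cW f).add_right (((Commute.refl _).mul_right (Y_sW f)).smul_right _)

/-- `exp (-i β X)` as unitary -/
noncomputable def mU (I : ILSys Λ H) (β : ℝ) : UH H :=
  ⟨I.mx β, by
    rw [Unitary.mem_iff, star_mx, mx_mul, mx_mul, neg_add_cancel, add_neg_cancel, mx_zero]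
    exact ⟨rfl, rfl⟩⟩

@[simp] theorem mU_coe (β : ℝ) : ((mU I β : UH H) : H →L[ℂ] H) = I.mx β := rfl

/-! ### commutation -/

theorem commute_W_W {d f : H} (h : (⟪d, f⟫_ℂ).im = 0) : Commute (I.W d) (I.W f) := by
  show I.W d * I.W f = I.W f * I.W d
  rw [W_W_comm, h]
  simp

theorem im_neg_right {d f : H} (h : (⟪d, f⟫_ℂ).im = 0) : (⟪d, -f⟫_ℂ).im = 0 := by
  rw [inner_neg_right, Complex.neg_im, h, neg_zero]

theorem im_neg_left {d f : H} (h : (⟪d, f⟫_ℂ).im = 0) : (⟪-d, f⟫_ℂ).im = 0 := by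
  rw [inner_neg_left, Complex.neg_im, h, neg_zero]

theorem im_symm {d f : H} (h : (⟪d, f⟫_ℂ).im = 0) : (⟪f, d⟫_ℂ).im = 0 := by
  rw [← inner_conj_symm, Complex.conj_im, h, neg_zero]

theorem im_smul_right {d f : H} (h : (⟪d, f⟫_ℂ).im = 0) (a : ℝ) : (⟪d, a • f⟫_ℂ).im = 0 := by
  rw [← Complex.coe_smul, inner_smul_right, Complex.im_ofReal_mul, h, mul_zero]

theorem im_smul_left {d f : H} (h : (⟪d, f⟫_ℂ).im = 0) (a : ℝ) : (⟪a • d, f⟫_ℂ).im = 0 :=
  im_symm (im_smul_right (im_symm h) a)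

theorem im_add_right {d f g : H} (h : (⟪d, f⟫_ℂ).im = 0) (h' : (⟪d, g⟫_ℂ).im = 0) :
    (⟪d, f + g⟫_ℂ).im = 0 := by
  rw [inner_add_right, Complex.add_im, h, h', add_zero]

theorem im_add_left {d f g : H} (h : (⟪d, f⟫_ℂ).im = 0) (h' : (⟪g, f⟫_ℂ).im = 0) :
    (⟪d + g, f⟫_ℂ).im = 0 := by
  rw [inner_add_left, Complex.add_im, h, h', add_zero]

theorem im_sum_left {κ : Type*} {s : Finset κ} {d : κ → H} {f : H}
    (h : ∀ k ∈ s, (⟪d k, f⟫_ℂ).im = 0) : (⟪∑ k ∈ s, d k, f⟫_ℂ).im = 0 := by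
  rw [sum_inner, Complex.im_sum]
  exact Finset.sum_eq_zero h

theorem commute_W_sW {d f : H} (h : (⟪d, f⟫_ℂ).im = 0) : Commute (I.W d) (I.sW f) :=
  ((commute_W_W h).sub_right (commute_W_W (im_neg_right h))).smul_right _

theorem commute_W_cW {d f : H} (h : (⟪d, f⟫_ℂ).im = 0) : Commute (I.W d) (I.cW f) :=
  ((commute_W_W h).add_right (commute_W_W (im_neg_right h))).smul_right _

theorem commute_W_zW {d f : H} (h : (⟪d, f⟫_ℂ).im = 0) : Commute (I.W d) (I.zW f) := by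
  rw [zW_eq]
  exact (commute_W_cW h).add_right (((Z_W d).symm.mul_right (commute_W_sW h)).smul_right _)

theorem W_Y (d : H) : Commute (I.W d) I.Y :=
  ((Z_W d).symm.mul_right (X_W d).symm).smul_right _

theorem commute_W_yW {d f : H} (h : (⟪d, f⟫_ℂ).im = 0) : Commute (I.W d) (yW I f) := by
  rw [yW]
  exact (commute_W_cW h).add_right (((W_Y d).mul_right (commute_W_sW h)).smul_right _)

/-! ### Lipschitz bounds -/

theorem norm_Ep_le : ‖I.Ep‖ ≤ 1 := by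
  refine ContinuousLinearMap.opNorm_le_bound _ zero_le_one fun x => ?_
  have h1 : ‖I.Ep x‖ ^ 2 = (⟪x, I.Ep x⟫_ℂ).re := by
    rw [norm_sq_eq_re_inner, ← ContinuousLinearMap.adjoint_inner_right,
      ← ContinuousLinearMap.star_eq_adjoint, star_Ep, ← mul_apply_eq_comp, Ep_Ep]
  have h2 : ‖I.Ep x‖ ^ 2 ≤ ‖x‖ * ‖I.Ep x‖ := by
    rw [h1]
    exact (Complex.re_le_norm _).trans (norm_inner_le_norm _ _)
  rw [one_mul]
  rcases eq_or_lt_of_le (norm_nonneg (I.Ep x)) with h | h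
  · rw [← h]
    exact norm_nonneg _
  · rw [sq] at h2
    exact le_of_mul_le_mul_right h2 h

theorem norm_Em_le : ‖I.Em‖ ≤ 1 := by
  refine ContinuousLinearMap.opNorm_le_bound _ zero_le_one fun x => ?_
  have h1 : ‖I.Em x‖ ^ 2 = (⟪x, I.Em x⟫_ℂ).re := by
    rw [norm_sq_eq_re_inner, ← ContinuousLinearMap.adjoint_inner_right,
      ← ContinuousLinearMap.star_eq_adjoint, star_Em, ← mul_apply_eq_comp, Em_Em]
  have h2 : ‖I.Em x‖ ^ 2 ≤ ‖x‖ * ‖I.Em x‖ := by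
    rw [h1]
    exact (Complex.re_le_norm _).trans (norm_inner_le_norm _ _)
  rw [one_mul]
  rcases eq_or_lt_of_le (norm_nonneg (I.Em x)) with h | h
  · rw [← h]
    exact norm_nonneg _
  · rw [sq] at h2
    exact le_of_mul_le_mul_right h2 h

theorem norm_W_neg_sub (d x : H) : ‖I.W (-d) x - x‖ = ‖I.W d x - x‖ := by
  have h : I.W d (I.W (-d) x - x) = -(I.W d x - x) := by
    rw [map_sub, ← mul_apply_eq_comp, W_mul_neg]
    simp
  rw [← norm_W I d, h, norm_neg]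

theorem norm_zW_sub_le (f x : H) : ‖I.zW f x - x‖ ≤ 2 * ‖I.W f x - x‖ := by
  have h1 : I.zW f x - x = I.Ep (I.W f x - x) + I.Em (I.W (-f) x - x) := by
    have h2 : x = I.Ep x + I.Em x := by
      rw [← add_apply, Ep_add_Em]; rfl
    have h3 : I.zW f x = I.Ep (I.W f x) + I.Em (I.W (-f) x) := rfl
    rw [h3, map_sub, map_sub]
    nth_rw 3 [h2]
    abel
  rw [h1]
  have h4 : ‖I.Ep (I.W f x - x)‖ ≤ ‖I.W f x - x‖ := by
    refine (I.Ep.le_opNorm _).trans ?_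
    calc ‖I.Ep‖ * ‖I.W f x - x‖ ≤ 1 * ‖I.W f x - x‖ :=
          mul_le_mul_of_nonneg_right norm_Ep_le (norm_nonneg _)
      _ = _ := one_mul _
  have h5 : ‖I.Em (I.W (-f) x - x)‖ ≤ ‖I.W f x - x‖ := by
    refine (I.Em.le_opNorm _).trans ?_
    rw [norm_W_neg_sub]
    calc ‖I.Em‖ * ‖I.W f x - x‖ ≤ 1 * ‖I.W f x - x‖ :=
          mul_le_mul_of_nonneg_right norm_Em_le (norm_nonneg _)
      _ = _ := one_mul _
  linarith [norm_add_le (I.Ep (I.W f x - x)) (I.Em (I.W (-f) x - x))]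

theorem norm_W_sub_comm {G : UH H} {d x : H} (h : Commute (I.W d) (G : H →L[ℂ] H)) :
    ‖I.W d ((G : H →L[ℂ] H) x) - (G : H →L[ℂ] H) x‖ = ‖I.W d x - x‖ := by
  rw [← mul_apply_eq_comp, h.eq, mul_apply_eq_comp, ← map_sub, norm_U_apply]

theorem norm_yW_sub_le (f x : H) : ‖yW I f x - x‖ ≤ 2 * ‖I.W f x - x‖ := by
  have h' : (mU I (-(Real.pi / 4)) : H →L[ℂ] H) * (mU I (Real.pi / 4) : H →L[ℂ] H) = 1 := by
    rw [mU_coe, mU_coe, mx_mul, neg_add_cancel, mx_zero]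
  have h1 : yW I f x - x = (mU I (-(Real.pi / 4)) : H →L[ℂ] H)
      (I.zW f ((mU I (Real.pi / 4) : H →L[ℂ] H) x) - (mU I (Real.pi / 4) : H →L[ℂ] H) x) := by
    rw [map_sub, ← mul_apply_eq_comp (mU I (-(Real.pi / 4)) : H →L[ℂ] H)
      (mU I (Real.pi / 4) : H →L[ℂ] H), h', ← mx_zW_mx]
    rfl
  rw [h1, norm_U_apply]
  refine (norm_zW_sub_le f _).trans ?_
  rw [norm_W_sub_comm (mx_W _ f).symm]

/-- one bath step moves a vector at most as much as the Weyl operator of its small vector -/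
theorem norm_step_sub_le {z ζ : H} (h : (⟪ζ, z⟫_ℂ).im = 0) (x : H) :
    ‖((yWU I (-z) * (zWU I ζ * yWU I z) : UH H) : H →L[ℂ] H) x - x‖ ≤ 2 * ‖I.W ζ x - x‖ := by
  have h1 : ((yWU I (-z) * (zWU I ζ * yWU I z) : UH H) : H →L[ℂ] H) x - x =
      (yWU I (-z) : H →L[ℂ] H) (I.zW ζ ((yWU I z : H →L[ℂ] H) x) - (yWU I z : H →L[ℂ] H) x) := by
    rw [map_sub, ← mul_apply_eq_comp (yWU I (-z) : H →L[ℂ] H) (yWU I z : H →L[ℂ] H), yWU_coe,
      yWU_coe, yW_neg_mul]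
    rfl
  rw [h1, norm_U_apply]
  refine (norm_zW_sub_le ζ _).trans ?_
  rw [norm_W_sub_comm (commute_W_yW h)]

theorem norm_W_sub_P_Om_le {A : Set Λ} (hA : MeasurableSet A) (d : H) :
    ‖I.W d (I.P A I.Om) - I.P A I.Om‖ ≤ ‖d‖ * Real.sqrt (I.μ.real A) := by
  have h := norm_W_sub_sq (I := I) hA d 0
  rw [I.W_zero] at h
  simp only [one_apply_eq_self, norm_zero, ne_eq, OfNat.ofNat_ne_zero,
    not_false_eq_true, zero_pow, mul_zero, add_zero, one_mul] at h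
  have h2 : ‖d‖ ^ 2 * I.μ.real A = (‖d‖ * Real.sqrt (I.μ.real A)) ^ 2 := by
    rw [mul_pow, Real.sq_sqrt measureReal_nonneg]
  rw [h2] at h
  exact (pow_le_pow_iff_left₀ (norm_nonneg _) (by positivity) two_ne_zero).mp h

end Crest.Agent.R339.Cell
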