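import Mathlib
import Crest.Agent.R339.Cell220C
import Crest.Agent.R339.Cel90E

/-!
# Class vectors: reality of inner products, norms, congruence (R339, label induction, block G3)
-/

set_option autoImplicit false
set_option linter.unusedSectionVars false
set_option linter.unusedVariables false

open scoped InnerProductSpace Topology ComplexConjugate
open Filter MeasureTheory

namespace Crest.Agent.R339.Cell

open Crest.Agent.R339.Li Crest.Agent.R339.Li.ILSys Crest.Agent.R339.MF Crest.Agent.R339.Cel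

variable {Λ H : Type*} [MeasurableSpace Λ] [NormedAddCommGroup H] [InnerProductSpace ℂ H]
  [CompleteSpace H] {I : ILSys Λ H}

/-! ### operator norms -/

theorem norm_sW_le (f : H) : ‖I.sW f‖ ≤ 1 := by
  rw [sW]
  calc ‖(-(Complex.I / 2)) • (I.W f - I.W (-f))‖ ≤ ‖(-(Complex.I / 2) : ℂ)‖ * ‖I.W f - I.W (-f)‖ :=
        norm_smul_le _ _
    _ ≤ 1 / 2 * (1 + 1) := by
        refine mul_le_mul (by simp) ((norm_sub_le _ _).trans (add_le_add (norm_W_le I _)
          (norm_W_le I _))) (norm_nonneg _) (by norm_num)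
    _ = 1 := by norm_num

theorem norm_cW_le (f : H) : ‖I.cW f‖ ≤ 1 := by
  rw [cW]
  calc ‖(1 / 2 : ℂ) • (I.W f + I.W (-f))‖ ≤ ‖(1 / 2 : ℂ)‖ * ‖I.W f + I.W (-f)‖ :=
        norm_smul_le _ _
    _ ≤ 1 / 2 * (1 + 1) := by
        refine mul_le_mul (by simp) ((norm_add_le _ _).trans (add_le_add (norm_W_le I _)
          (norm_W_le I _))) (norm_nonneg _) (by norm_num)
    _ = 1 := by norm_num

theorem norm_sinq_le (t : ℝ) (h : H) : ‖sinq I t h‖ ≤ |t|⁻¹ := by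
  rw [sinq]
  refine (norm_smul_le _ _).trans ?_
  rw [norm_inv, Complex.norm_real, Real.norm_eq_abs]
  calc |t|⁻¹ * ‖I.sW ((t : ℂ) • h)‖ ≤ |t|⁻¹ * 1 :=
        mul_le_mul_of_nonneg_left (norm_sW_le _) (by positivity)
    _ = |t|⁻¹ := mul_one _

/-- `sin φ(f)` is small on vectors on which `W f` is close to one -/
theorem norm_sW_apply_le (f x : H) : ‖I.sW f x‖ ≤ ‖I.W f x - x‖ := by
  have h1 : I.sW f x = (-(Complex.I / 2)) • ((I.W f x - x) - (I.W (-f) x - x)) := by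
    rw [sW, smul_apply, sub_apply]
    congr 1
    abel
  rw [h1, norm_smul]
  have h2 : ‖(-(Complex.I / 2) : ℂ)‖ = 1 / 2 := by simp
  rw [h2]
  have h3 := norm_sub_le (I.W f x - x) (I.W (-f) x - x)
  rw [norm_W_neg_sub] at h3
  linarith

/-! ### class vectors -/

theorem pV_eq {B : Set Λ} (hB : MeasurableSet B) {U : UH H} (hU : PC I (U : H →L[ℂ] H))
    {T : H →L[ℂ] H} (hT : PC I T) :
    pV I B U T = star (U : H →L[ℂ] H) (T ((U : H →L[ℂ] H) (I.P B I.Om))) := by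
  have h1 : I.P B * (star (U : H →L[ℂ] H) * (T * (U : H →L[ℂ] H))) =
      (star (U : H →L[ℂ] H) * (T * (U : H →L[ℂ] H))) * I.P B :=
    ((hU.star B hB).mul_right ((hT B hB).mul_right (hU B hB))).eq
  exact congrArg (fun K : H →L[ℂ] H => K I.Om) h1

theorem norm_pV_le {B : Set Λ} (hB : MeasurableSet B) {U : UH H} (hU : PC I (U : H →L[ℂ] H))
    {T : H →L[ℂ] H} (hT : PC I T) : ‖pV I B U T‖ ≤ ‖T‖ * Real.sqrt (I.μ.real B) := by
  rw [pV_eq hB hU hT, norm_star_U_apply]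
  refine (T.le_opNorm _).trans ?_
  rw [norm_U_apply]
  refine mul_le_mul_of_nonneg_left ?_ (norm_nonneg _)
  rw [← norm_P_Om_sq hB, Real.sqrt_sq (norm_nonneg _)]

/-- reality of inner products of class vectors of commuting self-adjoint operators -/
theorem im_inner_pV {B B' : Set Λ} (hB : MeasurableSet B) (hB' : MeasurableSet B') {U : UH H}
    (hU : PC I (U : H →L[ℂ] H)) {T T' : H →L[ℂ] H} (hT : PC I T) (hT' : PC I T')
    (hs : star T = T) (hs' : star T' = T') (hc : Commute T T') :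
    (⟪pV I B U T, pV I B' U T'⟫_ℂ).im = 0 := by
  have h1 : ⟪pV I B U T, pV I B' U T'⟫_ℂ =
      ⟪(U : H →L[ℂ] H) (I.P (B ∩ B') I.Om), (T * T') ((U : H →L[ℂ] H) I.Om)⟫_ℂ := by
    have e3 : ⟪pV I B U T, I.P B' (star (U : H →L[ℂ] H) (T' ((U : H →L[ℂ] H) I.Om)))⟫_ℂ =
        ⟪pV I (B ∩ B') U T, star (U : H →L[ℂ] H) (T' ((U : H →L[ℂ] H) I.Om))⟫_ℂ := by
      rw [← ContinuousLinearMap.adjoint_inner_left, ← ContinuousLinearMap.star_eq_adjoint,
        I.P_star B' hB', pV, pV, ← mul_apply_eq_comp (I.P B'), ← I.P_inter B' B hB' hB,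
        Set.inter_comm]
    have e2 : pV I B' U T' = I.P B' (star (U : H →L[ℂ] H) (T' ((U : H →L[ℂ] H) I.Om))) := rfl
    rw [e2, e3, pV_eq (hB.inter hB') hU hT]
    have e4 : ⟪star (U : H →L[ℂ] H) (T ((U : H →L[ℂ] H) (I.P (B ∩ B') I.Om))),
        star (U : H →L[ℂ] H) (T' ((U : H →L[ℂ] H) I.Om))⟫_ℂ =
        ⟪T ((U : H →L[ℂ] H) (I.P (B ∩ B') I.Om)), T' ((U : H →L[ℂ] H) I.Om)⟫_ℂ := by
      rw [ContinuousLinearMap.star_eq_adjoint, ContinuousLinearMap.adjoint_inner_left,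
        ← ContinuousLinearMap.star_eq_adjoint, U_apply_star_U]
    rw [e4]
    have e5 : ⟪T ((U : H →L[ℂ] H) (I.P (B ∩ B') I.Om)), T' ((U : H →L[ℂ] H) I.Om)⟫_ℂ =
        ⟪(U : H →L[ℂ] H) (I.P (B ∩ B') I.Om), star T (T' ((U : H →L[ℂ] H) I.Om))⟫_ℂ := by
      rw [ContinuousLinearMap.star_eq_adjoint, ContinuousLinearMap.adjoint_inner_right]
    rw [e5, hs]
    rfl
  have h2 : ⟪(U : H →L[ℂ] H) (I.P (B ∩ B') I.Om), (T * T') ((U : H →L[ℂ] H) I.Om)⟫_ℂ =
      ⟪(T * T') ((U : H →L[ℂ] H) I.Om), (U : H →L[ℂ] H) (I.P (B ∩ B') I.Om)⟫_ℂ := by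
    have hK : PC I (T * T') := hT.mul hT'
    have hKs : star (T * T') = T * T' := by rw [star_mul, hs, hs', hc.eq]
    have hBB := hB.inter hB'
    have f1 : (U : H →L[ℂ] H) (I.P (B ∩ B') I.Om) = I.P (B ∩ B') ((U : H →L[ℂ] H) I.Om) := by
      rw [← mul_apply_eq_comp, ← (hU _ hBB).eq, mul_apply_eq_comp]
    rw [f1]
    have f2 : ⟪I.P (B ∩ B') ((U : H →L[ℂ] H) I.Om), (T * T') ((U : H →L[ℂ] H) I.Om)⟫_ℂ =
        ⟪(U : H →L[ℂ] H) I.Om, (I.P (B ∩ B') * (T * T')) ((U : H →L[ℂ] H) I.Om)⟫_ℂ := by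
      rw [mul_apply_eq_comp (I.P (B ∩ B')), ← ContinuousLinearMap.adjoint_inner_left (I.P (B ∩ B')),
        ← ContinuousLinearMap.star_eq_adjoint, I.P_star _ hBB]
    have f3 : ⟪(T * T') ((U : H →L[ℂ] H) I.Om), I.P (B ∩ B') ((U : H →L[ℂ] H) I.Om)⟫_ℂ =
        ⟪(U : H →L[ℂ] H) I.Om, ((T * T') * I.P (B ∩ B')) ((U : H →L[ℂ] H) I.Om)⟫_ℂ := by
      rw [mul_apply_eq_comp _ (I.P (B ∩ B')), ← ContinuousLinearMap.adjoint_inner_left (T * T'),
        ← ContinuousLinearMap.star_eq_adjoint, hKs]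
    rw [f2, f3, (hK _ hBB).eq]
  rw [h1]
  have h3 : (⟪(U : H →L[ℂ] H) (I.P (B ∩ B') I.Om), (T * T') ((U : H →L[ℂ] H) I.Om)⟫_ℂ).im =
      -(⟪(U : H →L[ℂ] H) (I.P (B ∩ B') I.Om), (T * T') ((U : H →L[ℂ] H) I.Om)⟫_ℂ).im := by
    conv_lhs => rw [h2]
    rw [← inner_conj_symm, Complex.conj_im]
  linarith

/-- vectors in disjoint classes are orthogonal -/
theorem inner_of_disj {B B' : Set Λ} (hB : MeasurableSet B) (hB' : MeasurableSet B')
    (hd : Disjoint B B') {x y : H} (hx : I.P B x = x) (hy : I.P B' y = y) : ⟪x, y⟫_ℂ = 0 := by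
  rw [← hx, ← hy, ← ContinuousLinearMap.adjoint_inner_right, ← ContinuousLinearMap.star_eq_adjoint,
    I.P_star B hB, ← mul_apply_eq_comp, P_disj hB hB' hd]
  simp

theorem im_inner_of_disj {B B' : Set Λ} (hB : MeasurableSet B) (hB' : MeasurableSet B')
    (hd : Disjoint B B') {x y : H} (hx : I.P B x = x) (hy : I.P B' y = y) :
    (⟪x, y⟫_ℂ).im = 0 := by
  rw [inner_of_disj hB hB' hd hx hy, Complex.zero_im]

/-- a commuting left factor does not change the class vector -/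
theorem pV_mul_of_comm {X : Set Λ} {G U : UH H} {T : H →L[ℂ] H} (h : Commute (G : H →L[ℂ] H) T) :
    pV I X (G * U) T = pV I X U T := by
  have h1 : star ((G * U : UH H) : H →L[ℂ] H) * (T * ((G * U : UH H) : H →L[ℂ] H)) =
      star (U : H →L[ℂ] H) * (T * (U : H →L[ℂ] H)) := by
    show star ((G : H →L[ℂ] H) * (U : H →L[ℂ] H)) * (T * ((G : H →L[ℂ] H) * (U : H →L[ℂ] H))) = _
    rw [star_mul, ← mul_assoc T, ← h.eq, mul_assoc (star (U : H →L[ℂ] H)), mul_assoc (G : H →L[ℂ] H),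
      ← mul_assoc (star (G : H →L[ℂ] H)), star_U_mul_self, one_mul]
  exact congrArg (fun K : H →L[ℂ] H => I.P X (K I.Om)) h1

theorem PC_cst {A : Set Λ} (hA : MeasurableSet A) (f : H) :
    PC I ((I.cst hA f : UH H) : H →L[ℂ] H) := PC.blk hA (PC.zW f)

theorem PC_U_mul {U V : UH H} (hU : PC I (U : H →L[ℂ] H)) (hV : PC I (V : H →L[ℂ] H)) :
    PC I ((U * V : UH H) : H →L[ℂ] H) := PC.mul hU hV

theorem star_mul_self_TL {n : ℕ} (c : Fin n → ℝ) (u : Fin n → H) : star (TL I c u) = TL I c u := by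
  rw [TL, star_sum]
  exact Finset.sum_congr rfl fun k _ => by rw [star_smul, star_sW]; simp

theorem PC_TL {n : ℕ} (c : Fin n → ℝ) (u : Fin n → H) : PC I (TL I c u) :=
  PC.sum fun _ _ => (PC.sW _).smul _

theorem PC_sinq (t : ℝ) (h : H) : PC I (sinq I t h) := (PC.sW _).smul _

theorem star_sinq (t : ℝ) (h : H) : star (sinq I t h) = sinq I t h := by
  rw [sinq, star_smul, star_sW]
  simp

theorem Z_sinq (t : ℝ) (h : H) : Commute I.Z (sinq I t h) := (Z_sW _).smul_right _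

theorem W_sinq {d h : H} (t : ℝ) (hd : (⟪d, h⟫_ℂ).im = 0) : Commute (I.W d) (sinq I t h) := by
  refine (commute_W_sW ?_).smul_right _
  have := im_smul_right hd t
  rwa [← Complex.coe_smul] at this

theorem W_cW_smul {d h : H} (t : ℝ) (hd : (⟪d, h⟫_ℂ).im = 0) :
    Commute (I.W d) (I.cW ((t : ℂ) • h)) := by
  refine commute_W_cW ?_
  have := im_smul_right hd t
  rwa [← Complex.coe_smul] at this

theorem W_sW_smul {d h : H} (t : ℝ) (hd : (⟪d, h⟫_ℂ).im = 0) :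
    Commute (I.W d) (I.sW ((t : ℂ) • h)) := by
  refine commute_W_sW ?_
  have := im_smul_right hd t
  rwa [← Complex.coe_smul] at this

theorem commute_sW_of_W {f : H} {T : H →L[ℂ] H} (h1 : Commute (I.W f) T)
    (h2 : Commute (I.W (-f)) T) : Commute (I.sW f) T := (h1.sub_left h2).smul_left _

theorem commute_cW_of_W {f : H} {T : H →L[ℂ] H} (h1 : Commute (I.W f) T)
    (h2 : Commute (I.W (-f)) T) : Commute (I.cW f) T := (h1.add_left h2).smul_left _

theorem commute_zW_of_W {d : H} {T : H →L[ℂ] H} (h1 : Commute (I.W d) T)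
    (h2 : Commute (I.W (-d)) T) (hZ : Commute I.Z T) : Commute (I.zW d) T := by
  rw [zW_eq]
  exact (commute_cW_of_W h1 h2).add_left ((hZ.mul_left (commute_sW_of_W h1 h2)).smul_left _)

theorem W_TL {n : ℕ} {c : Fin n → ℝ} {u : Fin n → H} {d : H} (hd : ∀ k, (⟪d, u k⟫_ℂ).im = 0) :
    Commute (I.W d) (TL I c u) :=
  Commute.sum_right _ _ _ fun k _ => (commute_W_sW (hd k)).smul_right _

theorem Z_TL {n : ℕ} (c : Fin n → ℝ) (u : Fin n → H) : Commute I.Z (TL I c u) :=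
  Commute.sum_right _ _ _ fun _ _ => (Z_sW _).smul_right _

end Crest.Agent.R339.Cell
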