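import Mathlib
import Crest.Agent.R339.Cell220D

/-!
# The recursion over the cells (R339, label induction, block G3)
-/

set_option autoImplicit false
set_option linter.unusedSectionVars false
set_option linter.unusedVariables false

noncomputable section

open scoped InnerProductSpace Topology ComplexConjugate
open Filter MeasureTheory

namespace Crest.Agent.R339.Cell

open Crest.Agent.R339.Li Crest.Agent.R339.Li.ILSys Crest.Agent.R339.MF Crest.Agent.R339.Cel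

/-- parameters of a gadget -/
structure Par (Λ H : Type*) [MeasurableSpace Λ] [NormedAddCommGroup H] [InnerProductSpace ℂ H]
    [CompleteSpace H] where
  /-- bath -/
  M : Set Λ
  /-- targets -/
  A : Set Λ
  /-- nodes -/
  Mn : Set Λ
  t : ℝ
  n : ℕ
  c : Fin n → ℝ
  a : Fin n → ℝ
  b : Fin n → ℝ
  u : Fin n → H
  U : UH H

variable {Λ H : Type*} [MeasurableSpace Λ] [NormedAddCommGroup H] [InnerProductSpace ℂ H]
  [CompleteSpace H]

section defs

variable (I : ILSys Λ H) (p : Par Λ H) (g : ℝ) (N : ℕ → Set Λ)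

/-- node vector of the cell `r` -/
def zv (r : ℕ) : H := I.eA (N r) p.U
/-- target vector of the cell `r` -/
def hv (r : ℕ) : H := I.eA (p.A \ N r) p.U
/-- bath vector, `Y` component -/
def yb (B : UH H) : H := pV I p.M B I.Y
/-- bath vector, `Z` component after the first coupling -/
def qb (B : UH H) (r : ℕ) : H := I.eA p.M (yWU I ((g : ℂ) • zv I p N r) * B)
/-- symplectic form of the two bath vectors -/
def Jb (B : UH H) (r : ℕ) : ℝ := (⟪yb I p B, qb I p g N B r⟫_ℂ).im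
/-- adapted frequency -/
def τb (B : UH H) (r : ℕ) : ℝ := Real.pi / (4 * g * Jb I p g N B r)
/-- frequencies -/
def fb (B : UH H) (r : ℕ) (k : Fin p.n) : H :=
  (p.a k : ℂ) • hv I p N r + ((p.b k * τb I p g N B r : ℝ) : ℂ) • qb I p g N B r + p.u k
/-- bath kick -/
def ζb (B : UH H) (r : ℕ) : H := ((-(p.t * τb I p g N B r) : ℝ) : ℂ) •
  pV I (N r) p.U (snS I p.c (fb I p g N B r))
/-- bath gate -/
def Kb (B : UH H) (r : ℕ) : UH H := yWU I (-((g : ℂ) • zv I p N r)) *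
  (zWU I (ζb I p g N B r) * yWU I ((g : ℂ) • zv I p N r))
/-- bath states -/
def Bs : ℕ → UH H
  | 0 => 1
  | r + 1 => Kb I p g N (Bs r) r * Bs r
/-- bath vector, `Y` component after the function gate -/
def y2b (B : UH H) (r : ℕ) : H :=
  pV I p.M (zWU I (ζb I p g N B r) * (yWU I ((g : ℂ) • zv I p N r) * B)) I.Y
/-- node gate -/
def Ob (r : ℕ) : UH H := zWU I ((g : ℂ) • (yb I p (Bs I p g N r) - y2b I p g N (Bs I p g N r) r)) *
  eIU (-p.t) (csS I (fun k => p.c k * p.b k) (fb I p g N (Bs I p g N r) r)) (star_csS _ _)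
/-- target kick -/
def av (r : ℕ) : H := (-(p.t : ℂ)) •
  pV I (N r) p.U (snS I (fun k => p.c k * p.a k * p.b k) (fb I p g N (Bs I p g N r) r))

end defs

/-- hypotheses on the parameters -/
structure Hyp (I : ILSys Λ H) (S : Set Λ) (L : Set H) (p : Par Λ H) : Prop where
  clM : I.Cl p.M
  clA : I.Cl p.A
  clMn : I.Cl p.Mn
  subM : p.M ⊆ S
  subA : p.A ⊆ S
  subMn : p.Mn ⊆ S
  dMn : Disjoint p.Mn p.M
  dA : Disjoint p.A p.M
  pos : 0 < I.μ.real p.M
  real : RealSet L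
  bath : ∀ l ∈ L, I.P p.M l = 0
  re : ∀ K : H →L[ℂ] H, star K = K → PC I K →
    (∀ l ∈ L, ∀ t : ℝ, Commute (I.W ((t : ℂ) • l)) K) → ∀ l ∈ L, ∀ B, MeasurableSet B → B ⊆ S →
      (⟪l, I.P B (K I.Om)⟫_ℂ).im = 0
  hb : ∀ k, p.b k = 1 ∨ p.b k = -1
  hu : ∀ k, p.u k ∈ Submodule.span ℝ L
  van : ∀ h : H, snS I p.c (fun k => (p.a k : ℂ) • h + p.u k) = 0
  PCU : PC I (p.U : H →L[ℂ] H)
  labU : ∀ l ∈ L, ∀ t : ℝ, Commute (I.W ((t : ℂ) • l)) (p.U : H →L[ℂ] H)
  UM : (p.U : H →L[ℂ] H) * I.P p.M = I.P p.M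
  UW : ∀ f, I.P p.M f = f → Commute (I.W f) (p.U : H →L[ℂ] H)

/-- a partition of the nodes into cells -/
structure Cells (I : ILSys Λ H) (p : Par Λ H) (R : ℕ) (N : ℕ → Set Λ) : Prop where
  part : Part p.Mn R N
  cl : ∀ r < R, I.Cl (N r)

section lemmas

variable {I : ILSys Λ H} {S : Set Λ} {L : Set H} {p : Par Λ H} {g : ℝ} {N : ℕ → Set Λ} {R : ℕ}

theorem Hyp.mM (h : Hyp I S L p) : MeasurableSet p.M := I.Cl_meas _ h.clM
theorem Hyp.mA (h : Hyp I S L p) : MeasurableSet p.A := I.Cl_meas _ h.clA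
theorem Hyp.mMn (h : Hyp I S L p) : MeasurableSet p.Mn := I.Cl_meas _ h.clMn

theorem Cells.m (hN : Cells I p R N) {r : ℕ} (hr : r < R) : MeasurableSet (N r) :=
  hN.part.meas r hr

theorem Cells.subS (h : Hyp I S L p) (hN : Cells I p R N) {r : ℕ} (hr : r < R) : N r ⊆ S :=
  (hN.part.sub hr).trans h.subMn

theorem Cells.dM (h : Hyp I S L p) (hN : Cells I p R N) {r : ℕ} (hr : r < R) :
    Disjoint (N r) p.M := Disjoint.mono_left (hN.part.sub hr) h.dMn

theorem Cells.dAM (h : Hyp I S L p) {r : ℕ} : Disjoint (p.A \ N r) p.M :=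
  Disjoint.mono_left Set.diff_subset h.dA

theorem Cells.mAN (h : Hyp I S L p) (hN : Cells I p R N) {r : ℕ} (hr : r < R) :
    MeasurableSet (p.A \ N r) := h.mA.diff (hN.m hr)

theorem Cells.clAN (h : Hyp I S L p) (hN : Cells I p R N) {r : ℕ} (hr : r < R) :
    I.Cl (p.A \ N r) := by
  rw [Set.diff_eq]
  exact I.Cl_inter _ _ h.clA (I.Cl_compl _ (hN.cl r hr))

theorem PC_yz (g : ℝ) (z : H) : PC I ((yWU I ((g : ℂ) • z) : UH H) : H →L[ℂ] H) := PC.yW _

theorem PC_Kb (B : UH H) (r : ℕ) : PC I ((Kb I p g N B r : UH H) : H →L[ℂ] H) :=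
  PC.mul (PC.yW _) (PC.mul (PC.zW _) (PC.yW _))

theorem PC_Bs : ∀ r, PC I ((Bs I p g N r : UH H) : H →L[ℂ] H)
  | 0 => PC.one
  | r + 1 => PC.mul (PC_Kb _ _) (PC_Bs r)

theorem PC_Ob (r : ℕ) : PC I ((Ob I p g N r : UH H) : H →L[ℂ] H) :=
  PC.mul (PC.zW _) (PC.eI (PC.csS _ _))

/-! ### supports -/

theorem P_zv (hN : Cells I p R N) {r : ℕ} (hr : r < R) : I.P (N r) (zv I p N r) = zv I p N r :=
  P_eA (hN.m hr) _
theorem P_hv (h : Hyp I S L p) (hN : Cells I p R N) {r : ℕ} (hr : r < R) :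
    I.P (p.A \ N r) (hv I p N r) = hv I p N r := P_eA (hN.mAN h hr) _
theorem P_yb (h : Hyp I S L p) (B : UH H) : I.P p.M (yb I p B) = yb I p B := P_pV h.mM _ _
theorem P_qb (h : Hyp I S L p) (B : UH H) (r : ℕ) : I.P p.M (qb I p g N B r) = qb I p g N B r :=
  P_eA h.mM _
theorem P_y2b (h : Hyp I S L p) (B : UH H) (r : ℕ) :
    I.P p.M (y2b I p g N B r) = y2b I p g N B r := P_pV h.mM _ _
theorem P_ζb (hN : Cells I p R N) (B : UH H) {r : ℕ} (hr : r < R) :
    I.P (N r) (ζb I p g N B r) = ζb I p g N B r := by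
  rw [ζb, map_smul, P_pV (hN.m hr)]
theorem P_av (hN : Cells I p R N) {r : ℕ} (hr : r < R) :
    I.P (N r) (av I p g N r) = av I p g N r := by
  rw [av, map_smul, P_pV (hN.m hr)]

/-! ### reality -/

theorem im_span_left {x : H} (hx : ∀ l ∈ L, (⟪l, x⟫_ℂ).im = 0) {u : H}
    (hu : u ∈ Submodule.span ℝ L) : (⟪u, x⟫_ℂ).im = 0 := by
  induction hu using Submodule.span_induction with
  | mem y hy => exact hx y hy
  | zero => simp
  | add y z _ _ hy hz => exact im_add_left hy hz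
  | smul a y _ hy => exact im_smul_left hy a

theorem im_coe_smul_right {d f : H} (h : (⟪d, f⟫_ℂ).im = 0) (a : ℝ) :
    (⟪d, (a : ℂ) • f⟫_ℂ).im = 0 := by
  rw [Complex.coe_smul]
  exact im_smul_right h a

theorem im_coe_smul_left {d f : H} (h : (⟪d, f⟫_ℂ).im = 0) (a : ℝ) :
    (⟪(a : ℂ) • d, f⟫_ℂ).im = 0 := by
  rw [Complex.coe_smul]
  exact im_smul_left h a

/-- labels have real inner products with class vectors of admissible operators -/
theorem im_lab_pV (h : Hyp I S L p) {T : H →L[ℂ] H} (hs : star T = T) (hT : PC I T)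
    (hc : ∀ l ∈ L, ∀ t : ℝ, Commute (I.W ((t : ℂ) • l)) T) {B : Set Λ} (hB : MeasurableSet B)
    (hBS : B ⊆ S) {l : H} (hl : l ∈ L) : (⟪l, pV I B p.U T⟫_ℂ).im = 0 := by
  have h1 := h.re (star (p.U : H →L[ℂ] H) * (T * (p.U : H →L[ℂ] H))) ?_ ?_ ?_ l hl B hB hBS
  · exact h1
  · rw [star_mul, star_mul, star_star, hs, mul_assoc]
  · exact h.PCU.star.mul (hT.mul h.PCU)
  · intro l hl t
    have e1 := h.labU l hl t
    have e2 : Commute (I.W ((t : ℂ) • l)) (star (p.U : H →L[ℂ] H)) := by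
      have e3 := h.labU l hl (-t)
      have e4 : star (I.W (((-t : ℝ) : ℂ) • l)) = I.W ((t : ℂ) • l) := by
        rw [I.W_star]
        congr 1
        push_cast
        rw [neg_smul, neg_neg]
      have e5 := congrArg Star.star e3.eq
      rw [star_mul, star_mul, e4] at e5
      exact e5.symm
    exact e2.mul_right ((hc l hl t).mul_right e1)

theorem im_lab_hv (h : Hyp I S L p) (hN : Cells I p R N) {r : ℕ} (hr : r < R) {l : H}
    (hl : l ∈ L) : (⟪l, hv I p N r⟫_ℂ).im = 0 :=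
  im_lab_pV h star_Z PC.Z (fun _ _ _ => (Z_W _).symm) (hN.mAN h hr)
    (Set.diff_subset.trans h.subA) hl

theorem im_u_hv (h : Hyp I S L p) (hN : Cells I p R N) {r : ℕ} (hr : r < R) (k : Fin p.n) :
    (⟪p.u k, hv I p N r⟫_ℂ).im = 0 :=
  im_span_left (fun _ hl => im_lab_hv h hN hr hl) (h.hu k)

theorem im_lab_qb (h : Hyp I S L p) (B : UH H) (r : ℕ) {l : H} (hl : l ∈ L) :
    (⟪l, qb I p g N B r⟫_ℂ).im = 0 := by
  rw [inner_of_P_zero h.mM (h.bath l hl) (P_qb h B r), Complex.zero_im]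

theorem im_lab_u (h : Hyp I S L p) {l : H} (hl : l ∈ L) (k : Fin p.n) :
    (⟪l, p.u k⟫_ℂ).im = 0 := h.real.span (Submodule.subset_span hl) (h.hu k)

theorem im_lab_fb (h : Hyp I S L p) (hN : Cells I p R N) (B : UH H) {r : ℕ} (hr : r < R) {l : H}
    (hl : l ∈ L) (k : Fin p.n) : (⟪l, fb I p g N B r k⟫_ℂ).im = 0 :=
  im_add_right (im_add_right (im_coe_smul_right (im_lab_hv h hN hr hl) _)
    (im_coe_smul_right (im_lab_qb h B r hl) _)) (im_lab_u h hl k)

theorem W_snS {κ : Type*} [Fintype κ] {c : κ → ℝ} {f : κ → H} {d : H}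
    (hd : ∀ k, (⟪d, f k⟫_ℂ).im = 0) : Commute (I.W d) (snS I c f) :=
  Commute.sum_right _ _ _ fun k _ => (commute_W_sW (hd k)).smul_right _

theorem W_csS {κ : Type*} [Fintype κ] {c : κ → ℝ} {f : κ → H} {d : H}
    (hd : ∀ k, (⟪d, f k⟫_ℂ).im = 0) : Commute (I.W d) (csS I c f) :=
  Commute.sum_right _ _ _ fun k _ => (commute_W_cW (hd k)).smul_right _

theorem lab_snS (h : Hyp I S L p) (hN : Cells I p R N) (c : Fin p.n → ℝ) (B : UH H) {r : ℕ}
    (hr : r < R) {l : H} (hl : l ∈ L) (t : ℝ) :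
    Commute (I.W ((t : ℂ) • l)) (snS I c (fb I p g N B r)) :=
  W_snS fun k => im_coe_smul_left (im_lab_fb h hN B hr hl k) t

theorem im_lab_av (h : Hyp I S L p) (hN : Cells I p R N) {r : ℕ} (hr : r < R) {l : H}
    (hl : l ∈ L) : (⟪l, av I p g N r⟫_ℂ).im = 0 := by
  have h1 := im_lab_pV h (star_snS (I := I) (fun k => p.c k * p.a k * p.b k)
    (fb I p g N (Bs I p g N r) r)) (PC.snS _ _) (fun l hl t => lab_snS h hN _ _ hr hl t)
    (hN.m hr) (hN.subS h hr) hl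
  have h2 := im_coe_smul_right h1 (-p.t)
  have h3 : ((-p.t : ℝ) : ℂ) = -(p.t : ℂ) := by push_cast; rfl
  rw [h3] at h2
  exact h2

theorem im_av_u (h : Hyp I S L p) (hN : Cells I p R N) {r : ℕ} (hr : r < R) (k : Fin p.n) :
    (⟪av I p g N r, p.u k⟫_ℂ).im = 0 :=
  im_symm (im_span_left (fun _ hl => im_lab_av h hN hr hl) (h.hu k))

theorem im_av_hv (h : Hyp I S L p) (hN : Cells I p R N) {r s : ℕ} (hr : r < R) (hs : s < R) :
    (⟪av I p g N r, hv I p N s⟫_ℂ).im = 0 := by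
  have h1 := im_inner_pV (I := I) (hN.m hr) (hN.mAN h hs) h.PCU
    (PC.snS (I := I) (fun k => p.c k * p.a k * p.b k) (fb I p g N (Bs I p g N r) r)) PC.Z
    (star_snS _ _) star_Z (Z_snS _ _).symm
  have h2 := im_coe_smul_left h1 (-p.t)
  have h3 : ((-p.t : ℝ) : ℂ) = -(p.t : ℂ) := by push_cast; rfl
  rw [h3] at h2
  exact h2

theorem im_av_M (h : Hyp I S L p) (hN : Cells I p R N) {r : ℕ} (hr : r < R) {q : H}
    (hq : I.P p.M q = q) : (⟪av I p g N r, q⟫_ℂ).im = 0 :=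
  im_inner_of_disj (hN.m hr) h.mM (hN.dM h hr) (P_av hN hr) hq

theorem im_av_fb (h : Hyp I S L p) (hN : Cells I p R N) (B : UH H) {r s : ℕ} (hr : r < R)
    (hs : s < R) (k : Fin p.n) : (⟪av I p g N r, fb I p g N B s k⟫_ℂ).im = 0 :=
  im_add_right (im_add_right (im_coe_smul_right (im_av_hv h hN hr hs) _)
    (im_coe_smul_right (im_av_M h hN hr (P_qb h B s)) _)) (im_av_u h hN hr k)

theorem im_av_av (hN : Cells I p R N) {r s : ℕ} (hr : r < R) (hs : s < R) (hrs : r ≠ s) :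
    (⟪av I p g N r, av I p g N s⟫_ℂ).im = 0 :=
  im_inner_of_disj (hN.m hr) (hN.m hs) (hN.part.disj r hr s hs hrs) (P_av hN hr) (P_av hN hs)

/-! ### commutation of the partial target factors -/

/-- partial sums of the target kicks -/
def vs (I : ILSys Λ H) (p : Par Λ H) (g : ℝ) (N : ℕ → Set Λ) (F : Finset ℕ) : H :=
  ∑ r ∈ F, av I p g N r

theorem im_vs_fb (h : Hyp I S L p) (hN : Cells I p R N) (B : UH H) {F : Finset ℕ}
    (hF : ∀ r ∈ F, r < R) {s : ℕ} (hs : s < R) (k : Fin p.n) :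
    (⟪vs I p g N F, fb I p g N B s k⟫_ℂ).im = 0 :=
  im_sum_left fun r hr => im_av_fb h hN B (hF r hr) hs k

theorem im_vs_M (h : Hyp I S L p) (hN : Cells I p R N) {F : Finset ℕ}
    (hF : ∀ r ∈ F, r < R) {q : H} (hq : I.P p.M q = q) :
    (⟪vs I p g N F, q⟫_ℂ).im = 0 :=
  im_sum_left fun r hr => im_av_M h hN (hF r hr) hq

theorem im_av_vs (hN : Cells I p R N) {F : Finset ℕ} (hF : ∀ r ∈ F, r < R) {s : ℕ} (hs : s < R)
    (hsF : s ∉ F) : (⟪av I p g N s, vs I p g N F⟫_ℂ).im = 0 :=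
  im_symm (im_sum_left fun r hr => im_av_av hN (hF r hr) hs fun e => hsF (e ▸ hr))

theorem commute_blk {A : Set Λ} (hA : MeasurableSet A) {T : H →L[ℂ] H} (hT : PC I T)
    {b : H →L[ℂ] H} (hb : Commute b T) : Commute (I.blk A b) T :=
  (hT _ hA.compl).add_left ((hT _ hA).mul_left hb)

theorem commute_zW_snS {κ : Type*} [Fintype κ] {c : κ → ℝ} {f : κ → H} {d : H}
    (hd : ∀ k, (⟪d, f k⟫_ℂ).im = 0) : Commute (I.zW d) (snS I c f) :=
  commute_zW_of_W (W_snS hd) (W_snS fun k => im_neg_left (hd k)) (Z_snS _ _)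

theorem commute_zW_csS {κ : Type*} [Fintype κ] {c : κ → ℝ} {f : κ → H} {d : H}
    (hd : ∀ k, (⟪d, f k⟫_ℂ).im = 0) : Commute (I.zW d) (csS I c f) :=
  commute_zW_of_W (W_csS hd) (W_csS fun k => im_neg_left (hd k)) (Z_csS _ _)

theorem commute_eI {K T : H →L[ℂ] H} (hK : Commute K T) (t : ℝ) : Commute K (eI t T) :=
  (hK.smul_right _).exp_right

theorem commute_zW_zW {d f : H} (hd : (⟪d, f⟫_ℂ).im = 0) : Commute (I.zW d) (I.zW f) :=
  commute_zW_of_W (commute_W_zW hd) (commute_W_zW (im_neg_left hd)) (Z_zW f)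

theorem P_M_gdiff (h : Hyp I S L p) (g : ℝ) (B : UH H) (r : ℕ) :
    I.P p.M ((g : ℂ) • (yb I p B - y2b I p g N B r)) = (g : ℂ) • (yb I p B - y2b I p g N B r) := by
  rw [map_smul, map_sub, P_yb h, P_y2b h]

/-- target factors commute with node gates -/
theorem commute_blk_Ob (h : Hyp I S L p) (hN : Cells I p R N) {F : Finset ℕ}
    (hF : ∀ r ∈ F, r < R) {s : ℕ} (hs : s < R) :
    Commute (I.blk p.A (I.zW (vs I p g N F))) ((Ob I p g N s : UH H) : H →L[ℂ] H) := by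
  refine commute_blk h.mA (PC_Ob s) ?_
  exact (commute_zW_zW (im_vs_M h hN hF (P_M_gdiff h g _ s))).mul_right
    (commute_eI (commute_zW_csS fun k => im_vs_fb h hN _ hF hs k) _)

theorem Z_Ob (s : ℕ) : Commute I.Z ((Ob I p g N s : UH H) : H →L[ℂ] H) :=
  (Z_zW _).mul_right (commute_eI (Z_csS _ _) _)

end lemmas

end Crest.Agent.R339.Cell
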