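import Mathlib
import Crest.Agent.R339.Cell220E

/-!
# Structure of the state after `r` cells (R339, label induction, block G3)
-/

set_option autoImplicit false
set_option linter.unusedSectionVars false
set_option linter.unusedVariables false

noncomputable section

open scoped InnerProductSpace Topology ComplexConjugate
open Filter MeasureTheory

namespace Crest.Agent.R339.Cell

open Crest.Agent.R339.Li Crest.Agent.R339.Li.ILSys Crest.Agent.R339.MF Crest.Agent.R339.Cel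

variable {Λ H : Type*} [MeasurableSpace Λ] [NormedAddCommGroup H] [InnerProductSpace ℂ H]
  [CompleteSpace H] {I : ILSys Λ H} {S : Set Λ} {L : Set H} {cc : ℝ} {p : Par Λ H} {g : ℝ}
  {N : ℕ → Set Λ} {R : ℕ}

/-- the explicit form of the state after `r` cells -/
structure Str (I : ILSys Λ H) (p : Par Λ H) (g : ℝ) (N : ℕ → Set Λ) (R r : ℕ) (V : UH H) :
    Prop where
  pc : PC I (V : H →L[ℂ] H)
  sM : I.P p.M * (V : H →L[ℂ] H) = I.P p.M * (Bs I p g N r : H →L[ℂ] H)
  sN : ∀ s < R, I.P (N s) * (V : H →L[ℂ] H) = I.P (N s) *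
    ((if s < r then (Ob I p g N s : H →L[ℂ] H) else 1) *
      (I.blk p.A (I.zW (vs I p g N ((Finset.range r).erase s))) * (p.U : H →L[ℂ] H)))
  sC : I.P (p.M ∪ p.Mn)ᶜ * (V : H →L[ℂ] H) = I.P (p.M ∪ p.Mn)ᶜ *
    (I.blk p.A (I.zW (vs I p g N (Finset.range r))) * (p.U : H →L[ℂ] H))

theorem vs_empty : vs I p g N ∅ = 0 := by simp [vs]

theorem Str.init (h : Hyp I S L p) : Str I p g N R 0 p.U where
  pc := h.PCU
  sM := by
    rw [(h.PCU _ h.mM).eq, h.UM]
    show _ = I.P p.M * (1 : H →L[ℂ] H)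
    rw [mul_one]
  sN s hs := by
    simp only [not_lt_zero, if_false, Finset.range_zero, Finset.erase_empty, vs_empty, zW_zero,
      blk_one h.mA, one_mul]
  sC := by
    simp only [Finset.range_zero, vs_empty, zW_zero, blk_one h.mA, one_mul]

theorem Cells.mC (h : Hyp I S L p) : MeasurableSet (p.M ∪ p.Mn)ᶜ := (h.mM.union h.mMn).compl

theorem Cells.dC (h : Hyp I S L p) (hN : Cells I p R N) {r : ℕ} (hr : r < R) :
    Disjoint (p.M ∪ p.Mn)ᶜ (N r) := by
  rw [Set.disjoint_left]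
  intro x hx hxN
  exact hx (Or.inr (hN.part.sub hr hxN))

/-- the decomposition of the identity -/
theorem P_decomp (h : Hyp I S L p) (hN : Cells I p R N) :
    (1 : H →L[ℂ] H) = I.P p.M + ∑ s ∈ Finset.range R, I.P (N s) + I.P (p.M ∪ p.Mn)ᶜ := by
  rw [hN.part.sum_P I, ← I.P_union _ _ h.mM h.mMn h.dMn.symm, add_comm,
    P_compl_add (h.mM.union h.mMn)]

theorem PC_vs {F : Finset ℕ} (h : Hyp I S L p) : PC I (I.blk p.A (I.zW (vs I p g N F))) :=
  PC.blk h.mA (PC.zW _)

/-- eVec data agree on all classes disjoint from the bath -/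
theorem Str.eA_eq (h : Hyp I S L p) (hN : Cells I p R N) {r : ℕ} {V : UH H}
    (hV : Str I p g N R r V) (hr : r ≤ R) {X : Set Λ} (hX : MeasurableSet X)
    (hXM : Disjoint X p.M) : I.eA X V = I.eA X p.U := by
  have hvs : ∀ F : Finset ℕ, Commute ((I.cst h.mA (vs I p g N F) : UH H) : H →L[ℂ] H) I.Z :=
    fun F => commute_blk h.mA PC.Z (Z_zW _).symm
  -- on the cells
  have h1 : ∀ s < R, I.eA (N s) V = I.eA (N s) p.U := by
    intro s hs
    set G : UH H := (if s < r then Ob I p g N s else 1) *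
      I.cst h.mA (vs I p g N ((Finset.range r).erase s)) with hG
    have hGc : ((G * p.U : UH H) : H →L[ℂ] H) = (if s < r then (Ob I p g N s : H →L[ℂ] H) else 1) *
      (I.blk p.A (I.zW (vs I p g N ((Finset.range r).erase s))) * (p.U : H →L[ℂ] H)) := by
      rw [hG, mul_assoc, coe_mul, coe_mul, cst_coe]
      split_ifs <;> rfl
    have hGP : PC I ((G * p.U : UH H) : H →L[ℂ] H) := by
      rw [hGc]
      split_ifs
      · exact (PC_Ob s).mul ((PC_vs h).mul h.PCU)
      · exact PC.one.mul ((PC_vs h).mul h.PCU)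
    have e1 : pV I (N s) V I.Z = pV I (N s) (G * p.U) I.Z :=
      pV_congr (hN.m hs) hV.pc hGP PC.Z (by rw [hV.sN s hs, hGc])
    rw [eA_eq_pV, e1, pV_mul_of_comm]
    · rfl
    · rw [hG, coe_mul]
      refine Commute.mul_left ?_ (hvs _)
      split_ifs
      · exact (Z_Ob s).symm
      · exact Commute.one_left _
  have h2 : I.eA (p.M ∪ p.Mn)ᶜ V = I.eA (p.M ∪ p.Mn)ᶜ p.U := by
    have e1 : pV I (p.M ∪ p.Mn)ᶜ V I.Z = pV I (p.M ∪ p.Mn)ᶜ
        (I.cst h.mA (vs I p g N (Finset.range r)) * p.U) I.Z :=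
      pV_congr (Cells.mC h) hV.pc ((PC_vs h).mul h.PCU) PC.Z (by rw [hV.sC]; rfl)
    rw [eA_eq_pV, e1, pV_mul_of_comm (hvs _)]
    rfl
  have key : ∀ W : UH H, I.eA X W = ∑ s ∈ Finset.range R, I.P X (I.eA (N s) W) +
      I.P X (I.eA (p.M ∪ p.Mn)ᶜ W) := by
    intro W
    have e1 : I.eA X W = I.P X ((1 : H →L[ℂ] H) (I.eV W)) := rfl
    rw [e1, P_decomp h hN, add_apply, add_apply, map_add, map_add, sum_apply, map_sum]
    have e2 : I.P X (I.P p.M (I.eV W)) = 0 := by
      rw [← mul_apply_eq_comp, P_disj hX h.mM hXM]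
      rfl
    rw [e2, zero_add]
    rfl
  rw [key V, key p.U, h2]
  congr 1
  refine Finset.sum_congr rfl fun s hs => ?_
  rw [h1 s (Finset.mem_range.mp hs)]

theorem erase_self_range (r : ℕ) : (Finset.range r).erase r = Finset.range r :=
  Finset.erase_eq_of_notMem (by simp)

/-- class vectors of the current cell -/
theorem Str.pV_eq (h : Hyp I S L p) (hN : Cells I p R N) {r : ℕ} {V : UH H}
    (hV : Str I p g N R r V) (hr : r < R) (c : Fin p.n → ℝ) :
    pV I (N r) V (snS I c (fb I p g N (Bs I p g N r) r)) =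
      pV I (N r) p.U (snS I c (fb I p g N (Bs I p g N r) r)) := by
  have e0 := hV.sN r hr
  rw [if_neg (lt_irrefl r), one_mul, erase_self_range] at e0
  have e1 : pV I (N r) V (snS I c (fb I p g N (Bs I p g N r) r)) =
      pV I (N r) (I.cst h.mA (vs I p g N (Finset.range r)) * p.U)
        (snS I c (fb I p g N (Bs I p g N r) r)) :=
    pV_congr (hN.m hr) hV.pc ((PC_vs h).mul h.PCU) (PC.snS _ _) (by rw [e0]; rfl)
  rw [e1, pV_mul_of_comm]
  exact commute_blk h.mA (PC.snS _ _) (commute_zW_snS fun k => im_vs_fb h hN _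
    (fun s hs => (Finset.mem_range.mp hs).trans hr) hr k)

theorem Str.yb_eq (h : Hyp I S L p) {r : ℕ} {V : UH H} (hV : Str I p g N R r V) :
    yb I p (Bs I p g N r) = pV I p.M V I.Y :=
  (pV_congr h.mM hV.pc (PC_Bs r) PC.Y hV.sM).symm

theorem P_mul_of_PC {X : Set Λ} (hX : MeasurableSet X) {G V V' : H →L[ℂ] H} (hG : PC I G)
    (h : I.P X * V = I.P X * V') : I.P X * (G * V) = I.P X * (G * V') := by
  rw [← mul_assoc, (hG X hX).eq, mul_assoc, h, ← mul_assoc, ← (hG X hX).eq, mul_assoc]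

theorem Str.qb_eq (h : Hyp I S L p) {r : ℕ} {V : UH H} (hV : Str I p g N R r V) (s : ℕ) :
    qb I p g N (Bs I p g N r) s = I.eA p.M (yWU I ((g : ℂ) • zv I p N s) * V) := by
  rw [qb, eA_eq_pV, eA_eq_pV]
  refine (pV_congr h.mM (PC.mul (PC.yW _) hV.pc) (PC.mul (PC.yW _) (PC_Bs r)) PC.Z ?_).symm
  exact P_mul_of_PC h.mM (PC.yW _) hV.sM

theorem Str.y2b_eq (h : Hyp I S L p) {r : ℕ} {V : UH H} (hV : Str I p g N R r V) (s : ℕ) :
    y2b I p g N (Bs I p g N r) s = pV I p.M (zWU I (ζb I p g N (Bs I p g N r) s) *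
      (yWU I ((g : ℂ) • zv I p N s) * V)) I.Y := by
  rw [y2b]
  refine (pV_congr h.mM (PC.mul (PC.zW _) (PC.mul (PC.yW _) hV.pc))
    (PC.mul (PC.zW _) (PC.mul (PC.yW _) (PC_Bs r))) PC.Y ?_).symm
  exact P_mul_of_PC h.mM (PC.zW _) (P_mul_of_PC h.mM (PC.yW _) hV.sM)

/-- the state after the next cell -/
def nxt (I : ILSys Λ H) (p : Par Λ H) (g : ℝ) (N : ℕ → Set Λ) (r : ℕ) (hNr : MeasurableSet (N r))
    (hAr : MeasurableSet (p.A \ N r)) (hM : MeasurableSet p.M) (V : UH H) : UH H :=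
  nd I hNr (Ob I p g N r) (PC_Ob r) * (I.cst hAr (av I p g N r) *
    (nd I hM (Kb I p g N (Bs I p g N r) r) (PC_Kb _ _) * V))

theorem zW_mul_of_im' {f f' : H} (h : (⟪f, f'⟫_ℂ).im = 0) : I.zW f * I.zW f' = I.zW (f + f') := by
  rw [zW_mul, h]
  simp

/-- product of the target factors -/
theorem blk_zW_mul (h : Hyp I S L p) (hN : Cells I p R N) {F : Finset ℕ} (hF : ∀ r ∈ F, r < R)
    {s : ℕ} (hs : s < R) (hsF : s ∉ F) :
    I.blk p.A (I.zW (av I p g N s)) * I.blk p.A (I.zW (vs I p g N F)) =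
      I.blk p.A (I.zW (vs I p g N (insert s F))) := by
  rw [ILSys.blk_mul_blk h.mA (PC.zW _), zW_mul_of_im' (im_av_vs hN hF hs hsF), vs, vs,
    Finset.sum_insert hsF]

theorem P_blk_diff {X A N : Set Λ} (hX : MeasurableSet X) (hA : MeasurableSet A)
    (hN : MeasurableSet N) (hd : Disjoint X N) (b : H →L[ℂ] H) :
    I.P X * I.blk (A \ N) b = I.P X * I.blk A b := by
  have e1 : X ∩ (A \ N) = X ∩ A := by
    ext x
    constructor
    · rintro ⟨h1, h2, h3⟩
      exact ⟨h1, h2⟩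
    · rintro ⟨h1, h2⟩
      exact ⟨h1, h2, fun h3 => Set.disjoint_left.mp hd h1 h3⟩
  have e2 : X ∩ (A \ N)ᶜ = X ∩ Aᶜ := by
    ext x
    constructor
    · rintro ⟨h1, h2⟩
      exact ⟨h1, fun h3 => h2 ⟨h3, fun h4 => Set.disjoint_left.mp hd h1 h4⟩⟩
    · rintro ⟨h1, h2⟩
      exact ⟨h1, fun h3 => h2 h3.1⟩
  rw [ILSys.blk, ILSys.blk, mul_add, mul_add, ← mul_assoc, ← mul_assoc,
    ← I.P_inter X _ hX (hA.diff hN), ← I.P_inter X _ hX (hA.diff hN).compl,
    ← I.P_inter X _ hX hA, ← I.P_inter X _ hX hA.compl, e1, e2]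

theorem Str.step (h : Hyp I S L p) (hN : Cells I p R N) {r : ℕ} {V : UH H}
    (hV : Str I p g N R r V) (hr : r < R) :
    Str I p g N R (r + 1) (nxt I p g N r (hN.m hr) (hN.mAN h hr) h.mM V) := by
  have mN := hN.m hr
  have mA := hN.mAN h hr
  have mM := h.mM
  have hc : ((nxt I p g N r mN mA mM V : UH H) : H →L[ℂ] H) =
      I.blk (N r) (Ob I p g N r : H →L[ℂ] H) * (I.blk (p.A \ N r) (I.zW (av I p g N r)) *
        (I.blk p.M (Kb I p g N (Bs I p g N r) r : H →L[ℂ] H) * (V : H →L[ℂ] H))) := rfl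
  have PC1 : PC I (I.blk (N r) (Ob I p g N r : H →L[ℂ] H)) := PC.blk mN (PC_Ob r)
  have PC2 : PC I (I.blk (p.A \ N r) (I.zW (av I p g N r))) := PC.blk mA (PC.zW _)
  have PC2' : PC I (I.blk p.A (I.zW (av I p g N r))) := PC.blk h.mA (PC.zW _)
  have PC3 : PC I (I.blk p.M (Kb I p g N (Bs I p g N r) r : H →L[ℂ] H)) := PC.blk mM (PC_Kb _ _)
  -- away from the cell `r` and the bath
  have away : ∀ {X : Set Λ}, MeasurableSet X → Disjoint X (N r) → Disjoint X p.M →
      I.P X * ((nxt I p g N r mN mA mM V : UH H) : H →L[ℂ] H) =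
        I.P X * (I.blk p.A (I.zW (av I p g N r)) * (V : H →L[ℂ] H)) := by
    intro X hX hd1 hd2
    have e2 : I.P X * (I.blk p.M (Kb I p g N (Bs I p g N r) r : H →L[ℂ] H) * (V : H →L[ℂ] H)) =
        I.P X * (V : H →L[ℂ] H) := by
      rw [← mul_assoc, P_blk_disj mM hX hd2]
    have e3 : I.P X * (I.blk (p.A \ N r) (I.zW (av I p g N r)) *
        (I.blk p.M (Kb I p g N (Bs I p g N r) r : H →L[ℂ] H) * (V : H →L[ℂ] H))) =
        I.P X * (I.blk p.A (I.zW (av I p g N r)) * (V : H →L[ℂ] H)) := by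
      rw [P_mul_of_PC hX PC2 e2, ← mul_assoc, P_blk_diff hX h.mA mN hd1, mul_assoc]
    rw [hc, ← mul_assoc, P_blk_disj mN hX hd1, e3]
  refine ⟨PC.mul PC1 (PC.mul PC2 (PC.mul PC3 hV.pc)), ?_, ?_, ?_⟩
  · -- bath
    have e2 : I.P p.M * (I.blk p.M (Kb I p g N (Bs I p g N r) r : H →L[ℂ] H) * (V : H →L[ℂ] H)) =
        I.P p.M * ((Bs I p g N (r + 1) : UH H) : H →L[ℂ] H) := by
      rw [← mul_assoc, P_blk mM mM subset_rfl, mul_assoc]
      exact P_mul_of_PC mM (PC_Kb _ _) hV.sM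
    have e3 : I.P p.M * (I.blk (p.A \ N r) (I.zW (av I p g N r)) *
        (I.blk p.M (Kb I p g N (Bs I p g N r) r : H →L[ℂ] H) * (V : H →L[ℂ] H))) =
        I.P p.M * ((Bs I p g N (r + 1) : UH H) : H →L[ℂ] H) := by
      rw [← mul_assoc, P_blk_disj mA mM (Cells.dAM h).symm, e2]
    rw [hc, ← mul_assoc, P_blk_disj mN mM (hN.dM h hr).symm, e3]
  · -- cells
    intro s hs
    rcases eq_or_ne s r with rfl | hsr
    · have e2 : I.P (N s) * (I.blk p.M (Kb I p g N (Bs I p g N s) s : H →L[ℂ] H) *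
          (V : H →L[ℂ] H)) = I.P (N s) * (V : H →L[ℂ] H) := by
        rw [← mul_assoc, P_blk_disj mM mN (hN.dM h hr)]
      have e3 : I.P (N s) * (I.blk (p.A \ N s) (I.zW (av I p g N s)) *
          (I.blk p.M (Kb I p g N (Bs I p g N s) s : H →L[ℂ] H) * (V : H →L[ℂ] H))) =
          I.P (N s) * (V : H →L[ℂ] H) := by
        rw [← mul_assoc, P_blk_disj mA mN (Set.disjoint_left.mpr fun x hx hx' => hx'.2 hx), e2]
      have e4 := hV.sN s hs
      rw [if_neg (lt_irrefl s), one_mul, erase_self_range] at e4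
      have e5 : (Finset.range (s + 1)).erase s = Finset.range s := by
        rw [Finset.range_add_one, Finset.erase_insert (by simp)]
      rw [hc, ← mul_assoc, P_blk mN mN subset_rfl, mul_assoc, if_pos (Nat.lt_succ_self s), e5]
      exact P_mul_of_PC mN (PC_Ob s) (e3.trans e4)
    · have hd : Disjoint (N s) (N r) := hN.part.disj s hs r hr hsr
      rw [away (hN.m hs) hd (hN.dM h hs)]
      have e4 := P_mul_of_PC (hN.m hs) PC2' (hV.sN s hs)
      rw [e4]
      have hF : ∀ r' ∈ (Finset.range r).erase s, r' < R := fun r' hr' =>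
        (Finset.mem_range.mp (Finset.mem_of_mem_erase hr')).trans hr
      have hrF : r ∉ (Finset.range r).erase s := by simp
      have e5 : (Finset.range (r + 1)).erase s = insert r ((Finset.range r).erase s) := by
        rw [Finset.range_add_one, Finset.erase_insert_of_ne (Ne.symm hsr)]
      have e6 : I.blk p.A (I.zW (av I p g N r)) *
          (I.blk p.A (I.zW (vs I p g N ((Finset.range r).erase s))) * (p.U : H →L[ℂ] H)) =
          I.blk p.A (I.zW (vs I p g N ((Finset.range (r + 1)).erase s))) * (p.U : H →L[ℂ] H) := by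
        rw [← mul_assoc, blk_zW_mul h hN hF hr hrF, e5]
      by_cases hsr' : s < r
      · rw [if_pos hsr', if_pos (hsr'.trans (Nat.lt_succ_self r))]
        have e7 : Commute (I.blk p.A (I.zW (av I p g N r))) ((Ob I p g N s : UH H) : H →L[ℂ] H) := by
          have := commute_blk_Ob (g := g) h hN (F := {r}) (fun r' hr' => by
            rw [Finset.mem_singleton] at hr'; rw [hr']; exact hr) hs
          simpa [vs] using this
        rw [← mul_assoc (I.blk p.A (I.zW (av I p g N r))), e7.eq, mul_assoc, e6]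
      · rw [if_neg hsr', if_neg (by omega), one_mul, one_mul, e6]
  · -- the rest
    have hX : MeasurableSet (p.M ∪ p.Mn)ᶜ := Cells.mC h
    rw [away hX (hN.dC h hr) (Set.disjoint_left.mpr fun x hx hx' => hx (Or.inl hx')),
      P_mul_of_PC hX PC2' hV.sC, ← mul_assoc (I.blk p.A (I.zW (av I p g N r))),
      blk_zW_mul h hN (fun r' hr' => (Finset.mem_range.mp hr').trans hr) hr (by simp),
      Finset.range_add_one]

/-- one cell, on the level of `Good` -/
theorem Str.good_step (hmft : Mft I S L cc) (h : Hyp I S L p) (hN : Cells I p R N) {r : ℕ}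
    {V : UH H} (hV : Str I p g N R r V) (hr : r < R) (hg : g ≠ 0)
    (hJ : Jb I p g N (Bs I p g N r) r ≠ 0) (hG : I.Good S L cc V) :
    I.Good S L cc (nxt I p g N r (hN.m hr) (hN.mAN h hr) h.mM V) := by
  have hz : zv I p N r = I.eA (N r) V := (hV.eA_eq h hN hr.le (hN.m hr) (hN.dM h hr)).symm
  have hh : hv I p N r = I.eA (p.A \ N r) V :=
    (hV.eA_eq h hN hr.le (hN.mAN h hr) (Cells.dAM h)).symm
  have hτ : 4 * g * τb I p g N (Bs I p g N r) r *
      (⟪yb I p (Bs I p g N r), qb I p g N (Bs I p g N r) r⟫_ℂ).im = Real.pi := by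
    have : (⟪yb I p (Bs I p g N r), qb I p g N (Bs I p g N r) r⟫_ℂ).im =
      Jb I p g N (Bs I p g N r) r := rfl
    rw [this, τb]
    field_simp
  have key := Cel.cell (I := I) hmft (hN.cl r hr) (hN.clAN h hr) h.clM (hN.subS h hr)
    (Set.sdiff_subset.trans h.subA) h.subM (Set.disjoint_left.mpr fun x hx hx' => hx'.2 hx)
    (hN.dM h hr) (Cells.dAM h) hV.pc h.real h.bath
    (fun l hl => by rw [← hh]; exact im_lab_hv h hN hr hl) g p.t
    (τb I p g N (Bs I p g N r) r) p.c p.a p.b h.hb p.u (fb I p g N (Bs I p g N r) r) h.hu hz hh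
    (hV.yb_eq h) (hV.qb_eq h r) hτ (fun k => rfl)
    (ζ := ζb I p g N (Bs I p g N r) r) (by rw [ζb, hV.pV_eq h hN hr]) (hV.y2b_eq h r)
    (Ob I p g N r) (PC_Ob r) rfl (Kb I p g N (Bs I p g N r) r) (PC_Kb _ _) rfl hG
  rw [hV.pV_eq h hN hr] at key
  exact key

/-- all cells -/
theorem exists_state (hmft : Mft I S L cc) (h : Hyp I S L p) (hN : Cells I p R N) (hg : g ≠ 0)
    (hJ : ∀ r < R, Jb I p g N (Bs I p g N r) r ≠ 0) (hG : I.Good S L cc p.U) :
    ∀ r ≤ R, ∃ V : UH H, Str I p g N R r V ∧ I.Good S L cc V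
  | 0, _ => ⟨p.U, Str.init h, hG⟩
  | r + 1, hr => by
    obtain ⟨V, hV, hGV⟩ := exists_state hmft h hN hg hJ hG r (Nat.le_of_succ_le hr)
    exact ⟨_, hV.step h hN (Nat.lt_of_succ_le hr),
      hV.good_step hmft h hN (Nat.lt_of_succ_le hr) hg (hJ r (Nat.lt_of_succ_le hr)) hGV⟩

end Crest.Agent.R339.Cell
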