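import Crest.Agent.R339.Gad233D
import Crest.Agent.R339.Cell220F

/-!
# R339: adapter from 220's cell limit to `CellsStmt` (helper233)
-/

set_option autoImplicit false
set_option linter.unusedSectionVars false

noncomputable section

open scoped ComplexConjugate InnerProductSpace Topology
open Filter MeasureTheory NormedSpace

namespace Crest.Agent.R339.Gad

open Crest.Agent.R339.Li Crest.Agent.R339.Li.ILSys Crest.Agent.R339.MF

variable {Λ H : Type*} [MeasurableSpace Λ] [NormedAddCommGroup H] [InnerProductSpace ℂ H]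
  [CompleteSpace H] {I : ILSys Λ H}

/-- the limit theorem over the cells, in the names of `Cell220E` -/
def LimStmt (I : ILSys Λ H) (cc : ℝ) : Prop :=
  ∀ (S : Set Λ) (L : Set H) (p : Cell.Par Λ H), Cell.Hyp I S L p → I.Good S L cc p.U →
    ∀ V : UH H, (V : H →L[ℂ] H) = I.blk p.Mn (Cel.eI (-p.t) (Cel.csS I (fun k => p.c k * p.b k)
        (fun k => (p.a k : ℂ) • I.eA p.A p.U + p.u k))) *
      (I.blk p.A (I.zW ((-(p.t : ℂ)) • Cel.pV I p.Mn p.U (Cel.snS I
        (fun k => p.c k * p.a k * p.b k) (fun k => (p.a k : ℂ) • I.eA p.A p.U + p.u k)))) * p.U) →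
    I.Good S L cc V

theorem cellsStmt_of_lim {cc : ℝ} (h : LimStmt I cc) : CellsStmt I cc := by
  intro S Mn M A L hA hlab hMn hMnS hM hMS hdis hpos hAS hAM U hU hUM hUW n c a b u hb hu hvan t V
    hV hG
  refine h S L ⟨M, A, Mn, t, n, c, a, b, u, U⟩ ?_ hG V hV
  exact {
    clM := hM
    clA := hA
    clMn := hMn
    subM := hMS
    subA := hAS
    subMn := hMnS
    dMn := hdis.symm
    dA := hAM
    pos := hpos
    real := hlab.real
    bath := fun l hl => hlab.bath l hl M (I.Cl_meas M hM) hMS hdis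
    re := hlab.re
    hb := hb
    hu := hu
    van := hvan
    PCU := hU.P
    labU := hU.W
    UM := hUM
    UW := hUW }

theorem gadget_of_lim {cc : ℝ} (h : LimStmt I cc) : Gadget I cc :=
  gadget_of_cells (cellsStmt_of_lim h)

end Crest.Agent.R339.Gad
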