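import Crest.Agent.R339.C2Fin716
import Crest.Agent.R339.Gad233E

/-!
# Row 339, part (C2): last file of the glue
-/

set_option autoImplicit false

noncomputable section

namespace Crest.Agent.R339.C2

open Crest.Agent.R339.Site Crest.Agent.R339.Lab Crest.Agent.R339.LF
open Crest.Agent.R339.Li Crest.Agent.R339.MF

/-- the gadget from the cell theorem -/
theorem gadStmt (h : ∀ (io : SL Kst ≃ₗᵢ[ℂ] Kst) (c : ℝ), Gad.LimStmt (IL io) c) : GadStmt :=
  fun io c => Gad.gadget_of_lim (h io c)

/-- **(C2)** from the cell theorem and the antenna -/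
theorem qbound_of_cells (h : ∀ (io : SL Kst ≃ₗᵢ[ℂ] Kst) (c : ℝ), Gad.LimStmt (IL io) c)
    (hA : AntStmt) : Asm.QBound :=
  qbound hA (levelStmt (gadStmt h))

end Crest.Agent.R339.C2
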