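import Crest.Agent.R339.Li728E

/-!
# R339, block LI: `D`-invariance of `Good`, the level step (helper728)
-/

set_option autoImplicit false
set_option linter.unusedSectionVars false
set_option linter.style.haveILetI false
set_option linter.unusedVariables false
set_option linter.unusedSimpArgs false

noncomputable section

open scoped ComplexConjugate InnerProductSpace Topology
open Filter MeasureTheory

namespace Crest.Agent.R339.Li

open Crest.Agent.R339.MF

variable {Λ H : Type*} [MeasurableSpace Λ] [NormedAddCommGroup H] [InnerProductSpace ℂ H]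
  [CompleteSpace H]

namespace ILSys

variable {I : ILSys Λ H} {S M Mn : Set Λ} {L : Set H} {c : ℝ}
variable {n : ℕ} {a : Fin n → ℝ} {u : Fin n → H}

lemma Z_cst {A : Set Λ} (hA : MeasurableSet A) (f : H) :
    Commute I.Z (I.cst hA f : H →L[ℂ] H) :=
  ((P_Z hA.compl).symm).add_right (((P_Z hA).symm).mul_right
    ((((show Commute I.Z I.Ep by
        rw [Z_eq]; show _ = _; rw [sub_mul, mul_sub, Ep_Em, Em_Ep])).mul_right (Z_W _)).add_right
      (((show Commute I.Z I.Em by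
        rw [Z_eq]; show _ = _; rw [sub_mul, mul_sub, Ep_Em, Em_Ep])).mul_right (Z_W _))))

lemma cst_fT (hL : RealSet L) (hu : ∀ k, u k ∈ Submodule.span ℝ L) {A : Set Λ}
    (hA : MeasurableSet A) {f : H} (hf : ∀ l ∈ L, (⟪f, l⟫_ℂ).im = 0) :
    Commute (I.cst hA f : H →L[ℂ] H) (I.fT a u) := by
  have hfm : ∀ l ∈ L, (⟪-f, l⟫_ℂ).im = 0 := fun l hl => by
    rw [inner_neg_left, Complex.neg_im, hf l hl, neg_zero]
  exact (P_fT hA.compl).add_left ((P_fT hA).mul_left
    (((show Commute I.Ep (I.fT a u) from sg_fT _).mul_left (W_fT hL hu hf)).add_left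
      ((show Commute I.Em (I.fT a u) from sg_fT _).mul_left (W_fT hL hu hfm))))

/-- moving `D` through a gate, as unitaries: a label-controlled rotation `R` appears -/
lemma DProp.move {D : UH H} (hL : RealSet L) (hu : ∀ k, u k ∈ Submodule.span ℝ L)
    (hMn : I.Cl Mn) (hD : DProp I Mn L (I.fT a u) D) {A : Set Λ} (hA : I.Cl A) (hAS : A ⊆ S)
    {f : H} (hf : ∀ l ∈ L, (⟪f, l⟫_ℂ).im = 0) :
    ∃ R : UH H, (R : H →L[ℂ] H) ∈ I.GP S L c ∧ Commute I.Z (R : H →L[ℂ] H) ∧
      (∀ B (hB : MeasurableSet B), ∀ g : H, (∀ l ∈ L, (⟪g, l⟫_ℂ).im = 0) →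
        Commute (I.cst hB g : H →L[ℂ] H) (R : H →L[ℂ] H)) ∧
      (∀ V : UH H, D * (I.cst (I.Cl_meas A hA) f * V) =
        I.cst (I.Cl_meas A hA) f * (R * (D * V))) := by
  have hm := I.Cl_meas _ hMn
  obtain ⟨s, hs⟩ := hD.cj_cst hm (I.Cl_meas A hA) hf
  have hB : I.Cl (A ∩ Mn) := I.Cl_inter _ _ hA hMn
  have hBm := I.Cl_meas _ hB
  have hg := cr_mem_GP (a := a) (c := c) hL hB (Set.inter_subset_left.trans hAS) hu (-s)
  obtain ⟨hR, hG⟩ := hg
  refine ⟨⟨I.cr (A ∩ Mn) (I.fT a u) (-s), hR⟩, ⟨hR, hG⟩, ?_, ?_, ?_⟩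
  · exact commute_cr (P_Z hBm).symm (Commute.refl _) Z_fT
  · intro B hB' g hg
    exact commute_cr (PC_cst hB' g _ hBm).symm (Z_cst hB' g).symm (cst_fT hL hu hB' hg)
  · intro V
    have h1 : Commute (D : H →L[ℂ] H) (I.cr (A ∩ Mn) (I.fT a u) (-s)) :=
      commute_cr (hD.P _ hBm).symm (hD.sg _).symm hD.comm.symm
    have h2 : (D : H →L[ℂ] H) * I.cst (I.Cl_meas A hA) f =
        I.cst (I.Cl_meas A hA) f * (I.cr (A ∩ Mn) (I.fT a u) (-s) * D) := by
      have h3 : (I.cst (I.Cl_meas A hA) f : H →L[ℂ] H) * D =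
          D * (I.cst (I.Cl_meas A hA) f * I.cr (A ∩ Mn) (I.fT a u) s) := by
        rw [← hs]
        simp only [← mul_assoc]
        rw [U_mul_star_self, one_mul]
      calc (D : H →L[ℂ] H) * I.cst (I.Cl_meas A hA) f
          = D * (I.cst (I.Cl_meas A hA) f * I.cr (A ∩ Mn) (I.fT a u) s) *
              I.cr (A ∩ Mn) (I.fT a u) (-s) := by
            simp only [mul_assoc]
            rw [cr_mul_neg, mul_one]
        _ = I.cst (I.Cl_meas A hA) f * (D * I.cr (A ∩ Mn) (I.fT a u) (-s)) := by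
            rw [← h3, mul_assoc]
        _ = _ := by rw [h1.eq]
    apply Subtype.ext
    show (D : H →L[ℂ] H) * ((I.cst (I.Cl_meas A hA) f : H →L[ℂ] H) * (V : H →L[ℂ] H)) =
      (I.cst (I.Cl_meas A hA) f : H →L[ℂ] H) * (I.cr (A ∩ Mn) (I.fT a u) (-s) *
        ((D : H →L[ℂ] H) * (V : H →L[ℂ] H)))
    rw [← mul_assoc, h2]
    simp only [mul_assoc]

/-- one step behind `D` -/
lemma DProp.step {D : UH H} (hlab : Lab I S Mn L) (hu : ∀ k, u k ∈ Submodule.span ℝ L)
    (hMn : I.Cl Mn) (hD : DProp I Mn L (I.fT a u) D) {V V' : UH H} (hV : Dom I L V)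
    (hs : I.Step S L V V') (h : I.Good S L c (D * V)) : I.Good S L c (D * V') := by
  cases hs with
  | rot hA hS β V =>
    have e : D * (I.rot (I.Cl_meas _ hA) β * V) = I.rot (I.Cl_meas _ hA) β * (D * V) := by
      rw [← mul_assoc, ← mul_assoc]
      congr 1
      apply Subtype.ext
      have hm := I.Cl_meas _ hA
      exact (((hD.P _ hm.compl).symm).add_right (((hD.P _ hm).symm).mul_right
        (((Commute.one_right _).smul_right _).sub_right ((hD.sg _).symm.smul_right _)))).eq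
    rw [e]
    exact h.rot hA hS β
  | lab hA hS hl a V =>
    obtain ⟨R, hR, -, -, hmv⟩ := hD.move (S := S) (c := c) hlab.real hu hMn hA hS
      (f := (a : ℂ) • _) (fun l' hl' => im_smul_left (hlab.real _ hl _ hl'))
    rw [hmv]
    exact (GP.good hR h).lab hA hS hl a
  | cpl hA hB hAS hBS hd g V =>
    have h1 := fun l hl => im_smul_left (t := g) (hV.im_eA hlab (I.Cl_meas _ hB) hBS (l := l) hl)
    have h2 := fun l hl => im_smul_left (t := g) (hV.im_eA hlab (I.Cl_meas _ hA) hAS (l := l) hl)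
    obtain ⟨R1, hR1, hZ1, hc1, hm1⟩ := hD.move (S := S) (c := c) hlab.real hu hMn hA hAS h1
    obtain ⟨R2, hR2, hZ2, hc2, hm2⟩ := hD.move (S := S) (c := c) hlab.real hu hMn hB hBS h2
    have hg : I.Good S L c (R1 * (R2 * (D * V))) := GP.good hR1 (GP.good hR2 h)
    have h3 := hg.cpl hA hB hAS hBS hd g
    have e : I.cpl (I.Cl_meas _ hA) (I.Cl_meas _ hB) g (R1 * (R2 * (D * V))) =
        D * I.cpl (I.Cl_meas _ hA) (I.Cl_meas _ hB) g V := by
      have hDZ : Commute I.Z (D : H →L[ℂ] H) := hD.sg _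
      rw [ILSys.cpl, ILSys.cpl, eA_of_Z hZ1, eA_of_Z hZ2, eA_of_Z hDZ, eA_of_Z hZ1, eA_of_Z hZ2,
        eA_of_Z hDZ, hm1, hm2]
      congr 1
      have hcc : I.cst (I.Cl_meas _ hB) ((g : ℂ) • I.eA _ V) * R1 =
          R1 * I.cst (I.Cl_meas _ hB) ((g : ℂ) • I.eA _ V) :=
        Subtype.ext (hc1 _ (I.Cl_meas _ hB) _ h2).eq
      rw [← mul_assoc, hcc, mul_assoc]
    rwa [e] at h3

/-- **`D`-invariance**: `Good (D * V) → Good V` on the domain -/
theorem DProp.good {D : UH H} (hlab : Lab I S Mn L) (hu : ∀ k, u k ∈ Submodule.span ℝ L)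
    (hMn : I.Cl Mn) (hD : DProp I Mn L (I.fT a u) D) {V : UH H} (hV : Dom I L V)
    (h : I.Good S L c (D * V)) : I.Good S L c V := by
  have key : ∀ V', Relation.ReflTransGen (I.Step S L) V V' →
      Dom I L V' ∧ I.Good S L c (D * V') := by
    intro V' hV'
    induction hV' with
    | refl => exact ⟨hV, h⟩
    | tail _ hst ih => exact ⟨ih.1.step hlab hst, hD.step hlab hu hMn ih.1 hst ih.2⟩
  intro V' hV'
  have h1 := (key V' hV').2.energy_le
  rwa [energy, eV_of_Z (hD.sg _)] at h1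

/-! ### The gadget as a hypothesis, the level step -/

/-- the gadget theorem -/
def Gadget (I : ILSys Λ H) (c : ℝ) : Prop :=
  ∀ (S Mn M A : Set Λ) (L : Set H) (hA : I.Cl A), Lab I S Mn L → I.Cl Mn → Mn ⊆ S → I.Cl M →
    M ⊆ S → Disjoint M Mn → 0 < I.μ.real M → A ⊆ S → Disjoint A M →
    ∀ U : UH H, Dom I L U → (U : H →L[ℂ] H) * I.P M = I.P M →
      (∀ f, I.P M f = f → Commute (I.W f) (U : H →L[ℂ] H)) →
      ∀ (n : ℕ) (a : Fin n → ℝ) (u : Fin n → H), (∀ k, u k ∈ Submodule.span ℝ L) → ∀ κ : ℝ,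
        ∃ D : UH H, DProp I Mn L (I.fT a u) D ∧
          (I.Good S L c U → I.Good S L c
            (D * (I.cst (I.Cl_meas A hA) ((κ : ℂ) • I.P Mn (I.fT a u I.Om)) * U)))

/-- the domain of the level step: trivial on the bath `M` -/
structure DomM (I : ILSys Λ H) (L : Set H) (M : Set Λ) (U : UH H) : Prop where
  dom : Dom I L U
  triv : (U : H →L[ℂ] H) * I.P M = I.P M
  comm : ∀ f, I.P M f = f → Commute (I.W f) (U : H →L[ℂ] H)

lemma DomM.one : DomM I L M 1 := ⟨Dom.one, one_mul _, fun _ _ => Commute.one_right _⟩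

lemma im_bath (hM : MeasurableSet M) {f g : H} (hf : I.P M f = f) (hg : I.P M g = 0) :
    (⟪f, g⟫_ℂ).im = 0 := by
  rw [← hf, inner_P hM, hg, inner_zero_right]
  rfl

lemma blk_P_disj {A : Set Λ} (hA : MeasurableSet A) (hM : MeasurableSet M) (hd : Disjoint A M)
    {X : H →L[ℂ] H} (hX : PC I X) : I.blk A X * I.P M = I.P M := by
  have h1 : I.P Aᶜ * I.P M = I.P M := by
    rw [← I.P_inter _ _ hA.compl hM, Set.inter_eq_self_of_subset_right]
    exact hd.symm.subset_compl_right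
  rw [blk, add_mul, h1, mul_assoc, ← (hX _ hM).eq, ← mul_assoc, P_disj hA hM hd, zero_mul,
    add_zero]

lemma DomM.cst {U : UH H} (hU : DomM I L M U) (hM : MeasurableSet M) {A : Set Λ}
    (hA : MeasurableSet A) (hd : Disjoint A M) {f : H} (hf : ∀ l ∈ L, (⟪f, l⟫_ℂ).im = 0)
    (hfM : I.P M f = 0) : DomM I L M (I.cst hA f * U) where
  dom := hU.dom.cst hA hf
  triv := by
    show (I.blk A (I.zW f) * (U : H →L[ℂ] H)) * I.P M = _
    rw [mul_assoc, hU.triv, blk_P_disj hA hM hd (PC.zW f)]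
  comm := fun g hg => (W_cst hA (im_bath hM hg hfM)).mul_right (hU.comm g hg)

lemma DomM.rot {U : UH H} (hU : DomM I L M U) (hM : MeasurableSet M) {A : Set Λ}
    (hA : MeasurableSet A) (hd : Disjoint A M) (β : ℝ) : DomM I L M (I.rot hA β * U) where
  dom := hU.dom.rot hA β
  triv := by
    show (I.blk A (I.mx β) * (U : H →L[ℂ] H)) * I.P M = _
    rw [mul_assoc, hU.triv, blk_P_disj hA hM hd (fun B hB => P_mx hB β)]
  comm := fun g hg => (W_rot hA g β).mul_right (hU.comm g hg)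

lemma P_eA {B : Set Λ} (hB : MeasurableSet B) (hM : MeasurableSet M) (hd : Disjoint B M)
    (U : UH H) (g : ℝ) : I.P M ((g : ℂ) • I.eA B U) = 0 := by
  rw [map_smul, eA, ← mul_apply_eq_comp (I.P M), P_disj hM hB hd.symm]
  simp

lemma DomM.cpl (hlab : Lab I S Mn L) {U : UH H} (hU : DomM I L M U) (hM : MeasurableSet M)
    {A B : Set Λ} (hA : MeasurableSet A) (hB : MeasurableSet B) (hAS : A ⊆ S) (hBS : B ⊆ S)
    (hdA : Disjoint A M) (hdB : Disjoint B M) (g : ℝ) : DomM I L M (I.cpl hA hB g U) :=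
  (hU.cst hM hB hdB (fun _ hl => im_smul_left (hU.dom.im_eA hlab hA hAS hl))
    (P_eA hA hM hdA U g)).cst hM hA hdA
    (fun _ hl => im_smul_left (hU.dom.im_eA hlab hB hBS hl)) (P_eA hB hM hdB U g)

/-- **The level step.** -/
theorem level (hgad : Gadget I c) (hlab : Lab I S Mn L) (hM : I.Cl M) (hMS : M ⊆ S)
    (hMn : I.Cl Mn) (hMnS : Mn ⊆ S) (hd : Disjoint M Mn) (hpos : 0 < I.μ.real M)
    (hu : ∀ k, u k ∈ Submodule.span ℝ L) (b : ℝ) (h : I.Good S L c 1) :
    I.Good (S \ M) (insert ((b : ℂ) • I.P Mn (I.fT a u I.Om)) L) c 1 := by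
  have hMm := I.Cl_meas _ hM
  have hMnm := I.Cl_meas _ hMn
  have hlab' := hlab.insert hMnm hMnS hu b (a := a)
  set l' := (b : ℂ) • I.P Mn (I.fT a u I.Om) with hl'
  have hdis : ∀ {A : Set Λ}, A ⊆ S \ M → Disjoint A M := fun hA =>
    Set.disjoint_of_subset_left hA Set.disjoint_sdiff_left
  have hsub : ∀ {A : Set Λ}, A ⊆ S \ M → A ⊆ S := fun hA => hA.trans Set.sdiff_subset
  have hbl : ∀ l ∈ L, I.P M l = 0 := fun l hl => hlab.bath l hl M hMm hMS hd
  have hbl' : I.P M l' = 0 := by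
    rw [hl', map_smul, ← mul_apply_eq_comp (I.P M), P_disj hMm hMnm hd]
    simp
  have key : ∀ V, Relation.ReflTransGen (I.Step (S \ M) (insert l' L)) 1 V →
      DomM I L M V ∧ I.Good S L c V := by
    intro V hV
    induction hV with
    | refl => exact ⟨DomM.one, h⟩
    | @tail V0 V1 _ hst ih =>
      obtain ⟨hD, hG⟩ := ih
      cases hst with
      | rot hA hS β V =>
        exact ⟨hD.rot hMm _ (hdis hS) β, hG.rot hA (hsub hS) β⟩
      | cpl hA hB hAS hBS hd' g V =>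
        exact ⟨hD.cpl hlab hMm _ _ (hsub hAS) (hsub hBS) (hdis hAS) (hdis hBS) g,
          hG.cpl hA hB (hsub hAS) (hsub hBS) hd' g⟩
      | @lab A hA hS l hl t V =>
        rcases Set.mem_insert_iff.mp hl with hll | hl1
        · -- the new label
          rw [hll]
          have hreal : ∀ x ∈ L, (⟪((t : ℂ) • l'), x⟫_ℂ).im = 0 := fun x hx =>
            im_smul_left (hlab'.real _ (Set.mem_insert _ _) _ (Set.mem_insert_of_mem _ hx))
          have hDM : DomM I L M (I.cst (I.Cl_meas _ hA) ((t : ℂ) • l') * V0) :=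
            hD.cst hMm _ (hdis hS) hreal (by rw [map_smul, hbl', smul_zero])
          refine ⟨hDM, ?_⟩
          obtain ⟨D, hDp, hDg⟩ := hgad S Mn M A L hA hlab hMn hMnS hM hMS hd hpos (hsub hS)
            (hdis hS) V0 hD.dom hD.triv hD.comm n a u hu (t * b)
          have h1 := hDg hG
          have e : (((t * b : ℝ) : ℂ) • I.P Mn (I.fT a u I.Om)) = (t : ℂ) • l' := by
            rw [hl', smul_smul]; push_cast; rfl
          rw [e] at h1
          exact hDp.good hlab hu hMn hDM.dom h1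
        · exact ⟨hD.cst hMm _ (hdis hS) (fun x hx => im_smul_left (hlab.real _ hl1 _ hx))
            (by rw [map_smul, hbl _ hl1, smul_zero]), hG.lab hA (hsub hS) hl1 t⟩
  intro V hV
  exact (key V hV).2.energy_le

end ILSys

end Crest.Agent.R339.Li
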