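import Crest.Agent.R339.LvI716
import Crest.Agent.R339.Li728L

/-!
# Row 339, part (C), block LI: the level step of helper728 is an instance of `LevelStep`
-/

set_option autoImplicit false

noncomputable section

open scoped ComplexConjugate InnerProductSpace Topology
open Filter MeasureTheory
open Crest.Agent.R339.Li

namespace Crest.Agent.R339.LvI

open Crest.Agent.R339.Trig (TrigScheme)

variable {Λ H : Type*} [MeasurableSpace Λ] [NormedAddCommGroup H] [InnerProductSpace ℂ H]
  [CompleteSpace H]

/-- the gadget gives the level step -/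
theorem levelStep {I : ILSys Λ H} {c : ℝ} (hgad : ILSys.Gadget I c) :
    LevelStep I c (fun S Mn L => ILSys.Lab I S Mn L) where
  real h := h.real
  init hS _ _ h := ILSys.Lab.init hS h
  mono h _ hS := h.mono hS
  insert b h hMn hMnS hu := h.insert hMn hMnS hu b
  level b h _ hM hMS hMn hMnS hd hpos hu hg :=
    ILSys.level hgad h hM hMS hMn hMnS hd hpos hu b hg

/-- **LI**: from level `0` and the gadget to the value of every trigonometric scheme -/
theorem LI {I : ILSys Λ H} {c : ℝ} (hgad : ILSys.Gadget I c) {m : ℕ} (T : TrigScheme m)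
    {S : Set Λ} (hS : I.Cl S) (hpos : 0 < I.μ.real S) {l0 : H} (hn : ‖l0‖ = 1)
    (h0 : I.P S l0 = 0) (hZ : (⟪I.Z I.Om, l0⟫_ℂ).re = 0) (hgood : I.Good S {l0} c 1) :
    I.μ.real S * Real.sqrt (I.μ.real S) * T.value ≤ c :=
  bound (levelStep hgad) T hS hpos hn h0 hZ hgood

end Crest.Agent.R339.LvI
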