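import Crest.Agent.R339.Li728E

/-!
# Row 339, part (C): change of the initial state off the region

If all words from a state `U0`, which is trivial on the region `S`, have energy at most `c`, then
all words from `1` have energy at most `c + 4 ‖one‖ √μ(Sᶜ)`.
-/

set_option autoImplicit false
set_option linter.unusedSectionVars false

noncomputable section

open scoped ComplexConjugate InnerProductSpace Topology
open Filter MeasureTheory
open Crest.Agent.R339.Li Crest.Agent.R339.MF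

namespace Crest.Agent.R339.Start

variable {Λ H : Type*} [MeasurableSpace Λ] [NormedAddCommGroup H] [InnerProductSpace ℂ H]
  [CompleteSpace H]

open ILSys

variable {I : ILSys Λ H} {S : Set Λ} {L : Set H} {c : ℝ}

lemma norm_Z_apply (v : H) : ‖I.Z v‖ = ‖v‖ := by
  have h : ⟪I.Z v, I.Z v⟫_ℂ = ⟪v, v⟫_ℂ := by
    rw [← ContinuousLinearMap.adjoint_inner_left, ← ContinuousLinearMap.star_eq_adjoint, star_Z,
      ← mul_apply_eq_comp, Z_mul_Z]
    rfl
  rw [@norm_eq_sqrt_re_inner ℂ, h, ← @norm_eq_sqrt_re_inner ℂ]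

lemma norm_eV (U : UH H) : ‖I.eV U‖ = 1 := by
  rw [ILSys.eV, norm_star_U_apply, norm_Z_apply, norm_U_apply, norm_Om]

lemma norm_P_Om {A : Set Λ} (hA : MeasurableSet A) : ‖I.P A I.Om‖ = Real.sqrt (I.μ.real A) := by
  have h := I.inner_Om A 0 hA
  rw [I.W_zero] at h
  have h1 : ⟪I.Om, I.P A I.Om⟫_ℂ = (I.μ.real A : ℂ) := by
    refine Eq.trans h ?_
    simp
  have h2 : ⟪I.P A I.Om, I.P A I.Om⟫_ℂ = (I.μ.real A : ℂ) := by
    rw [inner_P hA, ← mul_apply_eq_comp, P_sq hA]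
    exact h1
  rw [@norm_eq_sqrt_re_inner ℂ, h2]
  simp

lemma norm_P_eV {A : Set Λ} (hA : MeasurableSet A) {U : UH H} (hU : PC I (U : H →L[ℂ] H)) :
    ‖I.P A (I.eV U)‖ = Real.sqrt (I.μ.real A) := by
  have h : I.P A (I.eV U) =
      star (U : H →L[ℂ] H) (I.Z ((U : H →L[ℂ] H) (I.P A I.Om))) := by
    have h1 : I.P A * (star (U : H →L[ℂ] H) * (I.Z * U)) =
        (star (U : H →L[ℂ] H) * (I.Z * U)) * I.P A :=
      ((hU.star A hA).mul_right ((P_Z hA).mul_right (hU A hA))).eq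
    exact congrArg (fun T : H →L[ℂ] H => T I.Om) h1
  rw [h, norm_star_U_apply, norm_Z_apply, norm_U_apply, norm_P_Om hA]

/-- the fields of the region do not see the initial state off the region -/
lemma eA_mul {U0 V : UH H} (h0 : PC I (U0 : H →L[ℂ] H)) (hS : MeasurableSet S)
    (hU0 : (U0 : H →L[ℂ] H) * I.P S = I.P S) (hV : PC I (V : H →L[ℂ] H)) {B : Set Λ}
    (hB : MeasurableSet B) (hBS : B ⊆ S) : I.eA B (V * U0) = I.eA B V := by
  have e1 : I.P B = I.P S * I.P B := by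
    rw [← I.P_inter _ _ hS hB, Set.inter_eq_self_of_subset_right hBS]
  have e2 : (U0 : H →L[ℂ] H) * I.P B = I.P B := by
    rw [e1, ← mul_assoc, hU0]
  have e3 : star (U0 : H →L[ℂ] H) * I.P B = I.P B := by
    conv_lhs => rw [← e2]
    rw [← mul_assoc, star_U_mul_self, one_mul]
  have hT : Commute (I.P B) (star (V : H →L[ℂ] H) * (I.Z * V)) :=
    (hV.star B hB).mul_right ((P_Z hB).mul_right (hV B hB))
  have key : I.P B * (star (U0 : H →L[ℂ] H) * (star (V : H →L[ℂ] H) * (I.Z * V)) * U0) =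
      I.P B * (star (V : H →L[ℂ] H) * (I.Z * V)) := by
    calc I.P B * (star (U0 : H →L[ℂ] H) * (star (V : H →L[ℂ] H) * (I.Z * V)) * U0)
        = (I.P B * star (U0 : H →L[ℂ] H)) * (star (V : H →L[ℂ] H) * (I.Z * V)) * U0 := by
          simp only [mul_assoc]
      _ = (star (U0 : H →L[ℂ] H) * I.P B) * (star (V : H →L[ℂ] H) * (I.Z * V)) * U0 := by
          rw [(h0.star B hB).eq]
      _ = I.P B * (star (V : H →L[ℂ] H) * (I.Z * V)) * U0 := by rw [e3]
      _ = (star (V : H →L[ℂ] H) * (I.Z * V)) * I.P B * U0 := by rw [hT.eq]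
      _ = (star (V : H →L[ℂ] H) * (I.Z * V)) * (U0 * I.P B) := by
          rw [mul_assoc, (h0 B hB).eq]
      _ = _ := by rw [e2, ← hT.eq]
  have := congrArg (fun T : H →L[ℂ] H => T I.Om) key
  rw [eA, eA, ILSys.eV, ILSys.eV]
  have e4 : star ((V * U0 : UH H) : H →L[ℂ] H) =
      star (U0 : H →L[ℂ] H) * star (V : H →L[ℂ] H) := by
    show star ((V : H →L[ℂ] H) * (U0 : H →L[ℂ] H)) = _
    rw [star_mul]
  rw [e4]
  exact this

lemma PC_step {U U' : UH H} (hs : I.Step S L U U') (hU : PC I (U : H →L[ℂ] H)) :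
    PC I (U' : H →L[ℂ] H) := by
  cases hs with
  | rot hA hS β U => exact (PC_rot _ β).mul hU
  | cpl hA hB hAS hBS hd g U => exact (PC_cst _ _).mul ((PC_cst _ _).mul hU)
  | lab hA hS hl a U => exact (PC_cst _ _).mul hU

lemma energy_sub_le {e e' : H} (he : ‖e‖ = 1) (he' : ‖e'‖ = 1) :
    (⟪e, I.one e⟫_ℂ).re ≤ (⟪e', I.one e'⟫_ℂ).re + 2 * ‖I.one‖ * ‖e - e'‖ := by
  have h1 : ⟪e, I.one e⟫_ℂ - ⟪e', I.one e'⟫_ℂ = ⟪e - e', I.one e⟫_ℂ + ⟪e', I.one (e - e')⟫_ℂ := by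
    rw [map_sub, inner_sub_left, inner_sub_right]; ring
  have h2 : ‖⟪e, I.one e⟫_ℂ - ⟪e', I.one e'⟫_ℂ‖ ≤ 2 * ‖I.one‖ * ‖e - e'‖ := by
    rw [h1]
    refine (norm_add_le _ _).trans ?_
    have h3 : ‖⟪e - e', I.one e⟫_ℂ‖ ≤ ‖e - e'‖ * (‖I.one‖ * 1) := by
      refine (norm_inner_le_norm _ _).trans (mul_le_mul_of_nonneg_left ?_ (norm_nonneg _))
      refine (I.one.le_opNorm e).trans ?_
      rw [he]
    have h4 : ‖⟪e', I.one (e - e')⟫_ℂ‖ ≤ 1 * (‖I.one‖ * ‖e - e'‖) := by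
      refine (norm_inner_le_norm _ _).trans ?_
      rw [he']
      exact mul_le_mul_of_nonneg_left (I.one.le_opNorm _) zero_le_one
    linarith
  have h5 := (Complex.abs_re_le_norm (⟪e, I.one e⟫_ℂ - ⟪e', I.one e'⟫_ℂ)).trans h2
  have h6 := (abs_le.mp h5).2
  rw [Complex.sub_re] at h6
  linarith

/-- **change of the initial state off the region** -/
theorem good_one {U0 : UH H} (h0 : PC I (U0 : H →L[ℂ] H)) (hS : MeasurableSet S)
    (hU0 : (U0 : H →L[ℂ] H) * I.P S = I.P S) (h : I.Good S L c U0) :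
    I.Good S L (c + 4 * ‖I.one‖ * Real.sqrt (I.μ.real Sᶜ)) 1 := by
  have key : ∀ V, Relation.ReflTransGen (I.Step S L) 1 V →
      PC I (V : H →L[ℂ] H) ∧ Relation.ReflTransGen (I.Step S L) U0 (V * U0) := by
    intro V hV
    induction hV with
    | refl => exact ⟨PC.one, by rw [one_mul]⟩
    | @tail V0 V1 _ hst ih =>
      obtain ⟨hP, hr⟩ := ih
      refine ⟨PC_step hst hP, hr.tail ?_⟩
      cases hst with
      | rot hA hS β V => rw [mul_assoc]; exact Step.rot hA hS β _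
      | @cpl A B hA hB hAS hBS hd g V =>
        have e : I.cpl (I.Cl_meas _ hA) (I.Cl_meas _ hB) g V0 * U0 =
            I.cpl (I.Cl_meas _ hA) (I.Cl_meas _ hB) g (V0 * U0) := by
          rw [ILSys.cpl, ILSys.cpl, eA_mul h0 hS hU0 hP (I.Cl_meas _ hA) hAS,
            eA_mul h0 hS hU0 hP (I.Cl_meas _ hB) hBS, mul_assoc, mul_assoc]
        rw [e]
        exact Step.cpl hA hB hAS hBS hd g _
      | lab hA hS hl a V => rw [mul_assoc]; exact Step.lab hA hS hl a _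
  intro V hV
  obtain ⟨hP, hr⟩ := key V hV
  have h1 : I.energy (V * U0) ≤ c := h _ hr
  have hP' : PC I ((V * U0 : UH H) : H →L[ℂ] H) := hP.mul h0
  have h2 := energy_sub_le (I := I) (norm_eV (I := I) V) (norm_eV (I := I) (V * U0))
  have h3 : ‖I.eV V - I.eV (V * U0)‖ ≤ 2 * Real.sqrt (I.μ.real Sᶜ) := by
    have e1 : ∀ x : H, x = I.P Sᶜ x + I.P S x := fun x => by
      have := congrArg (fun T : H →L[ℂ] H => T x) (P_compl_add (I := I) hS)
      simpa using this.symm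
    have e2 : I.P S (I.eV (V * U0)) = I.P S (I.eV V) := eA_mul h0 hS hU0 hP hS subset_rfl
    have e3 : I.eV V - I.eV (V * U0) = I.P Sᶜ (I.eV V) - I.P Sᶜ (I.eV (V * U0)) := by
      conv_lhs => rw [e1 (I.eV V), e1 (I.eV (V * U0)), e2]
      abel
    rw [e3]
    refine (norm_sub_le _ _).trans ?_
    rw [norm_P_eV hS.compl hP, norm_P_eV hS.compl hP']
    linarith
  have h4 : 2 * ‖I.one‖ * ‖I.eV V - I.eV (V * U0)‖ ≤
      2 * ‖I.one‖ * (2 * Real.sqrt (I.μ.real Sᶜ)) :=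
    mul_le_mul_of_nonneg_left h3 (by positivity)
  show (⟪I.eV V, I.one (I.eV V)⟫_ℂ).re ≤ _
  have h5 : (⟪I.eV (V * U0), I.one (I.eV (V * U0))⟫_ℂ).re ≤ c := h1
  linarith

end Crest.Agent.R339.Start
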