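import Crest.Agent.R339.C2Dry716
import Crest.Agent.R339.LvI716b
import Crest.Agent.R339.Start716

/-!
# Row 339, part (C2): the final glue, second layer

`GadStmt` : the gadget on the labelled site space (any constant).
`AntU0Stmt` : level 0 starting from a state `U0` which is trivial on the region `S`.
-/

set_option autoImplicit false

noncomputable section

open scoped ComplexConjugate InnerProductSpace Topology
open Filter MeasureTheory

namespace Crest.Agent.R339.C2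

open Crest.Agent.R339.Site Crest.Agent.R339.Lab Crest.Agent.R339.LF
open Crest.Agent.R339.Trig (TrigScheme)
open Crest.Agent.R339.Li Crest.Agent.R339.MF

/-- the gadget on the labelled site space -/
def GadStmt : Prop := ∀ (io : SL Kst ≃ₗᵢ[ℂ] Kst) (c : ℝ), ILSys.Gadget (IL io) c

theorem levelStmt (h : GadStmt) : LevelStmt := fun io c => ⟨_, LvI.levelStep (h io c)⟩

/-- the antenna, with the antenna state `U0` (trivial on the region `S`) as initial state -/
def AntU0Stmt : Prop := ∀ c : ℝ, Asm.PlainBound c → ∀ δ : ℝ, 0 < δ → δ < 1 →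
  ∃ (io : SL Kst ≃ₗᵢ[ℂ] Kst) (S : Set ℝ) (l0 : SL Kst) (U0 : Li.UH (SL Kst)), (IL io).Cl S ∧
    1 - δ ≤ (IL io).μ.real S ∧ ‖l0‖ = 1 ∧ (IL io).P S l0 = 0 ∧
    (⟪(IL io).Z (IL io).Om, l0⟫_ℂ).re = 0 ∧ PC (IL io) (U0 : SL Kst →L[ℂ] SL Kst) ∧
    (U0 : SL Kst →L[ℂ] SL Kst) * (IL io).P S = (IL io).P S ∧ (IL io).Good S {l0} c U0

lemma norm_one_le (io : SL Kst ≃ₗᵢ[ℂ] Kst) : ‖(IL io).one‖ ≤ 1 := by
  refine ContinuousLinearMap.opNorm_le_bound _ zero_le_one fun v => ?_
  rw [one_mul]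
  show ‖plusL (one (io v))‖ ≤ ‖v‖
  rw [LinearIsometry.norm_map, LinearIsometry.norm_map, io.norm_map]

theorem antStmt (h : AntU0Stmt) : AntStmt := by
  intro c hc δ hδ hδ1
  set δ' : ℝ := (δ / 4) ^ 2 with hδ'
  have h0 : 0 < δ' := by positivity
  have h1 : δ' ≤ δ := by
    rw [hδ']; nlinarith
  obtain ⟨io, S, l0, U0, hS, hm, hn, hP, hZ, hPC, hU0, hg⟩ := h c hc δ' h0 (by linarith)
  refine ⟨io, S, l0, hS, by linarith, hn, hP, hZ, ?_⟩
  have hSm := (IL io).Cl_meas _ hS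
  have h2 := Start.good_one hPC hSm hU0 hg
  have h3 : (IL io).μ.real Sᶜ ≤ δ' := by
    rw [probReal_compl_eq_one_sub hSm]; linarith
  have h4 : Real.sqrt ((IL io).μ.real Sᶜ) ≤ δ / 4 := by
    rw [Real.sqrt_le_left (by positivity)]
    exact h3
  have h5 : 4 * ‖(IL io).one‖ * Real.sqrt ((IL io).μ.real Sᶜ) ≤ δ := by
    have h6 := norm_one_le io
    have h7 : ‖(IL io).one‖ * Real.sqrt ((IL io).μ.real Sᶜ) ≤ 1 * (δ / 4) :=
      mul_le_mul h6 h4 (Real.sqrt_nonneg _) zero_le_one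
    linarith
  intro V hV
  exact (h2 V hV).trans (by linarith)

/-- **(C2)** from the gadget and the antenna -/
theorem qbound' (hG : GadStmt) (hA : AntU0Stmt) : Asm.QBound :=
  qbound (antStmt hA) (levelStmt hG)

end Crest.Agent.R339.C2
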