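import Mathlib
import Crest.Agent.R339.Cell220D

/-!
# Cell-uniform limits (R339, label induction, block G3)
-/

set_option autoImplicit false
set_option linter.unusedSectionVars false
set_option linter.unusedVariables false

open scoped InnerProductSpace Topology ComplexConjugate
open Filter MeasureTheory

namespace Crest.Agent.R339.Cell

open Crest.Agent.R339.Li Crest.Agent.R339.Li.ILSys Crest.Agent.R339.MF Crest.Agent.R339.Cel

section abstract

variable {S : Type*} [NormedAddCommGroup S] [InnerProductSpace ℂ S] [CompleteSpace S]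
variable {α : Type*} {l : Filter α}

theorem BS.of_norm_zero {T : α → S →L[ℂ] S} {δ : α → ℝ} (hδ : Tendsto δ l (𝓝 0))
    (h : ∀ n, ‖T n‖ ≤ δ n) : BS l T 0 := by
  refine ⟨⟨1, ?_⟩, fun x => ?_⟩
  · filter_upwards [hδ.eventually_lt_const zero_lt_one] with n hn
    exact (h n).trans hn.le
  · rw [zero_apply, tendsto_zero_iff_norm_tendsto_zero]
    have h1 : Tendsto (fun n => δ n * ‖x‖) l (𝓝 0) := by
      simpa using hδ.mul_const ‖x‖
    refine squeeze_zero (fun n => norm_nonneg _) (fun n => ?_) h1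
    exact ((T n).le_opNorm x).trans (mul_le_mul_of_nonneg_right (h n) (norm_nonneg _))

/-- an idempotent on which two operators agree sees the same exponential -/
theorem mul_exp_congr {Q B T : S →L[ℂ] S} (hB : Commute Q B) (hT : Commute Q T)
    (h : Q * B = Q * T) : Q * NormedSpace.exp B = Q * NormedSpace.exp T := by
  have hpow : ∀ k : ℕ, Q * B ^ k = Q * T ^ k := by
    intro k
    induction k with
    | zero => rfl
    | succ k ih =>
      rw [pow_succ, pow_succ, ← mul_assoc, ih, (hT.pow_right k).eq, mul_assoc, h, ← mul_assoc,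
        ← (hT.pow_right k).eq, mul_assoc]
  have h1 := (NormedSpace.exp_series_hasSum_exp' (𝕂 := ℝ) B).mul_left Q
  have h2 := (NormedSpace.exp_series_hasSum_exp' (𝕂 := ℝ) T).mul_left Q
  have h3 : (fun n : ℕ => Q * ((n.factorial : ℝ)⁻¹ • B ^ n)) =
      fun n : ℕ => Q * ((n.factorial : ℝ)⁻¹ • T ^ n) := by
    funext n
    rw [mul_smul_comm, mul_smul_comm, hpow]
  rw [h3] at h1
  exact h1.unique h2

theorem commute_blk_of {R : ℕ} {Q T : ℕ → S →L[ℂ] S} {K : S →L[ℂ] S}
    (hQ : ∀ r < R, Commute K (Q r)) (hT : ∀ r < R, Commute K (T r)) :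
    Commute K (blk R Q T) :=
  Commute.sum_right _ _ _ fun r hr =>
    (hQ r (Finset.mem_range.mp hr)).mul_right (hT r (Finset.mem_range.mp hr))

theorem OP.mul_blk {R : ℕ} {Q T : ℕ → S →L[ℂ] S} (h : OP R Q) {s : ℕ} (hs : s < R) :
    Q s * blk R Q T = Q s * T s := by
  rw [blk, Finset.mul_sum, Finset.sum_eq_single s]
  · rw [← mul_assoc, h.idem s hs]
  · intro r hr hrs
    rw [← mul_assoc, h.orth s hs r (Finset.mem_range.mp hr) (Ne.symm hrs), zero_mul]
  · intro hs'
    exact absurd (Finset.mem_range.mpr hs) hs'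

/-- exponentials, cell by cell -/
theorem blk_exp {R : ℕ} {Q T : ℕ → S →L[ℂ] S} (h : OP R Q)
    (hc : ∀ r < R, ∀ s < R, Commute (Q s) (T r)) (a : ℂ) :
    blk R Q (fun r => NormedSpace.exp (a • T r)) =
      (∑ r ∈ Finset.range R, Q r) * NormedSpace.exp (a • blk R Q T) := by
  rw [blk, Finset.sum_mul]
  refine Finset.sum_congr rfl fun r hr => ?_
  have hr' := Finset.mem_range.mp hr
  have hQ : ∀ s < R, Commute (Q r) (Q s) := by
    intro s hs
    rcases eq_or_ne r s with rfl | hrs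
    · exact Commute.refl _
    · show Q r * Q s = Q s * Q r
      rw [h.orth r hr' s hs hrs, h.orth s hs r hr' (Ne.symm hrs)]
  refine mul_exp_congr ((hc r hr' r hr').smul_right _)
    ((commute_blk_of hQ fun s hs => hc s hs r hr').smul_right _) ?_
  rw [mul_smul_comm, mul_smul_comm, h.mul_blk hr']

end abstract

variable {Λ H : Type*} [MeasurableSpace Λ] [NormedAddCommGroup H] [InnerProductSpace ℂ H]
  [CompleteSpace H] {I : ILSys Λ H} {α : Type*} {l : Filter α}

/-- a family of cell partitions -/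
structure PF (Mn : Set Λ) (R : α → ℕ) (N : α → ℕ → Set Λ) : Prop where
  hp : ∀ n, Part Mn (R n) (N n)

/-- cell family of operators -/
noncomputable def bl (I : ILSys Λ H) (R : α → ℕ) (N : α → ℕ → Set Λ) (T : α → ℕ → H →L[ℂ] H)
    (n : α) : H →L[ℂ] H := blk (R n) (fun r => I.P (N n r)) (T n)

/-- cell-uniform strong convergence -/
def CS (I : ILSys Λ H) (l : Filter α) (Mn : Set Λ) (R : α → ℕ) (N : α → ℕ → Set Λ)
    (T : α → ℕ → H →L[ℂ] H) (A : H →L[ℂ] H) : Prop :=
  BS l (bl I R N T) (I.P Mn * A)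

section CSlemmas

variable {Mn : Set Λ} {R : α → ℕ} {N : α → ℕ → Set Λ} {T T' : α → ℕ → H →L[ℂ] H}
  {A A' : H →L[ℂ] H}

theorem CS.congr (h : CS I l Mn R N T A) (hT : ∀ n, ∀ r < R n, T n r = T' n r) :
    CS I l Mn R N T' A := by
  have : bl I R N T = bl I R N T' := by
    funext n
    show ∑ r ∈ Finset.range (R n), I.P (N n r) * T n r =
      ∑ r ∈ Finset.range (R n), I.P (N n r) * T' n r
    exact Finset.sum_congr rfl fun r hr => by rw [hT n r (Finset.mem_range.mp hr)]
  rw [CS, this] at h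
  exact h

theorem CS.add (h : CS I l Mn R N T A) (h' : CS I l Mn R N T' A') :
    CS I l Mn R N (fun n r => T n r + T' n r) (A + A') := by
  have h1 := BS.add h h'
  rw [← mul_add] at h1
  refine h1.congr (Eventually.of_forall fun n => ?_)
  exact blk_add _ _ _ _

theorem CS.smul (h : CS I l Mn R N T A) (c : ℂ) :
    CS I l Mn R N (fun n r => c • T n r) (c • A) := by
  have h1 := BS.const_smul h c
  rw [← mul_smul_comm] at h1
  refine h1.congr (Eventually.of_forall fun n => ?_)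
  exact blk_smul _ _ _ _

theorem CS.sub (h : CS I l Mn R N T A) (h' : CS I l Mn R N T' A') :
    CS I l Mn R N (fun n r => T n r - T' n r) (A - A') := by
  have h1 := h.add (h'.smul (-1))
  simpa only [neg_smul, one_smul, ← sub_eq_add_neg] using h1

theorem CS.zero : CS I l Mn R N (fun _ _ => (0 : H →L[ℂ] H)) 0 := by
  have : bl I R N (fun _ _ => (0 : H →L[ℂ] H)) = fun _ => 0 := by
    funext n
    simp [bl, blk]
  rw [CS, this, mul_zero]
  exact BS.const 0

theorem CS.sum {κ : Type*} (s : Finset κ) {T : κ → α → ℕ → H →L[ℂ] H} {A : κ → H →L[ℂ] H}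
    (h : ∀ k ∈ s, CS I l Mn R N (T k) (A k)) :
    CS I l Mn R N (fun n r => ∑ k ∈ s, T k n r) (∑ k ∈ s, A k) := by
  classical
  induction s using Finset.induction_on with
  | empty => simpa using CS.zero
  | insert a s ha ih =>
    simp only [Finset.sum_insert ha]
    exact (h a (Finset.mem_insert_self _ _)).add
      (ih fun k hk => h k (Finset.mem_insert_of_mem hk))

/-- left factor commuting with the label projections -/
theorem CS.mul_left (hp : PF Mn R N) (h : CS I l Mn R N T A) {K : H →L[ℂ] H} (hK : PC I K) :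
    CS I l Mn R N (fun n r => K * T n r) (K * A) := by
  have h1 := (BS.const K).mul (l := l) h
  rcases isEmpty_or_nonempty α with hα | ⟨⟨n₀⟩⟩
  · refine ⟨⟨0, ?_⟩, fun x => ?_⟩
    · exact Eventually.of_forall fun n => isEmptyElim n
    · have : l = ⊥ := Filter.filter_eq_bot_of_isEmpty l
      rw [this]
      exact tendsto_bot
  have hMn : MeasurableSet Mn := (hp.hp n₀).measMn
  have e1 : K * (I.P Mn * A) = I.P Mn * (K * A) := by
    rw [← mul_assoc, ← (hK Mn hMn).eq, mul_assoc]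
  rw [e1] at h1
  refine h1.congr (Eventually.of_forall fun n => ?_)
  show K * ∑ r ∈ Finset.range (R n), I.P (N n r) * T n r =
    ∑ r ∈ Finset.range (R n), I.P (N n r) * (K * T n r)
  rw [Finset.mul_sum]
  refine Finset.sum_congr rfl fun r hr => ?_
  rw [← mul_assoc, ← (hK _ ((hp.hp n).meas r (Finset.mem_range.mp hr))).eq, mul_assoc]

/-- products, cell by cell -/
theorem CS.mul (hMn : MeasurableSet Mn) (hp : PF Mn R N) (h : CS I l Mn R N T A)
    (h' : CS I l Mn R N T' A') (hT : ∀ n, ∀ r < R n, PC I (T n r)) (hA : PC I A) :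
    CS I l Mn R N (fun n r => T n r * T' n r) (A * A') := by
  have h1 := BS.mul h h'
  have e1 : I.P Mn * A * (I.P Mn * A') = I.P Mn * (A * A') := by
    rw [mul_assoc, ← mul_assoc A, ← (hA Mn hMn).eq, mul_assoc (I.P Mn) A, ← mul_assoc (I.P Mn),
      P_sq hMn]
  rw [e1] at h1
  refine h1.congr (Eventually.of_forall fun n => ?_)
  exact blk_mul_blk ((hp.hp n).op I) fun r hr s hs =>
    (hT n r hr _ ((hp.hp n).meas s hs)).eq

/-- right factor -/
theorem CS.mul_right (h : CS I l Mn R N T A) (K : H →L[ℂ] H) :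
    CS I l Mn R N (fun n r => T n r * K) (A * K) := by
  have h1 := BS.mul h (BS.const K)
  rw [mul_assoc] at h1
  refine h1.congr (Eventually.of_forall fun n => ?_)
  show (∑ r ∈ Finset.range (R n), I.P (N n r) * T n r) * K =
    ∑ r ∈ Finset.range (R n), I.P (N n r) * (T n r * K)
  rw [Finset.sum_mul]
  refine Finset.sum_congr rfl fun r hr => ?_
  rw [mul_assoc]

theorem CS.const (hp : PF Mn R N) (K : H →L[ℂ] H) : CS I l Mn R N (fun _ _ => K) K := by
  have h1 : BS l (fun _ : α => I.P Mn * K) (I.P Mn * K) := BS.const _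
  refine h1.congr (Eventually.of_forall fun n => ?_)
  show I.P Mn * K = ∑ r ∈ Finset.range (R n), I.P (N n r) * K
  rw [← Finset.sum_mul, (hp.hp n).sum_P I]

/-- exponentials -/
theorem CS.exp (hMn : MeasurableSet Mn) (hp : PF Mn R N) (h : CS I l Mn R N T A)
    (hT : ∀ n, ∀ r < R n, PC I (T n r)) (hA : PC I A) (a : ℂ) :
    CS I l Mn R N (fun n r => NormedSpace.exp (a • T n r)) (NormedSpace.exp (a • A)) := by
  have h1 : BS l (fun n => NormedSpace.exp (a • bl I R N T n))
      (NormedSpace.exp (a • (I.P Mn * A))) := (BS.const_smul h a).exp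
  have h2 := (BS.const (I.P Mn)).mul (l := l) h1
  have e1 : I.P Mn * NormedSpace.exp (a • (I.P Mn * A)) = I.P Mn * NormedSpace.exp (a • A) := by
    have c1 : Commute (I.P Mn) (a • (I.P Mn * A)) :=
      ((Commute.refl _).mul_right (hA Mn hMn)).smul_right _
    refine mul_exp_congr c1 ((hA Mn hMn).smul_right _) ?_
    rw [mul_smul_comm, mul_smul_comm, ← mul_assoc, P_sq hMn]
  rw [e1] at h2
  refine h2.congr (Eventually.of_forall fun n => ?_)
  show I.P Mn * NormedSpace.exp (a • bl I R N T n) =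
    blk (R n) (fun r => I.P (N n r)) fun r => NormedSpace.exp (a • T n r)
  rw [blk_exp ((hp.hp n).op I) (fun r hr s hs => hT n r hr _ ((hp.hp n).meas s hs)),
    (hp.hp n).sum_P I]
  rfl

end CSlemmas

/-! ### Weyl operators -/

section weyl

variable {Mn : Set Λ} {R : α → ℕ} {N : α → ℕ → Set Λ}

/-- cell families of small vectors -/
def Sm (l : Filter α) (R : α → ℕ) (d : α → ℕ → H) : Prop :=
  ∃ δ : α → ℝ, Tendsto δ l (𝓝 0) ∧ ∀ n, ∀ r < R n, ‖d n r‖ ≤ δ n

theorem Sm.add {d d' : α → ℕ → H} (h : Sm l R d) (h' : Sm l R d') :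
    Sm l R fun n r => d n r + d' n r := by
  obtain ⟨δ, h1, h2⟩ := h
  obtain ⟨δ', h1', h2'⟩ := h'
  refine ⟨fun n => δ n + δ' n, by simpa using h1.add h1', fun n r hr => ?_⟩
  exact (norm_add_le _ _).trans (add_le_add (h2 n r hr) (h2' n r hr))

theorem Sm.smul {d : α → ℕ → H} (h : Sm l R d) (c : ℂ) : Sm l R fun n r => c • d n r := by
  obtain ⟨δ, h1, h2⟩ := h
  refine ⟨fun n => ‖c‖ * δ n, by simpa using h1.const_mul ‖c‖, fun n r hr => ?_⟩
  rw [norm_smul]
  exact mul_le_mul_of_nonneg_left (h2 n r hr) (norm_nonneg _)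

theorem Sm.neg {d : α → ℕ → H} (h : Sm l R d) : Sm l R fun n r => -d n r := by
  obtain ⟨δ, h1, h2⟩ := h
  exact ⟨δ, h1, fun n r hr => by rw [norm_neg]; exact h2 n r hr⟩

theorem Sm.sub {d d' : α → ℕ → H} (h : Sm l R d) (h' : Sm l R d') :
    Sm l R fun n r => d n r - d' n r := by
  simpa only [sub_eq_add_neg] using h.add h'.neg

theorem Sm.of_norm_le {d : α → ℕ → H} {δ : α → ℝ} (hδ : Tendsto δ l (𝓝 0))
    (h : ∀ n, ∀ r < R n, ‖d n r‖ ≤ δ n) : Sm l R d := ⟨δ, hδ, h⟩

theorem Sm.mono {d d' : α → ℕ → H} (h : Sm l R d) (h' : ∀ n, ∀ r < R n, ‖d' n r‖ ≤ ‖d n r‖) :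
    Sm l R d' := by
  obtain ⟨δ, h1, h2⟩ := h
  exact ⟨δ, h1, fun n r hr => (h' n r hr).trans (h2 n r hr)⟩

theorem Sm.of_tendsto {v : α → H} {v₀ : H} (h : Tendsto v l (𝓝 v₀)) :
    Sm l R fun n _ => v n - v₀ :=
  ⟨fun n => ‖v n - v₀‖, tendsto_iff_norm_sub_tendsto_zero.mp h, fun _ _ _ => le_rfl⟩

theorem CS_W_small (hp : PF Mn R N) {d : α → ℕ → H} (hd : Sm l R d) :
    CS I l Mn R N (fun n r => I.W (d n r)) 1 := by
  obtain ⟨δ, h1, h2⟩ := hd
  have h := BS_blk_W I hp.hp h1 h2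
  rw [CS, mul_one]
  exact h

theorem W_add_eq (f d : H) : I.W (f + d) =
    Complex.exp (((⟪f, d⟫_ℂ).im : ℂ) * Complex.I) • (I.W f * I.W d) := by
  rw [I.W_mul, smul_smul, ← Complex.exp_add]
  have : ((⟪f, d⟫_ℂ).im : ℂ) * Complex.I + -(Complex.I * ((⟪f, d⟫_ℂ).im : ℂ)) = 0 := by ring
  rw [this, Complex.exp_zero, one_smul]

theorem norm_exp_mul_I_sub_one_le (θ : ℝ) : ‖Complex.exp ((θ : ℂ) * Complex.I) - 1‖ ≤ |θ| := by
  rw [mul_comm]
  have := Real.norm_exp_I_mul_ofReal_sub_one_le (x := θ)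
  rwa [Real.norm_eq_abs] at this

theorem CS_W (hp : PF Mn R N) (f : H) {d : α → ℕ → H} (hd : Sm l R d) :
    CS I l Mn R N (fun n r => I.W (f + d n r)) (I.W f) := by
  have h0 : CS I l Mn R N (fun n r =>
      (Complex.exp (((⟪f, d n r⟫_ℂ).im : ℂ) * Complex.I) - 1) • I.W (d n r)) 0 := by
    obtain ⟨δ, h1, h2⟩ := hd
    rw [CS, mul_zero]
    refine BS.of_norm_zero (δ := fun n => ‖f‖ * |δ n|) ?_ fun n => ?_
    · have := h1.abs.const_mul ‖f‖
      simpa using this
    · refine norm_blk_le ((hp.hp n).op I) (fun r hr => ?_) (by positivity) fun r hr => ?_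
      · exact ((PC.W (I := I) _ _ ((hp.hp n).meas r hr)).smul_right _).eq
      · rw [norm_smul]
        calc ‖Complex.exp (((⟪f, d n r⟫_ℂ).im : ℂ) * Complex.I) - 1‖ * ‖I.W (d n r)‖
            ≤ |(⟪f, d n r⟫_ℂ).im| * 1 :=
              mul_le_mul (norm_exp_mul_I_sub_one_le _) (norm_W_le I _) (norm_nonneg _)
                (abs_nonneg _)
          _ ≤ ‖f‖ * ‖d n r‖ := by
              rw [mul_one]
              exact (Complex.abs_im_le_norm _).trans (norm_inner_le_norm _ _)
          _ ≤ ‖f‖ * |δ n| := mul_le_mul_of_nonneg_left ((h2 n r hr).trans (le_abs_self _))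
              (norm_nonneg _)
  have h3 := ((CS_W_small (I := I) hp hd).add h0).mul_left hp (PC.W f)
  rw [add_zero, mul_one] at h3
  refine h3.congr fun n r hr => ?_
  rw [W_add_eq, sub_smul, one_smul, add_sub_cancel, mul_smul_comm]

theorem CS_sW (hp : PF Mn R N) (f : H) {d : α → ℕ → H} (hd : Sm l R d) :
    CS I l Mn R N (fun n r => I.sW (f + d n r)) (I.sW f) := by
  have h1 := ((CS_W (I := I) hp f hd).sub (CS_W (I := I) hp (-f) hd.neg)).smul (-(Complex.I / 2))
  refine h1.congr fun n r hr => ?_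
  rw [sW, neg_add]

theorem CS_cW (hp : PF Mn R N) (f : H) {d : α → ℕ → H} (hd : Sm l R d) :
    CS I l Mn R N (fun n r => I.cW (f + d n r)) (I.cW f) := by
  have h1 := ((CS_W (I := I) hp f hd).add (CS_W (I := I) hp (-f) hd.neg)).smul (1 / 2 : ℂ)
  refine h1.congr fun n r hr => ?_
  rw [cW, neg_add]

theorem CS_zW (hp : PF Mn R N) (f : H) {d : α → ℕ → H} (hd : Sm l R d) :
    CS I l Mn R N (fun n r => I.zW (f + d n r)) (I.zW f) := by
  have h1 := ((CS_W (I := I) hp f hd).mul_left hp PC.Ep).add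
    ((CS_W (I := I) hp (-f) hd.neg).mul_left hp PC.Em)
  refine h1.congr fun n r hr => ?_
  rw [zW, neg_add]

theorem CS_snS {κ : Type*} [Fintype κ] (hp : PF Mn R N) (c : κ → ℝ) (f : κ → H)
    {d : κ → α → ℕ → H} (hd : ∀ k, Sm l R (d k)) :
    CS I l Mn R N (fun n r => snS I c fun k => f k + d k n r) (snS I c f) :=
  CS.sum _ fun k _ => (CS_sW hp (f k) (hd k)).smul _

theorem CS_csS {κ : Type*} [Fintype κ] (hp : PF Mn R N) (c : κ → ℝ) (f : κ → H)
    {d : κ → α → ℕ → H} (hd : ∀ k, Sm l R (d k)) :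
    CS I l Mn R N (fun n r => csS I c fun k => f k + d k n r) (csS I c f) :=
  CS.sum _ fun k _ => (CS_cW hp (f k) (hd k)).smul _

theorem CS_eI {T : α → ℕ → H →L[ℂ] H} {A : H →L[ℂ] H} (hMn : MeasurableSet Mn) (hp : PF Mn R N)
    (h : CS I l Mn R N T A) (hT : ∀ n, ∀ r < R n, PC I (T n r)) (hA : PC I A) (t : ℝ) :
    CS I l Mn R N (fun n r => eI t (T n r)) (eI t A) := h.exp hMn hp hT hA _

/-- block operators with small perturbations -/
theorem CS_blk_zW (hMn : MeasurableSet Mn) (hp : PF Mn R N) {A : Set Λ} (hA : MeasurableSet A)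
    (f : H) {d : α → ℕ → H} (hd : Sm l R d) :
    CS I l Mn R N (fun n r => I.blk A (I.zW (f + d n r))) (I.blk A (I.zW f)) :=
  (CS.const hp (I.P Aᶜ)).add ((CS_zW hp f hd).mul_left hp fun B hB => P_comm hB hA)

/-- vectors `∑ r, P (N r) x r` -/
theorem CS.lim_apply {T : α → ℕ → H →L[ℂ] H} {A : H →L[ℂ] H} (h : CS I l Mn R N T A) (x : H) :
    Tendsto (fun n => ∑ r ∈ Finset.range (R n), I.P (N n r) (T n r x)) l
      (𝓝 (I.P Mn (A x))) := by
  have h1 := h.lim x
  refine h1.congr fun n => ?_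
  exact blk_apply _ _ _ _

end weyl

end Crest.Agent.R339.Cell
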