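import Mathlib
import Crest.Agent.R339.Cell220F
import Crest.Agent.R339.Cell220H

/-!
# The limit of the states (R339, label induction, block G3)
-/

set_option autoImplicit false
set_option linter.unusedSectionVars false
set_option linter.unusedVariables false

noncomputable section

open scoped InnerProductSpace Topology ComplexConjugate
open Filter MeasureTheory

namespace Crest.Agent.R339.Cell

open Crest.Agent.R339.Li Crest.Agent.R339.Li.ILSys Crest.Agent.R339.MF Crest.Agent.R339.Cel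

variable {Λ H : Type*} [MeasurableSpace Λ] [NormedAddCommGroup H] [InnerProductSpace ℂ H]
  [CompleteSpace H] {I : ILSys Λ H} {S : Set Λ} {L : Set H} {cc : ℝ} {p : Par Λ H}

theorem norm_Z_leI : ‖I.Z‖ ≤ 1 := by
  refine ContinuousLinearMap.opNorm_le_bound _ zero_le_one fun x => ?_
  have h1 : ‖I.Z x‖ ^ 2 = ‖x‖ ^ 2 := by
    rw [norm_sq_eq_re_inner, norm_sq_eq_re_inner, ← ContinuousLinearMap.adjoint_inner_right,
      ← ContinuousLinearMap.star_eq_adjoint, star_Z, ← mul_apply_eq_comp, Z_mul_Z]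
    rfl
  rw [one_mul, (pow_left_inj₀ (norm_nonneg _) (norm_nonneg _) two_ne_zero).mp h1]

theorem norm_snS_le {κ : Type*} [Fintype κ] (c : κ → ℝ) (f : κ → H) :
    ‖snS I c f‖ ≤ ∑ k, |c k| := by
  refine (norm_sum_le _ _).trans (Finset.sum_le_sum fun k _ => ?_)
  refine (norm_smul_le _ _).trans ?_
  rw [Complex.norm_real, Real.norm_eq_abs]
  calc |c k| * ‖I.sW (f k)‖ ≤ |c k| * 1 :=
        mul_le_mul_of_nonneg_left (norm_sW_le _) (abs_nonneg _)
    _ = |c k| := mul_one _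

theorem norm_eA_le {B : Set Λ} (hB : MeasurableSet B) {U : UH H} (hU : PC I (U : H →L[ℂ] H)) :
    ‖I.eA B U‖ ≤ √(I.μ.real B) := by
  rw [eA_eq_pV]
  refine (norm_pV_le hB hU PC.Z).trans ?_
  calc ‖I.Z‖ * √(I.μ.real B) ≤ 1 * √(I.μ.real B) :=
        mul_le_mul_of_nonneg_right norm_Z_leI (Real.sqrt_nonneg _)
    _ = _ := one_mul _

theorem BS.of_U {α : Type*} {l : Filter α} {B : α → UH H} {A : H →L[ℂ] H}
    (h : ∀ x, Tendsto (fun n => (B n : H →L[ℂ] H) x) l (𝓝 (A x))) :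
    BS l (fun n => (B n : H →L[ℂ] H)) A :=
  ⟨⟨1, Eventually.of_forall fun n => ContinuousLinearMap.opNorm_le_bound _ zero_le_one
    fun x => by rw [norm_U_apply, one_mul]⟩, h⟩

theorem BS_zW {α : Type*} {l : Filter α} {v : α → H} {v₀ : H} (hv : Tendsto v l (𝓝 v₀)) :
    BS l (fun n => I.zW (v n)) (I.zW v₀) :=
  BS.of_U (B := fun n => zWU I (v n)) fun x => tendsto_zW hv tendsto_const_nhds

/-- the limiting frequencies -/
def F0 (I : ILSys Λ H) (p : Par Λ H) (k : Fin p.n) : H := (p.a k : ℂ) • I.eA p.A p.U + p.u k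

/-- the limiting target kick -/
def v0 (I : ILSys Λ H) (p : Par Λ H) : H :=
  (-(p.t : ℂ)) • pV I p.Mn p.U (snS I (fun k => p.c k * p.a k * p.b k) (F0 I p))

/-- smallness hypotheses along a family of cell partitions -/
structure Lim (I : ILSys Λ H) (p : Par Λ H) {α : Type*} (l : Filter α) (g : α → ℝ) (R : α → ℕ)
    (N : α → ℕ → Set Λ) : Prop where
  cells : ∀ n, Cells I p (R n) (N n)
  mass : ∃ δ : α → ℝ, Tendsto δ l (𝓝 0) ∧ ∀ n, ∀ r < R n, √(I.μ.real (N n r)) ≤ δ n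
  tq : Sm l R fun n r => ((τb I p (g n) (N n) (Bs I p (g n) (N n) r) r : ℝ) : ℂ) •
    qb I p (g n) (N n) (Bs I p (g n) (N n) r) r
  gy : Sm l R fun n r => ((g n : ℝ) : ℂ) • (yb I p (Bs I p (g n) (N n) r) -
    y2b I p (g n) (N n) (Bs I p (g n) (N n) r) r)
  bath : ∀ x, Tendsto (fun n => (Bs I p (g n) (N n) (R n) : H →L[ℂ] H) x) l (𝓝 x)

section

variable {α : Type*} {l : Filter α} {g : α → ℝ} {R : α → ℕ} {N : α → ℕ → Set Λ}

theorem Lim.pf (hL : Lim I p l g R N) : PF p.Mn R N := ⟨fun n => (hL.cells n).part⟩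

theorem Lim.mass_mul (hL : Lim I p l g R N) (C : ℝ) {d : α → ℕ → H}
    (hd : ∀ n, ∀ r < R n, ‖d n r‖ ≤ C * √(I.μ.real (N n r))) : Sm l R d := by
  obtain ⟨δ, h1, h2⟩ := hL.mass
  refine ⟨fun n => |C| * δ n, by simpa using h1.const_mul |C|, fun n r hr => ?_⟩
  refine (hd n r hr).trans ?_
  calc C * √(I.μ.real (N n r)) ≤ |C| * √(I.μ.real (N n r)) :=
        mul_le_mul_of_nonneg_right (le_abs_self C) (Real.sqrt_nonneg _)
    _ ≤ |C| * δ n := mul_le_mul_of_nonneg_left (h2 n r hr) (abs_nonneg _)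

/-- deviation of the frequencies -/
def df (I : ILSys Λ H) (p : Par Λ H) {α : Type*} (g : α → ℝ) (N : α → ℕ → Set Λ) (k : Fin p.n)
    (n : α) (r : ℕ) : H :=
  (-(p.a k : ℂ)) • I.eA (p.A ∩ N n r) p.U + (p.b k : ℂ) •
    (((τb I p (g n) (N n) (Bs I p (g n) (N n) r) r : ℝ) : ℂ) •
      qb I p (g n) (N n) (Bs I p (g n) (N n) r) r)

theorem fb_eq (h : Hyp I S L p) (hL : Lim I p l g R N) {n : α} {r : ℕ} (hr : r < R n)
    (k : Fin p.n) : fb I p (g n) (N n) (Bs I p (g n) (N n) r) r k = F0 I p k + df I p g N k n r := by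
  have mN := (hL.cells n).m hr
  have e1 : I.eA p.A p.U = hv I p (N n) r + I.eA (p.A ∩ N n r) p.U := by
    have e2 : p.A = (p.A \ N n r) ∪ (p.A ∩ N n r) := by
      rw [Set.union_comm]; exact (Set.inter_union_sdiff _ _).symm
    have e3 : Disjoint (p.A \ N n r) (p.A ∩ N n r) :=
      Set.disjoint_left.mpr fun x hx hx' => hx.2 hx'.2
    have e4 : I.P p.A = I.P (p.A \ N n r) + I.P (p.A ∩ N n r) := by
      conv_lhs => rw [e2]
      exact I.P_union _ _ (h.mA.diff mN) (h.mA.inter mN) e3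
    rw [hv, eA, eA, eA, e4, add_apply]
  rw [fb, F0, df, e1, smul_add, smul_smul]
  have e5 : ((p.b k * τb I p (g n) (N n) (Bs I p (g n) (N n) r) r : ℝ) : ℂ) =
    (p.b k : ℂ) * ((τb I p (g n) (N n) (Bs I p (g n) (N n) r) r : ℝ) : ℂ) := by push_cast; rfl
  rw [e5]
  module

theorem Sm_df (h : Hyp I S L p) (hL : Lim I p l g R N) (k : Fin p.n) : Sm l R (df I p g N k) := by
  refine Sm.add (Sm.smul ?_ _) (hL.tq.smul _)
  refine hL.mass_mul 1 fun n r hr => ?_
  rw [one_mul]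
  refine (norm_eA_le (h.mA.inter ((hL.cells n).m hr)) h.PCU).trans ?_
  exact Real.sqrt_le_sqrt (measureReal_mono Set.inter_subset_right)

/-- the node generators converge -/
theorem CS_fb_csS (h : Hyp I S L p) (hL : Lim I p l g R N) (c : Fin p.n → ℝ) :
    CS I l p.Mn R N (fun n r => csS I c (fb I p (g n) (N n) (Bs I p (g n) (N n) r) r))
      (csS I c (F0 I p)) := by
  refine (CS_csS hL.pf c (F0 I p) (d := fun k => df I p g N k) fun k => Sm_df h hL k).congr
    fun n r hr => ?_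
  congr 1
  funext k
  exact (fb_eq h hL hr k).symm

theorem CS_fb_snS (h : Hyp I S L p) (hL : Lim I p l g R N) (c : Fin p.n → ℝ) :
    CS I l p.Mn R N (fun n r => snS I c (fb I p (g n) (N n) (Bs I p (g n) (N n) r) r))
      (snS I c (F0 I p)) := by
  refine (CS_snS hL.pf c (F0 I p) (d := fun k => df I p g N k) fun k => Sm_df h hL k).congr
    fun n r hr => ?_
  congr 1
  funext k
  exact (fb_eq h hL hr k).symm

/-- the node gates converge -/
theorem CS_Ob (h : Hyp I S L p) (hL : Lim I p l g R N) :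
    CS I l p.Mn R N (fun n r => (Ob I p (g n) (N n) r : H →L[ℂ] H))
      (eI (-p.t) (csS I (fun k => p.c k * p.b k) (F0 I p))) := by
  have h1 := CS_zW (I := I) hL.pf 0 hL.gy
  rw [zW_zero] at h1
  have h2 := CS_eI h.mMn hL.pf (CS_fb_csS h hL fun k => p.c k * p.b k)
    (fun n r hr => PC.csS _ _) (PC.csS _ _) (-p.t)
  have h3 := CS.mul h.mMn hL.pf h1 h2 (fun n r hr => PC.zW _) PC.one
  rw [one_mul] at h3
  refine h3.congr fun n r hr => ?_
  rw [zero_add]
  rfl

/-- the target kicks converge -/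
theorem tendsto_vs (h : Hyp I S L p) (hL : Lim I p l g R N) :
    Tendsto (fun n => vs I p (g n) (N n) (Finset.range (R n))) l (𝓝 (v0 I p)) := by
  have h1 := (CS_fb_snS h hL fun k => p.c k * p.a k * p.b k).lim_apply
    ((p.U : H →L[ℂ] H) I.Om)
  have h2 := ((star (p.U : H →L[ℂ] H)).continuous.tendsto _).comp h1
  have h3 := h2.const_smul (-(p.t : ℂ))
  have e1 : (-(p.t : ℂ)) • (star (p.U : H →L[ℂ] H)) (I.P p.Mn
      (snS I (fun k => p.c k * p.a k * p.b k) (F0 I p) ((p.U : H →L[ℂ] H) I.Om))) = v0 I p := by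
    rw [v0, pV, ← mul_apply_eq_comp (star (p.U : H →L[ℂ] H)), ← (h.PCU.star p.Mn h.mMn).eq,
      mul_apply_eq_comp]
  rw [e1] at h3
  refine h3.congr fun n => ?_
  show (-(p.t : ℂ)) • (star (p.U : H →L[ℂ] H)) (∑ r ∈ Finset.range (R n), _) = _
  rw [map_sum, Finset.smul_sum, vs]
  refine Finset.sum_congr rfl fun r hr => ?_
  rw [av, pV, ← mul_apply_eq_comp (star (p.U : H →L[ℂ] H)),
    ← (h.PCU.star _ ((hL.cells n).m (Finset.mem_range.mp hr))).eq, mul_apply_eq_comp]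

theorem norm_av_le (h : Hyp I S L p) (hL : Lim I p l g R N) {n : α} {r : ℕ} (hr : r < R n) :
    ‖av I p (g n) (N n) r‖ ≤ (|p.t| * ∑ k, |p.c k * p.a k * p.b k|) * √(I.μ.real (N n r)) := by
  rw [av, norm_smul, norm_neg, Complex.norm_real, Real.norm_eq_abs, mul_assoc]
  refine mul_le_mul_of_nonneg_left ?_ (abs_nonneg _)
  refine (norm_pV_le ((hL.cells n).m hr) h.PCU (PC.snS _ _)).trans ?_
  exact mul_le_mul_of_nonneg_right (norm_snS_le _ _) (Real.sqrt_nonneg _)

/-- the target factors converge, cell by cell -/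
theorem CS_target (h : Hyp I S L p) (hL : Lim I p l g R N) :
    CS I l p.Mn R N (fun n r => I.blk p.A (I.zW (vs I p (g n) (N n) ((Finset.range (R n)).erase r))))
      (I.blk p.A (I.zW (v0 I p))) := by
  have h1 : Sm l R fun n r => (vs I p (g n) (N n) (Finset.range (R n)) - v0 I p) -
      av I p (g n) (N n) r :=
    (Sm.of_tendsto (tendsto_vs h hL)).sub (hL.mass_mul _ fun n r hr => norm_av_le h hL hr)
  refine (CS_blk_zW h.mMn hL.pf h.mA (v0 I p) h1).congr fun n r hr => ?_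
  have e1 : v0 I p + ((vs I p (g n) (N n) (Finset.range (R n)) - v0 I p) -
      av I p (g n) (N n) r) = vs I p (g n) (N n) ((Finset.range (R n)).erase r) := by
    rw [vs, vs, ← Finset.sum_erase_add _ _ (Finset.mem_range.mpr hr)]
    abel
  rw [e1]

/-- the limit state -/
def V0 (I : ILSys Λ H) (p : Par Λ H) : H →L[ℂ] H :=
  I.blk p.Mn (eI (-p.t) (csS I (fun k => p.c k * p.b k) (F0 I p))) *
    (I.blk p.A (I.zW (v0 I p)) * (p.U : H →L[ℂ] H))

/-- **convergence of the states** -/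
theorem BS_state (h : Hyp I S L p) (hL : Lim I p l g R N) {V : α → UH H}
    (hV : ∀ n, Str I p (g n) (N n) (R n) (R n) (V n)) :
    BS l (fun n => (V n : H →L[ℂ] H)) (V0 I p) := by
  -- the three parts
  have hM : BS l (fun n => I.P p.M * (Bs I p (g n) (N n) (R n) : H →L[ℂ] H)) (I.P p.M * 1) :=
    (BS.const _).mul (BS.of_U hL.bath)
  have hN : CS I l p.Mn R N (fun n r => (Ob I p (g n) (N n) r : H →L[ℂ] H) *
      (I.blk p.A (I.zW (vs I p (g n) (N n) ((Finset.range (R n)).erase r))) *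
        (p.U : H →L[ℂ] H)))
      (eI (-p.t) (csS I (fun k => p.c k * p.b k) (F0 I p)) *
        (I.blk p.A (I.zW (v0 I p)) * (p.U : H →L[ℂ] H))) :=
    CS.mul h.mMn hL.pf (CS_Ob h hL) ((CS_target h hL).mul_right _) (fun n r hr => PC_Ob r)
      (PC.eI (PC.csS _ _))
  have hC : BS l (fun n => I.P (p.M ∪ p.Mn)ᶜ *
      (I.blk p.A (I.zW (vs I p (g n) (N n) (Finset.range (R n)))) * (p.U : H →L[ℂ] H)))
      (I.P (p.M ∪ p.Mn)ᶜ * (I.blk p.A (I.zW (v0 I p)) * (p.U : H →L[ℂ] H))) := by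
    refine (BS.const _).mul (BS.mul ?_ (BS.const _))
    exact (BS.const _).add ((BS.const _).mul (BS_zW (tendsto_vs h hL)))
  have hsum := (hM.add hN).add hC
  -- the limit
  have e1 : I.P p.M * V0 I p = I.P p.M * 1 := by
    rw [V0, ← mul_assoc, P_blk_disj h.mMn h.mM h.dMn.symm, ← mul_assoc,
      P_blk_disj h.mA h.mM h.dA.symm, ← (h.PCU _ h.mM).eq.symm, h.UM, mul_one]
  have e2 : I.P p.Mn * V0 I p = I.P p.Mn * (eI (-p.t) (csS I (fun k => p.c k * p.b k) (F0 I p)) *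
        (I.blk p.A (I.zW (v0 I p)) * (p.U : H →L[ℂ] H))) := by
    rw [V0, ← mul_assoc, P_blk h.mMn h.mMn subset_rfl, mul_assoc]
  have e3 : I.P (p.M ∪ p.Mn)ᶜ * V0 I p =
      I.P (p.M ∪ p.Mn)ᶜ * (I.blk p.A (I.zW (v0 I p)) * (p.U : H →L[ℂ] H)) := by
    rw [V0, ← mul_assoc, P_blk_disj h.mMn (Cells.mC h)
      (Set.disjoint_left.mpr fun x hx hx' => hx (Or.inr hx'))]
  have e4 : V0 I p = I.P p.M * 1 + I.P p.Mn *
      (eI (-p.t) (csS I (fun k => p.c k * p.b k) (F0 I p)) *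
        (I.blk p.A (I.zW (v0 I p)) * (p.U : H →L[ℂ] H))) +
      I.P (p.M ∪ p.Mn)ᶜ * (I.blk p.A (I.zW (v0 I p)) * (p.U : H →L[ℂ] H)) := by
    rw [← e1, ← e2, ← e3, ← add_mul, ← add_mul, ← I.P_union _ _ h.mM h.mMn h.dMn.symm, add_comm,
      P_compl_add (h.mM.union h.mMn), one_mul]
  rw [e4]
  refine hsum.congr (Eventually.of_forall fun n => ?_)
  have hc := hL.cells n
  have f1 : (V n : H →L[ℂ] H) = (I.P p.M + ∑ s ∈ Finset.range (R n), I.P (N n s) +
      I.P (p.M ∪ p.Mn)ᶜ) * (V n : H →L[ℂ] H) := by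
    rw [← P_decomp h hc, one_mul]
  rw [f1, add_mul, add_mul, (hV n).sM, (hV n).sC, Finset.sum_mul]
  congr 2
  show ∑ s ∈ Finset.range (R n), I.P (N n s) * ((Ob I p (g n) (N n) s : H →L[ℂ] H) *
      (I.blk p.A (I.zW (vs I p (g n) (N n) ((Finset.range (R n)).erase s))) *
        (p.U : H →L[ℂ] H))) = ∑ s ∈ Finset.range (R n), I.P (N n s) * (V n : H →L[ℂ] H)
  refine Finset.sum_congr rfl fun s hs => ?_
  have hs' := Finset.mem_range.mp hs
  rw [(hV n).sN s hs', if_pos hs']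

theorem good_of_lim [l.NeBot] (h : Hyp I S L p) (hL : Lim I p l g R N) {V : α → UH H}
    (hV : ∀ n, Str I p (g n) (N n) (R n) (R n) (V n)) (hG : ∀ n, I.Good S L cc (V n))
    {W : UH H} (hW : (W : H →L[ℂ] H) = V0 I p) : I.Good S L cc W := by
  refine Good.of_tendsto (l := l) (Eventually.of_forall hG) fun x => ?_
  rw [hW]
  exact (BS_state h hL hV).lim x

end

end Crest.Agent.R339.Cell
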