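import Crest.Agent.R339.Cell373

/-!
# Choice of the cells and limit of the bath (R339, label induction, block G3)
-/

set_option autoImplicit false
set_option linter.unusedSectionVars false
set_option linter.unusedVariables false

noncomputable section

open scoped InnerProductSpace Topology ComplexConjugate
open Filter MeasureTheory

namespace Crest.Agent.R339.Cell

open Crest.Agent.R339.Li Crest.Agent.R339.Li.ILSys Crest.Agent.R339.MF Crest.Agent.R339.Cel

variable {Λ H : Type*} [MeasurableSpace Λ] [NormedAddCommGroup H] [InnerProductSpace ℂ H]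
  [CompleteSpace H] {I : ILSys Λ H} {S : Set Λ} {L : Set H} {p : Par Λ H}

/-- data of the approximating recursions -/
structure Seq (I : ILSys Λ H) (p : Par Λ H) (R : ℕ → ℕ) (g m : ℕ → ℝ) (N : ℕ → ℕ → Set Λ) :
    Prop where
  gpos : ∀ n, 0 < g n
  cells : ∀ n, Cells I p (R n) (N n)
  mass : ∀ n, ∀ r < R n, Real.sqrt (I.μ.real (N n r)) ≤ m n
  m_lim : Tendsto m atTop (𝓝 0)
  g_lim : Tendsto g atTop atTop
  gm_lim : Tendsto (fun n => g n * m n) atTop (𝓝 0)
  Rm_lim : Tendsto (fun n => (R n : ℝ) * (m n / g n ^ 2)) atTop (𝓝 0)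

theorem exists_seq (h : Hyp I S L p) : ∃ (R : ℕ → ℕ) (g m : ℕ → ℝ) (N : ℕ → ℕ → Set Λ),
    Seq I p R g m N := by
  obtain ⟨C, hC⟩ := I.Cl_div
  have hR : ∀ n : ℕ, 0 < (n + 1) ^ 6 := fun n => by positivity
  choose N hcl hdisj hU hmass using fun n : ℕ => hC ((n + 1) ^ 6) (hR n)
  have hn : ∀ n : ℕ, (0 : ℝ) < (n : ℝ) + 1 := fun n => by positivity
  have hlim1 : Tendsto (fun n : ℕ => (1 : ℝ) / ((n : ℝ) + 1)) atTop (𝓝 0) :=
    tendsto_one_div_add_atTop_nhds_zero_nat
  have hlim : ∀ c : ℝ, Tendsto (fun n : ℕ => c * (1 / ((n : ℝ) + 1))) atTop (𝓝 0) := fun c => by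
    simpa using hlim1.const_mul c
  refine ⟨fun n => (n + 1) ^ 6, fun n => ((n : ℝ) + 1) ^ 2,
    fun n => Real.sqrt |C| / ((n : ℝ) + 1) ^ 3, fun n r => N n r ∩ p.Mn, ?_, ?_, ?_, ?_, ?_, ?_, ?_⟩
  · intro n
    have := hn n
    positivity
  · intro n
    refine ⟨⟨fun r _ => (I.Cl_meas _ (hcl n r)).inter h.mMn, fun r _ s _ hrs => ?_, ?_⟩,
      fun r _ => I.Cl_inter _ _ (hcl n r) h.clMn⟩
    · exact ((hdisj n hrs).mono Set.inter_subset_left Set.inter_subset_left)
    · have e1 : ⋃ r ∈ Finset.range ((n + 1) ^ 6), N n r ∩ p.Mn =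
          (⋃ r < (n + 1) ^ 6, N n r) ∩ p.Mn := by
        ext x
        simp only [Finset.mem_range, Set.mem_iUnion, Set.mem_inter_iff, exists_prop]
        constructor
        · rintro ⟨r, hr, h1, h2⟩
          exact ⟨⟨r, hr, h1⟩, h2⟩
        · rintro ⟨⟨r, hr, h1⟩, h2⟩
          exact ⟨r, hr, h1, h2⟩
      rw [e1, hU n, Set.univ_inter]
  · intro n r _
    have h1 : I.μ.real (N n r ∩ p.Mn) ≤ |C| / (((n : ℝ) + 1) ^ 3) ^ 2 := by
      refine (measureReal_mono Set.inter_subset_left).trans ((hmass n r).trans ?_)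
      have e1 : (((n + 1) ^ 6 : ℕ) : ℝ) = (((n : ℝ) + 1) ^ 3) ^ 2 := by
        push_cast
        ring
      rw [e1]
      have := hn n
      exact div_le_div_of_nonneg_right (le_abs_self C) (by positivity)
    have h2 := Real.sqrt_le_sqrt h1
    have h3 : 0 ≤ ((n : ℝ) + 1) ^ 3 := by
      have := hn n
      positivity
    rwa [Real.sqrt_div (abs_nonneg _), Real.sqrt_sq h3] at h2
  · refine squeeze_zero (fun n => ?_) (fun n => ?_) (hlim (Real.sqrt |C|))
    · have := hn n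
      positivity
    · have h1 := hn n
      rw [mul_one_div]
      refine div_le_div_of_nonneg_left (Real.sqrt_nonneg _) h1 ?_
      have h2 : (1 : ℝ) ≤ (n : ℝ) + 1 := by
        have : (0 : ℝ) ≤ n := Nat.cast_nonneg n
        linarith
      exact le_self_pow₀ h2 (by norm_num)
  · have h1 : Tendsto (fun n : ℕ => (n : ℝ) + 1) atTop atTop :=
      tendsto_atTop_add_const_right _ _ tendsto_natCast_atTop_atTop
    exact (tendsto_pow_atTop two_ne_zero).comp h1
  · refine (hlim (Real.sqrt |C|)).congr fun n => ?_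
    have h1 := hn n
    field_simp
  · refine (hlim (Real.sqrt |C|)).congr fun n => ?_
    have h1 := hn n
    push_cast
    field_simp

section

variable {R : ℕ → ℕ} {g m : ℕ → ℝ} {N : ℕ → ℕ → Set Λ}

theorem Seq.small (h : Hyp I S L p) (hs : Seq I p R g m N) :
    ∀ᶠ n in atTop, 4 * g n * m n + 8 * R n * (kap I p * m n / g n ^ 2) ≤ I.μ.real p.M / 2 := by
  have h1 : Tendsto (fun n => 4 * (g n * m n) + 8 * kap I p * ((R n : ℝ) * (m n / g n ^ 2)))
      atTop (𝓝 (4 * 0 + 8 * kap I p * 0)) :=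
    (hs.gm_lim.const_mul 4).add (hs.Rm_lim.const_mul _)
  rw [mul_zero, mul_zero, add_zero] at h1
  have h2 : 0 < I.μ.real p.M / 2 := half_pos h.pos
  filter_upwards [h1.eventually_lt_const h2] with n hn
  refine le_of_eq_of_le ?_ hn.le
  ring

/-- all the bath estimates hold eventually -/
theorem Seq.bath (h : Hyp I S L p) (hs : Seq I p R g m N) : ∀ᶠ n in atTop, ∀ r < R n,
    I.μ.real p.M / 2 ≤ Jb I p (g n) (N n) (Bs I p (g n) (N n) r) r ∧
      |τb I p (g n) (N n) (Bs I p (g n) (N n) r) r| ≤ Real.pi / (2 * I.μ.real p.M) / g n ∧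
      ‖ζb I p (g n) (N n) (Bs I p (g n) (N n) r) r‖ ≤ kap I p * m n / g n ^ 2 ∧
      ‖yb I p (Bs I p (g n) (N n) r) - y2b I p (g n) (N n) (Bs I p (g n) (N n) r) r‖ ≤
        4 * (kap I p * m n / g n ^ 2) := by
  filter_upwards [hs.small h] with n hn
  exact bath_est h (hs.cells n) (hs.gpos n) (hs.mass n) hn

theorem Seq.m_nonneg (hs : Seq I p R g m N) {n : ℕ} (hR : 0 < R n) : 0 ≤ m n :=
  (Real.sqrt_nonneg _).trans (hs.mass n 0 hR)

/-- the norm of the shift of the node gates tends to zero -/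
theorem Seq.shift_lim (h : Hyp I S L p) (hs : Seq I p R g m N) :
    Tendsto (fun n => g n * (4 * (kap I p * m n / g n ^ 2))) atTop (𝓝 0) := by
  have h1 : Tendsto (fun n => 4 * kap I p * (m n * (g n)⁻¹)) atTop (𝓝 (4 * kap I p * (0 * 0))) :=
    (hs.m_lim.mul hs.g_lim.inv_tendsto_atTop).const_mul _
  rw [mul_zero, mul_zero] at h1
  refine h1.congr fun n => ?_
  have := hs.gpos n
  field_simp

theorem Seq.τ_lim (h : Hyp I S L p) (hs : Seq I p R g m N) :
    Tendsto (fun n => Real.pi / (2 * I.μ.real p.M) / g n) atTop (𝓝 0) :=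
  hs.g_lim.const_div_atTop _

theorem norm_W_sub_le_of_nice {x : H} {C : ℝ} (hC0 : 0 ≤ C)
    (hC : ∀ A : Set Λ, MeasurableSet A → ∀ d : H,
      ‖I.W d (I.P A x) - I.P A x‖ ^ 2 ≤ C * ‖d‖ ^ 2 * I.μ.real A) (d : H) :
    ‖I.W d x - x‖ ≤ Real.sqrt C * ‖d‖ := by
  have h1 := hC Set.univ MeasurableSet.univ d
  rw [I.P_univ, one_apply_eq_self] at h1
  have h2 : I.μ.real Set.univ ≤ 1 := measureReal_le_one
  have h3 : ‖I.W d x - x‖ ^ 2 ≤ (Real.sqrt C * ‖d‖) ^ 2 := by
    rw [mul_pow, Real.sq_sqrt hC0]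
    refine h1.trans ?_
    calc C * ‖d‖ ^ 2 * I.μ.real Set.univ ≤ C * ‖d‖ ^ 2 * 1 :=
          mul_le_mul_of_nonneg_left h2 (by positivity)
      _ = _ := mul_one _
  exact (pow_le_pow_iff_left₀ (norm_nonneg _) (by positivity) two_ne_zero).mp h3

/-- **the bath returns to its initial state** -/
theorem Seq.Bs_lim (h : Hyp I S L p) (hs : Seq I p R g m N) :
    BS atTop (fun n => ((Bs I p (g n) (N n) (R n) : UH H) : H →L[ℂ] H)) 1 := by
  refine ⟨⟨1, Eventually.of_forall fun n =>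
    ContinuousLinearMap.opNorm_le_bound _ zero_le_one fun x => by rw [norm_U_apply, one_mul]⟩,
    fun x => ?_⟩
  rw [Metric.tendsto_nhds]
  intro ε hε
  obtain ⟨y, ⟨C, hC0, hC⟩, hxy⟩ := exists_nice_near I x (ε := ε / 3) (by positivity)
  have h1 : Tendsto (fun n => 2 * (Real.sqrt C * kap I p) * ((R n : ℝ) * (m n / g n ^ 2)))
      atTop (𝓝 (2 * (Real.sqrt C * kap I p) * 0)) := hs.Rm_lim.const_mul _
  rw [mul_zero] at h1
  have h2 : (0 : ℝ) < ε / 3 := by positivity
  filter_upwards [h1.eventually_lt_const h2, hs.bath h] with n hn hb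
  set T : UH H := Bs I p (g n) (N n) (R n) with hT
  have h3 : ‖(T : H →L[ℂ] H) y - y‖ < ε / 3 := by
    refine lt_of_le_of_lt (norm_Bs_sub_le h (hs.cells n) le_rfl y) (lt_of_le_of_lt ?_ hn)
    calc 2 * ∑ s ∈ Finset.range (R n), ‖I.W (ζb I p (g n) (N n) (Bs I p (g n) (N n) s) s) y - y‖
        ≤ 2 * ∑ s ∈ Finset.range (R n), Real.sqrt C * (kap I p * m n / g n ^ 2) := by
          refine mul_le_mul_of_nonneg_left (Finset.sum_le_sum fun s hs' => ?_) zero_le_two
          exact (norm_W_sub_le_of_nice hC0 hC _).trans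
            (mul_le_mul_of_nonneg_left (hb s (Finset.mem_range.mp hs')).2.2.1
              (Real.sqrt_nonneg _))
      _ = 2 * (Real.sqrt C * kap I p) * ((R n : ℝ) * (m n / g n ^ 2)) := by
          rw [Finset.sum_const, Finset.card_range, nsmul_eq_mul]
          ring
  have h4 : (T : H →L[ℂ] H) x - (1 : H →L[ℂ] H) x =
      (T : H →L[ℂ] H) (x - y) + ((T : H →L[ℂ] H) y - y) + (y - x) := by
    rw [map_sub, one_apply_eq_self]
    abel
  rw [dist_eq_norm, h4]
  have h5 : ‖(T : H →L[ℂ] H) (x - y)‖ < ε / 3 := by rwa [norm_U_apply]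
  have h6 : ‖y - x‖ < ε / 3 := by rwa [norm_sub_rev]
  calc ‖(T : H →L[ℂ] H) (x - y) + ((T : H →L[ℂ] H) y - y) + (y - x)‖
      ≤ ‖(T : H →L[ℂ] H) (x - y)‖ + ‖(T : H →L[ℂ] H) y - y‖ + ‖y - x‖ := norm_add₃_le
    _ < ε := by linarith

end

end Crest.Agent.R339.Cell
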