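import Mathlib
import Crest.Agent.R339.Cell220I
import Crest.Agent.R339.Cell373B

/-!
# (G3): the cell limit (R339, label induction)
-/

set_option autoImplicit false
set_option linter.unusedSectionVars false
set_option linter.unusedVariables false

noncomputable section

open scoped InnerProductSpace Topology ComplexConjugate
open Filter MeasureTheory

namespace Crest.Agent.R339.Cell

open Crest.Agent.R339.Li Crest.Agent.R339.Li.ILSys Crest.Agent.R339.MF Crest.Agent.R339.Cel

variable {Λ H : Type*} [MeasurableSpace Λ] [NormedAddCommGroup H] [InnerProductSpace ℂ H]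
  [CompleteSpace H] {I : ILSys Λ H} {S : Set Λ} {L : Set H} {cc : ℝ} {p : Par Λ H}

theorem cells_of_data (hmft : Mft I S L cc) (h : Hyp I S L p) (hG : I.Good S L cc p.U)
    {R : ℕ → ℕ} {g m : ℕ → ℝ} {N : ℕ → ℕ → Set Λ} (hg : ∀ n, 0 < g n)
    (hN : ∀ n, Cells I p (R n) (N n)) (hm : ∀ n, ∀ r < R n, √(I.μ.real (N n r)) ≤ m n)
    (hm0 : Tendsto m atTop (𝓝 0)) (hg0 : Tendsto g atTop atTop)
    (hsmall : ∀ n, 4 * g n * m n + 8 * R n * (kap I p * m n / g n ^ 2) ≤ I.μ.real p.M / 2)
    (hbath : ∀ x, Tendsto (fun n => (Bs I p (g n) (N n) (R n) : H →L[ℂ] H) x) atTop (𝓝 x))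
    {V : UH H} (hV : (V : H →L[ℂ] H) = V0 I p) : I.Good S L cc V := by
  have est := fun n => bath_est h (hN n) (hg n) (hm n) (hsmall n)
  have hinv : Tendsto (fun n => (g n)⁻¹) atTop (𝓝 0) := tendsto_inv_atTop_zero.comp hg0
  have hL : Lim I p atTop g R N := by
    refine ⟨hN, ⟨m, hm0, hm⟩, ?_, ?_, hbath⟩
    · refine Sm.of_norm_le (δ := fun n => Real.pi / (2 * I.μ.real p.M) * (g n)⁻¹) ?_ ?_
      · simpa using hinv.const_mul (Real.pi / (2 * I.μ.real p.M))
      · intro n r hr
        obtain ⟨_, h2, _, _⟩ := est n r hr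
        rw [norm_smul, Complex.norm_real, Real.norm_eq_abs]
        calc |τb I p (g n) (N n) (Bs I p (g n) (N n) r) r| *
              ‖qb I p (g n) (N n) (Bs I p (g n) (N n) r) r‖
            ≤ (Real.pi / (2 * I.μ.real p.M) / g n) * 1 :=
              mul_le_mul h2 (norm_qb h (PC_Bs r) r) (norm_nonneg _) ((abs_nonneg _).trans h2)
          _ = Real.pi / (2 * I.μ.real p.M) * (g n)⁻¹ := by rw [mul_one, div_eq_mul_inv]
    · refine Sm.of_norm_le (δ := fun n => 4 * kap I p * m n * (g n)⁻¹) ?_ ?_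
      · simpa using (hm0.const_mul (4 * kap I p)).mul hinv
      · intro n r hr
        obtain ⟨_, _, _, h4⟩ := est n r hr
        rw [norm_smul, Complex.norm_real, Real.norm_eq_abs, abs_of_pos (hg n)]
        calc g n * ‖yb I p (Bs I p (g n) (N n) r) - y2b I p (g n) (N n) (Bs I p (g n) (N n) r) r‖
            ≤ g n * (4 * (kap I p * m n / g n ^ 2)) := mul_le_mul_of_nonneg_left h4 (hg n).le
          _ = 4 * kap I p * m n * (g n)⁻¹ := by
              have := (hg n).ne'
              field_simp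
  have hst : ∀ n, ∃ V : UH H, Str I p (g n) (N n) (R n) (R n) V ∧ I.Good S L cc V := by
    intro n
    refine exists_state hmft h (hN n) (hg n).ne' (fun r hr => ?_) hG (R n) le_rfl
    obtain ⟨h1, _, _, _⟩ := est n r hr
    have := h.pos
    exact ne_of_gt (lt_of_lt_of_le (by positivity) h1)
  choose W hW hWG using hst
  exact good_of_lim h hL hW hWG hV

/-- **(G3)**: the limit of the cell words -/
theorem cells (hmft : Mft I S L cc) (h : Hyp I S L p) (hG : I.Good S L cc p.U) (V : UH H)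
    (hV : (V : H →L[ℂ] H) = I.blk p.Mn (eI (-p.t) (csS I (fun k => p.c k * p.b k)
        (fun k => (p.a k : ℂ) • I.eA p.A p.U + p.u k))) *
      (I.blk p.A (I.zW ((-(p.t : ℂ)) • pV I p.Mn p.U (snS I (fun k => p.c k * p.a k * p.b k)
        (fun k => (p.a k : ℂ) • I.eA p.A p.U + p.u k)))) * (p.U : H →L[ℂ] H))) :
    I.Good S L cc V := by
  obtain ⟨R, g, m, N, hs⟩ := exists_seq (I := I) h
  obtain ⟨n₀, hn₀⟩ := eventually_atTop.mp (hs.small h)
  have hsh : Tendsto (fun n : ℕ => n + n₀) atTop atTop := tendsto_add_atTop_nat n₀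
  exact cells_of_data hmft h hG (R := fun n => R (n + n₀)) (g := fun n => g (n + n₀))
    (m := fun n => m (n + n₀)) (N := fun n => N (n + n₀)) (fun n => hs.gpos _)
    (fun n => hs.cells _) (fun n => hs.mass _) (hs.m_lim.comp hsh) (hs.g_lim.comp hsh)
    (fun n => hn₀ _ (Nat.le_add_left _ _)) (fun x => ((hs.Bs_lim h).lim x).comp hsh) hV

end Crest.Agent.R339.Cell
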