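import Crest.Agent.R339.MF569D
import Crest.Agent.R339.Cel90E

/-!
# R339, block LI (G1): the hypothesis `Mft` of helper90's cell theorem holds (helper569)
-/

set_option autoImplicit false
set_option linter.style.haveILetI false

noncomputable section

open scoped ComplexConjugate InnerProductSpace Topology
open Filter MeasureTheory NormedSpace

namespace Crest.Agent.R339.Cel

open Crest.Agent.R339.Li Crest.Agent.R339.Li.ILSys Crest.Agent.R339.MF

variable {Λ H : Type*} [MeasurableSpace Λ] [NormedAddCommGroup H] [InnerProductSpace ℂ H]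
  [CompleteSpace H]

theorem mft_holds (I : ILSys Λ H) (S : Set Λ) (L : Set H) (cc : ℝ) : Mft I S L cc := by
  intro N A M hN hA hM hNS hAS hMS hNA hNM hAM U hU n c a b l f hl hr hf hG t w hw hwe
  have hR : Rl L (I.eA A U) (I.eA M U) := by
    refine ⟨fun x hx y hy => hr x ?_ y ?_, hr _ ?_ _ ?_, fun x hx => hr _ ?_ _ ?_,
      fun x hx => hr _ ?_ _ ?_⟩ <;> simp_all
  have hf' : f = fun k => (a k : ℂ) • I.eA A U + (b k : ℂ) • I.eA M U + l k := funext hf
  have hE : (w : H →L[ℂ] H) = exp ((Complex.I * (t : ℂ)) • (I.Z * ∑ k, (c k : ℂ) •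
      I.sW ((a k : ℂ) • I.eA A U + (b k : ℂ) • I.eA M U + l k))) := by
    rw [hwe, eI, snS, hf']
    congr 2
    push_cast
    ring
  have := mft hN hA hM hNS hAS hMS hNA hNM hAM hU hR c a b l hl t w hw hE hG
  subst hf'
  exact this

/-- helper90's cell theorem without hypothesis on the function gates -/
theorem cell' {I : ILSys Λ H} {S : Set Λ} {L : Set H} {cc : ℝ} {N B M : Set Λ}
    (hN : I.Cl N) (hB : I.Cl B) (hM : I.Cl M) (hNS : N ⊆ S)
    (hBS : B ⊆ S) (hMS : M ⊆ S) (hNB : Disjoint N B) (hNM : Disjoint N M) (hBM : Disjoint B M)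
    {V : UH H} (hV : PC I (V : H →L[ℂ] H)) (hL : RealSet L) (hLM : ∀ l ∈ L, I.P M l = 0)
    (hLh : ∀ l ∈ L, (⟪l, I.eA B V⟫_ℂ).im = 0) (g t τ : ℝ)
    {n : ℕ} (c a b : Fin n → ℝ) (hb : ∀ k, b k = 1 ∨ b k = -1) (u f : Fin n → H)
    (hu : ∀ k, u k ∈ Submodule.span ℝ L) {z h y q ζ y2 : H} (hz : z = I.eA N V)
    (hh : h = I.eA B V) (hy : y = pV I M V I.Y) (hq : q = I.eA M (yWU I ((g : ℂ) • z) * V))
    (hτ : 4 * g * τ * (⟪y, q⟫_ℂ).im = Real.pi)
    (hf : ∀ k, f k = (a k : ℂ) • h + ((b k * τ : ℝ) : ℂ) • q + u k)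
    (hζ : ζ = ((-(t * τ) : ℝ) : ℂ) • pV I N V (snS I c f))
    (hy2 : y2 = pV I M (zWU I ζ * (yWU I ((g : ℂ) • z) * V)) I.Y)
    (w : UH H) (hw : PC I (w : H →L[ℂ] H))
    (hwe : (w : H →L[ℂ] H) =
      I.zW ((g : ℂ) • (y - y2)) * eI (-t) (csS I (fun k => c k * b k) f))
    (K : UH H) (hK : PC I (K : H →L[ℂ] H))
    (hKe : (K : H →L[ℂ] H) = yW I (-((g : ℂ) • z)) * (I.zW ζ * yW I ((g : ℂ) • z)))
    (hG : I.Good S L cc V) :
    I.Good S L cc (nd I (I.Cl_meas N hN) w hw * (I.cst (I.Cl_meas B hB)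
      ((-(t : ℂ)) • pV I N V (snS I (fun k => c k * a k * b k) f)) *
        (nd I (I.Cl_meas M hM) K hK * V))) :=
  cell (mft_holds I S L cc) hN hB hM hNS hBS hMS hNB hNM hBM hV hL hLM hLh g t τ c a b hb u f hu
    hz hh hy hq hτ hf hζ hy2 w hw hwe K hK hKe hG

end Crest.Agent.R339.Cel
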