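import Crest.Agent.R339.C2All716
import Crest.Agent.R339.Cell220J
import Crest.Agent.R339.Ant575H
import Crest.Agent.R339.MF569E

/-!
# Row 339: `Asm.QBound`, unconditionally
-/

set_option autoImplicit false

noncomputable section

namespace Crest.Agent.R339.C2

open Crest.Agent.R339.Site Crest.Agent.R339.Lab Crest.Agent.R339.LF
open Crest.Agent.R339.Li Crest.Agent.R339.MF

theorem limStmt (io : SL Kst ≃ₗᵢ[ℂ] Kst) (c : ℝ) : Gad.LimStmt (IL io) c :=
  fun S L _ h hG V hV => Cell.cells (Cel.mft_holds (IL io) S L c) h hG V hV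

/-- **the quantum half of row 339** -/
theorem qBound : Asm.QBound := qbound_of_cells limStmt Ant.antStmt_holds

end Crest.Agent.R339.C2
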