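import Mathlib

/-!
# R339, gadget block (helper233), part A: the abstract labelled site

`ILS S L` : a Hilbert space `S` carrying Pauli matrices `Z`, `X`, Weyl operators `W f` indexed by
`S` itself (`W f = exp (i φ(ι f))`), label projections `P A` (`A : Set L` measurable), a vacuum `Om`.
-/

set_option autoImplicit false

noncomputable section

open scoped InnerProductSpace ComplexConjugate Topology
open Filter

namespace Crest.Agent.R339.Gad

/-- The abstract labelled site. -/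
structure ILS (S : Type*) [NormedAddCommGroup S] [InnerProductSpace ℂ S] [CompleteSpace S]
    (L : Type*) [MeasurableSpace L] where
  Z : S →L[ℂ] S
  X : S →L[ℂ] S
  W : S → S →L[ℂ] S
  P : Set L → S →L[ℂ] S
  Om : S
  star_Z : star Z = Z
  star_X : star X = X
  Z_Z : Z * Z = 1
  X_X : X * X = 1
  Z_X : Z * X = -(X * Z)
  X_Om : X Om = Om
  norm_Om : ‖Om‖ = 1
  star_P : ∀ A, MeasurableSet A → star (P A) = P A
  P_mul : ∀ A B, MeasurableSet A → MeasurableSet B → P A * P B = P (A ∩ B)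
  P_univ : P Set.univ = 1
  P_union : ∀ A B, MeasurableSet A → MeasurableSet B → Disjoint A B → P (A ∪ B) = P A + P B
  W_mul : ∀ f g, W f * W g = Complex.exp (-(Complex.I * ((⟪f, g⟫_ℂ).im : ℂ))) • W (f + g)
  W_zero : W 0 = 1
  star_W : ∀ f, star (W f) = W (-f)
  W_cont : ∀ v, Continuous fun f => W f v
  W_Z : ∀ f, W f * Z = Z * W f
  W_X : ∀ f, W f * X = X * W f
  W_P : ∀ f A, MeasurableSet A → W f * P A = P A * W f
  P_Z : ∀ A, MeasurableSet A → P A * Z = Z * P A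
  P_X : ∀ A, MeasurableSet A → P A * X = X * P A
  vac : ∀ A f, MeasurableSet A →
    ⟪Om, P A (W f Om)⟫_ℂ = ((‖P A Om‖ ^ 2 * Real.exp (-‖f‖ ^ 2 / 2) : ℝ) : ℂ)
  total : Submodule.topologicalClosure (Submodule.span ℂ
    {v | ∃ A g, MeasurableSet A ∧ (v = P A (W g Om) ∨ v = P A (Z (W g Om)))}) = ⊤
  cells : ∃ C : ℝ, ∀ R : ℕ, 0 < R → ∃ N : Fin R → Set L, (∀ r, MeasurableSet (N r)) ∧
    (Pairwise fun r s => Disjoint (N r) (N s)) ∧ (⋃ r, N r) = Set.univ ∧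
    ∀ r, ‖P (N r) Om‖ ^ 2 ≤ C / R

variable {S : Type*} [NormedAddCommGroup S] [InnerProductSpace ℂ S] [CompleteSpace S]
  {L : Type*} [MeasurableSpace L] (𝓢 : ILS S L)

/-! ### elementary facts -/

/-- unitarity, predicate form -/
structure Uni (U : S →L[ℂ] S) : Prop where
  left : star U * U = 1
  right : U * star U = 1

/-- configurations: unitaries commuting with the labels -/
structure Cfg (U : S →L[ℂ] S) : Prop extends Uni U where
  comm : ∀ A, MeasurableSet A → U * 𝓢.P A = 𝓢.P A * U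

lemma Uni.norm_apply {U : S →L[ℂ] S} (h : Uni U) (v : S) : ‖U v‖ = ‖v‖ := by
  have h2 : ⟪U v, U v⟫_ℂ = ⟪v, v⟫_ℂ := by
    rw [← ContinuousLinearMap.adjoint_inner_left, ← ContinuousLinearMap.star_eq_adjoint]
    have : star U (U v) = (star U * U) v := rfl
    rw [this, h.left]; rfl
  rw [@norm_eq_sqrt_re_inner ℂ, h2, ← @norm_eq_sqrt_re_inner ℂ]

lemma Uni.adj {U : S →L[ℂ] S} (h : Uni U) : Uni (star U) :=
  ⟨by rw [star_star]; exact h.right, by rw [star_star]; exact h.left⟩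

lemma Uni.mul {U V : S →L[ℂ] S} (hU : Uni U) (hV : Uni V) : Uni (U * V) := by
  constructor
  · rw [star_mul]
    calc star V * star U * (U * V) = star V * (star U * U) * V := by noncomm_ring
      _ = 1 := by rw [hU.left, mul_one, hV.left]
  · rw [star_mul]
    calc U * V * (star V * star U) = U * (V * star V) * star U := by noncomm_ring
      _ = 1 := by rw [hV.right, mul_one, hU.right]

lemma Uni.one : Uni (1 : S →L[ℂ] S) := ⟨by simp, by simp⟩

lemma Cfg.adj {U : S →L[ℂ] S} (h : Cfg 𝓢 U) : Cfg 𝓢 (star U) := by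
  refine ⟨h.toUni.adj, fun A hA => ?_⟩
  have := congrArg Star.star (h.comm A hA)
  rw [star_mul, star_mul, 𝓢.star_P A hA] at this
  exact this.symm

lemma Cfg.mul {U V : S →L[ℂ] S} (hU : Cfg 𝓢 U) (hV : Cfg 𝓢 V) : Cfg 𝓢 (U * V) := by
  refine ⟨hU.toUni.mul hV.toUni, fun A hA => ?_⟩
  rw [mul_assoc, hV.comm A hA, ← mul_assoc, hU.comm A hA, mul_assoc]

lemma Cfg.one : Cfg 𝓢 1 := ⟨Uni.one, fun A _ => by simp⟩

/-- the third Pauli matrix -/
def Y : S →L[ℂ] S := Complex.I • (𝓢.X * 𝓢.Z)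

/-- `exp (-i Z φ(f))` -/
def Ez (f : S) : S →L[ℂ] S :=
  (1 / 2 : ℂ) • ((1 + 𝓢.Z) * 𝓢.W (-f)) + (1 / 2 : ℂ) • ((1 - 𝓢.Z) * 𝓢.W f)

/-- `exp (-i b X) = cos b - i sin b X` -/
def rX (b : ℝ) : S →L[ℂ] S :=
  ((Real.cos b : ℝ) : ℂ) • (1 : S →L[ℂ] S) - (Complex.I * ((Real.sin b : ℝ) : ℂ)) • 𝓢.X

/-- `exp (-i Y φ(f))` -/
def Ey (f : S) : S →L[ℂ] S := rX 𝓢 (-(Real.pi / 4)) * Ez 𝓢 f * rX 𝓢 (Real.pi / 4)

/-- `U* Z U Ω` -/
def eV (U : S →L[ℂ] S) : S := star U (𝓢.Z (U 𝓢.Om))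

/-- `T` on the label set `A`, identity elsewhere -/
def on (A : Set L) (T : S →L[ℂ] S) : S →L[ℂ] S := 𝓢.P A * T + 𝓢.P Aᶜ

/-- the exchange move between the disjoint label sets `A` and `B` -/
def coup (g : ℝ) (A B : Set L) (U : S →L[ℂ] S) : S →L[ℂ] S :=
  on 𝓢 A (Ez 𝓢 ((g : ℂ) • 𝓢.P B (eV 𝓢 U))) * on 𝓢 B (Ez 𝓢 ((g : ℂ) • 𝓢.P A (eV 𝓢 U))) * U

/-- A class of configurations closed under the moves which are available: mixers on subsets of
`ok`, exchange moves between disjoint subsets of `ok`, pure label gates (labels `lab`) on subsets of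
`ok`, label dependent phases, strong limits. -/
structure Moves (lab : Set S) (ok : Set L) (G : (S →L[ℂ] S) → Prop) : Prop where
  cfg : ∀ U, G U → Cfg 𝓢 U
  labc : ∀ U, G U → ∀ l ∈ lab, ∀ t : ℝ, U * 𝓢.W ((t : ℂ) • l) = 𝓢.W ((t : ℂ) • l) * U
  xrot : ∀ U b A, MeasurableSet A → A ⊆ ok → G U → G (on 𝓢 A (rX 𝓢 b) * U)
  coup : ∀ U g A B, MeasurableSet A → MeasurableSet B → A ⊆ ok → B ⊆ ok → Disjoint A B →
    G U → G (coup 𝓢 g A B U)
  labg : ∀ U (a : ℝ) l A, l ∈ lab → MeasurableSet A → A ⊆ ok → G U →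
    G (on 𝓢 A (Ez 𝓢 ((a : ℂ) • l)) * U)
  phase : ∀ U (θ : ℝ) A, MeasurableSet A → G U →
    G (on 𝓢 A (Complex.exp (Complex.I * θ) • (1 : S →L[ℂ] S)) * U)
  lim : ∀ (V : ℕ → S →L[ℂ] S) U, (∀ n, G (V n)) → Cfg 𝓢 U →
    (∀ v, Tendsto (fun n => V n v) atTop (𝓝 (U v))) → G U

end Crest.Agent.R339.Gad
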