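import Mathlib
import Crest.Agent.R339.Gad233A

/-!
# R339 (G2): exact algebra of one cell of the gadget, part A

`Ez f = exp (-i Z φ(f))`, `sn f = sin φ(f)`, `cs f = cos φ(f)`, `Rz α = exp (i α Z)`.
-/

set_option autoImplicit false

noncomputable section

open scoped ComplexConjugate InnerProductSpace Topology
open Filter

namespace Crest.Agent.R339.Cel

open Crest.Agent.R339.Gad

variable {S : Type*} [NormedAddCommGroup S] [InnerProductSpace ℂ S] [CompleteSpace S]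
  {L : Type*} [MeasurableSpace L] (𝓢 : ILS S L)

/-- commutes with all label projections -/
def PC (T : S →L[ℂ] S) : Prop := ∀ A, MeasurableSet A → T * 𝓢.P A = 𝓢.P A * T

variable {𝓢}

lemma PC.mul {T T' : S →L[ℂ] S} (h : PC 𝓢 T) (h' : PC 𝓢 T') : PC 𝓢 (T * T') := fun A hA => by
  rw [mul_assoc, h' A hA, ← mul_assoc, h A hA, mul_assoc]
lemma PC.add {T T' : S →L[ℂ] S} (h : PC 𝓢 T) (h' : PC 𝓢 T') : PC 𝓢 (T + T') := fun A hA => by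
  rw [add_mul, mul_add, h A hA, h' A hA]
lemma PC.sub {T T' : S →L[ℂ] S} (h : PC 𝓢 T) (h' : PC 𝓢 T') : PC 𝓢 (T - T') := fun A hA => by
  rw [sub_mul, mul_sub, h A hA, h' A hA]
lemma PC.smul {T : S →L[ℂ] S} (c : ℂ) (h : PC 𝓢 T) : PC 𝓢 (c • T) := fun A hA => by
  rw [smul_mul_assoc, mul_smul_comm, h A hA]
lemma PC.one : PC 𝓢 1 := fun A _ => by simp
lemma PC.zero : PC 𝓢 0 := fun A _ => by simp
lemma PC.Z : PC 𝓢 𝓢.Z := fun A hA => (𝓢.P_Z A hA).symm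
lemma PC.X : PC 𝓢 𝓢.X := fun A hA => (𝓢.P_X A hA).symm
lemma PC.W (f : S) : PC 𝓢 (𝓢.W f) := fun A hA => 𝓢.W_P f A hA
lemma PC.P {B : Set L} (hB : MeasurableSet B) : PC 𝓢 (𝓢.P B) := fun A hA => by
  rw [𝓢.P_mul B A hB hA, 𝓢.P_mul A B hA hB, Set.inter_comm]
lemma PC.Ez (f : S) : PC 𝓢 (Ez 𝓢 f) :=
  (((PC.one.add PC.Z).mul (PC.W _)).smul _).add (((PC.one.sub PC.Z).mul (PC.W _)).smul _)
lemma PC.rX (b : ℝ) : PC 𝓢 (rX 𝓢 b) := (PC.one.smul _).sub (PC.X.smul _)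
lemma PC.Ey (f : S) : PC 𝓢 (Ey 𝓢 f) := ((PC.rX _).mul (PC.Ez _)).mul (PC.rX _)
lemma PC.of_cfg {U : S →L[ℂ] S} (h : Cfg 𝓢 U) : PC 𝓢 U := h.comm
lemma PC.star {T : S →L[ℂ] S} (h : PC 𝓢 T) : PC 𝓢 (star T) := fun A hA => by
  have := congrArg Star.star (h A hA)
  rw [star_mul, star_mul, 𝓢.star_P A hA] at this
  exact this.symm
lemma PC.sum {κ : Type*} {s : Finset κ} {T : κ → S →L[ℂ] S} (h : ∀ k ∈ s, PC 𝓢 (T k)) :
    PC 𝓢 (∑ k ∈ s, T k) := fun A hA => by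
  rw [Finset.sum_mul, Finset.mul_sum]
  exact Finset.sum_congr rfl fun k hk => h k hk A hA
lemma PC.exp {T : S →L[ℂ] S} (h : PC 𝓢 T) : PC 𝓢 (NormedSpace.exp T) := fun A hA => by
  have h1 : Commute T (𝓢.P A) := h A hA
  exact h1.exp_left.eq

/-! ### Spin projections -/

/-- projection on `Z = 1` -/
def Up (𝓢 : ILS S L) : S →L[ℂ] S := (1 / 2 : ℂ) • (1 + 𝓢.Z)
/-- projection on `Z = -1` -/
def Dn (𝓢 : ILS S L) : S →L[ℂ] S := (1 / 2 : ℂ) • (1 - 𝓢.Z)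

lemma Up_add_Dn : Up 𝓢 + Dn 𝓢 = 1 := by
  rw [Up, Dn]; module

lemma Up_sub_Dn : Up 𝓢 - Dn 𝓢 = 𝓢.Z := by
  rw [Up, Dn]; module

lemma Up_Up : Up 𝓢 * Up 𝓢 = Up 𝓢 := by
  rw [Up, smul_mul_smul_comm, add_mul, mul_add, mul_add, 𝓢.Z_Z]
  simp only [mul_one, one_mul]
  module

lemma Dn_Dn : Dn 𝓢 * Dn 𝓢 = Dn 𝓢 := by
  rw [Dn, smul_mul_smul_comm, sub_mul, mul_sub, mul_sub, 𝓢.Z_Z]
  simp only [mul_one, one_mul]
  module

lemma Up_Dn : Up 𝓢 * Dn 𝓢 = 0 := by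
  rw [Up, Dn, smul_mul_smul_comm, add_mul, mul_sub, mul_sub, 𝓢.Z_Z]
  simp only [mul_one, one_mul]
  module

lemma Dn_Up : Dn 𝓢 * Up 𝓢 = 0 := by
  rw [Up, Dn, smul_mul_smul_comm, sub_mul, mul_add, mul_add, 𝓢.Z_Z]
  simp only [mul_one, one_mul]
  module

lemma Z_W (f : S) : Commute 𝓢.Z (𝓢.W f) := (𝓢.W_Z f).symm
lemma Up_W (f : S) : Commute (Up 𝓢) (𝓢.W f) := ((Commute.one_left _).add_left (Z_W f)).smul_left _
lemma Dn_W (f : S) : Commute (Dn 𝓢) (𝓢.W f) := ((Commute.one_left _).sub_left (Z_W f)).smul_left _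

lemma Ez_eq (f : S) : Ez 𝓢 f = Up 𝓢 * 𝓢.W (-f) + Dn 𝓢 * 𝓢.W f := by
  rw [Ez, Up, Dn, smul_mul_assoc, smul_mul_assoc]

/-- product of two operators of the form `Up a + Dn b` -/
lemma UD_mul {a b c d : S →L[ℂ] S} (ha : Commute (Up 𝓢) a) (hb : Commute (Dn 𝓢) b)
    (ha' : Commute (Dn 𝓢) a) (hb' : Commute (Up 𝓢) b) :
    (Up 𝓢 * a + Dn 𝓢 * b) * (Up 𝓢 * c + Dn 𝓢 * d) = Up 𝓢 * (a * c) + Dn 𝓢 * (b * d) := by
  have h1 : Up 𝓢 * a * (Up 𝓢 * c) = Up 𝓢 * (a * c) := by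
    rw [mul_assoc, ← mul_assoc a, ← ha.eq, mul_assoc, ← mul_assoc, ← mul_assoc, Up_Up, mul_assoc]
  have h2 : Up 𝓢 * a * (Dn 𝓢 * d) = 0 := by
    rw [mul_assoc, ← mul_assoc a, ← ha'.eq, mul_assoc, ← mul_assoc, Up_Dn, zero_mul]
  have h3 : Dn 𝓢 * b * (Up 𝓢 * c) = 0 := by
    rw [mul_assoc, ← mul_assoc b, ← hb'.eq, mul_assoc, ← mul_assoc, Dn_Up, zero_mul]
  have h4 : Dn 𝓢 * b * (Dn 𝓢 * d) = Dn 𝓢 * (b * d) := by
    rw [mul_assoc, ← mul_assoc b, ← hb.eq, mul_assoc, ← mul_assoc, ← mul_assoc, Dn_Dn, mul_assoc]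
  rw [add_mul, mul_add, mul_add, h1, h2, h3, h4, add_zero, zero_add]

lemma W_mul_neg (f : S) : 𝓢.W f * 𝓢.W (-f) = 1 := by
  rw [𝓢.W_mul, add_neg_cancel, 𝓢.W_zero, inner_neg_right, inner_self_eq_norm_sq_to_K]
  have : (-(((‖f‖ : ℝ) : ℂ)) ^ 2).im = 0 := by
    rw [← Complex.ofReal_pow, Complex.neg_im, Complex.ofReal_im, neg_zero]
  erw [this]
  simp

lemma W_neg_mul (f : S) : 𝓢.W (-f) * 𝓢.W f = 1 := by
  have := W_mul_neg (𝓢 := 𝓢) (-f)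
  rwa [neg_neg] at this

lemma Ez_mul (f g : S) : Ez 𝓢 f * Ez 𝓢 g =
    Complex.exp (-(Complex.I * ((⟪f, g⟫_ℂ).im : ℂ))) • Ez 𝓢 (f + g) := by
  rw [Ez_eq, Ez_eq, Ez_eq, UD_mul (Up_W _) (Dn_W _) (Dn_W _) (Up_W _), 𝓢.W_mul, 𝓢.W_mul,
    inner_neg_neg, mul_smul_comm, mul_smul_comm, ← smul_add, neg_add]

lemma Ez_zero : Ez 𝓢 0 = 1 := by
  rw [Ez_eq, neg_zero, 𝓢.W_zero, mul_one, mul_one, Up_add_Dn]

lemma Ez_mul_neg (f : S) : Ez 𝓢 f * Ez 𝓢 (-f) = 1 := by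
  rw [Ez_eq, Ez_eq, UD_mul (Up_W _) (Dn_W _) (Dn_W _) (Up_W _), neg_neg, W_neg_mul, W_mul_neg,
    mul_one, mul_one, Up_add_Dn]

lemma Ez_neg_mul (f : S) : Ez 𝓢 (-f) * Ez 𝓢 f = 1 := by
  have := Ez_mul_neg (𝓢 := 𝓢) (-f)
  rwa [neg_neg] at this

lemma star_Up : star (Up 𝓢) = Up 𝓢 := by
  rw [Up, star_smul, star_add, star_one, 𝓢.star_Z]
  norm_num

lemma star_Dn : star (Dn 𝓢) = Dn 𝓢 := by
  rw [Dn, star_smul, star_sub, star_one, 𝓢.star_Z]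
  norm_num

lemma star_Ez (f : S) : star (Ez 𝓢 f) = Ez 𝓢 (-f) := by
  rw [Ez_eq, Ez_eq, star_add, star_mul, star_mul, 𝓢.star_W, 𝓢.star_W, star_Up, star_Dn, neg_neg,
    (Up_W _).eq, (Dn_W _).eq]

lemma uni_Ez (f : S) : Uni (Ez 𝓢 f) :=
  ⟨by rw [star_Ez, Ez_neg_mul], by rw [star_Ez, Ez_mul_neg]⟩

lemma cfg_Ez (f : S) : Cfg 𝓢 (Ez 𝓢 f) := ⟨uni_Ez f, PC.Ez f⟩

lemma Z_Up : Commute 𝓢.Z (Up 𝓢) := ((Commute.one_right _).add_right (Commute.refl _)).smul_right _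
lemma Z_Dn : Commute 𝓢.Z (Dn 𝓢) := ((Commute.one_right _).sub_right (Commute.refl _)).smul_right _

lemma Z_Ez (f : S) : Commute 𝓢.Z (Ez 𝓢 f) := by
  rw [Ez_eq]
  exact (Z_Up.mul_right (Z_W _)).add_right (Z_Dn.mul_right (Z_W _))

/-- `exp (i α Z)` -/
def Rz (𝓢 : ILS S L) (α : ℝ) : S →L[ℂ] S :=
  Complex.exp (Complex.I * α) • Up 𝓢 + Complex.exp (-(Complex.I * α)) • Dn 𝓢

omit [CompleteSpace S] in
lemma inner_im_symm (f g : S) : (⟪g, f⟫_ℂ).im = -(⟪f, g⟫_ℂ).im := by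
  rw [← inner_conj_symm g f, Complex.conj_im]

lemma W_comm (f g : S) : 𝓢.W f * 𝓢.W g =
    Complex.exp (-(Complex.I * (2 * (⟪f, g⟫_ℂ).im : ℝ))) • (𝓢.W g * 𝓢.W f) := by
  rw [𝓢.W_mul, 𝓢.W_mul, smul_smul, ← Complex.exp_add, add_comm g f, inner_im_symm f g]
  congr 2
  push_cast
  ring

lemma Rz_pi_div_two : Rz 𝓢 (Real.pi / 2) = Complex.I • 𝓢.Z := by
  have h1 : Complex.exp (Complex.I * ((Real.pi / 2 : ℝ) : ℂ)) = Complex.I := by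
    rw [mul_comm]
    push_cast
    exact Complex.exp_pi_div_two_mul_I
  have h2 : Complex.exp (-(Complex.I * ((Real.pi / 2 : ℝ) : ℂ))) = -Complex.I := by
    have : -(Complex.I * ((Real.pi / 2 : ℝ) : ℂ)) = -Real.pi / 2 * Complex.I := by
      push_cast; ring
    rw [this, Complex.exp_neg_pi_div_two_mul_I]
  rw [Rz, h1, h2, ← Up_sub_Dn, smul_sub, neg_smul, sub_eq_add_neg]

lemma Rz_neg_pi_div_two : Rz 𝓢 (-(Real.pi / 2)) = -(Complex.I • 𝓢.Z) := by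
  have h1 : Complex.exp (Complex.I * ((-(Real.pi / 2) : ℝ) : ℂ)) = -Complex.I := by
    have : Complex.I * ((-(Real.pi / 2) : ℝ) : ℂ) = -Real.pi / 2 * Complex.I := by
      push_cast; ring
    rw [this, Complex.exp_neg_pi_div_two_mul_I]
  have h2 : Complex.exp (-(Complex.I * ((-(Real.pi / 2) : ℝ) : ℂ))) = Complex.I := by
    have : -(Complex.I * ((-(Real.pi / 2) : ℝ) : ℂ)) = (Real.pi / 2 : ℂ) * Complex.I := by
      push_cast; ring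
    rw [this, Complex.exp_pi_div_two_mul_I]
  rw [Rz, h1, h2, ← Up_sub_Dn, smul_sub, neg_smul, neg_sub, sub_eq_add_neg, add_comm]

lemma Rz_zero : Rz 𝓢 0 = 1 := by
  simp [Rz, Up_add_Dn]

lemma Rz_eq (α : ℝ) : Rz 𝓢 α = Up 𝓢 * (Complex.exp (Complex.I * α) • 1) +
    Dn 𝓢 * (Complex.exp (-(Complex.I * α)) • 1) := by
  rw [Rz, mul_smul_comm, mul_smul_comm, mul_one, mul_one]

/-- Weyl operators through `exp (-i Z φ(g))`. -/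
lemma W_Ez (f g : S) : 𝓢.W f * Ez 𝓢 g = Ez 𝓢 g * (Rz 𝓢 (2 * (⟪f, g⟫_ℂ).im) * 𝓢.W f) := by
  have h1 : 𝓢.W f * Ez 𝓢 g = Up 𝓢 * (𝓢.W f * 𝓢.W (-g)) + Dn 𝓢 * (𝓢.W f * 𝓢.W g) := by
    rw [Ez_eq, mul_add, ← mul_assoc, ← mul_assoc, ← (Up_W f).eq, ← (Dn_W f).eq, mul_assoc,
      mul_assoc]
  have h2 : Rz 𝓢 (2 * (⟪f, g⟫_ℂ).im) * 𝓢.W f =
      Up 𝓢 * (Complex.exp (Complex.I * ((2 * (⟪f, g⟫_ℂ).im : ℝ) : ℂ)) • 𝓢.W f) +
      Dn 𝓢 * (Complex.exp (-(Complex.I * ((2 * (⟪f, g⟫_ℂ).im : ℝ) : ℂ))) • 𝓢.W f) := by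
    rw [Rz, add_mul, smul_mul_assoc, smul_mul_assoc, mul_smul_comm, mul_smul_comm]
  rw [h1, h2, Ez_eq, UD_mul (Up_W _) (Dn_W _) (Dn_W _) (Up_W _), W_comm f g, W_comm f (-g),
    inner_neg_right, Complex.neg_im]
  simp only [mul_smul_comm]
  congr 3
  push_cast
  ring_nf

/-- conjugation of a Weyl operator -/
lemma conj_W (f g : S) : Ez 𝓢 (-g) * 𝓢.W f * Ez 𝓢 g = Rz 𝓢 (2 * (⟪f, g⟫_ℂ).im) * 𝓢.W f := by
  rw [mul_assoc, W_Ez, ← mul_assoc, Ez_neg_mul, one_mul]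

/-! ### Trigonometric functions of the fields -/

/-- `sin φ(f)` -/
def sn (𝓢 : ILS S L) (f : S) : S →L[ℂ] S := (-(Complex.I / 2)) • (𝓢.W f - 𝓢.W (-f))

/-- `cos φ(f)` -/
def cs (𝓢 : ILS S L) (f : S) : S →L[ℂ] S := ((1 : ℂ) / 2) • (𝓢.W f + 𝓢.W (-f))

lemma PC.sn (f : S) : PC 𝓢 (sn 𝓢 f) := ((PC.W _).sub (PC.W _)).smul _
lemma PC.cs (f : S) : PC 𝓢 (cs 𝓢 f) := ((PC.W _).add (PC.W _)).smul _

lemma star_sn (f : S) : star (sn 𝓢 f) = sn 𝓢 f := by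
  rw [sn, star_smul, star_sub, 𝓢.star_W, 𝓢.star_W, neg_neg]
  have : star (-(Complex.I / 2)) = Complex.I / 2 := by
    norm_num [Complex.ext_iff]
  rw [this]
  module

lemma star_cs (f : S) : star (cs 𝓢 f) = cs 𝓢 f := by
  rw [cs, star_smul, star_add, 𝓢.star_W, 𝓢.star_W, neg_neg, add_comm]
  norm_num

lemma Z_sn (f : S) : Commute 𝓢.Z (sn 𝓢 f) := ((Z_W _).sub_right (Z_W _)).smul_right _
lemma Z_cs (f : S) : Commute 𝓢.Z (cs 𝓢 f) := ((Z_W _).add_right (Z_W _)).smul_right _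

/-- the sign of a Boolean, `true = +1` -/
def sg1 (ε : Bool) : ℝ := if ε then 1 else -1

lemma sg1_sq (ε : Bool) : sg1 ε * sg1 ε = 1 := by cases ε <;> simp [sg1]

lemma Rz_sg1 (ε : Bool) : Rz 𝓢 (sg1 ε * (Real.pi / 2)) = (Complex.I * (sg1 ε : ℂ)) • 𝓢.Z := by
  cases ε
  · simp only [sg1, Bool.false_eq_true, if_false, neg_mul, one_mul]
    rw [Rz_neg_pi_div_two]
    push_cast
    rw [mul_neg, mul_one, neg_smul]
  · simp only [sg1, if_true, one_mul]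
    rw [Rz_pi_div_two]
    push_cast
    rw [mul_one]

/-- the peak condition: conjugation by `Ez g` shifts the phase `φ(f)` by `ε (π/2) Z` -/
def Peak (f g : S) (ε : Bool) : Prop := 2 * (⟪f, g⟫_ℂ).im = sg1 ε * (Real.pi / 2)

variable {f g : S} {ε : Bool}

lemma conj_W_peak (h : Peak f g ε) :
    Ez 𝓢 (-g) * 𝓢.W f * Ez 𝓢 g = (Complex.I * (sg1 ε : ℂ)) • (𝓢.Z * 𝓢.W f) := by
  rw [conj_W, h, Rz_sg1, smul_mul_assoc]

lemma conj_W_peak_neg (h : Peak f g ε) :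
    Ez 𝓢 (-g) * 𝓢.W (-f) * Ez 𝓢 g = -(Complex.I * (sg1 ε : ℂ)) • (𝓢.Z * 𝓢.W (-f)) := by
  rw [conj_W]
  have h2 : sg1 (!ε) = -sg1 ε := by cases ε <;> simp [sg1]
  have h1 : 2 * (⟪-f, g⟫_ℂ).im = sg1 (!ε) * (Real.pi / 2) := by
    rw [inner_neg_left, Complex.neg_im, h2, neg_mul, ← h]
    ring
  rw [h1, Rz_sg1, smul_mul_assoc]
  congr 1
  rw [h2]
  push_cast
  ring

/-- `sin φ(f)` becomes `ε Z cos φ(f)`. -/
lemma conj_sn_peak (h : Peak f g ε) :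
    Ez 𝓢 (-g) * sn 𝓢 f * Ez 𝓢 g = (sg1 ε : ℂ) • (𝓢.Z * cs 𝓢 f) := by
  rw [sn, cs, mul_smul_comm, smul_mul_assoc, mul_sub, sub_mul, conj_W_peak h, conj_W_peak_neg h,
    mul_smul_comm, mul_add]
  match_scalars <;> linear_combination (-(sg1 ε : ℂ) / 2) * Complex.I_sq

/-- `cos φ(f)` becomes `- ε Z sin φ(f)`. -/
lemma conj_cs_peak (h : Peak f g ε) :
    Ez 𝓢 (-g) * cs 𝓢 f * Ez 𝓢 g = -(sg1 ε : ℂ) • (𝓢.Z * sn 𝓢 f) := by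
  rw [sn, cs, mul_smul_comm, smul_mul_assoc, mul_add, add_mul, conj_W_peak h, conj_W_peak_neg h,
    mul_smul_comm, mul_sub]
  match_scalars <;> ring

/-! ### Trigonometric sums -/

section sums

variable {κ : Type*} [Fintype κ]

/-- `Σ c_k sin φ(f_k)` -/
def snS (𝓢 : ILS S L) (c : κ → ℝ) (f : κ → S) : S →L[ℂ] S := ∑ k, (c k : ℂ) • sn 𝓢 (f k)

/-- `Σ c_k cos φ(f_k)` -/
def csS (𝓢 : ILS S L) (c : κ → ℝ) (f : κ → S) : S →L[ℂ] S := ∑ k, (c k : ℂ) • cs 𝓢 (f k)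

lemma PC.snS (c : κ → ℝ) (f : κ → S) : PC 𝓢 (snS 𝓢 c f) := PC.sum fun _ _ => (PC.sn _).smul _
lemma PC.csS (c : κ → ℝ) (f : κ → S) : PC 𝓢 (csS 𝓢 c f) := PC.sum fun _ _ => (PC.cs _).smul _

lemma star_snS (c : κ → ℝ) (f : κ → S) : star (snS 𝓢 c f) = snS 𝓢 c f := by
  rw [snS, star_sum]
  exact Finset.sum_congr rfl fun k _ => by rw [star_smul, star_sn]; simp

lemma star_csS (c : κ → ℝ) (f : κ → S) : star (csS 𝓢 c f) = csS 𝓢 c f := by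
  rw [csS, star_sum]
  exact Finset.sum_congr rfl fun k _ => by rw [star_smul, star_cs]; simp

lemma Z_snS (c : κ → ℝ) (f : κ → S) : Commute 𝓢.Z (snS 𝓢 c f) :=
  Commute.sum_right _ _ _ fun _ _ => (Z_sn _).smul_right _
lemma Z_csS (c : κ → ℝ) (f : κ → S) : Commute 𝓢.Z (csS 𝓢 c f) :=
  Commute.sum_right _ _ _ fun _ _ => (Z_cs _).smul_right _

variable {c : κ → ℝ} {F : κ → S} {e : κ → Bool}

lemma conj_snS (h : ∀ k, Peak (F k) g (e k)) :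
    Ez 𝓢 (-g) * snS 𝓢 c F * Ez 𝓢 g = 𝓢.Z * csS 𝓢 (fun k => c k * sg1 (e k)) F := by
  rw [snS, csS, Finset.mul_sum, Finset.sum_mul, Finset.mul_sum]
  refine Finset.sum_congr rfl fun k _ => ?_
  rw [mul_smul_comm, smul_mul_assoc, conj_sn_peak (h k), smul_smul, mul_smul_comm]
  push_cast
  rfl

lemma conj_csS (h : ∀ k, Peak (F k) g (e k)) :
    Ez 𝓢 (-g) * csS 𝓢 c F * Ez 𝓢 g = -(𝓢.Z * snS 𝓢 (fun k => c k * sg1 (e k)) F) := by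
  rw [snS, csS, Finset.mul_sum, Finset.sum_mul, Finset.mul_sum, ← Finset.sum_neg_distrib]
  refine Finset.sum_congr rfl fun k _ => ?_
  rw [mul_smul_comm, smul_mul_assoc, conj_cs_peak (h k), smul_smul, mul_smul_comm, ← neg_smul]
  push_cast
  congr 1
  ring

/-- conjugation of the node generator: the spin disappears -/
lemma conj_Z_snS (h : ∀ k, Peak (F k) g (e k)) :
    Ez 𝓢 (-g) * (𝓢.Z * snS 𝓢 c F) * Ez 𝓢 g = csS 𝓢 (fun k => c k * sg1 (e k)) F := by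
  rw [← mul_assoc, ← (Z_Ez (-g)).eq, mul_assoc, mul_assoc, ← mul_assoc (Ez 𝓢 (-g)), conj_snS h,
    ← mul_assoc, 𝓢.Z_Z, one_mul]

/-- conjugation of the derivative -/
lemma conj_Z_csS (h : ∀ k, Peak (F k) g (e k)) :
    Ez 𝓢 (-g) * (𝓢.Z * csS 𝓢 c F) * Ez 𝓢 g = -snS 𝓢 (fun k => c k * sg1 (e k)) F := by
  rw [← mul_assoc, ← (Z_Ez (-g)).eq, mul_assoc, mul_assoc, ← mul_assoc (Ez 𝓢 (-g)), conj_csS h,
    mul_neg, ← mul_assoc, 𝓢.Z_Z, one_mul]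

/-- `exp (-i t T)` -/
def eI (t : ℝ) (T : S →L[ℂ] S) : S →L[ℂ] S := NormedSpace.exp ((-(Complex.I * (t : ℂ))) • T)

lemma conj_eI {g : S} (t : ℝ) (T : S →L[ℂ] S) :
    Ez 𝓢 (-g) * eI t T * Ez 𝓢 g = eI t (Ez 𝓢 (-g) * T * Ez 𝓢 g) := by
  let _ : NormedAlgebra ℚ (S →L[ℂ] S) := NormedAlgebra.restrictScalars ℚ ℂ _
  let u : (S →L[ℂ] S)ˣ := ⟨Ez 𝓢 g, Ez 𝓢 (-g), Ez_mul_neg g, Ez_neg_mul g⟩
  have h0 := NormedSpace.exp_units_conj' u ((-(Complex.I * (t : ℂ))) • T)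
  have h1 : (-(Complex.I * (t : ℂ))) • (Ez 𝓢 (-g) * T * Ez 𝓢 g) =
      Ez 𝓢 (-g) * ((-(Complex.I * (t : ℂ))) • T) * Ez 𝓢 g := by
    rw [mul_smul_comm, smul_mul_assoc]
  rw [eI, eI, h1]
  exact h0.symm

/-- **Exact node identity**: at the peak the node gate is spin independent. -/
theorem node_identity (h : ∀ k, Peak (F k) g (e k)) (t : ℝ) :
    Ez 𝓢 (-g) * eI t (𝓢.Z * snS 𝓢 c F) * Ez 𝓢 g = eI t (csS 𝓢 (fun k => c k * sg1 (e k)) F) := by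
  rw [conj_eI, conj_Z_snS h]

lemma PC.eI {t : ℝ} {T : S →L[ℂ] S} (h : PC 𝓢 T) : PC 𝓢 (eI t T) := (h.smul _).exp

end sums

end Crest.Agent.R339.Cel
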