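import Crest.Agent.R339.Cel90C

/-!
# R339 (G2): one cell of the gadget, the computation
-/

set_option autoImplicit false
set_option linter.unusedSectionVars false
set_option linter.style.haveILetI false

noncomputable section

open scoped ComplexConjugate InnerProductSpace Topology
open Filter MeasureTheory

namespace Crest.Agent.R339.Cel

open Crest.Agent.R339.Li Crest.Agent.R339.Li.ILSys Crest.Agent.R339.MF

variable {Λ H : Type*} [MeasurableSpace Λ] [NormedAddCommGroup H] [InnerProductSpace ℂ H]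
  [CompleteSpace H] {I : ILSys Λ H}

/-! ### restriction of states to classes -/

lemma P_blk {A B : Set Λ} (hA : MeasurableSet A) (hB : MeasurableSet B) (h : B ⊆ A)
    (b : H →L[ℂ] H) : I.P B * I.blk A b = I.P B * b := by
  have e1 : I.P B * I.P Aᶜ = 0 :=
    P_disj hB hA.compl (Set.disjoint_compl_right_iff_subset.mpr h)
  have e2 : I.P B * I.P A = I.P B := by
    rw [← I.P_inter B A hB hA, Set.inter_eq_left.mpr h]
  rw [ILSys.blk, mul_add, e1, zero_add, ← mul_assoc, e2]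

lemma P_blk_disj {A B : Set Λ} (hA : MeasurableSet A) (hB : MeasurableSet B) (h : Disjoint B A)
    (b : H →L[ℂ] H) : I.P B * I.blk A b = I.P B := by
  have e1 : I.P B * I.P A = 0 := P_disj hB hA h
  have e2 : I.P B * I.P Aᶜ = I.P B := by
    rw [← I.P_inter B Aᶜ hB hA.compl, Set.inter_eq_left.mpr (Set.subset_compl_iff_disjoint_right.mpr h)]
  rw [ILSys.blk, mul_add, e2, ← mul_assoc, e1, zero_mul, add_zero]

lemma P_star_mul {B : Set Λ} (hB : MeasurableSet B) {V T : H →L[ℂ] H} (hV : PC I V)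
    (hT : PC I T) : I.P B * (star V * (T * V)) = star (I.P B * V) * (T * (I.P B * V)) := by
  rw [star_mul, I.P_star B hB, ← mul_assoc T, ← (hT B hB).eq, mul_assoc (I.P B) T,
    mul_assoc (star V), ← mul_assoc (I.P B) (I.P B), P_sq hB, ← mul_assoc, ← mul_assoc,
    (hV.star B hB).eq, mul_assoc, mul_assoc]

/-- `pV` only depends on the state on the class -/
lemma pV_congr {B : Set Λ} (hB : MeasurableSet B) {V W : UH H} {T : H →L[ℂ] H}
    (hV : PC I (V : H →L[ℂ] H)) (hW : PC I (W : H →L[ℂ] H)) (hT : PC I T)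
    (h : I.P B * (V : H →L[ℂ] H) = I.P B * (W : H →L[ℂ] H)) : pV I B V T = pV I B W T := by
  have key : I.P B * (star (V : H →L[ℂ] H) * (T * V)) =
      I.P B * (star (W : H →L[ℂ] H) * (T * W)) := by
    rw [P_star_mul hB hV hT, P_star_mul hB hW hT, h]
  exact congrArg (fun S : H →L[ℂ] H => S I.Om) key

lemma pV_mul (B : Set Λ) (G U : UH H) (T : H →L[ℂ] H) :
    pV I B (G * U) T = pV I B U (star (G : H →L[ℂ] H) * T * G) := by
  show (I.P B * (star ((G : H →L[ℂ] H) * (U : H →L[ℂ] H)) * (T * ((G : H →L[ℂ] H) * U)))) I.Om =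
    (I.P B * (star (U : H →L[ℂ] H) * (star (G : H →L[ℂ] H) * T * G * U))) I.Om
  rw [star_mul]
  simp only [mul_assoc]

lemma pV_smul (B : Set Λ) (U : UH H) (c : ℂ) (T : H →L[ℂ] H) :
    pV I B U (c • T) = c • pV I B U T := by
  rw [pV, pV, smul_apply, map_smul, map_smul]

lemma pV_neg (B : Set Λ) (U : UH H) (T : H →L[ℂ] H) : pV I B U (-T) = -pV I B U T := by
  rw [pV, pV, neg_apply, map_neg, map_neg]

lemma pV_add (B : Set Λ) (U : UH H) (T T' : H →L[ℂ] H) :
    pV I B U (T + T') = pV I B U T + pV I B U T' := by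
  rw [pV, pV, pV, add_apply, map_add, map_add]

lemma pV_sub (B : Set Λ) (U : UH H) (T T' : H →L[ℂ] H) :
    pV I B U (T - T') = pV I B U T - pV I B U T' := by
  rw [sub_eq_add_neg, pV_add, pV_neg, sub_eq_add_neg]

lemma eA_eq_pV (B : Set Λ) (U : UH H) : I.eA B U = pV I B U I.Z := rfl

lemma P_pV {B : Set Λ} (hB : MeasurableSet B) (U : UH H) (T : H →L[ℂ] H) :
    I.P B (pV I B U T) = pV I B U T := by
  rw [pV, ← mul_apply_eq_comp, P_sq hB]

lemma inner_P {B : Set Λ} (hB : MeasurableSet B) (x y : H) : ⟪I.P B x, y⟫_ℂ = ⟪x, I.P B y⟫_ℂ := by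
  rw [← ContinuousLinearMap.adjoint_inner_right, ← ContinuousLinearMap.star_eq_adjoint,
    I.P_star B hB]

lemma inner_eq_zero_of_disj {A B : Set Λ} (hA : MeasurableSet A) (hB : MeasurableSet B)
    (hd : Disjoint A B) {x y : H} (hx : I.P A x = x) (hy : I.P B y = y) : ⟪x, y⟫_ℂ = 0 := by
  rw [← hx, inner_P hA, ← hy, ← mul_apply_eq_comp, P_disj hA hB hd, zero_apply, inner_zero_right]

lemma PC.yWU (f : H) : PC I ((yWU I f : UH H) : H →L[ℂ] H) := PC.yW f
lemma PC.zWU (f : H) : PC I ((zWU I f : UH H) : H →L[ℂ] H) := PC.zW f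

/-! ### the conjugated coupling -/

/-- `exp (-i β X)` as unitary -/
def mxU (I : ILSys Λ H) (β : ℝ) : UH H :=
  ⟨I.mx β, by
    rw [Unitary.mem_iff, star_mx, mx_mul, mx_mul, neg_add_cancel, add_neg_cancel, mx_zero]
    exact ⟨rfl, rfl⟩⟩

@[simp] lemma mxU_coe (β : ℝ) : ((mxU I β : UH H) : H →L[ℂ] H) = I.mx β := rfl

@[simp] lemma rot_coe {A : Set Λ} (hA : MeasurableSet A) (β : ℝ) :
    ((I.rot hA β : UH H) : H →L[ℂ] H) = I.blk A (I.mx β) := rfl

lemma coe_mul (U V : UH H) : ((U * V : UH H) : H →L[ℂ] H) = (U : H →L[ℂ] H) * V := rfl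

lemma eA_rot {M : Set Λ} (hM : MeasurableSet M) {U : UH H} (hU : PC I (U : H →L[ℂ] H)) :
    I.eA M (I.rot hM (Real.pi / 4) * U) = pV I M U I.Y := by
  rw [eA_eq_pV, pV_congr hM (V := I.rot hM (Real.pi / 4) * U) (W := mxU I (Real.pi / 4) * U)
    ((PC.blk hM (PC.mx _)).mul hU) ((PC.mx _).mul hU) PC.Z, pV_mul, mxU_coe, star_mx, mx_Z_mx]
  rw [coe_mul, coe_mul, rot_coe, mxU_coe, ← mul_assoc, P_blk hM hM subset_rfl, mul_assoc]

lemma eA_rot_disj {N M : Set Λ} (hN : MeasurableSet N) (hM : MeasurableSet M) (hd : Disjoint N M)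
    {U : UH H} (hU : PC I (U : H →L[ℂ] H)) (β : ℝ) :
    I.eA N (I.rot hM β * U) = I.eA N U := by
  rw [eA_eq_pV, eA_eq_pV]
  refine pV_congr hN ((PC.blk hM (PC.mx _)).mul hU) hU PC.Z ?_
  rw [coe_mul, rot_coe, ← mul_assoc, P_blk_disj hM hN hd]

/-- rotation, coupling, inverse rotation -/
lemma cpl_step {N M : Set Λ} (hN : MeasurableSet N) (hM : MeasurableSet M) (hd : Disjoint N M)
    {U : UH H} (hU : PC I (U : H →L[ℂ] H)) (g : ℝ) :
    I.rot hM (-(Real.pi / 4)) * I.cpl hN hM g (I.rot hM (Real.pi / 4) * U) =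
      I.cst hN ((g : ℂ) • pV I M U I.Y) *
        (nd I hM (yWU I ((g : ℂ) • I.eA N U)) (PC.yWU _) * U) := by
  rw [ILSys.cpl, eA_rot hM hU, eA_rot_disj hN hM hd hU]
  apply uh_ext
  simp only [coe_mul, rot_coe, cst_coe, nd_coe, yWU_coe]
  have h1 := (blk_comm (I := I) hN hM hd (a := I.zW ((g : ℂ) • pV I M U I.Y))
    (b := I.mx (-(Real.pi / 4))) (PC.zW _) (PC.mx _)).eq
  have h2 : I.blk M (I.mx (-(Real.pi / 4))) * I.blk M (I.zW ((g : ℂ) • I.eA N U)) *
      I.blk M (I.mx (Real.pi / 4)) = I.blk M (yW I ((g : ℂ) • I.eA N U)) := by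
    rw [blk_mul_blk hM (PC.mx _), blk_mul_blk hM ((PC.mx _).mul (PC.zW _)), mx_zW_mx]
  rw [← mul_assoc, ← h1, mul_assoc, ← h2]
  simp only [mul_assoc]

/-- the new state of `cpl_step` is good -/
lemma good_cpl_step {S : Set Λ} {L : Set H} {cc : ℝ} {N M : Set Λ} (hN : I.Cl N) (hM : I.Cl M)
    (hNS : N ⊆ S) (hMS : M ⊆ S) (hd : Disjoint N M) {U : UH H} (hU : PC I (U : H →L[ℂ] H)) (g : ℝ)
    (h : I.Good S L cc U) : I.Good S L cc (I.cst (I.Cl_meas N hN) ((g : ℂ) • pV I M U I.Y) *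
        (nd I (I.Cl_meas M hM) (yWU I ((g : ℂ) • I.eA N U)) (PC.yWU _) * U)) := by
  rw [← cpl_step _ _ hd hU]
  exact ((h.rot hM hMS _).cpl hN hM hNS hMS hd g).rot hM hMS _

/-! ### products of trigonometric functions -/

lemma W_mul_of_im {f g : H} (h : (⟪f, g⟫_ℂ).im = 0) : I.W f * I.W g = I.W (f + g) := by
  rw [I.W_mul, h]; simp

section prod

variable {f g : H} (h : (⟪f, g⟫_ℂ).im = 0)
include h

lemma W_four : I.W f * I.W g = I.W (f + g) ∧ I.W f * I.W (-g) = I.W (f - g) ∧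
    I.W (-f) * I.W g = I.W (-(f - g)) ∧ I.W (-f) * I.W (-g) = I.W (-(f + g)) := by
  refine ⟨W_mul_of_im h, ?_, ?_, ?_⟩
  · rw [W_mul_of_im (by rw [inner_neg_right, Complex.neg_im, h, neg_zero]), sub_eq_add_neg]
  · rw [W_mul_of_im (by rw [inner_neg_left, Complex.neg_im, h, neg_zero])]
    congr 1; abel
  · rw [W_mul_of_im (by rw [inner_neg_neg, h])]
    congr 1; abel

lemma sW_mul_cW : I.sW f * I.cW g = (1 / 2 : ℂ) • (I.sW (f + g) + I.sW (f - g)) := by
  obtain ⟨h1, h2, h3, h4⟩ := W_four (I := I) h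
  simp only [ILSys.sW, ILSys.cW, smul_mul_smul_comm, sub_mul, mul_add, h1, h2, h3, h4]
  module

lemma cW_mul_cW : I.cW f * I.cW g = (1 / 2 : ℂ) • (I.cW (f + g) + I.cW (f - g)) := by
  obtain ⟨h1, h2, h3, h4⟩ := W_four (I := I) h
  simp only [ILSys.cW, smul_mul_smul_comm, add_mul, mul_add, h1, h2, h3, h4]
  module

lemma sW_mul_sW : I.sW f * I.sW g = (1 / 2 : ℂ) • (I.cW (f - g) - I.cW (f + g)) := by
  obtain ⟨h1, h2, h3, h4⟩ := W_four (I := I) h
  have e : (-(Complex.I / 2)) * (-(Complex.I / 2)) = (-(1 / 4) : ℂ) := by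
    linear_combination (1 / 4 : ℂ) * Complex.I_sq
  simp only [ILSys.sW, ILSys.cW, smul_mul_smul_comm, sub_mul, mul_sub, h1, h2, h3, h4, e]
  module

end prod

end Crest.Agent.R339.Cel
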