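import Crest.Agent.R339.Cel90E

/-!
# R339 (G2): the bath gate, the 4-term family
-/

set_option autoImplicit false
set_option linter.unusedSectionVars false
set_option linter.style.haveILetI false

noncomputable section

open scoped ComplexConjugate InnerProductSpace Topology
open Filter MeasureTheory

namespace Crest.Agent.R339.Cel

open Crest.Agent.R339.Li Crest.Agent.R339.Li.ILSys Crest.Agent.R339.MF

variable {Λ H : Type*} [MeasurableSpace Λ] [NormedAddCommGroup H] [InnerProductSpace ℂ H]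
  [CompleteSpace H] {I : ILSys Λ H}

lemma Z_mul_Y : I.Z * I.Y = -(I.Y * I.Z) := by
  rw [ILSys.Y, mul_smul_comm, smul_mul_assoc, ← mul_assoc, mul_assoc I.Z I.X,
    ← neg_eq_iff_eq_neg.mpr (Z_X (I := I)), mul_neg, ← mul_assoc, smul_neg, neg_neg]

lemma Z_yW (f : H) : I.Z * yW I f = yW I (-f) * I.Z := by
  rw [yW, yW, cW_neg, sW_neg, mul_add, add_mul, (Z_cW f).eq, mul_smul_comm, smul_mul_assoc,
    ← mul_assoc, Z_mul_Y, mul_neg, neg_mul, neg_mul, mul_assoc, (Z_sW f).eq, mul_assoc]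

lemma Y_zW (f : H) : I.Y * I.zW f = I.zW (-f) * I.Y := by
  have h : I.Y * I.Z = -(I.Z * I.Y) := by rw [Z_mul_Y, neg_neg]
  rw [zW_eq, zW_eq, cW_neg, sW_neg, mul_add, add_mul, (Y_cW f).eq, mul_smul_comm, smul_mul_assoc,
    ← mul_assoc, h, mul_neg, neg_mul, neg_mul, mul_assoc, (Y_sW f).eq, mul_assoc]

lemma Y_yW (f : H) : Commute I.Y (yW I f) := by
  rw [yW]
  exact (Y_cW f).add_right (((Commute.refl _).mul_right (Y_sW f)).smul_right _)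

lemma W_commute {f g : H} (h : (⟪f, g⟫_ℂ).im = 0) : Commute (I.W f) (I.W g) := by
  show I.W f * I.W g = I.W g * I.W f
  rw [W_comm, inner_im_symm, h]; simp

lemma im_neg_left {f g : H} (h : (⟪f, g⟫_ℂ).im = 0) : (⟪-f, g⟫_ℂ).im = 0 := by
  rw [inner_neg_left, Complex.neg_im, h, neg_zero]

lemma im_neg_right {f g : H} (h : (⟪f, g⟫_ℂ).im = 0) : (⟪f, -g⟫_ℂ).im = 0 := by
  rw [inner_neg_right, Complex.neg_im, h, neg_zero]

lemma im_self (f : H) : (⟪f, f⟫_ℂ).im = 0 := by simpa using inner_self_im (𝕜 := ℂ) f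

lemma sW_W_commute {f g : H} (h : (⟪f, g⟫_ℂ).im = 0) : Commute (I.sW f) (I.W g) :=
  ((W_commute h).sub_left (W_commute (im_neg_left h))).smul_left _

lemma cW_W_commute {f g : H} (h : (⟪f, g⟫_ℂ).im = 0) : Commute (I.cW f) (I.W g) :=
  ((W_commute h).add_left (W_commute (im_neg_left h))).smul_left _

lemma sW_sW_commute {f g : H} (h : (⟪f, g⟫_ℂ).im = 0) : Commute (I.sW f) (I.sW g) :=
  ((sW_W_commute h).sub_right (sW_W_commute (im_neg_right h))).smul_right _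
lemma sW_cW_commute {f g : H} (h : (⟪f, g⟫_ℂ).im = 0) : Commute (I.sW f) (I.cW g) :=
  ((sW_W_commute h).add_right (sW_W_commute (im_neg_right h))).smul_right _
lemma cW_sW_commute {f g : H} (h : (⟪f, g⟫_ℂ).im = 0) : Commute (I.cW f) (I.sW g) :=
  ((cW_W_commute h).sub_right (cW_W_commute (im_neg_right h))).smul_right _
lemma cW_cW_commute {f g : H} (h : (⟪f, g⟫_ℂ).im = 0) : Commute (I.cW f) (I.cW g) :=
  ((cW_W_commute h).add_right (cW_W_commute (im_neg_right h))).smul_right _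

lemma yW_W_commute {f g : H} (h : (⟪f, g⟫_ℂ).im = 0) : Commute (yW I f) (I.W g) := by
  have hY : Commute I.Y (I.W g) := ((Z_W g).mul_left (X_W g)).smul_left _
  exact (cW_W_commute h).add_left ((hY.mul_left (sW_W_commute h)).smul_left _)

lemma yW_sW_commute {f g : H} (h : (⟪f, g⟫_ℂ).im = 0) : Commute (yW I f) (I.sW g) :=
  ((yW_W_commute h).sub_right (yW_W_commute (im_neg_right h))).smul_right _
lemma yW_cW_commute {f g : H} (h : (⟪f, g⟫_ℂ).im = 0) : Commute (yW I f) (I.cW g) :=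
  ((yW_W_commute h).add_right (yW_W_commute (im_neg_right h))).smul_right _

lemma yW_sq (f : H) : yW I f * yW I f = yW I ((2 : ℂ) • f) := by
  rw [yW_mul, im_self, two_smul]; simp

/-- **the bath gate** -/
theorem K_eq {f ζ : H} (h : (⟪f, ζ⟫_ℂ).im = 0) :
    yW I (-f) * (I.zW ζ * yW I f) =
      I.cW ζ + Complex.I • (I.Z * (yW I ((2 : ℂ) • f) * I.sW ζ)) := by
  have h1 : yW I (-f) * I.Z = I.Z * yW I f := by
    have := Z_yW (I := I) f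
    exact this.symm
  rw [zW_eq, add_mul, mul_add, ← (yW_cW_commute h).eq, ← mul_assoc, yW_neg_mul, one_mul,
    smul_mul_assoc, mul_smul_comm, mul_assoc I.Z, ← (yW_sW_commute h).eq, ← mul_assoc (yW I (-f)),
    h1, mul_assoc, ← mul_assoc (yW I f), yW_sq]

lemma K_sub_one {f ζ : H} (h : (⟪f, ζ⟫_ℂ).im = 0) (ξ : H) :
    ‖(yW I (-f) * (I.zW ζ * yW I f)) ξ - ξ‖ ≤ 2 * ‖I.W ζ ξ - ξ‖ := by
  have hneg : ‖I.W (-ζ) ξ - ξ‖ = ‖I.W ζ ξ - ξ‖ := by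
    have h1 : I.W (-ζ) ξ - ξ = -(I.W (-ζ) (I.W ζ ξ - ξ)) := by
      rw [map_sub, ← mul_apply_eq_comp, W_neg_mul]
      simp
    rw [h1, norm_neg, norm_W_apply]
  have h2 : (yW I (-f) * (I.zW ζ * yW I f)) ξ - ξ =
      (1 / 2 : ℂ) • ((I.W ζ ξ - ξ) + (I.W (-ζ) ξ - ξ)) +
      Complex.I • (I.Z (yW I ((2 : ℂ) • f) ((-(Complex.I / 2)) • ((I.W ζ ξ - ξ) - (I.W (-ζ) ξ - ξ))))) := by
    rw [K_eq h]
    have e1 : (I.cW ζ + Complex.I • (I.Z * (yW I ((2 : ℂ) • f) * I.sW ζ))) ξ =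
      I.cW ζ ξ + Complex.I • (I.Z (yW I ((2 : ℂ) • f) (I.sW ζ ξ))) := rfl
    have e2 : I.cW ζ ξ = (1 / 2 : ℂ) • (I.W ζ ξ + I.W (-ζ) ξ) := rfl
    have e3 : I.sW ζ ξ = (-(Complex.I / 2)) • (I.W ζ ξ - I.W (-ζ) ξ) := rfl
    rw [e1, e2, e3]
    have e4 : I.W ζ ξ - ξ - (I.W (-ζ) ξ - ξ) = I.W ζ ξ - I.W (-ζ) ξ := by abel
    rw [e4]
    module
  have hZ : ∀ v, ‖I.Z v‖ = ‖v‖ := by
    intro v
    exact norm_U_apply (⟨I.Z, by rw [Unitary.mem_iff, star_Z, Z_mul_Z]; exact ⟨rfl, rfl⟩⟩ : UH H) v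
  have hyW : ∀ v, ‖yW I ((2 : ℂ) • f) v‖ = ‖v‖ := norm_U_apply (yWU I ((2 : ℂ) • f))
  have hI2 : ‖(-(Complex.I / 2) : ℂ)‖ = 1 / 2 := by
    rw [norm_neg, norm_div, Complex.norm_I]; norm_num
  rw [h2]
  refine (norm_add_le _ _).trans ?_
  rw [norm_smul, norm_smul, Complex.norm_I, one_mul, hZ, hyW, norm_smul, hI2]
  have e5 : ‖(1 / 2 : ℂ)‖ = 1 / 2 := by norm_num
  rw [e5]
  have a1 := norm_add_le (I.W ζ ξ - ξ) (I.W (-ζ) ξ - ξ)
  have a2 := norm_sub_le (I.W ζ ξ - ξ) (I.W (-ζ) ξ - ξ)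
  rw [hneg] at a1 a2
  linarith

/-- `y2 - y` -/
theorem y2_sub_y {M : Set Λ} (f ζ : H) (V : UH H) :
    pV I M (zWU I ζ * (yWU I f * V)) I.Y - pV I M V I.Y =
      pV I M V (I.Y * (yW I (-f) * (I.zW ((2 : ℂ) • ζ) * yW I f) - 1)) := by
  rw [pV_mul, pV_mul, ← pV_sub]
  congr 1
  have e1 : star ((zWU I ζ : UH H) : H →L[ℂ] H) = I.zW (-ζ) := star_zW _
  have e2 : star ((yWU I f : UH H) : H →L[ℂ] H) = yW I (-f) := star_yW _
  have e3 : I.zW ζ * I.zW ζ = I.zW ((2 : ℂ) • ζ) := by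
    rw [zW_mul, im_self, two_smul]; simp
  rw [e1, e2, zWU_coe, yWU_coe, ← Y_zW, mul_assoc I.Y, e3, mul_sub, mul_one, ← mul_assoc,
    ← (Y_yW (-f)).eq, mul_assoc, mul_assoc]

/-! ### the norm of `(W ζ - 1) P_B W f Om` -/

lemma inner_W_left (f x y : H) : ⟪I.W f x, y⟫_ℂ = ⟪x, I.W (-f) y⟫_ℂ := by
  rw [← I.W_star, ContinuousLinearMap.star_eq_adjoint, ContinuousLinearMap.adjoint_inner_right]

lemma inner_PW {B : Set Λ} (hB : MeasurableSet B) (ζ f : H) :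
    ⟪I.P B (I.W f I.Om), I.W ζ (I.P B (I.W f I.Om))⟫_ℂ =
      Complex.exp (Complex.I * (2 * (⟪f, ζ⟫_ℂ).im : ℝ)) *
        ((I.μ.real B : ℂ) * Complex.exp (-((‖ζ‖ ^ 2 / 2 : ℝ) : ℂ))) := by
  rw [← I.inner_Om B ζ hB, ← inner_smul_right, inner_P hB, inner_W_left]
  congr 1
  have h1 : I.W (-f) * (I.P B * (I.W ζ * (I.P B * I.W f))) =
      Complex.exp (Complex.I * (2 * (⟪f, ζ⟫_ℂ).im : ℝ)) • (I.P B * I.W ζ) := by
    rw [← mul_assoc (I.W ζ), ← (I.P_W B ζ hB).eq, mul_assoc (I.P B) (I.W ζ), ← mul_assoc (I.P B),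
      P_sq hB, W_comm ζ f, mul_smul_comm, mul_smul_comm, ← mul_assoc, ← (I.P_W B (-f) hB).eq,
      mul_assoc, ← mul_assoc (I.W (-f)), W_neg_mul, one_mul]
  exact congrArg (fun S : H →L[ℂ] H => S I.Om) h1

lemma norm_sq_PW {B : Set Λ} (hB : MeasurableSet B) (f : H) :
    ‖I.P B (I.W f I.Om)‖ ^ 2 = I.μ.real B := by
  have h := inner_PW (I := I) hB 0 f
  rw [I.W_zero, inner_zero_right, norm_zero] at h
  have h2 : ⟪I.P B (I.W f I.Om), I.P B (I.W f I.Om)⟫_ℂ = (I.μ.real B : ℂ) := by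
    refine h.trans ?_
    simp
  rw [← @inner_self_eq_norm_sq ℂ, h2]
  simp

lemma sq_norm_W_sub {B : Set Λ} (hB : MeasurableSet B) (ζ f : H) :
    ‖I.W ζ (I.P B (I.W f I.Om)) - I.P B (I.W f I.Om)‖ ^ 2 =
      2 * I.μ.real B * (1 - Real.exp (-(‖ζ‖ ^ 2 / 2)) * Real.cos (2 * (⟪f, ζ⟫_ℂ).im)) := by
  have h1 := @norm_sub_sq ℂ H _ _ _ (I.W ζ (I.P B (I.W f I.Om))) (I.P B (I.W f I.Om))
  rw [h1, norm_W_apply, norm_sq_PW hB, ← inner_conj_symm, inner_PW hB]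
  have h2 : (RCLike.re ((starRingEnd ℂ) (Complex.exp (Complex.I * (2 * (⟪f, ζ⟫_ℂ).im : ℝ)) *
      ((I.μ.real B : ℂ) * Complex.exp (-((‖ζ‖ ^ 2 / 2 : ℝ) : ℂ)))))) =
      I.μ.real B * (Real.exp (-(‖ζ‖ ^ 2 / 2)) * Real.cos (2 * (⟪f, ζ⟫_ℂ).im)) := by
    have e1 : Complex.exp (-((‖ζ‖ ^ 2 / 2 : ℝ) : ℂ)) = ((Real.exp (-(‖ζ‖ ^ 2 / 2)) : ℝ) : ℂ) := by
      push_cast; rfl
    have e2 : Complex.exp (Complex.I * (2 * (⟪f, ζ⟫_ℂ).im : ℝ)) =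
        ((Real.cos (2 * (⟪f, ζ⟫_ℂ).im) : ℝ) : ℂ) + ((Real.sin (2 * (⟪f, ζ⟫_ℂ).im) : ℝ) : ℂ) * Complex.I := by
      rw [mul_comm, Complex.exp_mul_I]; push_cast; rfl
    rw [e1, e2]
    simp [-Complex.ofReal_cos, -Complex.ofReal_sin, -Complex.ofReal_exp, -Complex.ofReal_mul,
      -Complex.ofReal_neg]
    ring
  rw [h2]
  ring

lemma norm_W_sub_le {B : Set Λ} (hB : MeasurableSet B) (ζ f : H) :
    ‖I.W ζ (I.P B (I.W f I.Om)) - I.P B (I.W f I.Om)‖ ≤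
      Real.sqrt (I.μ.real B) * ((1 + 2 * ‖f‖) * ‖ζ‖) := by
  have h1 := sq_norm_W_sub (I := I) hB ζ f
  set x := (⟪f, ζ⟫_ℂ).im
  have hx : |x| ≤ ‖f‖ * ‖ζ‖ := (Complex.abs_im_le_norm _).trans (norm_inner_le_norm _ _)
  have hμ : 0 ≤ I.μ.real B := measureReal_nonneg
  have hc : 1 - 2 * x ^ 2 ≤ Real.cos (2 * x) := by
    have := Real.one_sub_sq_div_two_le_cos (x := 2 * x)
    nlinarith
  have he : 1 - ‖ζ‖ ^ 2 / 2 ≤ Real.exp (-(‖ζ‖ ^ 2 / 2)) := by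
    have := Real.add_one_le_exp (-(‖ζ‖ ^ 2 / 2)); linarith
  have he1 : Real.exp (-(‖ζ‖ ^ 2 / 2)) ≤ 1 := by
    rw [Real.exp_le_one_iff]; have := sq_nonneg ‖ζ‖; linarith
  have he0 : 0 < Real.exp (-(‖ζ‖ ^ 2 / 2)) := Real.exp_pos _
  have key : 1 - Real.exp (-(‖ζ‖ ^ 2 / 2)) * Real.cos (2 * x) ≤ ‖ζ‖ ^ 2 / 2 + 2 * x ^ 2 := by
    have h3 : Real.exp (-(‖ζ‖ ^ 2 / 2)) * (1 - 2 * x ^ 2) ≤
        Real.exp (-(‖ζ‖ ^ 2 / 2)) * Real.cos (2 * x) := mul_le_mul_of_nonneg_left hc he0.le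
    have h4 : Real.exp (-(‖ζ‖ ^ 2 / 2)) * (2 * x ^ 2) ≤ 1 * (2 * x ^ 2) :=
      mul_le_mul_of_nonneg_right he1 (by positivity)
    linarith
  have hx2 : x ^ 2 ≤ (‖f‖ * ‖ζ‖) ^ 2 := sq_le_sq' (by linarith [(abs_le.mp hx).1]) (abs_le.mp hx).2
  have h5 : ‖I.W ζ (I.P B (I.W f I.Om)) - I.P B (I.W f I.Om)‖ ^ 2 ≤
      (Real.sqrt (I.μ.real B) * ((1 + 2 * ‖f‖) * ‖ζ‖)) ^ 2 := by
    rw [h1, mul_pow, Real.sq_sqrt hμ]
    have h6 : 2 * (‖ζ‖ ^ 2 / 2 + 2 * x ^ 2) ≤ ((1 + 2 * ‖f‖) * ‖ζ‖) ^ 2 := by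
      have := norm_nonneg f
      have := norm_nonneg ζ
      nlinarith [mul_nonneg (norm_nonneg f) (sq_nonneg ‖ζ‖)]
    calc 2 * I.μ.real B * (1 - Real.exp (-(‖ζ‖ ^ 2 / 2)) * Real.cos (2 * x))
        ≤ 2 * I.μ.real B * (‖ζ‖ ^ 2 / 2 + 2 * x ^ 2) :=
          mul_le_mul_of_nonneg_left key (by positivity)
      _ = I.μ.real B * (2 * (‖ζ‖ ^ 2 / 2 + 2 * x ^ 2)) := by ring
      _ ≤ _ := mul_le_mul_of_nonneg_left h6 hμ
  exact (le_abs_self _).trans (abs_le_of_sq_le_sq h5 (by positivity))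

/-! ### the 4-term family -/

section four

variable {n : ℕ}

/-- index -/
abbrev ix (n : ℕ) : Fin n × Fin 4 ≃ Fin (n * 4) := finProdFinEquiv

/-- coefficients -/
def c4 (c : Fin n → ℝ) (s : ℝ) (i : Fin (n * 4)) : ℝ :=
  c ((ix n).symm i).1 / (4 * s) * ![-1, 1, 1, 1] ((ix n).symm i).2
/-- coefficients of the target field -/
def a4 (s : ℝ) (i : Fin (n * 4)) : ℝ := s * ![1, 1, -1, 1] ((ix n).symm i).2
/-- signs -/
def b4 (i : Fin (n * 4)) : ℝ := ![1, 1, 1, -1] ((ix n).symm i).2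
/-- labels -/
def u4 (u : Fin n → H) (i : Fin (n * 4)) : H :=
  ((![1, -1, 1, 1] ((ix n).symm i).2 : ℝ) : ℂ) • u ((ix n).symm i).1

lemma b4_sign (i : Fin (n * 4)) : b4 i = 1 ∨ b4 i = -1 := by
  rw [b4]
  generalize ((ix n).symm i).2 = j
  fin_cases j <;> simp

lemma u4_mem {L : Set H} {u : Fin n → H} (hu : ∀ k, u k ∈ Submodule.span ℝ L) (i : Fin (n * 4)) :
    u4 u i ∈ Submodule.span ℝ L := by
  rw [u4, Complex.coe_smul]
  exact Submodule.smul_mem _ _ (hu _)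

lemma sum_ix {E : Type*} [AddCommMonoid E] (F : Fin (n * 4) → E) :
    ∑ i, F i = ∑ k : Fin n, ∑ j : Fin 4, F (ix n (k, j)) := by
  rw [← Fintype.sum_prod_type', ← (ix n).sum_comp]

variable {c : Fin n → ℝ} {u : Fin n → H} {e : H} {s : ℝ}

/-- the family vanishes without the bath field -/
theorem four_zero :
    ∑ i, (c4 c s i : ℂ) • I.sW ((a4 s i : ℂ) • e + u4 u i) = 0 := by
  rw [sum_ix]
  refine Finset.sum_eq_zero fun k _ => ?_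
  simp only [Fin.sum_univ_four, c4, a4, u4, Equiv.symm_apply_apply]
  have e1 : (((s * 1 : ℝ)) : ℂ) • e + ((1 : ℝ) : ℂ) • u k = u k + (s : ℂ) • e := by
    push_cast; module
  have e2 : (((s * 1 : ℝ)) : ℂ) • e + ((-1 : ℝ) : ℂ) • u k = -(u k - (s : ℂ) • e) := by
    push_cast; module
  have e3 : (((s * -1 : ℝ)) : ℂ) • e + ((1 : ℝ) : ℂ) • u k = u k - (s : ℂ) • e := by
    push_cast; module
  simp only [Matrix.cons_val_zero, Matrix.cons_val_one, Matrix.cons_val, e1, e2, e3, sW_neg]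
  push_cast
  module

/-- the node generator -/
theorem four_cW (hs : s ≠ 0) (hr : ∀ k, (⟪u k, e⟫_ℂ).im = 0) :
    ∑ i, ((c4 c s i * b4 i : ℝ) : ℂ) • I.cW ((a4 s i : ℂ) • e + u4 u i) =
      (∑ k, (c k : ℂ) • I.sW (u k)) * ((s : ℂ)⁻¹ • I.sW ((s : ℂ) • e)) := by
  rw [sum_ix, Finset.sum_mul]
  refine Finset.sum_congr rfl fun k _ => ?_
  simp only [Fin.sum_univ_four, c4, a4, u4, b4, Equiv.symm_apply_apply]
  have e1 : (((s * 1 : ℝ)) : ℂ) • e + ((1 : ℝ) : ℂ) • u k = u k + (s : ℂ) • e := by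
    push_cast; module
  have e2 : (((s * 1 : ℝ)) : ℂ) • e + ((-1 : ℝ) : ℂ) • u k = -(u k - (s : ℂ) • e) := by
    push_cast; module
  have e3 : (((s * -1 : ℝ)) : ℂ) • e + ((1 : ℝ) : ℂ) • u k = u k - (s : ℂ) • e := by
    push_cast; module
  have h0 : (⟪u k, (s : ℂ) • e⟫_ℂ).im = 0 := by
    rw [inner_smul_right, Complex.im_ofReal_mul, hr, mul_zero]
  have hs' : (s : ℂ) ≠ 0 := by exact_mod_cast hs
  simp only [Matrix.cons_val_zero, Matrix.cons_val_one, Matrix.cons_val, e1, e2, e3, cW_neg]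
  rw [smul_mul_smul_comm, sW_mul_sW h0]
  match_scalars <;> field_simp <;> push_cast <;> ring

/-- the target kick -/
theorem four_sW (hs : s ≠ 0) (hr : ∀ k, (⟪u k, e⟫_ℂ).im = 0) :
    ∑ i, ((c4 c s i * a4 s i * b4 i : ℝ) : ℂ) • I.sW ((a4 s i : ℂ) • e + u4 u i) =
      -((∑ k, (c k : ℂ) • I.sW (u k)) * I.cW ((s : ℂ) • e)) := by
  rw [sum_ix, Finset.sum_mul, ← Finset.sum_neg_distrib]
  refine Finset.sum_congr rfl fun k _ => ?_
  simp only [Fin.sum_univ_four, c4, a4, u4, b4, Equiv.symm_apply_apply]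
  have e1 : (((s * 1 : ℝ)) : ℂ) • e + ((1 : ℝ) : ℂ) • u k = u k + (s : ℂ) • e := by
    push_cast; module
  have e2 : (((s * 1 : ℝ)) : ℂ) • e + ((-1 : ℝ) : ℂ) • u k = -(u k - (s : ℂ) • e) := by
    push_cast; module
  have e3 : (((s * -1 : ℝ)) : ℂ) • e + ((1 : ℝ) : ℂ) • u k = u k - (s : ℂ) • e := by
    push_cast; module
  have h0 : (⟪u k, (s : ℂ) • e⟫_ℂ).im = 0 := by
    rw [inner_smul_right, Complex.im_ofReal_mul, hr, mul_zero]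
  have hs' : (s : ℂ) ≠ 0 := by exact_mod_cast hs
  simp only [Matrix.cons_val_zero, Matrix.cons_val_one, Matrix.cons_val, e1, e2, e3, sW_neg]
  rw [smul_mul_assoc, sW_mul_cW h0]
  match_scalars <;> field_simp <;> push_cast <;> ring

end four

end Crest.Agent.R339.Cel
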