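import Crest.Agent.R339.Cell220E

/-!
# Bath estimates for the recursion over the cells (R339, label induction, block G3 [a])
-/

set_option autoImplicit false
set_option linter.unusedSectionVars false
set_option linter.unusedVariables false

noncomputable section

open scoped InnerProductSpace Topology ComplexConjugate
open Filter MeasureTheory

namespace Crest.Agent.R339.Cell

open Crest.Agent.R339.Li Crest.Agent.R339.Li.ILSys Crest.Agent.R339.MF Crest.Agent.R339.Cel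

variable {Λ H : Type*} [MeasurableSpace Λ] [NormedAddCommGroup H] [InnerProductSpace ℂ H]
  [CompleteSpace H]

section

variable {I : ILSys Λ H} {S : Set Λ} {L : Set H} {p : Par Λ H} {g : ℝ} {N : ℕ → Set Λ} {R : ℕ}

/-! ### unitary spin operators -/

/-- `Z` as unitary -/
def ZU (I : ILSys Λ H) : UH H :=
  ⟨I.Z, by rw [Unitary.mem_iff, star_Z, Z_mul_Z]; exact ⟨rfl, rfl⟩⟩
/-- `X` as unitary -/
def XU (I : ILSys Λ H) : UH H :=
  ⟨I.X, by rw [Unitary.mem_iff, star_X, X_mul_X]; exact ⟨rfl, rfl⟩⟩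
/-- `Y` as unitary -/
def YU (I : ILSys Λ H) : UH H :=
  ⟨I.Y, by rw [Unitary.mem_iff, star_Y, Y_mul_Y]; exact ⟨rfl, rfl⟩⟩

theorem norm_Z_apply (x : H) : ‖I.Z x‖ = ‖x‖ := norm_U_apply (ZU I) x
theorem norm_X_apply (x : H) : ‖I.X x‖ = ‖x‖ := norm_U_apply (XU I) x
theorem norm_Y_apply (x : H) : ‖I.Y x‖ = ‖x‖ := norm_U_apply (YU I) x

theorem norm_Z_le : ‖I.Z‖ ≤ 1 :=
  ContinuousLinearMap.opNorm_le_bound _ zero_le_one fun x => by rw [norm_Z_apply, one_mul]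

theorem sqrt_mass_le_one (A : Set Λ) : Real.sqrt (I.μ.real A) ≤ 1 := by
  rw [Real.sqrt_le_one]
  exact measureReal_le_one

theorem norm_P_Om_le_one {A : Set Λ} (hA : MeasurableSet A) : ‖I.P A I.Om‖ ≤ 1 := by
  have h := norm_P_apply_le (I := I) hA I.Om
  rwa [norm_Om] at h

theorem X_P_Om {A : Set Λ} (hA : MeasurableSet A) : I.X (I.P A I.Om) = I.P A I.Om := by
  rw [← mul_apply_eq_comp, ← (P_X hA).eq, mul_apply_eq_comp]
  have : I.X I.Om = I.Om := I.Om_X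
  rw [this]

/-! ### norms of the vectors -/

theorem norm_zv (h : Hyp I S L p) (hN : Cells I p R N) {r : ℕ} (hr : r < R) :
    ‖zv I p N r‖ ≤ Real.sqrt (I.μ.real (N r)) := by
  have h1 := norm_pV_le (I := I) (hN.m hr) h.PCU PC.Z
  refine h1.trans ?_
  calc ‖I.Z‖ * Real.sqrt (I.μ.real (N r)) ≤ 1 * Real.sqrt (I.μ.real (N r)) :=
        mul_le_mul_of_nonneg_right norm_Z_le (Real.sqrt_nonneg _)
    _ = _ := one_mul _

theorem norm_qb (h : Hyp I S L p) {B : UH H} (hB : PC I (B : H →L[ℂ] H)) (r : ℕ) :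
    ‖qb I p g N B r‖ ≤ 1 := by
  have h1 := norm_pV_le (I := I) (U := yWU I ((g : ℂ) • zv I p N r) * B) h.mM
    ((PC.yW _).mul hB) PC.Z
  refine h1.trans ?_
  calc ‖I.Z‖ * Real.sqrt (I.μ.real p.M) ≤ 1 * 1 :=
        mul_le_mul norm_Z_le (sqrt_mass_le_one _) (Real.sqrt_nonneg _) zero_le_one
    _ = _ := one_mul _

/-! ### commutation -/

theorem im_ζb_zv (h : Hyp I S L p) (hN : Cells I p R N) (B : UH H) {r s : ℕ} (hr : r < R)
    (hs : s < R) : (⟪ζb I p g N B r, zv I p N s⟫_ℂ).im = 0 :=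
  im_coe_smul_left (im_inner_pV (hN.m hr) (hN.m hs) h.PCU (PC.snS _ _) PC.Z (star_snS _ _)
    star_Z (Z_snS _ _).symm) _

theorem im_zv_zv (h : Hyp I S L p) (hN : Cells I p R N) {r s : ℕ} (hr : r < R)
    (hs : s < R) : (⟪zv I p N r, zv I p N s⟫_ℂ).im = 0 :=
  im_inner_pV (hN.m hr) (hN.m hs) h.PCU PC.Z PC.Z star_Z star_Z (Commute.refl _)

theorem im_ζb_ζb (hN : Cells I p R N) (B B' : UH H) {r s : ℕ} (hr : r < R)
    (hs : s < R) (hrs : r ≠ s) : (⟪ζb I p g N B r, ζb I p g N B' s⟫_ℂ).im = 0 :=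
  im_inner_of_disj (hN.m hr) (hN.m hs) (hN.part.disj r hr s hs hrs) (P_ζb hN B hr) (P_ζb hN B' hs)

/-- Weyl operators real against the vectors of a cell commute with its bath gate -/
theorem commute_W_Kb {d : H} {B : UH H} {r : ℕ} (h1 : (⟪d, zv I p N r⟫_ℂ).im = 0)
    (h2 : (⟪d, ζb I p g N B r⟫_ℂ).im = 0) :
    Commute (I.W d) ((Kb I p g N B r : UH H) : H →L[ℂ] H) := by
  have e1 : (⟪d, (g : ℂ) • zv I p N r⟫_ℂ).im = 0 := im_coe_smul_right h1 g
  show Commute (I.W d) (yW I (-((g : ℂ) • zv I p N r)) *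
    (I.zW (ζb I p g N B r) * yW I ((g : ℂ) • zv I p N r)))
  exact (commute_W_yW (im_neg_right e1)).mul_right ((commute_W_zW h2).mul_right (commute_W_yW e1))

theorem commute_W_Bs {d : H} {r : ℕ} (h1 : ∀ s < r, (⟪d, zv I p N s⟫_ℂ).im = 0)
    (h2 : ∀ s < r, (⟪d, ζb I p g N (Bs I p g N s) s⟫_ℂ).im = 0) :
    Commute (I.W d) ((Bs I p g N r : UH H) : H →L[ℂ] H) := by
  induction r with
  | zero => exact Commute.one_right _
  | succ r ih =>
    show Commute (I.W d) (((Kb I p g N (Bs I p g N r) r : UH H) : H →L[ℂ] H) *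
      ((Bs I p g N r : UH H) : H →L[ℂ] H))
    exact (commute_W_Kb (h1 r (Nat.lt_succ_self r)) (h2 r (Nat.lt_succ_self r))).mul_right
      (ih (fun s hs => h1 s (hs.trans (Nat.lt_succ_self r)))
        (fun s hs => h2 s (hs.trans (Nat.lt_succ_self r))))

theorem commute_ζ_Bs (h : Hyp I S L p) (hN : Cells I p R N) {r : ℕ} (hr : r < R) (B : UH H) :
    Commute (I.W (ζb I p g N B r)) ((Bs I p g N r : UH H) : H →L[ℂ] H) :=
  commute_W_Bs (fun s hs => im_ζb_zv h hN B hr (hs.trans hr))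
    (fun s hs => im_ζb_ζb hN B _ hr (hs.trans hr) hs.ne')

theorem commute_gz_Bs (h : Hyp I S L p) (hN : Cells I p R N) {r : ℕ} (hr : r < R) (a : ℝ) :
    Commute (I.W ((a : ℂ) • zv I p N r)) ((Bs I p g N r : UH H) : H →L[ℂ] H) :=
  commute_W_Bs (fun s hs => im_coe_smul_left (im_zv_zv h hN hr (hs.trans hr)) a)
    (fun s hs => im_coe_smul_left (im_symm (im_ζb_zv h hN _ (hs.trans hr) hr)) a)

/-! ### deviation of the bath -/

theorem norm_Bs_sub_le (h : Hyp I S L p) (hN : Cells I p R N) {r : ℕ} (hr : r ≤ R) (x : H) :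
    ‖((Bs I p g N r : UH H) : H →L[ℂ] H) x - x‖ ≤
      2 * ∑ s ∈ Finset.range r, ‖I.W (ζb I p g N (Bs I p g N s) s) x - x‖ := by
  induction r with
  | zero => simp [Bs]
  | succ r ih =>
    have hr' : r < R := hr
    have h1 := ih hr'.le
    rw [Finset.sum_range_succ, mul_add]
    set B : UH H := Bs I p g N r with hB
    have e1 : ((Bs I p g N (r + 1) : UH H) : H →L[ℂ] H) x - x =
        (((Kb I p g N B r : UH H) : H →L[ℂ] H) ((B : H →L[ℂ] H) x) - (B : H →L[ℂ] H) x) +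
          ((B : H →L[ℂ] H) x - x) := by
      have : ((Bs I p g N (r + 1) : UH H) : H →L[ℂ] H) x =
        ((Kb I p g N B r : UH H) : H →L[ℂ] H) ((B : H →L[ℂ] H) x) := rfl
      rw [this]
      abel
    have e2 : ‖((Kb I p g N B r : UH H) : H →L[ℂ] H) ((B : H →L[ℂ] H) x) - (B : H →L[ℂ] H) x‖ ≤
        2 * ‖I.W (ζb I p g N B r) ((B : H →L[ℂ] H) x) - (B : H →L[ℂ] H) x‖ :=
      norm_step_sub_le (im_coe_smul_right (im_ζb_zv h hN B hr' hr') g) _
    rw [norm_W_sub_comm (commute_ζ_Bs h hN hr' B)] at e2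
    rw [e1]
    linarith [norm_add_le (((Kb I p g N B r : UH H) : H →L[ℂ] H) ((B : H →L[ℂ] H) x) -
      (B : H →L[ℂ] H) x) ((B : H →L[ℂ] H) x - x)]

/-! ### the symplectic form of the bath vectors -/

theorem im_inner_Y_Z (v : H) : (⟪I.Y v, I.Z v⟫_ℂ).im = (⟪v, I.X v⟫_ℂ).re := by
  rw [← ContinuousLinearMap.adjoint_inner_right, ← ContinuousLinearMap.star_eq_adjoint, star_Y,
    ← mul_apply_eq_comp, Y_Z, smul_apply, inner_smul_right]
  simp

theorem inner_star_U (U : UH H) (x y : H) :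
    ⟪star (U : H →L[ℂ] H) x, star (U : H →L[ℂ] H) y⟫_ℂ = ⟪x, y⟫_ℂ := by
  rw [ContinuousLinearMap.star_eq_adjoint, ContinuousLinearMap.adjoint_inner_left,
    ← ContinuousLinearMap.star_eq_adjoint, U_apply_star_U]

/-- adding a unitary which commutes with the operator -/
theorem star_mul_comm_apply {U G : UH H} {T : H →L[ℂ] H} (hc : Commute T (G : H →L[ℂ] H)) (x : H) :
    star (U : H →L[ℂ] H) (T ((U : H →L[ℂ] H) x)) =
      star ((G * U : UH H) : H →L[ℂ] H) (T (((G * U : UH H) : H →L[ℂ] H) x)) := by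
  have e : star ((G * U : UH H) : H →L[ℂ] H) * (T * ((G * U : UH H) : H →L[ℂ] H)) =
      star (U : H →L[ℂ] H) * (T * (U : H →L[ℂ] H)) := by
    show star ((G : H →L[ℂ] H) * (U : H →L[ℂ] H)) * (T * ((G : H →L[ℂ] H) * (U : H →L[ℂ] H))) = _
    rw [star_mul, ← mul_assoc T, hc.eq, mul_assoc (star (U : H →L[ℂ] H)),
      mul_assoc (G : H →L[ℂ] H), ← mul_assoc (star (G : H →L[ℂ] H)), star_U_mul_self, one_mul]
  exact (congrArg (fun K : H →L[ℂ] H => K x) e).symm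

theorem Jb_eq (h : Hyp I S L p) {B : UH H} (hB : PC I (B : H →L[ℂ] H)) (r : ℕ) :
    Jb I p g N B r = (⟪yW I ((g : ℂ) • zv I p N r) ((B : H →L[ℂ] H) (I.P p.M I.Om)),
      I.X (yW I ((g : ℂ) • zv I p N r) ((B : H →L[ℂ] H) (I.P p.M I.Om)))⟫_ℂ).re := by
  have hG : PC I ((yWU I ((g : ℂ) • zv I p N r) * B : UH H) : H →L[ℂ] H) := (PC.yW _).mul hB
  have e1 : yb I p B = star ((yWU I ((g : ℂ) • zv I p N r) * B : UH H) : H →L[ℂ] H)
      (I.Y (((yWU I ((g : ℂ) • zv I p N r) * B : UH H) : H →L[ℂ] H) (I.P p.M I.Om))) := by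
    rw [yb, pV_eq h.mM hB PC.Y]
    exact star_mul_comm_apply (Y_yW _) _
  have e2 : qb I p g N B r = star ((yWU I ((g : ℂ) • zv I p N r) * B : UH H) : H →L[ℂ] H)
      (I.Z (((yWU I ((g : ℂ) • zv I p N r) * B : UH H) : H →L[ℂ] H) (I.P p.M I.Om))) := by
    rw [qb, eA_eq_pV, pV_eq h.mM hG PC.Z]
  rw [Jb, e1, e2, inner_star_U, im_inner_Y_Z]
  rfl

theorem norm_gz_sub_le (h : Hyp I S L p) (hN : Cells I p R N) (hg : 0 ≤ g) {r : ℕ} (hr : r < R) :
    ‖yW I ((g : ℂ) • zv I p N r) (((Bs I p g N r : UH H) : H →L[ℂ] H) (I.P p.M I.Om)) -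
      ((Bs I p g N r : UH H) : H →L[ℂ] H) (I.P p.M I.Om)‖ ≤
      2 * (g * Real.sqrt (I.μ.real (N r))) := by
  refine (norm_yW_sub_le _ _).trans ?_
  rw [norm_W_sub_comm (commute_gz_Bs h hN hr g)]
  refine mul_le_mul_of_nonneg_left ?_ zero_le_two
  refine (norm_W_sub_P_Om_le h.mM _).trans ?_
  rw [norm_smul, Complex.norm_real, Real.norm_of_nonneg hg]
  calc g * ‖zv I p N r‖ * Real.sqrt (I.μ.real p.M)
      ≤ g * Real.sqrt (I.μ.real (N r)) * 1 :=
        mul_le_mul (mul_le_mul_of_nonneg_left (norm_zv h hN hr) hg) (sqrt_mass_le_one _)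
          (Real.sqrt_nonneg _) (by positivity)
    _ = _ := mul_one _

theorem abs_re_inner_X_sub_le {v w : H} (hv : ‖v‖ ≤ 1) (hw : ‖w‖ ≤ 1) :
    |(⟪v, I.X v⟫_ℂ).re - (⟪w, I.X w⟫_ℂ).re| ≤ 2 * ‖v - w‖ := by
  have e1 : ⟪v, I.X v⟫_ℂ - ⟪w, I.X w⟫_ℂ = ⟪v - w, I.X v⟫_ℂ + ⟪w, I.X (v - w)⟫_ℂ := by
    rw [inner_sub_left, map_sub, inner_sub_right]
    ring
  rw [← Complex.sub_re, e1]
  refine (Complex.abs_re_le_norm _).trans ((norm_add_le _ _).trans ?_)
  have h1 := norm_inner_le_norm (𝕜 := ℂ) (v - w) (I.X v)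
  have h2 := norm_inner_le_norm (𝕜 := ℂ) w (I.X (v - w))
  rw [norm_X_apply] at h1 h2
  have h3 : ‖v - w‖ * ‖v‖ ≤ ‖v - w‖ * 1 := mul_le_mul_of_nonneg_left hv (norm_nonneg _)
  have h4 : ‖w‖ * ‖v - w‖ ≤ 1 * ‖v - w‖ := mul_le_mul_of_nonneg_right hw (norm_nonneg _)
  linarith

theorem abs_Jb_sub_le (h : Hyp I S L p) (hN : Cells I p R N) (hg : 0 ≤ g) {r : ℕ} (hr : r < R) :
    |Jb I p g N (Bs I p g N r) r - I.μ.real p.M| ≤ 4 * (g * Real.sqrt (I.μ.real (N r))) +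
      2 * ‖((Bs I p g N r : UH H) : H →L[ℂ] H) (I.P p.M I.Om) - I.P p.M I.Om‖ := by
  set w : H := I.P p.M I.Om with hw
  set B : UH H := Bs I p g N r with hB
  set v : H := yW I ((g : ℂ) • zv I p N r) ((B : H →L[ℂ] H) w) with hv
  have e1 : I.μ.real p.M = (⟪w, I.X w⟫_ℂ).re := by
    rw [hw, X_P_Om h.mM, ← norm_sq_eq_re_inner, norm_P_Om_sq h.mM]
  have e2 : ‖v‖ ≤ 1 := by
    have e3 : ‖v‖ = ‖w‖ := by
      have := norm_U_apply (yWU I ((g : ℂ) • zv I p N r) * B) w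
      exact this
    rw [e3]
    exact norm_P_Om_le_one h.mM
  rw [Jb_eq h (PC_Bs r), e1]
  refine (abs_re_inner_X_sub_le e2 (norm_P_Om_le_one h.mM)).trans ?_
  have e4 : v - w = (v - (B : H →L[ℂ] H) w) + ((B : H →L[ℂ] H) w - w) := by abel
  rw [e4]
  have e5 := norm_add_le (v - (B : H →L[ℂ] H) w) ((B : H →L[ℂ] H) w - w)
  have e6 := norm_gz_sub_le h hN hg hr
  linarith

/-! ### the bath kick -/

theorem P_hv_add_u (h : Hyp I S L p) (hN : Cells I p R N) {r : ℕ} (hr : r < R) (k : Fin p.n) :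
    I.P p.M ((p.a k : ℂ) • hv I p N r + p.u k) = 0 := by
  rw [map_add, map_smul, span_P_zero h.bath (h.hu k), add_zero, ← P_hv h hN hr,
    ← mul_apply_eq_comp, P_disj h.mM (hN.mAN h hr) (Cells.dAM h).symm, zero_apply, smul_zero]

theorem norm_W_add_sub {v q x : H} (h : (⟪v, q⟫_ℂ).im = 0) :
    ‖I.W (v + q) x - I.W v x‖ = ‖I.W q x - x‖ := by
  rw [← W_mul_of_im h, mul_apply_eq_comp, ← map_sub, norm_W]

theorem norm_sW_add_sub_le {v q x : H} (h : (⟪v, q⟫_ℂ).im = 0) :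
    ‖I.sW (v + q) x - I.sW v x‖ ≤ ‖I.W q x - x‖ := by
  have h1 : I.sW (v + q) x - I.sW v x = (-(Complex.I / 2)) •
      ((I.W (v + q) x - I.W v x) - (I.W (-v + -q) x - I.W (-v) x)) := by
    rw [ILSys.sW, ILSys.sW, smul_apply, smul_apply, sub_apply, sub_apply, ← smul_sub, neg_add]
    congr 1
    abel
  rw [h1, norm_smul]
  have h2 : ‖(-(Complex.I / 2) : ℂ)‖ = 1 / 2 := by simp
  rw [h2]
  have h3 := norm_sub_le (I.W (v + q) x - I.W v x) (I.W (-v + -q) x - I.W (-v) x)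
  rw [norm_W_add_sub h, norm_W_add_sub (im_neg_left (im_neg_right h)), norm_W_neg_sub] at h3
  linarith

theorem norm_snS_fb_le (h : Hyp I S L p) (hN : Cells I p R N) {B : UH H}
    (hB : PC I (B : H →L[ℂ] H)) {r : ℕ} (hr : r < R) :
    ‖pV I (N r) p.U (snS I p.c (fb I p g N B r))‖ ≤
      (∑ k, |p.c k|) * (|τb I p g N B r| * Real.sqrt (I.μ.real (N r))) := by
  rw [pV_eq (hN.m hr) h.PCU (PC.snS _ _), norm_star_U_apply]
  set x : H := (p.U : H →L[ℂ] H) (I.P (N r) I.Om) with hx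
  set τ : ℝ := τb I p g N B r with hτ
  set q : H := qb I p g N B r with hq
  have hPq : I.P p.M q = q := P_qb h B r
  have e1 : snS I p.c (fb I p g N B r) x =
      ∑ k, (p.c k : ℂ) • (I.sW (((p.a k : ℂ) • hv I p N r + p.u k) + ((p.b k * τ : ℝ) : ℂ) • q) x -
        I.sW ((p.a k : ℂ) • hv I p N r + p.u k) x) := by
    have e2 : snS I p.c (fun k => (p.a k : ℂ) • hv I p N r + p.u k) x = 0 := by
      rw [h.van, zero_apply]
    rw [← sub_zero (snS I p.c (fb I p g N B r) x), ← e2, snS, snS, sum_apply,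
      sum_apply, ← Finset.sum_sub_distrib]
    refine Finset.sum_congr rfl fun k _ => ?_
    rw [smul_apply, smul_apply, smul_sub, fb]
    congr 4
    abel
  rw [e1, Finset.sum_mul]
  refine (norm_sum_le _ _).trans (Finset.sum_le_sum fun k _ => ?_)
  rw [norm_smul, Complex.norm_real, Real.norm_eq_abs]
  refine mul_le_mul_of_nonneg_left ?_ (abs_nonneg _)
  have hPbq : I.P p.M (((p.b k * τ : ℝ) : ℂ) • q) = ((p.b k * τ : ℝ) : ℂ) • q := by
    rw [map_smul, hPq]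
  have hz : ⟪(p.a k : ℂ) • hv I p N r + p.u k, ((p.b k * τ : ℝ) : ℂ) • q⟫_ℂ = 0 :=
    inner_of_P_zero h.mM (P_hv_add_u h hN hr k) hPbq
  refine (norm_sW_add_sub_le (by rw [hz, Complex.zero_im])).trans ?_
  rw [hx, norm_W_sub_comm (h.UW _ hPbq)]
  refine (norm_W_sub_P_Om_le (hN.m hr) _).trans ?_
  refine mul_le_mul_of_nonneg_right ?_ (Real.sqrt_nonneg _)
  rw [norm_smul, Complex.norm_real, Real.norm_eq_abs, abs_mul]
  have hb : |p.b k| = 1 := by rcases h.hb k with e | e <;> rw [e] <;> simp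
  rw [hb, one_mul]
  calc |τ| * ‖q‖ ≤ |τ| * 1 := mul_le_mul_of_nonneg_left (norm_qb h hB r) (abs_nonneg _)
    _ = |τ| := mul_one _

theorem norm_ζb_le (h : Hyp I S L p) (hN : Cells I p R N) {B : UH H}
    (hB : PC I (B : H →L[ℂ] H)) {r : ℕ} (hr : r < R) :
    ‖ζb I p g N B r‖ ≤ |p.t| * |τb I p g N B r| ^ 2 * (∑ k, |p.c k|) *
      Real.sqrt (I.μ.real (N r)) := by
  rw [ζb, norm_smul, Complex.norm_real, Real.norm_eq_abs, abs_neg, abs_mul]
  calc |p.t| * |τb I p g N B r| * ‖pV I (N r) p.U (snS I p.c (fb I p g N B r))‖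
      ≤ |p.t| * |τb I p g N B r| *
        ((∑ k, |p.c k|) * (|τb I p g N B r| * Real.sqrt (I.μ.real (N r)))) :=
        mul_le_mul_of_nonneg_left (norm_snS_fb_le h hN hB hr) (by positivity)
    _ = _ := by ring

/-! ### the change of the `Y` vector -/

theorem norm_yb_sub_y2b (h : Hyp I S L p) (hN : Cells I p R N) {r : ℕ} (hr : r < R) :
    ‖yb I p (Bs I p g N r) - y2b I p g N (Bs I p g N r) r‖ ≤
      4 * ‖ζb I p g N (Bs I p g N r) r‖ := by
  set B : UH H := Bs I p g N r with hB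
  have hBP : PC I (B : H →L[ℂ] H) := PC_Bs r
  set ζ : H := ζb I p g N B r with hζ
  set w : H := I.P p.M I.Om with hw
  set G : UH H := yWU I ((g : ℂ) • zv I p N r) * B with hG
  have hGP : PC I (G : H →L[ℂ] H) := (PC.yW _).mul hBP
  have e1 : yb I p B = star (G : H →L[ℂ] H) (I.Y ((G : H →L[ℂ] H) w)) := by
    rw [yb, pV_eq h.mM hBP PC.Y]
    exact star_mul_comm_apply (Y_yW _) _
  have e2 : y2b I p g N B r = star (G : H →L[ℂ] H) (star (I.zW ζ) (I.Y (I.zW ζ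
      ((G : H →L[ℂ] H) w)))) := by
    rw [y2b, pV_eq h.mM ((PC.zW _).mul hGP) PC.Y]
    have e3 : star ((zWU I (ζb I p g N B r) * (yWU I ((g : ℂ) • zv I p N r) * B) : UH H) :
      H →L[ℂ] H) = star (G : H →L[ℂ] H) * star (I.zW ζ) := by
      rw [coe_mul, star_mul]
      rfl
    rw [e3]
    rfl
  set v : H := (G : H →L[ℂ] H) w with hv
  rw [e1, e2, ← map_sub, norm_star_U_apply]
  have e4 : I.Y v - star (I.zW ζ) (I.Y (I.zW ζ v)) =
      star (I.zW ζ) ((I.zW ζ (I.Y v) - I.Y v) + (I.Y v - I.Y (I.zW ζ v))) := by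
    have e5 : star (I.zW ζ) (I.zW ζ (I.Y v)) = I.Y v := by
      rw [← mul_apply_eq_comp, star_zW, zW_neg_mul]; rfl
    rw [sub_add_sub_cancel, map_sub, e5]
  have e6 : ∀ x : H, ‖star (I.zW ζ) x‖ = ‖x‖ := fun x => norm_star_U_apply (zWU I ζ) x
  rw [e4, e6]
  have e7 : ‖I.zW ζ (I.Y v) - I.Y v‖ ≤ 2 * ‖I.W ζ v - v‖ := by
    refine (norm_zW_sub_le _ _).trans (le_of_eq ?_)
    have : I.W ζ (I.Y v) = I.Y (I.W ζ v) := by
      rw [← mul_apply_eq_comp, (W_Y ζ).eq, mul_apply_eq_comp]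
    rw [this, ← map_sub, norm_Y_apply]
  have e8 : ‖I.Y v - I.Y (I.zW ζ v)‖ ≤ 2 * ‖I.W ζ v - v‖ := by
    rw [← map_sub, norm_Y_apply, norm_sub_rev]
    exact norm_zW_sub_le _ _
  have e9 : ‖I.W ζ v - v‖ = ‖I.W ζ w - w‖ := by
    rw [hv]
    refine norm_W_sub_comm ?_
    exact (commute_W_yW (im_coe_smul_right (im_ζb_zv h hN B hr hr) g)).mul_right
      (commute_ζ_Bs h hN hr B)
  have e10 : ‖I.W ζ w - w‖ ≤ ‖ζ‖ := by
    refine (norm_W_sub_P_Om_le h.mM _).trans ?_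
    calc ‖ζ‖ * Real.sqrt (I.μ.real p.M) ≤ ‖ζ‖ * 1 :=
          mul_le_mul_of_nonneg_left (sqrt_mass_le_one _) (norm_nonneg _)
      _ = _ := mul_one _
  have e11 := norm_add_le (I.zW ζ (I.Y v) - I.Y v) (I.Y v - I.Y (I.zW ζ v))
  linarith

/-! ### the estimates -/

/-- the constant of the bath kicks -/
def kap (I : ILSys Λ H) (p : Par Λ H) : ℝ :=
  |p.t| * (Real.pi / (2 * I.μ.real p.M)) ^ 2 * ∑ k, |p.c k|

theorem kap_nonneg : 0 ≤ kap I p := by
  have : 0 ≤ ∑ k, |p.c k| := Finset.sum_nonneg fun _ _ => abs_nonneg _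
  unfold kap
  positivity

theorem bath_est (h : Hyp I S L p) (hN : Cells I p R N) (hg : 0 < g) {m : ℝ}
    (hm : ∀ r < R, Real.sqrt (I.μ.real (N r)) ≤ m)
    (hsmall : 4 * g * m + 8 * R * (kap I p * m / g ^ 2) ≤ I.μ.real p.M / 2) :
    ∀ r < R, I.μ.real p.M / 2 ≤ Jb I p g N (Bs I p g N r) r ∧
      |τb I p g N (Bs I p g N r) r| ≤ Real.pi / (2 * I.μ.real p.M) / g ∧
      ‖ζb I p g N (Bs I p g N r) r‖ ≤ kap I p * m / g ^ 2 ∧
      ‖yb I p (Bs I p g N r) - y2b I p g N (Bs I p g N r) r‖ ≤ 4 * (kap I p * m / g ^ 2) := by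
  intro r
  induction r using Nat.strong_induction_on with
  | _ r ih =>
  intro hr
  have hpos := h.pos
  have hm0 : 0 ≤ m := (Real.sqrt_nonneg _).trans (hm r hr)
  set κ : ℝ := kap I p * m / g ^ 2 with hκ
  have hκ0 : 0 ≤ κ := by
    have := kap_nonneg (I := I) (p := p)
    positivity
  have hdev : ‖((Bs I p g N r : UH H) : H →L[ℂ] H) (I.P p.M I.Om) - I.P p.M I.Om‖ ≤
      2 * (R * κ) := by
    refine (norm_Bs_sub_le h hN hr.le _).trans ?_
    refine mul_le_mul_of_nonneg_left ?_ zero_le_two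
    calc ∑ s ∈ Finset.range r, ‖I.W (ζb I p g N (Bs I p g N s) s) (I.P p.M I.Om) - I.P p.M I.Om‖
        ≤ ∑ s ∈ Finset.range r, κ := by
          refine Finset.sum_le_sum fun s hs => ?_
          have hs' := Finset.mem_range.mp hs
          refine (norm_W_sub_P_Om_le h.mM _).trans ?_
          calc ‖ζb I p g N (Bs I p g N s) s‖ * Real.sqrt (I.μ.real p.M) ≤ κ * 1 :=
                mul_le_mul (ih s hs' (hs'.trans hr)).2.2.1 (sqrt_mass_le_one _)
                  (Real.sqrt_nonneg _) hκ0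
            _ = κ := mul_one _
      _ = r * κ := by rw [Finset.sum_const, Finset.card_range, nsmul_eq_mul]
      _ ≤ R * κ := mul_le_mul_of_nonneg_right (by exact_mod_cast hr.le) hκ0
  have hJ : I.μ.real p.M / 2 ≤ Jb I p g N (Bs I p g N r) r := by
    have h1 := abs_Jb_sub_le h hN hg.le hr
    have h2 := (abs_le.mp h1).1
    have h3 : g * Real.sqrt (I.μ.real (N r)) ≤ g * m := mul_le_mul_of_nonneg_left (hm r hr) hg.le
    have h4 : 0 ≤ (R : ℝ) * κ := by positivity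
    have h5 : 8 * (R : ℝ) * κ = 8 * (R * κ) := by ring
    rw [h5] at hsmall
    linarith
  have hτ : |τb I p g N (Bs I p g N r) r| ≤ Real.pi / (2 * I.μ.real p.M) / g := by
    have hJ0 : 0 < Jb I p g N (Bs I p g N r) r := by linarith
    rw [τb, abs_of_nonneg (by positivity), div_div]
    refine div_le_div_of_nonneg_left Real.pi_pos.le (by positivity) ?_
    nlinarith
  have hζ : ‖ζb I p g N (Bs I p g N r) r‖ ≤ κ := by
    refine (norm_ζb_le h hN (PC_Bs r) hr).trans ?_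
    have h1 : |τb I p g N (Bs I p g N r) r| ^ 2 ≤ (Real.pi / (2 * I.μ.real p.M) / g) ^ 2 :=
      pow_le_pow_left₀ (abs_nonneg _) hτ 2
    have h2 : 0 ≤ ∑ k, |p.c k| := Finset.sum_nonneg fun _ _ => abs_nonneg _
    calc |p.t| * |τb I p g N (Bs I p g N r) r| ^ 2 * (∑ k, |p.c k|) * Real.sqrt (I.μ.real (N r))
        ≤ |p.t| * (Real.pi / (2 * I.μ.real p.M) / g) ^ 2 * (∑ k, |p.c k|) * m := by
          have := hm r hr
          gcongr
      _ = κ := by
          rw [hκ, kap]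
          field_simp
  exact ⟨hJ, hτ, hζ, (norm_yb_sub_y2b h hN hr).trans (by linarith)⟩

end

end Crest.Agent.R339.Cell
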