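import Mathlib

/-!
# R339, part (B): the no-gap certificate (helper350)

Exact polynomial identity behind the convexity of `t ↦ E Φ_xx(t, X_t)²` on the constancy
blocks of the order parameter.

Variables (for `x > 0`, on a block with constant `m`, in units `m = 1`):
`p = ψ = L'`, `v = L'' = p * e`, `a = λ`, where `c = -v'/v = λ + 2ψ`, `w = λ'`,
`l = ℓ = -(log R)'`, `y = 1/x = e + z`, `ℓ' = l * y - o`.
All of `p, a, l, e, z, o` are nonnegative, `w` is arbitrary.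
-/

namespace Crest.Agent.R339.Cert

/-- The test function `χ`. -/
noncomputable def chi (p a l v y : ℝ) : ℝ :=
  5 * p ^ 3 + 34 / 5 * p ^ 2 * a + 29 / 10 * p * a ^ 2 + 2 / 5 * a ^ 3 - 49 / 5 * p * v
    - 22 / 5 * a * v + 7 / 10 * l * v - 7 / 10 * p * l * y - 2 * p ^ 2 * l - 8 / 5 * p * a * l
    - 1 / 5 * a ^ 2 * l - 1 / 10 * p ^ 2 * y - 1 / 10 * a ^ 2 * y

/-- The derivative of `χ` along `p' = v, a' = w, l' = om, v' = -(a + 2p) v, y' = -y²`. -/
noncomputable def dchi (p a l v y w om : ℝ) : ℝ :=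
  15 * p ^ 2 * v + 34 / 5 * (2 * p * v * a + p ^ 2 * w) + 29 / 10 * (v * a ^ 2 + 2 * p * a * w)
    + 6 / 5 * a ^ 2 * w - 49 / 5 * (v * v + p * (-((a + 2 * p) * v)))
    - 22 / 5 * (w * v + a * (-((a + 2 * p) * v))) + 7 / 10 * (om * v + l * (-((a + 2 * p) * v)))
    - 7 / 10 * (v * l * y + p * om * y + p * l * (-y ^ 2))
    - 2 * (2 * p * v * l + p ^ 2 * om)
    - 8 / 5 * (v * a * l + p * w * l + p * a * om) - 1 / 5 * (2 * a * w * l + a ^ 2 * om)
    - 1 / 10 * (2 * p * v * y + p ^ 2 * (-y ^ 2)) - 1 / 10 * (2 * a * w * y + a ^ 2 * (-y ^ 2))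

/-- The quantity whose `ν`-average is `g''`. -/
noncomputable def J (p a v w : ℝ) : ℝ :=
  ((a + 2 * p) ^ 2 - 2 * v - w) ^ 2 - 12 * (a + 2 * p) ^ 2 * v + 6 * v ^ 2

/-- The exact identity in cone coordinates. -/
theorem cert_identity (p a l e z w o : ℝ) :
    J p a (p * e) w + dchi p a l (p * e) (e + z) w (l * (e + z) - o)
      - (l + 3 * p + 2 * a) * chi p a l (p * e) (e + z) =
    (w - (2 / 5 * a ^ 2 + 11 / 10 * p * a + 3 / 5 * p ^ 2 + 1 / 5 * (p * e)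
        + 1 / 10 * a * (e + z) + 1 / 5 * a * l + 4 / 5 * p * l)) ^ 2
      + (-(1 / 5) * a ^ 2 + 1 / 5 * (p * e) - 3 / 10 * a * (e + z) + 2 / 5 * a * l
        + 7 / 10 * p * l) ^ 2
      + (1 / 5 * a ^ 2 * o + 7 / 10 * p * z * o + 8 / 5 * p * a * o + 2 * p ^ 2 * o
        + 1 / 10 * a ^ 2 * l * z + 1 / 10 * a ^ 2 * l * e + 7 / 10 * p * l ^ 2 * z
        + 2 / 25 * p * a * e * z + 2 / 25 * p * a * e ^ 2 + 3 / 50 * p * a * l * z
        + 13 / 25 * p * a * l * e + 18 / 25 * p * a * l ^ 2 + 2 / 25 * p * a ^ 2 * z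
        + 1 / 10 * p * a ^ 2 * e + 1 / 10 * p * a ^ 2 * l + 3 / 25 * p * a ^ 3
        + 1 / 10 * p ^ 2 * z ^ 2 + 1 / 50 * p ^ 2 * e ^ 2 + 1 / 5 * p ^ 2 * l * z
        + 19 / 10 * p ^ 2 * l * e + 87 / 100 * p ^ 2 * l ^ 2 + 2 / 25 * p ^ 2 * a * z
        + 16 / 25 * p ^ 2 * a * e + 1 / 100 * p ^ 2 * a ^ 2 + 3 / 10 * p ^ 3 * z
        + 3 / 50 * p ^ 3 * e + 1 / 25 * p ^ 3 * l + 7 / 25 * p ^ 3 * a + 16 / 25 * p ^ 4) := by
  simp only [J, dchi, chi]
  ring

/-- The certificate: the pointwise inequality on the reachable cone. -/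
theorem cert {p a l e z w o : ℝ} (hp : 0 ≤ p) (ha : 0 ≤ a) (hl : 0 ≤ l) (he : 0 ≤ e)
    (hz : 0 ≤ z) (ho : 0 ≤ o) :
    0 ≤ J p a (p * e) w + dchi p a l (p * e) (e + z) w (l * (e + z) - o)
      - (l + 3 * p + 2 * a) * chi p a l (p * e) (e + z) := by
  rw [cert_identity]
  positivity

/-- The certificate in the natural variables. `v ≤ p y`, `om ≤ l y`. -/
theorem cert' {p a l v y w om : ℝ} (hp : 0 < p) (ha : 0 ≤ a) (hl : 0 ≤ l) (hv : 0 ≤ v)
    (hvy : v ≤ p * y) (hom : om ≤ l * y) :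
    0 ≤ J p a v w + dchi p a l v y w om - (l + 3 * p + 2 * a) * chi p a l v y := by
  have he : p * (v / p) = v := by field_simp
  have hz : v / p ≤ y := by rw [div_le_iff₀ hp]; linarith
  have := cert (p := p) (a := a) (l := l) (e := v / p) (z := y - v / p) (w := w)
    (o := l * y - om) hp.le ha hl (by positivity) (by linarith) (by linarith)
  rw [he] at this
  have h1 : v / p + (y - v / p) = y := by ring
  rw [h1] at this
  have h2 : l * y - (l * y - om) = om := by ring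
  rw [h2] at this
  exact this

end Crest.Agent.R339.Cert
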