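/-
helper71, row 339 (S0530), part (D)/(DF): truncation of a Gaussian variable by an odd, bounded,
continuous function with the exact second moment.
-/
import Mathlib

set_option autoImplicit false

namespace Crest.Agent.R339.DFb

open MeasureTheory ProbabilityTheory Filter Topology Set

noncomputable section

local notation "γ" => gaussianReal 0 1

/-- clip at level `L` -/
def clip (L x : ℝ) : ℝ := max (-L) (min x L)

theorem clip_continuous (L : ℝ) : Continuous (clip L) := by
  unfold clip; fun_prop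

theorem clip_odd {L : ℝ} (hL : 0 ≤ L) (x : ℝ) : clip L (-x) = -clip L x := by
  unfold clip
  rcases le_total x L with h1 | h1
  · rcases le_total (-L) x with h2 | h2
    · rw [min_eq_left h1, max_eq_right h2, min_eq_left (by linarith), max_eq_right (by linarith)]
    · rw [min_eq_left h1, max_eq_left h2, min_eq_right (by linarith), max_eq_right (by linarith)]
      ring
  · rw [min_eq_left (show -x ≤ L by linarith), max_eq_left (show -x ≤ -L by linarith),
      min_eq_right h1, max_eq_right (show -L ≤ L by linarith)]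

theorem abs_clip_le {L : ℝ} (hL : 0 ≤ L) (x : ℝ) : |clip L x| ≤ L := by
  unfold clip
  rw [abs_le]
  exact ⟨le_max_left _ _, max_le (by linarith) (min_le_right _ _)⟩

theorem abs_clip_le_abs {L : ℝ} (hL : 0 ≤ L) (x : ℝ) : |clip L x| ≤ |x| := by
  unfold clip
  rw [abs_le]
  refine ⟨?_, max_le (by linarith [abs_nonneg x]) ((min_le_left _ _).trans (le_abs_self x))⟩
  rcases le_total x L with h1 | h1
  · rw [min_eq_left h1]
    exact (neg_abs_le x).trans (le_max_right _ _)
  · rw [min_eq_right h1]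
    exact (by linarith [abs_nonneg x] : -|x| ≤ L).trans (le_max_right _ _)

theorem clip_eq_of_abs_le {L x : ℝ} (h : |x| ≤ L) : clip L x = x := by
  unfold clip
  rw [abs_le] at h
  rw [min_eq_left h.2, max_eq_right h.1]

theorem clip_tendsto (x : ℝ) : Tendsto (fun L : ℕ => clip L x) atTop (𝓝 x) := by
  apply tendsto_const_nhds.congr'
  obtain ⟨N, hN⟩ := exists_nat_ge |x|
  filter_upwards [eventually_ge_atTop N] with L hL
  rw [clip_eq_of_abs_le]
  exact hN.trans (by exact_mod_cast hL)

theorem sq_int : Integrable (fun x : ℝ => x ^ 2) γ := by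
  have := (memLp_id_gaussianReal (μ := 0) (v := 1) 2).integrable_sq
  simpa using this

theorem integral_sq : ∫ x : ℝ, x ^ 2 ∂γ = 1 := by
  have h := variance_id_gaussianReal (μ := 0) (v := 1)
  rw [variance_eq_integral measurable_id.aemeasurable] at h
  simpa [integral_id_gaussianReal] using h

theorem tendsto_A : Tendsto (fun L : ℕ => ∫ x, clip L x ^ 2 ∂γ) atTop (𝓝 1) := by
  rw [← integral_sq]
  refine tendsto_integral_of_dominated_convergence (fun x => x ^ 2)
    (fun L => ((clip_continuous _).pow 2).aestronglyMeasurable) sq_int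
    (fun L => Eventually.of_forall fun x => ?_)
    (Eventually.of_forall fun x => (clip_tendsto x).pow 2)
  rw [Real.norm_eq_abs, abs_pow, ← sq_abs x]
  exact pow_le_pow_left₀ (abs_nonneg _) (abs_clip_le_abs (Nat.cast_nonneg L) x) 2

theorem tendsto_B : Tendsto (fun L : ℕ => ∫ x, x * clip L x ∂γ) atTop (𝓝 1) := by
  have e : (1:ℝ) = ∫ x : ℝ, x * x ∂γ := by rw [← integral_sq]; simp_rw [sq]
  rw [e]
  refine tendsto_integral_of_dominated_convergence (fun x => x ^ 2)
    (fun L => (continuous_id.mul (clip_continuous _)).aestronglyMeasurable) sq_int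
    (fun L => Eventually.of_forall fun x => ?_)
    (Eventually.of_forall fun x => (clip_tendsto x).const_mul x)
  rw [Real.norm_eq_abs, abs_mul, ← sq_abs x, sq]
  exact mul_le_mul_of_nonneg_left (abs_clip_le_abs (Nat.cast_nonneg L) x) (abs_nonneg _)

/-- **Truncation** with exact second moment. -/
theorem exists_trunc {ρ : ℝ} (hρ : 0 < ρ) : ∃ τ : ℝ → ℝ, Continuous τ ∧
    (∀ x, τ (-x) = -τ x) ∧ (∃ B, ∀ x, |τ x| ≤ B) ∧ (∀ x, |τ x| ≤ 2 * |x|) ∧
    ∫ x, τ x ^ 2 ∂γ = 1 ∧ 1 - ρ ≤ ∫ x, x * τ x ∂γ ∧ ∫ x, (τ x - x) ^ 2 ∂γ ≤ 2 * ρ := by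
  have hA := tendsto_A
  have hB := tendsto_B
  have hsq : Tendsto (fun L : ℕ => √(∫ x, clip L x ^ 2 ∂γ)) atTop (𝓝 1) := by
    have := (Real.continuous_sqrt.tendsto 1).comp hA
    rwa [Real.sqrt_one] at this
  have hq : Tendsto (fun L : ℕ => (∫ x, x * clip L x ∂γ) / √(∫ x, clip L x ^ 2 ∂γ)) atTop (𝓝 1) := by
    have := hB.div hsq one_ne_zero
    rwa [div_one] at this
  have e1 : ∀ᶠ L : ℕ in atTop, 1 / 2 < √(∫ x, clip L x ^ 2 ∂γ) :=
    hsq.eventually (lt_mem_nhds (by norm_num))
  have e2 : ∀ᶠ L : ℕ in atTop, 1 - ρ < (∫ x, x * clip L x ∂γ) / √(∫ x, clip L x ^ 2 ∂γ) :=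
    hq.eventually (lt_mem_nhds (by linarith))
  obtain ⟨L, h1, h2⟩ := (e1.and e2).exists
  set c := √(∫ x, clip L x ^ 2 ∂γ) with hc
  have hc0 : 0 < c := by linarith
  have hcc : c * c = ∫ x, clip L x ^ 2 ∂γ := Real.mul_self_sqrt (integral_nonneg fun x => sq_nonneg _)
  have hL : (0:ℝ) ≤ L := Nat.cast_nonneg L
  have hic : Integrable (fun x => clip L x ^ 2) γ := by
    refine sq_int.mono' ((clip_continuous _).pow 2).aestronglyMeasurable
      (Eventually.of_forall fun x => ?_)
    rw [Real.norm_eq_abs, abs_pow, ← sq_abs x]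
    exact pow_le_pow_left₀ (abs_nonneg _) (abs_clip_le_abs hL x) 2
  have hix : Integrable (fun x => x * clip L x) γ := by
    refine sq_int.mono' (continuous_id.mul (clip_continuous _)).aestronglyMeasurable
      (Eventually.of_forall fun x => ?_)
    rw [Real.norm_eq_abs, abs_mul, ← sq_abs x, sq]
    exact mul_le_mul_of_nonneg_left (abs_clip_le_abs hL x) (abs_nonneg _)
  have m2 : ∫ x, (clip L x / c) ^ 2 ∂γ = 1 := by
    simp_rw [div_pow]
    rw [integral_div, ← hcc]
    field_simp
  have m1 : ∫ x, x * (clip L x / c) ∂γ = (∫ x, x * clip L x ∂γ) / c := by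
    rw [← integral_div]
    congr 1
    ext x
    ring
  refine ⟨fun x => clip L x / c, (clip_continuous _).div_const _, fun x => ?_, ⟨L / c, fun x => ?_⟩,
    fun x => ?_, m2, ?_, ?_⟩
  · show clip L (-x) / c = -(clip L x / c)
    rw [clip_odd hL, neg_div]
  · rw [abs_div, abs_of_pos hc0]
    exact div_le_div_of_nonneg_right (abs_clip_le hL x) hc0.le
  · rw [abs_div, abs_of_pos hc0, div_le_iff₀ hc0]
    have := abs_clip_le_abs hL x
    nlinarith [abs_nonneg x]
  · rw [m1]; exact h2.le
  · have e : ∀ x : ℝ, (clip L x / c - x) ^ 2 = (clip L x / c) ^ 2 + x ^ 2 - 2 * (x * (clip L x / c)) :=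
      fun x => by ring
    simp_rw [e]
    have i1 : Integrable (fun x => (clip L x / c) ^ 2) γ := by
      simp_rw [div_pow]; exact hic.div_const _
    have i2 : Integrable (fun x => x * (clip L x / c)) γ := by
      simp_rw [← mul_div_assoc]; exact hix.div_const _
    have j1 := integral_sub (i1.add sq_int) (i2.const_mul 2)
    have j2 := integral_add i1 sq_int
    simp only [Pi.add_apply] at j1 j2
    rw [j1, j2, integral_const_mul, m2, integral_sq, m1]
    linarith

end

end Crest.Agent.R339.DFb
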