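import Crest.Agent.R339.Trig716d
import Crest.Agent.R339.D3Chain

/-!
# Row 339, (DF): tools
-/

set_option autoImplicit false

namespace Crest.Agent.R339.DF

open MeasureTheory ProbabilityTheory Filter Topology Matrix Real
open Crest.Agent.R339.Guerra (G lin mp_update mp_int)
open Crest.Agent.R339.Trig

noncomputable section

abbrev γ : Measure ℝ := gaussianReal 0 1

/-- factorisation over an independent coordinate -/
theorem int_mul_coord {ι : Type*} [Fintype ι] [DecidableEq ι] (j : ι) {Y : (ι → ℝ) → ℝ}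
    {φ : ℝ → ℝ} (hY : ∀ ω t, Y (Function.update ω j t) = Y ω) (hYm : Measurable Y)
    (hφ : Measurable φ) :
    ∫ ω, Y ω * φ (ω j) ∂(G ι) = (∫ ω, Y ω ∂(G ι)) * ∫ t, φ t ∂γ := by
  have hm : Measurable (fun ω : ι → ℝ => Y ω * φ (ω j)) :=
    hYm.mul (hφ.comp (measurable_pi_apply j))
  rw [← mp_int (mp_update (ι := ι) j) hm.aestronglyMeasurable]
  have e : ∀ p : (ι → ℝ) × ℝ, Y (Function.update p.1 j p.2) * φ (Function.update p.1 j p.2 j) =
      Y p.1 * φ p.2 := by
    intro p; rw [hY]; simp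
  simp only [e]
  exact integral_prod_mul Y φ

/-- linear images of the standard Gaussian vector -/
theorem map_lin {ι : Type*} [Fintype ι] [DecidableEq ι] (A : ι → ι → ℝ) {Q : Matrix ι ι ℝ}
    (hQ : ∀ i j, Q i j = ∑ k, A i k * A j k) : (G ι).map (lin A) = gl Q := by
  have hP : Q.PosSemidef := by
    have h1 := Matrix.posSemidef_self_mul_conjTranspose (Matrix.of A)
    have h2 : Matrix.of A * (Matrix.of A)ᴴ = Q := by
      ext i j
      rw [Matrix.mul_apply, hQ]
      refine Finset.sum_congr rfl fun k _ => ?_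
      simp [Matrix.conjTranspose_apply]
    rwa [h2] at h1
  have hm : Measurable (lin A) := (Guerra.continuous_lin A).measurable
  have : IsProbabilityMeasure ((G ι).map (lin A)) := Measure.isProbabilityMeasure_map hm.aemeasurable
  refine eq_of_charFun fun a => ?_
  rw [charFun_gl hP, integral_map hm.aemeasurable (measurable_cexp a).aestronglyMeasurable]
  set b : ι → ℝ := fun k => ∑ i, a i * A i k with hb
  have h1 : ∀ g : ι → ℝ, ∑ i, a i * lin A g i = ∑ k, b k * g k := by
    intro g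
    simp only [lin, hb, Finset.sum_mul, Finset.mul_sum]
    rw [Finset.sum_comm]
    refine Finset.sum_congr rfl fun k _ => Finset.sum_congr rfl fun i _ => by ring
  have h2 : ∀ g : ι → ℝ, Complex.exp (((∑ i, a i * lin A g i : ℝ) : ℂ) * Complex.I) =
      ∏ k, Complex.exp (((b k * g k : ℝ) : ℂ) * Complex.I) := by
    intro g
    rw [h1, Complex.ofReal_sum, Finset.sum_mul, Complex.exp_sum]
  simp_rw [h2]
  rw [integral_fintype_prod_eq_prod (f := fun k (x : ℝ) =>
    Complex.exp (((b k * x : ℝ) : ℂ) * Complex.I))]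
  have h3 : ∀ k, ∫ x : ℝ, Complex.exp (((b k * x : ℝ) : ℂ) * Complex.I) ∂gaussianReal 0 1 =
      Complex.exp (((-(b k)^2/2 : ℝ) : ℂ)) := by
    intro k
    have := charFun_gaussianReal (μ := 0) (v := 1) (b k)
    rw [charFun_apply_real] at this
    simp only [Complex.ofReal_mul]
    rw [this]
    congr 1
    push_cast
    ring
  simp_rw [h3]
  rw [← Complex.exp_sum, ← Complex.ofReal_sum]
  congr 2
  have h4 : ∑ k, b k ^ 2 = ∑ i, ∑ j, a i * Q i j * a j := by
    simp only [hb, sq, Finset.sum_mul_sum]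
    rw [Finset.sum_comm]
    refine Finset.sum_congr rfl fun i _ => ?_
    rw [Finset.sum_comm]
    refine Finset.sum_congr rfl fun j _ => ?_
    rw [hQ i j, Finset.mul_sum, Finset.sum_mul]
    refine Finset.sum_congr rfl fun k _ => by ring
  rw [← h4, neg_div, Finset.sum_div, ← Finset.sum_neg_distrib]
  refine Finset.sum_congr rfl fun k _ => by ring

/-- Bessel's inequality -/
theorem bessel {Ω : Type*} [MeasurableSpace Ω] {P : Measure Ω} {R : ℕ} {φ : ℕ → Ω → ℝ}
    {c : ℝ} (hc : 0 < c) (hφ : ∀ i < R, MemLp (φ i) 2 P)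
    (ho : ∀ i < R, ∀ j < R, ∫ ω, φ i ω * φ j ω ∂P = if i = j then c else 0)
    {δ : Ω → ℝ} (hδ : MemLp δ 2 P) :
    ∑ i ∈ Finset.range R, (∫ ω, φ i ω * δ ω ∂P) ^ 2 ≤ c * ∫ ω, δ ω ^ 2 ∂P := by
  set w : ℕ → ℝ := fun i => ∫ ω, φ i ω * δ ω ∂P with hw
  have hi1 : ∀ i ∈ Finset.range R, Integrable (fun ω => φ i ω * δ ω) P := fun i hi =>
    (hφ i (Finset.mem_range.1 hi)).integrable_mul hδ
  have hi2 : ∀ i ∈ Finset.range R, ∀ j ∈ Finset.range R,
      Integrable (fun ω => φ i ω * φ j ω) P := fun i hi j hj =>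
    (hφ i (Finset.mem_range.1 hi)).integrable_mul (hφ j (Finset.mem_range.1 hj))
  have hi3 : Integrable (fun ω => δ ω ^ 2) P := hδ.integrable_sq
  have h0 : 0 ≤ ∫ ω, (c * δ ω - ∑ i ∈ Finset.range R, w i * φ i ω) ^ 2 ∂P :=
    integral_nonneg fun ω => sq_nonneg _
  have e : ∀ ω, (c * δ ω - ∑ i ∈ Finset.range R, w i * φ i ω) ^ 2 =
      c ^ 2 * δ ω ^ 2 - ∑ i ∈ Finset.range R, (2 * c * w i) * (φ i ω * δ ω) +
      ∑ i ∈ Finset.range R, ∑ j ∈ Finset.range R, (w i * w j) * (φ i ω * φ j ω) := by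
    intro ω
    have h1 : (∑ i ∈ Finset.range R, w i * φ i ω) ^ 2 =
        ∑ i ∈ Finset.range R, ∑ j ∈ Finset.range R, (w i * w j) * (φ i ω * φ j ω) := by
      rw [sq, Finset.sum_mul_sum]
      refine Finset.sum_congr rfl fun i _ => Finset.sum_congr rfl fun j _ => by ring
    rw [sub_sq, h1, mul_pow]
    congr 2
    rw [Finset.mul_sum]
    refine Finset.sum_congr rfl fun i _ => by ring
  simp only [e] at h0
  have i4 : Integrable (fun ω => ∑ i ∈ Finset.range R, (2 * c * w i) * (φ i ω * δ ω)) P :=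
    integrable_finsetSum _ fun i hi => (hi1 i hi).const_mul _
  have i5 : Integrable (fun ω => ∑ i ∈ Finset.range R, ∑ j ∈ Finset.range R,
      (w i * w j) * (φ i ω * φ j ω)) P :=
    integrable_finsetSum _ fun i hi => integrable_finsetSum _ fun j hj =>
      (hi2 i hi j hj).const_mul _
  have i6 : Integrable (fun ω => c ^ 2 * δ ω ^ 2 -
      ∑ i ∈ Finset.range R, (2 * c * w i) * (φ i ω * δ ω)) P := (hi3.const_mul _).sub i4
  rw [integral_add i6 i5, integral_sub (hi3.const_mul _) i4, integral_const_mul,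
    integral_finsetSum _ fun i hi => (hi1 i hi).const_mul _,
    integral_finsetSum _ fun i hi => integrable_finsetSum _ fun j hj =>
      (hi2 i hi j hj).const_mul _] at h0
  have e2 : ∑ i ∈ Finset.range R, ∫ ω, 2 * c * w i * (φ i ω * δ ω) ∂P =
      2 * c * ∑ i ∈ Finset.range R, w i ^ 2 := by
    rw [Finset.mul_sum]
    refine Finset.sum_congr rfl fun i _ => ?_
    rw [integral_const_mul]
    show 2 * c * w i * w i = _
    ring
  have e3 : ∑ i ∈ Finset.range R, ∫ ω, ∑ j ∈ Finset.range R, w i * w j * (φ i ω * φ j ω) ∂P =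
      c * ∑ i ∈ Finset.range R, w i ^ 2 := by
    rw [Finset.mul_sum]
    refine Finset.sum_congr rfl fun i hi => ?_
    rw [integral_finsetSum _ fun j hj => (hi2 i hi j hj).const_mul _]
    rw [Finset.sum_eq_single i]
    · rw [integral_const_mul, ho i (Finset.mem_range.1 hi) i (Finset.mem_range.1 hi), if_pos rfl]
      ring
    · intro j hj hji
      rw [integral_const_mul, ho i (Finset.mem_range.1 hi) j (Finset.mem_range.1 hj),
        if_neg (Ne.symm hji), mul_zero]
    · intro h; exact absurd hi h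
  rw [e2, e3] at h0
  have h1 : c * ∑ i ∈ Finset.range R, w i ^ 2 ≤ c * (c * ∫ ω, δ ω ^ 2 ∂P) := by
    linarith
  exact le_of_mul_le_mul_left h1 hc

/-! ### the truncated identity -/

/-- truncation -/
def clip (L x : ℝ) : ℝ := max (-L) (min L x)

theorem clip_cont (L : ℝ) : Continuous (clip L) := by unfold clip; fun_prop

theorem clip_odd {L : ℝ} (hL : 0 ≤ L) (x : ℝ) : clip L (-x) = -clip L x := by
  unfold clip
  simp only [max_def, min_def]
  split_ifs <;> linarith

theorem clip_abs {L : ℝ} (hL : 0 ≤ L) (x : ℝ) : |clip L x| ≤ L := by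
  unfold clip
  rw [abs_le]
  exact ⟨le_max_left _ _, max_le (by linarith) (min_le_left _ _)⟩

theorem clip_abs_le {L : ℝ} (hL : 0 ≤ L) (x : ℝ) : |clip L x| ≤ |x| := by
  unfold clip
  rcases le_total 0 x with hx | hx
  · rw [abs_of_nonneg hx, abs_le]
    simp only [max_def, min_def]
    constructor <;> split_ifs <;> linarith
  · rw [abs_of_nonpos hx, abs_le]
    simp only [max_def, min_def]
    constructor <;> split_ifs <;> linarith

theorem clip_dist {L x y : ℝ} (hy : |y| ≤ L) : |clip L x - x| ≤ |x - y| := by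
  obtain ⟨h1, h2⟩ := abs_le.1 hy
  unfold clip
  rcases le_total x y with h | h
  · rw [abs_of_nonpos (by linarith : x - y ≤ 0), abs_le]
    simp only [max_def, min_def]
    constructor <;> split_ifs <;> linarith
  · rw [abs_of_nonneg (by linarith : 0 ≤ x - y), abs_le]
    simp only [max_def, min_def]
    constructor <;> split_ifs <;> linarith

theorem clip_eq {L x : ℝ} (hx : |x| ≤ L) : clip L x = x := by
  have := clip_dist (x := x) hx
  rw [sub_self, abs_zero] at this
  have h2 := abs_nonneg (clip L x - x)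
  have h3 : |clip L x - x| = 0 := le_antisymm this h2
  rw [abs_eq_zero] at h3
  linarith

theorem integrable_sq_γ : Integrable (fun g : ℝ => g ^ 2) γ := by
  exact (memLp_id_gaussianReal (μ := 0) (v := 1) 2).integrable_sq

theorem int_sq_γ : ∫ g : ℝ, g ^ 2 ∂γ = 1 := by
  have h := variance_of_integral_eq_zero (μ := γ) (X := id) aemeasurable_id (by simp)
  have h2 : Var[id; γ] = 1 := by
    have := variance_id_gaussianReal (μ := 0) (v := 1)
    simpa using this
  rw [h2] at h
  simpa using h.symm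

/-- the normalised truncation -/
structure Trunc (θ : ℝ → ℝ) (B tr : ℝ) : Prop where
  cont : Continuous θ
  odd : ∀ x, θ (-x) = -θ x
  bd : ∀ x, |θ x| ≤ B
  one : ∫ g, θ g ^ 2 ∂γ = 1
  tr : ∫ g, (θ g - g) ^ 2 ∂γ ≤ tr

theorem exists_trunc {tr : ℝ} (htr : 0 < tr) : ∃ (θ : ℝ → ℝ) (B : ℝ), Trunc θ B tr := by
  have hc : ∀ g : ℝ, Tendsto (fun n : ℕ => clip n g) atTop (𝓝 g) := by
    intro g
    refine tendsto_const_nhds.congr' ?_
    obtain ⟨N, hN⟩ := exists_nat_ge |g|
    filter_upwards [eventually_ge_atTop N] with n hn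
    exact (clip_eq (hN.trans (by exact_mod_cast hn))).symm
  have h1 : Tendsto (fun n : ℕ => ∫ g, clip n g ^ 2 ∂γ) atTop (𝓝 1) := by
    rw [← int_sq_γ]
    refine tendsto_integral_of_dominated_convergence (fun g => g ^ 2) (fun n => ?_)
      integrable_sq_γ (fun n => ?_) ?_
    · exact ((clip_cont n).pow 2).aestronglyMeasurable
    · refine Eventually.of_forall fun g => ?_
      rw [Real.norm_eq_abs, abs_pow, ← sq_abs g]
      exact pow_le_pow_left₀ (abs_nonneg _) (clip_abs_le (Nat.cast_nonneg n) g) 2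
    · exact Eventually.of_forall fun g => (hc g).pow 2
  have h2 : Tendsto (fun n : ℕ => ∫ g, g * clip n g ∂γ) atTop (𝓝 1) := by
    have e : ∫ g : ℝ, g * g ∂γ = 1 := by
      rw [← int_sq_γ]; congr 1; ext g; ring
    rw [← e]
    refine tendsto_integral_of_dominated_convergence (fun g => g ^ 2) (fun n => ?_)
      integrable_sq_γ (fun n => ?_) ?_
    · exact (continuous_id.mul (clip_cont n)).aestronglyMeasurable
    · refine Eventually.of_forall fun g => ?_
      rw [Real.norm_eq_abs, abs_mul, ← sq_abs g, sq]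
      exact mul_le_mul_of_nonneg_left (clip_abs_le (Nat.cast_nonneg n) g) (abs_nonneg _)
    · exact Eventually.of_forall fun g => tendsto_const_nhds.mul (hc g)
  have h3 : Tendsto (fun n : ℕ => 2 - 2 * ((∫ g, g * clip n g ∂γ) /
      √(∫ g, clip n g ^ 2 ∂γ))) atTop (𝓝 0) := by
    have h4 := (h2.div (h1.sqrt) (by simp)).const_mul 2
    have h5 := h4.const_sub 2
    simpa using h5
  obtain ⟨n, hn1, hn2⟩ := ((h3.eventually_lt_const htr).and
    (h1.eventually_const_lt (by norm_num : (1/2:ℝ) < 1))).exists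
  set c := √(∫ g, clip n g ^ 2 ∂γ) with hcdef
  have hcp : 0 < c := Real.sqrt_pos.2 (by linarith)
  have hc2 : c ^ 2 = ∫ g, clip n g ^ 2 ∂γ := Real.sq_sqrt (by linarith)
  have hn0 : (0:ℝ) ≤ n := Nat.cast_nonneg n
  have e1 : ∫ g, (clip n g / c) ^ 2 ∂γ = 1 := by
    simp only [div_pow]
    rw [integral_div, ← hc2]
    exact div_self (by positivity)
  refine ⟨fun g => clip n g / c, n / c, (clip_cont n).div_const c, fun x => ?_, fun x => ?_,
    e1, ?_⟩
  · rw [clip_odd hn0, neg_div]
  · rw [abs_div, abs_of_pos hcp]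
    exact div_le_div_of_nonneg_right (clip_abs hn0 x) hcp.le
  · have i1 : Integrable (fun g : ℝ => (clip n g / c) ^ 2) γ := by
      refine (integrable_const ((n / c) ^ 2)).mono' ?_ (Eventually.of_forall fun g => ?_)
      · exact (((clip_cont n).div_const c).pow 2).aestronglyMeasurable
      · rw [Real.norm_eq_abs, abs_pow, abs_div, abs_of_pos hcp]
        exact pow_le_pow_left₀ (by positivity)
          (div_le_div_of_nonneg_right (clip_abs hn0 g) hcp.le) 2
    have i2 : Integrable (fun g : ℝ => g * clip n g) γ := by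
      refine integrable_sq_γ.mono' (continuous_id.mul (clip_cont n)).aestronglyMeasurable
        (Eventually.of_forall fun g => ?_)
      rw [Real.norm_eq_abs, abs_mul, ← sq_abs g, sq]
      exact mul_le_mul_of_nonneg_left (clip_abs_le hn0 g) (abs_nonneg _)
    have e2 : ∀ g : ℝ, (clip n g / c - g) ^ 2 =
        (clip n g / c) ^ 2 - (2 / c) * (g * clip n g) + g ^ 2 := by
      intro g; field_simp; ring
    simp only [e2]
    have i3 : Integrable (fun g : ℝ => (clip n g / c) ^ 2 - (2 / c) * (g * clip n g)) γ :=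
      i1.sub (i2.const_mul _)
    rw [integral_add i3 integrable_sq_γ, integral_sub i1 (i2.const_mul _), integral_const_mul,
      int_sq_γ, e1]
    refine le_trans (le_of_eq ?_) hn1.le
    field_simp
    ring

namespace Trunc

variable {θ : ℝ → ℝ} {B tr : ℝ}

theorem B0 (h : Trunc θ B tr) : 0 ≤ B := (abs_nonneg _).trans (h.bd 0)

theorem int (h : Trunc θ B tr) : Integrable θ γ :=
  (integrable_const B).mono' h.cont.aestronglyMeasurable (Eventually.of_forall fun g => by
    rw [Real.norm_eq_abs]; exact h.bd g)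

theorem zero (h : Trunc θ B tr) : ∫ g, θ g ∂γ = 0 := by
  have h1 : γ.map (fun g : ℝ => -g) = γ := by
    have := gaussianReal_map_neg (μ := 0) (v := 1)
    simpa using this
  have h2 : ∫ g, θ g ∂γ = ∫ g, θ (-g) ∂γ := by
    conv_lhs => rw [← h1]
    rw [integral_map (by fun_prop) h.cont.aestronglyMeasurable]
  simp only [h.odd] at h2
  rw [integral_neg] at h2
  linarith

theorem int_gθ (h : Trunc θ B tr) : Integrable (fun g : ℝ => g * θ g) γ := by
  have hid : Integrable (fun g : ℝ => g) γ := Guerra.integrable_id_γ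
  refine (hid.abs.const_mul B).mono' (continuous_id.mul h.cont).aestronglyMeasurable
    (Eventually.of_forall fun g => ?_)
  rw [Real.norm_eq_abs, abs_mul, mul_comm]
  exact mul_le_mul_of_nonneg_right (h.bd g) (abs_nonneg _)

theorem int_sq (h : Trunc θ B tr) : Integrable (fun g : ℝ => θ g ^ 2) γ := by
  refine (integrable_const (B ^ 2)).mono' (h.cont.pow 2).aestronglyMeasurable
    (Eventually.of_forall fun g => ?_)
  rw [Real.norm_eq_abs, abs_pow]
  exact pow_le_pow_left₀ (abs_nonneg _) (h.bd g) 2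

theorem int_dsq (h : Trunc θ B tr) : Integrable (fun g : ℝ => (θ g - g) ^ 2) γ := by
  have e2 : ∀ g : ℝ, (θ g - g) ^ 2 = θ g ^ 2 - 2 * (g * θ g) + g ^ 2 := by
    intro g; ring
  simp only [e2]
  exact (h.int_sq.sub (h.int_gθ.const_mul _)).add integrable_sq_γ

/-- the covariance of the truncation with the identity -/
theorem kap (h : Trunc θ B tr) : ∫ g, g * θ g ∂γ = 1 - (∫ g, (θ g - g) ^ 2 ∂γ) / 2 := by
  have e2 : ∀ g : ℝ, (θ g - g) ^ 2 = θ g ^ 2 - 2 * (g * θ g) + g ^ 2 := by
    intro g; ring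
  simp only [e2]
  have i1 : Integrable (fun g : ℝ => θ g ^ 2 - 2 * (g * θ g)) γ :=
    h.int_sq.sub (h.int_gθ.const_mul _)
  rw [integral_add i1 integrable_sq_γ, integral_sub h.int_sq (h.int_gθ.const_mul _),
    integral_const_mul, int_sq_γ, h.one]
  ring

theorem kap_ge (h : Trunc θ B tr) : 1 - tr / 2 ≤ ∫ g, g * θ g ∂γ := by
  rw [h.kap]; have := h.tr; linarith

theorem kap_le (h : Trunc θ B tr) : ∫ g, g * θ g ∂γ ≤ 1 := by
  rw [h.kap]
  have : 0 ≤ ∫ g, (θ g - g) ^ 2 ∂γ := integral_nonneg fun g => sq_nonneg _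
  linarith

end Trunc

end

end Crest.Agent.R339.DF
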