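import Crest.Agent.R339.DF833A

/-!
# Row 339, (DF): the scheme
-/

set_option autoImplicit false
set_option linter.unusedSectionVars false

namespace Crest.Agent.R339.DF

open MeasureTheory ProbabilityTheory Filter Topology Matrix Real
open Crest.Agent.R339.Guerra (G lin mp_update mp_int)
open Crest.Agent.R339.Trig
open Crest.Agent.R339.D3 (Sched Chain Step xp Kern comp)
open Crest.Agent.R164.GC (tE g2)

noncomputable section

variable {R : ℕ}

/-- the noise variables -/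
def nz (k : ℕ) (ω : Fin (R + 1) → ℝ) : ℝ := if h : k < R then ω (Fin.succ ⟨k, h⟩) else 0

theorem nz_of_lt {k : ℕ} (h : k < R) (ω : Fin (R + 1) → ℝ) :
    nz k ω = ω (Fin.succ ⟨k, h⟩) := by simp [nz, h]

/-- the Euler chain -/
def XX (d : ℝ) (m : ℕ → ℝ) (f f1 : ℕ → ℝ → ℝ) : ℕ → (Fin (R + 1) → ℝ) → ℝ
  | 0, _ => 0
  | k + 1, ω => xp (m k) d (f (k + 1)) (f1 (k + 1)) (XX d m f f1 k ω) (nz k ω)

/-- data -/
structure Dat (R : ℕ) (M C d : ℝ) (m : ℕ → ℝ) (f f1 f2 : ℕ → ℝ → ℝ) (θ : ℝ → ℝ) (B tr : ℝ) :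
    Prop where
  S : Sched M C R d m (fun _ => d) f f1 f2
  R0 : 0 < R
  d0 : 0 < d
  odd : ∀ r < R, ∀ x, f1 r (-x) = -f1 r x
  even : ∀ r < R, ∀ x, f2 r (-x) = f2 r x
  T : Trunc θ B tr
  pos : ∀ k < R, 0 < ∫ ω, f2 k (XX d m f f1 k ω) ^ 2 ∂G (Fin (R + 1))

section

variable {M C d : ℝ} {m : ℕ → ℝ} {f f1 f2 : ℕ → ℝ → ℝ} {θ : ℝ → ℝ} {B tr : ℝ}

theorem sched_f2_cont (S : Sched M C R d m (fun _ => d) f f1 f2) {k : ℕ} (hk : k < R) :
    Continuous (f2 k) := by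
  rw [S.f2_eq k hk]
  exact D3.g2_cont (S.step k hk)

theorem g2_bd {M C m v : ℝ} {f f1 f2 : ℝ → ℝ} (h : Step M C m v f f1 f2) (x : ℝ) :
    |g2 m v f f1 f2 x| ≤ C + M := by
  unfold g2
  have b1 := R164.GC.tE_abs_le h.sm.lip m v h.sm.B2 x
  have b2 := R164.GC.tE_abs_le h.sm.lip m v (h.sm.B1.pow 2) x
  have b3 := R164.GC.tE_sq_le h.sm.lip m v h.sm.B1.eg x
  have b4 := sq_nonneg (tE m v f f1 x)
  rw [one_pow] at b2
  have b5 := (le_abs_self _).trans b2
  refine (abs_add_le _ _).trans (add_le_add b1 ?_)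
  rw [abs_mul, abs_of_pos h.hm, abs_of_nonneg (by linarith)]
  have := h.hmM
  have := h.hm
  nlinarith

theorem sched_f2_bd (S : Sched M C R d m (fun _ => d) f f1 f2) {k : ℕ} (hk : k < R) (x : ℝ) :
    |f2 k x| ≤ C + M := by
  rw [S.f2_eq k hk]
  exact g2_bd (S.step k hk) x

/-- the `L²` norm -/
def nr (R : ℕ) (d : ℝ) (m : ℕ → ℝ) (f f1 f2 : ℕ → ℝ → ℝ) (k : ℕ) : ℝ :=
  √(∫ ω, f2 k (XX d m f f1 k ω) ^ 2 ∂G (Fin (R + 1)))

/-- the normalised control -/
def aa (d : ℝ) (m : ℕ → ℝ) (f f1 f2 : ℕ → ℝ → ℝ) (k : ℕ) (ω : Fin (R + 1) → ℝ) : ℝ :=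
  f2 k (XX d m f f1 k ω) / nr R d m f f1 f2 k

/-- the increments of the messages -/
def Dd (d : ℝ) (m : ℕ → ℝ) (f f1 f2 : ℕ → ℝ → ℝ) (θ : ℝ → ℝ) : ℕ → (Fin (R + 1) → ℝ) → ℝ
  | 0, ω => √d * θ (ω 0)
  | k + 1, ω => √d * (aa d m f f1 f2 k ω * θ (nz k ω))

/-- the messages -/
def Mm (d : ℝ) (m : ℕ → ℝ) (f f1 f2 : ℕ → ℝ → ℝ) (θ : ℝ → ℝ) (j : ℕ) (ω : Fin (R + 1) → ℝ) : ℝ :=
  ∑ i ∈ Finset.range (j + 1), Dd d m f f1 f2 θ i ω

/-! ### dependence -/

theorem XX_congr {ω ω' : Fin (R + 1) → ℝ} : ∀ k : ℕ,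
    (∀ i : Fin (R + 1), 1 ≤ (i : ℕ) → (i : ℕ) ≤ k → ω i = ω' i) →
    XX d m f f1 k ω = XX d m f f1 k ω'
  | 0, _ => rfl
  | k + 1, h => by
    have ih := XX_congr k
      (fun i h1 hi => h i h1 (by omega))
    have hn : nz k ω = nz k ω' := by
      unfold nz
      split
      · rename_i hk
        refine h _ ?_ ?_ <;> simp
      · rfl
    simp only [XX, ih, hn]

theorem Dd_congr {ω ω' : Fin (R + 1) → ℝ} (k : ℕ)
    (h : ∀ i : Fin (R + 1), (i : ℕ) ≤ k → ω i = ω' i) :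
    Dd d m f f1 f2 θ k ω = Dd d m f f1 f2 θ k ω' := by
  cases k with
  | zero => simp only [Dd]; rw [h 0 (by simp)]
  | succ k =>
    have h1 := XX_congr (d := d) (m := m) (f := f) (f1 := f1) k
      (fun i _ hi => h i (by omega))
    have hn : nz k ω = nz k ω' := by
      unfold nz
      split
      · rename_i hk
        refine h _ ?_
        simp
      · rfl
    simp only [Dd, aa, h1, hn]

theorem Mm_congr {ω ω' : Fin (R + 1) → ℝ} (k : ℕ)
    (h : ∀ i : Fin (R + 1), (i : ℕ) ≤ k → ω i = ω' i) :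
    Mm d m f f1 f2 θ k ω = Mm d m f f1 f2 θ k ω' := by
  unfold Mm
  refine Finset.sum_congr rfl fun i hi => Dd_congr i fun j hj => h j ?_
  rw [Finset.mem_range] at hi
  omega

theorem update_ne_of_le {l k : ℕ} (hl : l < R) (hk : k ≤ l) (ω : Fin (R + 1) → ℝ) (t : ℝ)
    (i : Fin (R + 1)) (hi : (i : ℕ) ≤ k) :
    Function.update ω (Fin.succ ⟨l, hl⟩) t i = ω i := by
  rw [Function.update_of_ne]
  intro h
  have := congrArg Fin.val h
  simp at this
  omega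

/-! ### continuity and bounds -/

theorem nz_cont (k : ℕ) : Continuous (nz (R := R) k) := by
  unfold nz
  split
  · exact continuous_apply _
  · exact continuous_const

theorem XX_cont (S : Sched M C R d m (fun _ => d) f f1 f2) : ∀ k ≤ R,
    Continuous (XX (R := R) d m f f1 k)
  | 0, _ => continuous_const
  | k + 1, hk => by
    have ih := XX_cont S k (by omega)
    have h1 := D3.xp_cont (S.step k (by omega))
    have h2 : Continuous (fun ω : Fin (R + 1) → ℝ => (XX d m f f1 k ω, nz k ω)) :=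
      ih.prodMk (nz_cont k)
    exact h1.comp h2

namespace Dat

variable (D : Dat R M C d m f f1 f2 θ B tr)

include D

theorem f2c {k : ℕ} (hk : k < R) : Continuous (f2 k) := sched_f2_cont D.S hk

theorem b2 (k : ℕ) (hk : k < R) (x : ℝ) : |f2 k x| ≤ C + M := sched_f2_bd D.S hk x

theorem nr_pos {k : ℕ} (hk : k < R) : 0 < nr R d m f f1 f2 k := Real.sqrt_pos.2 (D.pos k hk)

theorem C0 : 0 ≤ C := D.S.C0

theorem CM0 : 0 ≤ C + M := add_nonneg D.S.C0 D.S.M0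

theorem sd : 0 < √d := Real.sqrt_pos.2 D.d0

theorem sdd : √d * √d = d := Real.mul_self_sqrt D.d0.le

theorem aa_cont {k : ℕ} (hk : k < R) : Continuous (aa (R := R) d m f f1 f2 k) :=
  ((D.f2c hk).comp (XX_cont D.S k hk.le)).div_const _

theorem aa_bd {k : ℕ} (hk : k < R) (ω : Fin (R + 1) → ℝ) :
    |aa d m f f1 f2 k ω| ≤ (C + M) / nr R d m f f1 f2 k := by
  unfold aa
  rw [abs_div, abs_of_pos (D.nr_pos hk)]
  exact div_le_div_of_nonneg_right (D.b2 k hk _) (D.nr_pos hk).le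

theorem Dd_cont {k : ℕ} (hk : k ≤ R) : Continuous (Dd (R := R) d m f f1 f2 θ k) := by
  cases k with
  | zero => exact continuous_const.mul (D.T.cont.comp (continuous_apply 0))
  | succ k =>
    exact continuous_const.mul ((D.aa_cont (by omega)).mul (D.T.cont.comp (nz_cont k)))

/-- bounds of the increments -/
theorem Dd_bd {k : ℕ} (hk : k ≤ R) : ∃ K, ∀ ω : Fin (R + 1) → ℝ,
    |Dd d m f f1 f2 θ k ω| ≤ K := by
  cases k with
  | zero =>
    refine ⟨√d * B, fun ω => ?_⟩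
    simp only [Dd]
    rw [abs_mul, abs_of_pos D.sd]
    exact mul_le_mul_of_nonneg_left (D.T.bd _) D.sd.le
  | succ k =>
    refine ⟨√d * ((C + M) / nr R d m f f1 f2 k * B), fun ω => ?_⟩
    simp only [Dd]
    rw [abs_mul, abs_of_pos D.sd, abs_mul]
    refine mul_le_mul_of_nonneg_left ?_ D.sd.le
    exact mul_le_mul (D.aa_bd (by omega) ω) (D.T.bd _) (abs_nonneg _)
      (div_nonneg D.CM0 (D.nr_pos (by omega)).le)

theorem Mm_cont {k : ℕ} (hk : k ≤ R) : Continuous (Mm (R := R) d m f f1 f2 θ k) := by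
  unfold Mm
  refine continuous_finsetSum _ fun i hi => D.Dd_cont ?_
  rw [Finset.mem_range] at hi
  omega

theorem Mm_bd : ∃ K, ∀ k ≤ R, ∀ ω : Fin (R + 1) → ℝ, |Mm d m f f1 f2 θ k ω| ≤ K := by
  have h : ∀ i, ∃ K, i ≤ R → ∀ ω : Fin (R + 1) → ℝ, |Dd d m f f1 f2 θ i ω| ≤ K := fun i => by
    by_cases hi : i ≤ R
    · obtain ⟨K, hK⟩ := D.Dd_bd hi; exact ⟨K, fun _ => hK⟩
    · exact ⟨0, fun h => absurd h hi⟩
  choose K hK using h
  refine ⟨∑ i ∈ Finset.range (R + 1), |K i|, fun k hk ω => ?_⟩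
  unfold Mm
  refine (Finset.abs_sum_le_sum_abs _ _).trans ?_
  refine (Finset.sum_le_sum fun i hi => ?_).trans
    (Finset.sum_le_sum_of_subset_of_nonneg (Finset.range_mono (by omega : k + 1 ≤ R + 1))
      fun i _ _ => abs_nonneg (K i))
  rw [Finset.mem_range] at hi
  exact (hK i (by omega) ω).trans (le_abs_self _)

theorem bdd_memLp {Y : (Fin (R + 1) → ℝ) → ℝ} (hY : Continuous Y) {K : ℝ} (hK : ∀ ω, |Y ω| ≤ K) :
    MemLp Y 2 (G (Fin (R + 1))) :=
  MemLp.of_bound hY.aestronglyMeasurable K (Eventually.of_forall fun ω => by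
    rw [Real.norm_eq_abs]; exact hK ω)

theorem Dd_memLp {k : ℕ} (hk : k ≤ R) :
    MemLp (Dd (R := R) d m f f1 f2 θ k) 2 (G (Fin (R + 1))) := by
  obtain ⟨K, hK⟩ := D.Dd_bd hk
  exact D.bdd_memLp (D.Dd_cont hk) hK

omit D in
theorem nz_memLp {k : ℕ} (hk : k < R) : MemLp (nz (R := R) k) 2 (G (Fin (R + 1))) := by
  have h1 : MemLp (fun x : ℝ => x) 2 γ := memLp_id_gaussianReal (μ := 0) (v := 1) 2
  have h2 := h1.comp_measurePreserving
    (measurePreserving_eval (fun _ : Fin (R + 1) => γ) (Fin.succ ⟨k, hk⟩))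
  refine h2.ae_eq (Eventually.of_forall fun ω => ?_)
  exact (nz_of_lt hk ω).symm

/-! ### orthogonality relations -/

theorem int_aa_sq {k : ℕ} (hk : k < R) :
    ∫ ω, aa d m f f1 f2 k ω ^ 2 ∂G (Fin (R + 1)) = 1 := by
  unfold aa
  simp only [div_pow]
  rw [integral_div]
  unfold nr
  rw [Real.sq_sqrt (D.pos k hk).le]
  exact div_self (D.pos k hk).ne'

theorem aa_update {k l : ℕ} (hl : l < R) (hk : k ≤ l) (ω : Fin (R + 1) → ℝ) (t : ℝ) :
    aa d m f f1 f2 k (Function.update ω (Fin.succ ⟨l, hl⟩) t) = aa d m f f1 f2 k ω := by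
  unfold aa
  rw [XX_congr k fun i _ hi => update_ne_of_le hl hk ω t i hi]

theorem Dd_update {k l : ℕ} (hl : l < R) (hk : k ≤ l) (ω : Fin (R + 1) → ℝ) (t : ℝ) :
    Dd d m f f1 f2 θ k (Function.update ω (Fin.succ ⟨l, hl⟩) t) = Dd d m f f1 f2 θ k ω :=
  Dd_congr k fun i hi => update_ne_of_le hl hk ω t i hi

omit D in
theorem nz_update {k l : ℕ} (hl : l < R) (hk : k < l) (ω : Fin (R + 1) → ℝ) (t : ℝ) :
    nz k (Function.update ω (Fin.succ ⟨l, hl⟩) t) = nz k ω := by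
  have hk' : k < R := by omega
  rw [nz_of_lt hk', nz_of_lt hk']
  exact update_ne_of_le (k := k + 1) hl (by omega) ω t _ (by simp)

theorem o1_lt {i l : ℕ} (hl : l < R) (hi : i ≤ l) :
    ∫ ω, Dd d m f f1 f2 θ i ω * Dd d m f f1 f2 θ (l + 1) ω ∂G (Fin (R + 1)) = 0 := by
  have e : ∀ ω : Fin (R + 1) → ℝ, Dd d m f f1 f2 θ i ω * Dd d m f f1 f2 θ (l + 1) ω =
      (Dd d m f f1 f2 θ i ω * (√d * aa d m f f1 f2 l ω)) * θ (ω (Fin.succ ⟨l, hl⟩)) := by
    intro ω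
    simp only [Dd, nz_of_lt hl]; ring
  simp only [e]
  rw [int_mul_coord (Fin.succ ⟨l, hl⟩)
    (Y := fun ω => Dd d m f f1 f2 θ i ω * (√d * aa d m f f1 f2 l ω)) (φ := θ)
    (fun ω t => by rw [D.Dd_update hl hi, D.aa_update hl le_rfl])
    (((D.Dd_cont (by omega)).mul (continuous_const.mul (D.aa_cont hl))).measurable)
    D.T.cont.measurable, D.T.zero, mul_zero]

theorem o1_self {i : ℕ} (hi : i ≤ R) :
    ∫ ω, Dd d m f f1 f2 θ i ω * Dd d m f f1 f2 θ i ω ∂G (Fin (R + 1)) = d := by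
  cases i with
  | zero =>
    have e : ∀ ω : Fin (R + 1) → ℝ, Dd d m f f1 f2 θ 0 ω * Dd d m f f1 f2 θ 0 ω =
        d * (θ (ω 0)) ^ 2 := by
      intro ω
      simp only [Dd]
      linear_combination (θ (ω 0) ^ 2) * D.sdd
    simp only [e]
    rw [int_mul_coord (0 : Fin (R + 1)) (Y := fun _ => d) (φ := fun t => θ t ^ 2)
      (fun _ _ => rfl) measurable_const (D.T.cont.pow 2).measurable, D.T.one]
    simp
  | succ l =>
    have hl : l < R := by omega
    have e : ∀ ω : Fin (R + 1) → ℝ, Dd d m f f1 f2 θ (l + 1) ω * Dd d m f f1 f2 θ (l + 1) ω =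
        (d * aa d m f f1 f2 l ω ^ 2) * (θ (ω (Fin.succ ⟨l, hl⟩))) ^ 2 := by
      intro ω
      simp only [Dd, nz_of_lt hl]
      linear_combination ((aa d m f f1 f2 l ω * θ (ω (Fin.succ ⟨l, hl⟩))) ^ 2) * D.sdd
    simp only [e]
    rw [int_mul_coord (Fin.succ ⟨l, hl⟩) (Y := fun ω => d * aa d m f f1 f2 l ω ^ 2)
      (φ := fun t => θ t ^ 2) (fun ω t => by rw [D.aa_update hl le_rfl])
      ((continuous_const.mul ((D.aa_cont hl).pow 2)).measurable)
      (D.T.cont.pow 2).measurable, D.T.one, integral_const_mul, D.int_aa_sq hl]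
    ring

theorem o1 {i j : ℕ} (hi : i ≤ R) (hj : j ≤ R) :
    ∫ ω, Dd d m f f1 f2 θ i ω * Dd d m f f1 f2 θ j ω ∂G (Fin (R + 1)) =
      if i = j then d else 0 := by
  rcases lt_trichotomy i j with h | h | h
  · rw [if_neg h.ne]
    obtain ⟨l, rfl⟩ : ∃ l, j = l + 1 := ⟨j - 1, by omega⟩
    exact D.o1_lt (by omega) (by omega)
  · subst h; rw [if_pos rfl]; exact D.o1_self hi
  · rw [if_neg h.ne']
    obtain ⟨l, rfl⟩ : ∃ l, i = l + 1 := ⟨i - 1, by omega⟩
    simp only [mul_comm (Dd d m f f1 f2 θ (l + 1) _)]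
    exact D.o1_lt (by omega) (by omega)

/-- the covariance of noise and increments -/
theorem o2 {k j : ℕ} (hk : k < R) (hj : j ≤ R) :
    ∫ ω, nz k ω * Dd d m f f1 f2 θ j ω ∂G (Fin (R + 1)) =
      if j = k + 1 then √d * (∫ ω, aa d m f f1 f2 k ω ∂G (Fin (R + 1))) * (∫ g, g * θ g ∂γ)
      else 0 := by
  rcases lt_trichotomy j (k + 1) with h | h | h
  · rw [if_neg h.ne]
    have e : ∀ ω : Fin (R + 1) → ℝ, nz k ω * Dd d m f f1 f2 θ j ω =
        Dd d m f f1 f2 θ j ω * (ω (Fin.succ ⟨k, hk⟩)) := by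
      intro ω; rw [nz_of_lt hk]; ring
    simp only [e]
    rw [int_mul_coord (Fin.succ ⟨k, hk⟩) (Y := fun ω => Dd d m f f1 f2 θ j ω)
      (φ := fun t => t) (fun ω t => by rw [D.Dd_update hk (by omega)])
      ((D.Dd_cont hj).measurable) measurable_id]
    simp
  · subst h
    rw [if_pos rfl]
    have e : ∀ ω : Fin (R + 1) → ℝ, nz k ω * Dd d m f f1 f2 θ (k + 1) ω =
        (√d * aa d m f f1 f2 k ω) *
          ((fun t : ℝ => t * θ t) (ω (Fin.succ ⟨k, hk⟩))) := by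
      intro ω
      simp only [Dd, nz_of_lt hk]; ring
    simp only [e]
    rw [int_mul_coord (Fin.succ ⟨k, hk⟩) (Y := fun ω => √d * aa d m f f1 f2 k ω)
      (φ := fun t => t * θ t) (fun ω t => by rw [D.aa_update hk le_rfl])
      ((continuous_const.mul (D.aa_cont hk)).measurable)
      (continuous_id.mul D.T.cont).measurable, integral_const_mul]
  · rw [if_neg h.ne']
    obtain ⟨l, rfl⟩ : ∃ l, j = l + 1 := ⟨j - 1, by omega⟩
    have hl : l < R := by omega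
    have e : ∀ ω : Fin (R + 1) → ℝ, nz k ω * Dd d m f f1 f2 θ (l + 1) ω =
        (nz k ω * (√d * aa d m f f1 f2 l ω)) * θ (ω (Fin.succ ⟨l, hl⟩)) := by
      intro ω
      simp only [Dd, nz_of_lt hl]; ring
    simp only [e]
    rw [int_mul_coord (Fin.succ ⟨l, hl⟩) (Y := fun ω => nz k ω * (√d * aa d m f f1 f2 l ω))
      (φ := θ) (fun ω t => by rw [D.aa_update hl le_rfl, nz_update hl (by omega)])
      (((nz_cont k).mul (continuous_const.mul (D.aa_cont hl))).measurable)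
      D.T.cont.measurable, D.T.zero, mul_zero]

omit D in
theorem o3_lt {i j : ℕ} (hj : j < R) (hij : i < j) :
    ∫ ω : Fin (R + 1) → ℝ, nz i ω * nz j ω ∂G (Fin (R + 1)) = 0 := by
  have e : ∀ ω : Fin (R + 1) → ℝ, nz i ω * nz j ω = nz i ω * ω (Fin.succ ⟨j, hj⟩) := by
    intro ω; rw [nz_of_lt hj]
  simp only [e]
  rw [int_mul_coord (Fin.succ ⟨j, hj⟩) (Y := fun ω => nz i ω)
    (φ := fun t => t) (fun ω t => by rw [nz_update hj hij])
    ((nz_cont i).measurable) measurable_id]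
  simp

omit D in
theorem o3 {i j : ℕ} (hi : i < R) (hj : j < R) :
    ∫ ω : Fin (R + 1) → ℝ, nz i ω * nz j ω ∂G (Fin (R + 1)) = if i = j then 1 else 0 := by
  rcases lt_trichotomy i j with h | h | h
  · rw [if_neg h.ne]; exact o3_lt hj h
  · subst h
    rw [if_pos rfl]
    have e : ∀ ω : Fin (R + 1) → ℝ, nz i ω * nz i ω = 1 * (ω (Fin.succ ⟨i, hi⟩)) ^ 2 := by
      intro ω; rw [nz_of_lt hi]; ring
    simp only [e]
    rw [int_mul_coord (Fin.succ ⟨i, hi⟩) (Y := fun _ => 1)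
      (φ := fun t => t ^ 2) (fun ω t => rfl) measurable_const (by fun_prop), int_sq_γ]
    simp
  · rw [if_neg h.ne']
    simp only [mul_comm (nz i _)]
    exact o3_lt hi h

end Dat

end

end

end Crest.Agent.R339.DF
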