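import Crest.Agent.R339.DF833B

/-!
# Row 339, (DF): the scheme in the label coordinates and its value
-/

set_option autoImplicit false
set_option linter.unusedSectionVars false

namespace Crest.Agent.R339.DF

open MeasureTheory ProbabilityTheory Filter Topology Matrix Real
open Crest.Agent.R339.Guerra (G lin mp_update mp_int)
open Crest.Agent.R339.Trig
open Crest.Agent.R339.D3 (Sched Chain Step xp Kern comp)
open Crest.Agent.R164.GC (tE g2)

noncomputable section

variable {R : ℕ} {M C d : ℝ} {m : ℕ → ℝ} {f f1 f2 : ℕ → ℝ → ℝ} {θ : ℝ → ℝ} {B tr : ℝ}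

/-- from noise to labels -/
def Bm (R : ℕ) (d : ℝ) : Matrix (Fin (R + 1)) (Fin (R + 1)) ℝ := Matrix.of fun i j =>
  Fin.cases (Fin.cases 1 (fun _ => 0) j)
    (fun i' => Fin.cases 0 (fun j' => if j' ≤ i' then √d else 0) j) i

@[simp] theorem Bm00 : Bm R d 0 0 = 1 := rfl
@[simp] theorem Bm0s (j : Fin R) : Bm R d 0 j.succ = 0 := rfl
@[simp] theorem Bms0 (i : Fin R) : Bm R d i.succ 0 = 0 := rfl
@[simp] theorem Bmss (i j : Fin R) : Bm R d i.succ j.succ = if j ≤ i then √d else 0 := rfl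

/-- the covariance -/
def Qs (R : ℕ) (d : ℝ) : Matrix (Fin (R + 1)) (Fin (R + 1)) ℝ := Bm R d * (Bm R d)ᵀ

/-- the labels as a linear function of the noise -/
abbrev bl (R : ℕ) (d : ℝ) (ω : Fin (R + 1) → ℝ) : Fin (R + 1) → ℝ := lin (fun i j => Bm R d i j) ω

theorem sum_nz (ω : Fin (R + 1) → ℝ) (k : Fin R) :
    ∑ l : Fin R, (if l ≤ k then √d else 0) * ω l.succ =
      √d * ∑ l ∈ Finset.range (k + 1), nz l ω := by
  have h1 : ∑ l : Fin R, (if l ≤ k then √d else 0) * ω l.succ =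
      ∑ l ∈ Finset.range R, (if l ≤ (k:ℕ) then √d else 0) * nz l ω := by
    rw [← Fin.sum_univ_eq_sum_range (fun l => (if l ≤ (k:ℕ) then √d else 0) * nz l ω) R]
    refine Finset.sum_congr rfl fun l _ => ?_
    rw [nz_of_lt l.2]
    rfl
  rw [h1, Finset.mul_sum]
  symm
  have hk := k.2
  refine Finset.sum_subset_zero_on_sdiff (Finset.range_mono (by omega)) (fun l hl => ?_)
    (fun l hl => ?_)
  · rw [Finset.mem_sdiff, Finset.mem_range, Finset.mem_range] at hl
    rw [if_neg (by omega), zero_mul]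
  · rw [Finset.mem_range] at hl
    rw [if_pos (by omega)]

theorem bl_zero (ω : Fin (R + 1) → ℝ) : bl R d ω 0 = ω 0 := by
  simp [lin, Fin.sum_univ_succ]

theorem bl_succ (ω : Fin (R + 1) → ℝ) (k : Fin R) :
    bl R d ω k.succ = √d * ∑ l ∈ Finset.range (k + 1), nz l ω := by
  rw [← sum_nz]
  simp [lin, Fin.sum_univ_succ]

/-- from labels to noise -/
def zeta (d : ℝ) (x : Fin (R + 1) → ℝ) : Fin (R + 1) → ℝ := fun i =>
  Fin.cases (x 0) (fun k => (x k.succ - if (k : ℕ) = 0 then 0 else x k.castSucc) / √d) i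

@[simp] theorem zeta_zero (x : Fin (R + 1) → ℝ) : zeta d x 0 = x 0 := rfl
@[simp] theorem zeta_succ (x : Fin (R + 1) → ℝ) (k : Fin R) :
    zeta d x k.succ = (x k.succ - if (k : ℕ) = 0 then 0 else x k.castSucc) / √d := rfl

theorem zeta_bl (hd : 0 < d) (ω : Fin (R + 1) → ℝ) : zeta d (bl R d ω) = ω := by
  have hs : √d ≠ 0 := (Real.sqrt_pos.2 hd).ne'
  ext i
  refine Fin.cases ?_ (fun k => ?_) i
  · rw [zeta_zero, bl_zero]
  · rw [zeta_succ, bl_succ]
    have e : (if (k : ℕ) = 0 then 0 else bl R d ω k.castSucc) =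
        √d * ∑ l ∈ Finset.range k, nz l ω := by
      split
      · rename_i h; rw [h]; simp
      · rename_i h
        obtain ⟨k', hk'⟩ : ∃ k' : Fin R, k.castSucc = k'.succ ∧ (k : ℕ) = k' + 1 := by
          refine ⟨⟨k - 1, by have := k.2; omega⟩, ?_, ?_⟩
          · ext; simp; omega
          · simp; omega
        rw [hk'.1, bl_succ, hk'.2]
    rw [e, Finset.sum_range_succ, mul_add, add_sub_cancel_left, mul_div_cancel_left₀ _ hs,
      nz_of_lt k.2]

theorem zeta_cont : Continuous (zeta (R := R) d) := by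
  have hc : ∀ i : Fin (R + 1), Continuous (fun x : Fin (R + 1) → ℝ => x i) := fun i =>
    continuous_apply i
  refine continuous_pi fun i => ?_
  refine Fin.cases ?_ (fun k => ?_) i
  · exact hc 0
  · simp only [zeta_succ]
    split
    · exact ((hc _).sub continuous_const).div_const _
    · exact ((hc _).sub (hc _)).div_const _

theorem zeta_neg (x : Fin (R + 1) → ℝ) : zeta d (-x) = -zeta d x := by
  ext i
  refine Fin.cases ?_ (fun k => ?_) i
  · simp
  · simp only [zeta_succ, Pi.neg_apply]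
    split <;> ring

/-- the messages as functions of the labels -/
def FF (d : ℝ) (m : ℕ → ℝ) (f f1 f2 : ℕ → ℝ → ℝ) (θ : ℝ → ℝ) (j : Fin R)
    (x : Fin (R + 1) → ℝ) : ℝ := Mm d m f f1 f2 θ j (zeta d x)

/-- the final magnetisation as a function of the noise -/
def gg (R : ℕ) (d : ℝ) (m : ℕ → ℝ) (f f1 f2 : ℕ → ℝ → ℝ) (θ : ℝ → ℝ)
    (ω : Fin (R + 1) → ℝ) : ℝ := clip 1 (Mm d m f f1 f2 θ R ω)

/-- the final magnetisation as a function of the labels -/
def GG (d : ℝ) (m : ℕ → ℝ) (f f1 f2 : ℕ → ℝ → ℝ) (θ : ℝ → ℝ)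
    (x : Fin (R + 1) → ℝ) : ℝ := gg R d m f f1 f2 θ (zeta d x)

namespace Dat

variable (D : Dat R M C d m f f1 f2 θ B tr)

include D

theorem XX_odd (ω : Fin (R + 1) → ℝ) : ∀ k ≤ R, XX d m f f1 k (-ω) = -XX d m f f1 k ω
  | 0, _ => by simp [XX]
  | k + 1, hk => by
    have ih := XX_odd ω k (by omega)
    have hn : nz k (-ω) = -nz k ω := by
      rw [nz_of_lt (by omega), nz_of_lt (by omega)]; rfl
    have hdr : ∀ x, tE (m k) d (f (k + 1)) (f1 (k + 1)) x = f1 k x := fun x => by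
      rw [D.S.f1_eq k (by omega)]
    simp only [XX, ih, hn, xp, D3.drift, hdr, D.odd k (by omega)]
    ring

theorem Dd_odd (ω : Fin (R + 1) → ℝ) {k : ℕ} (hk : k ≤ R) :
    Dd d m f f1 f2 θ k (-ω) = -Dd d m f f1 f2 θ k ω := by
  cases k with
  | zero => simp only [Dd, Pi.neg_apply, D.T.odd]; ring
  | succ k =>
    have hn : nz k (-ω) = -nz k ω := by
      rw [nz_of_lt (by omega), nz_of_lt (by omega)]; rfl
    simp only [Dd, aa, D.XX_odd ω k (by omega), D.even k (by omega), hn, D.T.odd]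
    ring

theorem Mm_odd (ω : Fin (R + 1) → ℝ) {k : ℕ} (hk : k ≤ R) :
    Mm d m f f1 f2 θ k (-ω) = -Mm d m f f1 f2 θ k ω := by
  unfold Mm
  rw [← Finset.sum_neg_distrib]
  refine Finset.sum_congr rfl fun i hi => D.Dd_odd ω ?_
  rw [Finset.mem_range] at hi; omega

theorem FF_odd (j : Fin R) (x : Fin (R + 1) → ℝ) :
    FF d m f f1 f2 θ j (-x) = -FF d m f f1 f2 θ j x := by
  unfold FF
  rw [zeta_neg, D.Mm_odd _ j.2.le]

theorem FF_cont (j : Fin R) : Continuous (FF (R := R) d m f f1 f2 θ j) :=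
  (D.Mm_cont j.2.le).comp zeta_cont

theorem gg_cont : Continuous (gg R d m f f1 f2 θ) := (clip_cont 1).comp (D.Mm_cont le_rfl)

theorem GG_cont : Continuous (GG (R := R) d m f f1 f2 θ) := D.gg_cont.comp zeta_cont

omit D in
theorem gg_bd (ω : Fin (R + 1) → ℝ) : |gg R d m f f1 f2 θ ω| ≤ 1 := clip_abs zero_le_one _

theorem GG_odd (x : Fin (R + 1) → ℝ) : GG d m f f1 f2 θ (-x) = -GG d m f f1 f2 θ x := by
  unfold GG gg
  rw [zeta_neg, D.Mm_odd _ le_rfl, clip_odd zero_le_one]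

theorem adm : ∃ K, Adm (fun j : Fin R => FF (R := R) d m f f1 f2 θ j) K := by
  obtain ⟨K, hK⟩ := D.Mm_bd
  refine ⟨K, fun j => (D.FF_cont j).stronglyMeasurable, fun j x => hK j j.2.le _, fun j => ?_⟩
  intro x y hxy
  unfold FF
  refine Mm_congr _ fun i => ?_
  refine Fin.cases (fun _ => ?_) (fun k hk => ?_) i
  · rw [zeta_zero, zeta_zero]
    exact hxy 0 (by simp)
  · have h1 : x k.succ = y k.succ := hxy _ (by
      simp only [Set.mem_ofPred_eq, Fin.le_def, Fin.val_castSucc]; exact hk)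
    have h2 : x k.castSucc = y k.castSucc := hxy _ (by
      simp only [Set.mem_ofPred_eq, Fin.le_def, Fin.val_castSucc]
      simp only [Fin.val_succ] at hk
      omega)
    rw [zeta_succ, zeta_succ, h1, h2]

/-- the law of the labels -/
theorem law : (G (Fin (R + 1))).map (bl R d) = gl (Qs R d) :=
  map_lin _ fun i j => by
    unfold Qs
    rw [Matrix.mul_apply]
    rfl

theorem int_gl {φ : (Fin (R + 1) → ℝ) → ℝ} (hφ : Continuous φ) :
    ∫ x, φ x ∂gl (Qs R d) = ∫ ω, φ (bl R d ω) ∂G (Fin (R + 1)) := by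
  rw [← D.law, integral_map (Guerra.continuous_lin _).measurable.aemeasurable
    hφ.aestronglyMeasurable]

theorem int_Mm {i j : ℕ} (hi : i ≤ R) (hj : j ≤ R) :
    ∫ ω, Mm d m f f1 f2 θ i ω * Mm d m f f1 f2 θ j ω ∂G (Fin (R + 1)) =
      ∑ a ∈ Finset.range (i + 1), ∑ b ∈ Finset.range (j + 1), if a = b then d else 0 := by
  have e : ∀ ω : Fin (R + 1) → ℝ, Mm d m f f1 f2 θ i ω * Mm d m f f1 f2 θ j ω =
      ∑ a ∈ Finset.range (i + 1), ∑ b ∈ Finset.range (j + 1),
        Dd d m f f1 f2 θ a ω * Dd d m f f1 f2 θ b ω := by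
    intro ω; unfold Mm; rw [Finset.sum_mul_sum]
  simp only [e]
  have hint : ∀ a ∈ Finset.range (i + 1), ∀ b ∈ Finset.range (j + 1), Integrable
      (fun ω : Fin (R + 1) → ℝ => Dd d m f f1 f2 θ a ω * Dd d m f f1 f2 θ b ω)
      (G (Fin (R + 1))) := fun a ha b hb => by
    rw [Finset.mem_range] at ha hb
    exact (D.Dd_memLp (by omega)).integrable_mul (D.Dd_memLp (by omega))
  rw [integral_finsetSum _ fun a ha => integrable_finsetSum _ fun b hb => hint a ha b hb]
  refine Finset.sum_congr rfl fun a ha => ?_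
  rw [integral_finsetSum _ fun b hb => hint a ha b hb]
  refine Finset.sum_congr rfl fun b hb => ?_
  rw [Finset.mem_range] at ha hb
  exact D.o1 (by omega) (by omega)

theorem Qs_ss (i j : Fin R) : Qs R d i.succ j.succ =
    ∑ a ∈ Finset.range ((i : ℕ) + 1), ∑ b ∈ Finset.range ((j : ℕ) + 1),
      if a = b then d else 0 := by
  unfold Qs
  rw [Matrix.mul_apply, Fin.sum_univ_succ]
  simp only [Matrix.transpose_apply, Bms0, Bmss, mul_zero, zero_add]
  have h1 : ∑ l : Fin R, (if l ≤ i then √d else 0) * (if l ≤ j then √d else 0) =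
      ∑ l ∈ Finset.range R, if l ≤ (i : ℕ) ∧ l ≤ (j : ℕ) then d else 0 := by
    rw [← Fin.sum_univ_eq_sum_range (fun l => if l ≤ (i : ℕ) ∧ l ≤ (j : ℕ) then d else 0) R]
    refine Finset.sum_congr rfl fun l _ => ?_
    simp only [Fin.le_def]
    by_cases h1 : (l : ℕ) ≤ (i : ℕ) <;> by_cases h2 : (l : ℕ) ≤ (j : ℕ) <;>
      simp [h1, h2, D.sdd]
  rw [h1]
  have hi := i.2
  have h2 : ∑ a ∈ Finset.range ((i : ℕ) + 1), ∑ b ∈ Finset.range ((j : ℕ) + 1),
      (if a = b then d else 0) =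
      ∑ a ∈ Finset.range ((i : ℕ) + 1), if a ≤ (i : ℕ) ∧ a ≤ (j : ℕ) then d else 0 := by
    refine Finset.sum_congr rfl fun a ha => ?_
    rw [Finset.mem_range] at ha
    rw [Finset.sum_ite_eq]
    simp only [Finset.mem_range]
    by_cases h : a ≤ (j : ℕ)
    · rw [if_pos (by omega), if_pos ⟨by omega, h⟩]
    · rw [if_neg (by omega), if_neg (by omega)]
  rw [h2]
  symm
  refine Finset.sum_subset (Finset.range_mono (by omega)) fun a _ ha => ?_
  rw [Finset.mem_range, not_lt] at ha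
  rw [if_neg (by omega)]

/-- state evolution is exact -/
theorem cov_eq : cov (fun j : Fin R => FF (R := R) d m f f1 f2 θ j) = Qs R d := by
  obtain ⟨K, hA⟩ := D.adm
  symm
  refine eq_cov hA ?_
  ext i j
  refine Fin.cases ?_ (fun i' => ?_) i
  · refine Fin.cases ?_ (fun j' => ?_) j
    · rw [step_zero_zero]
      unfold Qs
      rw [Matrix.mul_apply, Fin.sum_univ_succ]
      simp
    · rw [step_zero_succ]
      unfold Qs
      rw [Matrix.mul_apply, Fin.sum_univ_succ]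
      simp
  · refine Fin.cases ?_ (fun j' => ?_) j
    · rw [step_succ_zero]
      unfold Qs
      rw [Matrix.mul_apply, Fin.sum_univ_succ]
      simp
    · rw [step_succ_succ, D.Qs_ss]
      refine (D.int_gl (φ := fun x => FF d m f f1 f2 θ i' x * FF d m f f1 f2 θ j' x)
        ((D.FF_cont i').mul (D.FF_cont j'))).trans ?_
      unfold FF
      simp only [zeta_bl D.d0]
      exact D.int_Mm i'.2.le j'.2.le

theorem det_Bm : IsUnit (Bm R d).det := by
  have h : (Bm R d).BlockTriangular OrderDual.toDual := by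
    intro i j hij
    have hij' : i < j := hij
    revert hij'
    refine Fin.cases ?_ (fun i' => ?_) i
    · refine Fin.cases ?_ (fun j' _ => rfl) j
      intro h; exact absurd h (lt_irrefl _)
    · refine Fin.cases (fun _ => rfl) (fun j' h => ?_) j
      rw [Bmss, if_neg]
      rw [Fin.succ_lt_succ_iff] at h
      exact not_le.2 h
  rw [Matrix.det_of_isLowerTriangular _ h]
  rw [isUnit_iff_ne_zero, Finset.prod_ne_zero_iff]
  intro i _
  refine Fin.cases ?_ (fun i' => ?_) i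
  · simp
  · rw [Bmss, if_pos le_rfl]; exact D.sd.ne'

theorem det_cov : IsUnit (cov (fun j : Fin R => FF (R := R) d m f f1 f2 θ j)).det := by
  rw [D.cov_eq]
  unfold Qs
  rw [Matrix.det_mul, Matrix.det_transpose]
  exact D.det_Bm.mul D.det_Bm

/-- the value of the scheme -/
theorem value_eq : genValue (fun j : Fin R => FF (R := R) d m f f1 f2 θ j)
    (GG d m f f1 f2 θ) (cov (fun j : Fin R => FF (R := R) d m f f1 f2 θ j)) =
    ∑ k ∈ Finset.range R,
      ((∫ ω, Dd d m f f1 f2 θ k ω * gg R d m f f1 f2 θ ω ∂G (Fin (R + 1))) / √d) *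
        (∫ ω, nz k ω * gg R d m f f1 f2 θ ω ∂G (Fin (R + 1))) := by
  rw [D.cov_eq]
  set y : Fin (R + 1) → ℝ := fun i => ∫ ω, ω i * gg R d m f f1 f2 θ ω ∂G (Fin (R + 1)) with hy
  have hggi : ∀ i : Fin (R + 1), Integrable (fun ω : Fin (R + 1) → ℝ =>
      ω i * gg R d m f f1 f2 θ ω) (G (Fin (R + 1))) := fun i => by
    refine (Guerra.integrable_coord i).abs.mono'
      ((continuous_apply i).mul D.gg_cont).aestronglyMeasurable (Eventually.of_forall fun ω => ?_)
    rw [Real.norm_eq_abs, abs_mul]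
    have := gg_bd (d := d) (m := m) (f := f) (f1 := f1) (f2 := f2) (θ := θ) ω
    have h2 := abs_nonneg (ω i)
    nlinarith
  -- the vector of first moments
  have hb : (fun i => ∫ x, x i * GG d m f f1 f2 θ x ∂gl (Qs R d)) = Bm R d *ᵥ y := by
    funext i
    rw [D.int_gl (φ := fun x => x i * GG d m f f1 f2 θ x) ((continuous_apply i).mul D.GG_cont)]
    unfold GG
    simp only [zeta_bl D.d0]
    have e : ∀ ω : Fin (R + 1) → ℝ, bl R d ω i * gg R d m f f1 f2 θ ω =
        ∑ k, Bm R d i k * (ω k * gg R d m f f1 f2 θ ω) := by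
      intro ω
      show (∑ k, Bm R d i k * ω k) * _ = _
      rw [Finset.sum_mul]
      refine Finset.sum_congr rfl fun k _ => by ring
    simp only [e]
    rw [integral_finsetSum _ fun k _ => (hggi k).const_mul _]
    simp only [integral_const_mul]
    rfl
  -- the inverse
  set z : Fin (R + 1) → ℝ := fun i => Fin.cases 0 (fun k : Fin R =>
    (∫ ω, Dd d m f f1 f2 θ k ω * gg R d m f f1 f2 θ ω ∂G (Fin (R + 1))) / √d) i with hz
  have hz0 : z 0 = 0 := rfl
  have hzs : ∀ k : Fin R, z k.succ =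
    (∫ ω, Dd d m f f1 f2 θ k ω * gg R d m f f1 f2 θ ω ∂G (Fin (R + 1))) / √d := fun _ => rfl
  have hDi : ∀ k ≤ R, Integrable (fun ω : Fin (R + 1) → ℝ =>
      Dd d m f f1 f2 θ k ω * gg R d m f f1 f2 θ ω) (G (Fin (R + 1))) := fun k hk =>
    (D.Dd_memLp hk).integrable_mul (D.bdd_memLp D.gg_cont gg_bd)
  have hBz0 : (Bm R d *ᵥ z) 0 = 0 := by
    simp only [Matrix.mulVec, dotProduct, Fin.sum_univ_succ, Bm00, Bm0s, hz0]
    simp
  have hBzs : ∀ j : Fin R, (Bm R d *ᵥ z) j.succ =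
      ∫ x, FF d m f f1 f2 θ j x * GG d m f f1 f2 θ x ∂gl (Qs R d) := by
    intro j
    rw [D.int_gl (φ := fun x => FF d m f f1 f2 θ j x * GG d m f f1 f2 θ x)
      ((D.FF_cont j).mul D.GG_cont)]
    unfold FF GG
    simp only [zeta_bl D.d0]
    have e1 : ∀ ω : Fin (R + 1) → ℝ, Mm d m f f1 f2 θ j ω * gg R d m f f1 f2 θ ω =
        ∑ k ∈ Finset.range ((j : ℕ) + 1), Dd d m f f1 f2 θ k ω * gg R d m f f1 f2 θ ω := by
      intro ω; unfold Mm; rw [Finset.sum_mul]
    simp only [e1]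
    have hj := j.2
    rw [integral_finsetSum _ fun k hk => hDi k (by rw [Finset.mem_range] at hk; omega)]
    simp only [Matrix.mulVec, dotProduct, Fin.sum_univ_succ, Bms0, Bmss, hz0, hzs]
    rw [zero_mul, zero_add]
    have h1 : ∑ l : Fin R, (if l ≤ j then √d else 0) *
        ((∫ ω, Dd d m f f1 f2 θ l ω * gg R d m f f1 f2 θ ω ∂G (Fin (R + 1))) / √d) =
        ∑ l ∈ Finset.range R, if l ≤ (j : ℕ) then
          (∫ ω, Dd d m f f1 f2 θ l ω * gg R d m f f1 f2 θ ω ∂G (Fin (R + 1))) else 0 := by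
      rw [← Fin.sum_univ_eq_sum_range (fun l => if l ≤ (j : ℕ) then
        (∫ ω, Dd d m f f1 f2 θ l ω * gg R d m f f1 f2 θ ω ∂G (Fin (R + 1))) else 0) R]
      refine Finset.sum_congr rfl fun l _ => ?_
      simp only [Fin.le_def]
      split
      · rw [mul_div_cancel₀ _ D.sd.ne']
      · rw [zero_mul]
    rw [h1]
    symm
    refine Finset.sum_subset_zero_on_sdiff (Finset.range_mono (by omega)) (fun l hl => ?_)
      (fun l hl => ?_)
    · rw [Finset.mem_sdiff, Finset.mem_range, Finset.mem_range] at hl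
      rw [if_neg (by omega)]
    · rw [Finset.mem_range] at hl
      rw [if_pos (by omega)]
  unfold genValue
  rw [hb]
  set w := (Qs R d)⁻¹ *ᵥ (Bm R d *ᵥ y) with hw
  have hsum : ∑ j : Fin R, w j.succ *
      ∫ x, FF d m f f1 f2 θ j x * GG d m f f1 f2 θ x ∂gl (Qs R d) = w ⬝ᵥ (Bm R d *ᵥ z) := by
    rw [dotProduct, Fin.sum_univ_succ, hBz0, mul_zero, zero_add]
    refine Finset.sum_congr rfl fun j _ => by rw [hBzs]
  rw [hsum]
  have hdB : IsUnit (Bm R d).det := D.det_Bm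
  have hdBt : IsUnit ((Bm R d)ᵀ).det := by rw [Matrix.det_transpose]; exact hdB
  have hwt : (Bm R d)ᵀ *ᵥ w = y := by
    rw [hw, Matrix.mulVec_mulVec, Matrix.mulVec_mulVec]
    unfold Qs
    rw [Matrix.mul_inv_rev]
    have : (Bm R d)ᵀ * (((Bm R d)ᵀ)⁻¹ * (Bm R d)⁻¹) * Bm R d = 1 := by
      rw [← Matrix.mul_assoc, Matrix.mul_nonsing_inv _ hdBt, Matrix.one_mul,
        Matrix.nonsing_inv_mul _ hdB]
    rw [this, Matrix.one_mulVec]
  have h3 : w ⬝ᵥ (Bm R d *ᵥ z) = y ⬝ᵥ z := by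
    rw [← hwt, Matrix.mulVec_transpose, Matrix.dotProduct_mulVec]
  rw [h3, dotProduct, Fin.sum_univ_succ, hz0, mul_zero, zero_add]
  rw [← Fin.sum_univ_eq_sum_range (fun k =>
    ((∫ ω, Dd d m f f1 f2 θ k ω * gg R d m f f1 f2 θ ω ∂G (Fin (R + 1))) / √d) *
        (∫ ω, nz k ω * gg R d m f f1 f2 θ ω ∂G (Fin (R + 1)))) R]
  refine Finset.sum_congr rfl fun k _ => ?_
  rw [hzs, mul_comm]
  congr 1
  simp only [hy]
  congr 1
  ext ω
  rw [nz_of_lt k.2]

end Dat

end

end Crest.Agent.R339.DF
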