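import Crest.Agent.R339.DF833C

/-!
# Row 339, (DF): the lower bound for the value of the scheme
-/

set_option autoImplicit false
set_option linter.unusedSectionVars false

namespace Crest.Agent.R339.DF

open MeasureTheory ProbabilityTheory Filter Topology Matrix Real
open Crest.Agent.R339.Guerra (G lin mp_update mp_int)
open Crest.Agent.R339.Trig
open Crest.Agent.R339.D3 (Sched Chain Step xp Kern comp gr K4 DD)
open Crest.Agent.R164.GC (tE g2)

noncomputable section

variable {R : ℕ} {M C d : ℝ} {m : ℕ → ℝ} {f f1 f2 : ℕ → ℝ → ℝ} {θ : ℝ → ℝ} {B tr : ℝ}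

/-- the Euler chain on the canonical space -/
theorem chain (m : ℕ → ℝ) (d : ℝ) (f f1 : ℕ → ℝ → ℝ) :
    Chain (G (Fin (R + 1))) R m (fun _ => d) f f1 0 (nz (R := R)) (XX d m f f1) where
  meas := fun r _ => (nz_cont r).measurable
  law := fun r hr => by
    have h := (measurePreserving_eval (fun _ : Fin (R + 1) => γ) (Fin.succ ⟨r, hr⟩)).map_eq
    have e : nz (R := R) r = Function.eval (Fin.succ ⟨r, hr⟩) := by
      funext ω; exact nz_of_lt hr ω
    rw [e]; exact h
  indep := fun r hr => by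
    have h0 : iIndepFun (fun (i : Fin (R + 1)) (ω : Fin (R + 1) → ℝ) => ω i) (G (Fin (R + 1))) :=
      iIndepFun_pi (μ := fun _ : Fin (R + 1) => γ) (X := fun _ x => x)
        (fun _ => aemeasurable_id)
    have h1 := h0.indepFun_finset (Finset.univ.filter fun i : Fin (R + 1) => (i : ℕ) ≤ r)
      {Fin.succ ⟨r, hr⟩} (by
        rw [Finset.disjoint_singleton_right, Finset.mem_filter]
        rintro ⟨-, h⟩
        simp at h) (fun i => measurable_pi_apply i)
    have h2 : (fun (ω : Fin (R + 1) → ℝ) (i : Fin r) => nz (R := R) i ω) =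
        (fun (w : (Finset.univ.filter fun i : Fin (R + 1) => (i : ℕ) ≤ r) → ℝ) (i : Fin r) =>
          w ⟨Fin.succ ⟨i, by have := i.2; omega⟩, by
            rw [Finset.mem_filter]
            refine ⟨Finset.mem_univ _, ?_⟩
            have := i.2
            simp⟩) ∘ (fun ω i => ω i) := by
      funext ω i
      exact nz_of_lt (by have := i.2; omega) ω
    have h3 : nz (R := R) r = (fun w : (({Fin.succ ⟨r, hr⟩} : Finset (Fin (R + 1))) → ℝ) =>
        w ⟨Fin.succ ⟨r, hr⟩, Finset.mem_singleton_self _⟩) ∘ (fun ω i => ω i) := by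
      funext ω
      exact nz_of_lt hr ω
    rw [h2, h3]
    exact h1.comp (measurable_pi_lambda _ fun i => measurable_pi_apply _)
      (measurable_pi_apply _)
  X0 := fun _ => rfl
  Xs := fun _ _ _ => rfl

namespace Dat

variable (D : Dat R M C d m f f1 f2 θ B tr)

include D

/-- the defect -/
def dl (R : ℕ) (d : ℝ) (m : ℕ → ℝ) (f f1 f2 : ℕ → ℝ → ℝ) (θ : ℝ → ℝ)
    (ω : Fin (R + 1) → ℝ) : ℝ := gg R d m f f1 f2 θ ω - Mm d m f f1 f2 θ R ω

theorem Mm_memLp {k : ℕ} (hk : k ≤ R) :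
    MemLp (Mm (R := R) d m f f1 f2 θ k) 2 (G (Fin (R + 1))) := by
  obtain ⟨K, hK⟩ := D.Mm_bd
  exact D.bdd_memLp (D.Mm_cont hk) (hK k hk)

theorem dl_memLp : MemLp (dl R d m f f1 f2 θ) 2 (G (Fin (R + 1))) :=
  (D.bdd_memLp D.gg_cont gg_bd).sub (D.Mm_memLp le_rfl)

theorem Rd_le : (R : ℝ) * d ≤ 1 := by
  have h := D.S.vs
  simp only [Finset.sum_const, Finset.card_range, nsmul_eq_mul] at h
  exact h

theorem ea_bd {k : ℕ} (hk : k < R) : (∫ ω, aa d m f f1 f2 k ω ∂G (Fin (R + 1))) ^ 2 ≤ 1 := by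
  have hmem : MemLp (aa (R := R) d m f f1 f2 k) 2 (G (Fin (R + 1))) :=
    D.bdd_memLp (D.aa_cont hk) (D.aa_bd hk)
  have h := variance_eq_sub hmem
  have h2 := variance_nonneg (aa (R := R) d m f f1 f2 k) (G (Fin (R + 1)))
  have h3 : ∫ ω, (aa (R := R) d m f f1 f2 k ^ 2) ω ∂G (Fin (R + 1)) = 1 := D.int_aa_sq hk
  rw [h3] at h
  linarith

/-- the algebraic lower bound -/
theorem value_ge {η : ℝ} (hη : 0 ≤ η)
    (hdl : ∫ ω, dl R d m f f1 f2 θ ω ^ 2 ∂G (Fin (R + 1)) ≤ η ^ 2) :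
    d * ∑ k ∈ Finset.range R, (∫ ω, aa d m f f1 f2 k ω ∂G (Fin (R + 1))) -
      tr / 2 - 2 * η - η ^ 2 ≤
    genValue (fun j : Fin R => FF (R := R) d m f f1 f2 θ j)
      (GG d m f f1 f2 θ) (cov (fun j : Fin R => FF (R := R) d m f f1 f2 θ j)) := by
  rw [D.value_eq]
  have hd := D.d0
  have hsd := D.sd
  have hsdd := D.sdd
  set u := √d with hu
  set P := G (Fin (R + 1)) with hP
  set κ := ∫ g, g * θ g ∂γ with hκ
  set ea : ℕ → ℝ := fun k => ∫ ω, aa d m f f1 f2 k ω ∂P with hea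
  set α : ℕ → ℝ := fun k => ∫ ω, Dd d m f f1 f2 θ k ω * dl R d m f f1 f2 θ ω ∂P with hα
  set β : ℕ → ℝ := fun k => ∫ ω, nz k ω * dl R d m f f1 f2 θ ω ∂P with hβ
  have hδ := D.dl_memLp
  have hgg : ∀ ω : Fin (R + 1) → ℝ, gg R d m f f1 f2 θ ω =
      Mm d m f f1 f2 θ R ω + dl R d m f f1 f2 θ ω := by
    intro ω; unfold dl; ring
  have e1 : ∀ k < R, ∫ ω, Dd d m f f1 f2 θ k ω * gg R d m f f1 f2 θ ω ∂P = d + α k := by
    intro k hk
    have i1 : Integrable (fun ω => Dd d m f f1 f2 θ k ω * Mm d m f f1 f2 θ R ω) P :=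
      (D.Dd_memLp hk.le).integrable_mul (D.Mm_memLp le_rfl)
    have i2 : Integrable (fun ω => Dd d m f f1 f2 θ k ω * dl R d m f f1 f2 θ ω) P :=
      (D.Dd_memLp hk.le).integrable_mul hδ
    simp only [hgg, mul_add]
    rw [integral_add i1 i2]
    congr 1
    have e : ∀ ω : Fin (R + 1) → ℝ, Dd d m f f1 f2 θ k ω * Mm d m f f1 f2 θ R ω =
        ∑ b ∈ Finset.range (R + 1), Dd d m f f1 f2 θ k ω * Dd d m f f1 f2 θ b ω := by
      intro ω; unfold Mm; rw [Finset.mul_sum]
    simp only [e]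
    have hint : ∀ b ∈ Finset.range (R + 1),
        Integrable (fun ω => Dd d m f f1 f2 θ k ω * Dd d m f f1 f2 θ b ω) P := fun b hb =>
      (D.Dd_memLp hk.le).integrable_mul (D.Dd_memLp (by rw [Finset.mem_range] at hb; omega))
    rw [integral_finsetSum _ hint]
    rw [Finset.sum_eq_single k]
    · exact D.o1_self hk.le
    · intro b hb hbk
      rw [Finset.mem_range] at hb
      have := D.o1 hk.le (by omega : b ≤ R)
      rw [if_neg (Ne.symm hbk)] at this
      exact this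
    · intro h; exact absurd (Finset.mem_range.2 (by omega)) h
  have e2 : ∀ k < R, ∫ ω, nz k ω * gg R d m f f1 f2 θ ω ∂P = u * ea k * κ + β k := by
    intro k hk
    have i1 : Integrable (fun ω => nz k ω * Mm d m f f1 f2 θ R ω) P :=
      (nz_memLp hk).integrable_mul (D.Mm_memLp le_rfl)
    have i2 : Integrable (fun ω => nz k ω * dl R d m f f1 f2 θ ω) P :=
      (nz_memLp hk).integrable_mul hδ
    simp only [hgg, mul_add]
    rw [integral_add i1 i2]
    congr 1
    have e : ∀ ω : Fin (R + 1) → ℝ, nz k ω * Mm d m f f1 f2 θ R ω =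
        ∑ b ∈ Finset.range (R + 1), nz k ω * Dd d m f f1 f2 θ b ω := by
      intro ω; unfold Mm; rw [Finset.mul_sum]
    simp only [e]
    have hint : ∀ b ∈ Finset.range (R + 1),
        Integrable (fun ω => nz k ω * Dd d m f f1 f2 θ b ω) P := fun b hb =>
      (nz_memLp hk).integrable_mul (D.Dd_memLp (by rw [Finset.mem_range] at hb; omega))
    rw [integral_finsetSum _ hint]
    rw [Finset.sum_eq_single (k + 1)]
    · have := D.o2 hk (by omega : k + 1 ≤ R)
      rw [if_pos rfl] at this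
      exact this
    · intro b hb hbk
      rw [Finset.mem_range] at hb
      have := D.o2 hk (by omega : b ≤ R)
      rw [if_neg hbk] at this
      exact this
    · intro h; exact absurd (Finset.mem_range.2 (by omega)) h
  have hval : ∑ k ∈ Finset.range R,
      ((∫ ω, Dd d m f f1 f2 θ k ω * gg R d m f f1 f2 θ ω ∂P) / u) *
        (∫ ω, nz k ω * gg R d m f f1 f2 θ ω ∂P) =
      κ * (d * ∑ k ∈ Finset.range R, ea k) + u * ∑ k ∈ Finset.range R, β k +
        κ * ∑ k ∈ Finset.range R, α k * ea k + (∑ k ∈ Finset.range R, α k * β k) / u := by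
    have h1 : ∀ k ∈ Finset.range R,
        ((∫ ω, Dd d m f f1 f2 θ k ω * gg R d m f f1 f2 θ ω ∂P) / u) *
        (∫ ω, nz k ω * gg R d m f f1 f2 θ ω ∂P) =
        κ * (d * ea k) + u * β k + κ * (α k * ea k) + α k * β k / u := by
      intro k hk
      rw [Finset.mem_range] at hk
      rw [e1 k hk, e2 k hk]
      field_simp
      rw [← hsdd]
      ring
    rw [Finset.sum_congr rfl h1]
    simp only [Finset.sum_add_distrib, ← Finset.mul_sum, ← Finset.sum_div]
  rw [hval]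
  have hb1 : ∑ k ∈ Finset.range R, α k ^ 2 ≤ d * η ^ 2 := by
    refine (bessel hd (φ := fun k => Dd d m f f1 f2 θ k) (fun i hi => D.Dd_memLp hi.le)
      (fun i hi j hj => D.o1 hi.le hj.le) hδ).trans ?_
    exact mul_le_mul_of_nonneg_left hdl hd.le
  have hb2 : ∑ k ∈ Finset.range R, β k ^ 2 ≤ η ^ 2 := by
    refine (bessel one_pos (φ := fun k => nz k) (fun i hi => nz_memLp hi)
      (fun i hi j hj => o3 hi hj) hδ).trans ?_
    rw [one_mul]; exact hdl
  have hRd := D.Rd_le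
  have hcsβ : (∑ k ∈ Finset.range R, β k) ^ 2 ≤ R * η ^ 2 := by
    have h := Finset.sum_mul_sq_le_sq_mul_sq (Finset.range R) (fun _ => (1:ℝ)) β
    simp only [one_mul, one_pow, Finset.sum_const, Finset.card_range, nsmul_eq_mul,
      mul_one] at h
    exact h.trans (mul_le_mul_of_nonneg_left hb2 (Nat.cast_nonneg R))
  have hR0 : (0:ℝ) ≤ R := Nat.cast_nonneg R
  have b1 : |u * ∑ k ∈ Finset.range R, β k| ≤ η := by
    refine abs_le_of_sq_le_sq ?_ hη
    calc (u * ∑ k ∈ Finset.range R, β k) ^ 2 = (u * u) * (∑ k ∈ Finset.range R, β k) ^ 2 := by ring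
      _ = d * (∑ k ∈ Finset.range R, β k) ^ 2 := by rw [hsdd]
      _ ≤ d * (R * η ^ 2) := mul_le_mul_of_nonneg_left hcsβ hd.le
      _ = (R * d) * η ^ 2 := by ring
      _ ≤ 1 * η ^ 2 := mul_le_mul_of_nonneg_right hRd (sq_nonneg _)
      _ = η ^ 2 := one_mul _
  have hea2 : ∑ k ∈ Finset.range R, ea k ^ 2 ≤ R := by
    calc ∑ k ∈ Finset.range R, ea k ^ 2 ≤ ∑ _k ∈ Finset.range R, (1:ℝ) :=
          Finset.sum_le_sum fun k hk => D.ea_bd (Finset.mem_range.1 hk)
      _ = R := by simp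
  have hκ1 : κ ≤ 1 := D.T.kap_le
  have hκ2 : 1 - tr / 2 ≤ κ := D.T.kap_ge
  have hκabs : |κ| ≤ 1 := by
    -- Cauchy-Schwarz
    refine abs_le_of_sq_le_sq ?_ zero_le_one
    have hk0 : κ = 1 - (∫ g, (θ g - g) ^ 2 ∂γ) / 2 := D.T.kap
    have hk1 : 0 ≤ ∫ g, (θ g + g) ^ 2 ∂γ := integral_nonneg fun g => sq_nonneg _
    have hk2 : ∫ g, (θ g + g) ^ 2 ∂γ = 2 + 2 * κ := by
      have e : ∀ g : ℝ, (θ g + g) ^ 2 = θ g ^ 2 + 2 * (g * θ g) + g ^ 2 := by intro g; ring
      simp only [e]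
      have i1 : Integrable (fun g : ℝ => θ g ^ 2 + 2 * (g * θ g)) γ :=
        D.T.int_sq.add (D.T.int_gθ.const_mul _)
      rw [integral_add i1 integrable_sq_γ, integral_add D.T.int_sq (D.T.int_gθ.const_mul _),
        integral_const_mul, int_sq_γ, D.T.one]
      ring
    rw [hk2] at hk1
    nlinarith
  have b2 : |κ * ∑ k ∈ Finset.range R, α k * ea k| ≤ η := by
    rw [abs_mul]
    have h1 : |∑ k ∈ Finset.range R, α k * ea k| ≤ η := by
      refine abs_le_of_sq_le_sq ?_ hη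
      refine (Finset.sum_mul_sq_le_sq_mul_sq (Finset.range R) α ea).trans ?_
      calc (∑ k ∈ Finset.range R, α k ^ 2) * ∑ k ∈ Finset.range R, ea k ^ 2
          ≤ (d * η ^ 2) * R := mul_le_mul hb1 hea2
            (Finset.sum_nonneg fun k _ => sq_nonneg _) (by positivity)
        _ = (R * d) * η ^ 2 := by ring
        _ ≤ 1 * η ^ 2 := mul_le_mul_of_nonneg_right hRd (sq_nonneg _)
        _ = η ^ 2 := one_mul _
    calc |κ| * |∑ k ∈ Finset.range R, α k * ea k| ≤ 1 * η :=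
          mul_le_mul hκabs h1 (abs_nonneg _) zero_le_one
      _ = η := one_mul _
  have b3 : |(∑ k ∈ Finset.range R, α k * β k) / u| ≤ η ^ 2 := by
    refine abs_le_of_sq_le_sq ?_ (sq_nonneg _)
    rw [div_pow, sq u, hsdd, div_le_iff₀ hd]
    refine (Finset.sum_mul_sq_le_sq_mul_sq (Finset.range R) α β).trans ?_
    calc (∑ k ∈ Finset.range R, α k ^ 2) * ∑ k ∈ Finset.range R, β k ^ 2
        ≤ (d * η ^ 2) * η ^ 2 := mul_le_mul hb1 hb2
          (Finset.sum_nonneg fun k _ => sq_nonneg _) (by positivity)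
      _ = (η ^ 2) ^ 2 * d := by ring
  have b4 : |d * ∑ k ∈ Finset.range R, ea k| ≤ 1 := by
    refine abs_le_of_sq_le_sq ?_ zero_le_one
    have h := Finset.sum_mul_sq_le_sq_mul_sq (Finset.range R) (fun _ => (1:ℝ)) ea
    simp only [one_mul, one_pow, Finset.sum_const, Finset.card_range, nsmul_eq_mul,
      mul_one] at h
    calc (d * ∑ k ∈ Finset.range R, ea k) ^ 2 = d ^ 2 * (∑ k ∈ Finset.range R, ea k) ^ 2 := by ring
      _ ≤ d ^ 2 * (R * R) := by
          refine mul_le_mul_of_nonneg_left (h.trans ?_) (sq_nonneg _)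
          exact mul_le_mul_of_nonneg_left hea2 hR0
      _ = (R * d) ^ 2 := by ring
      _ ≤ 1 ^ 2 := pow_le_pow_left₀ (by positivity) hRd 2
  have b5 : d * ∑ k ∈ Finset.range R, ea k - tr / 2 ≤ κ * (d * ∑ k ∈ Finset.range R, ea k) := by
    have h1 : (1 - κ) * (d * ∑ k ∈ Finset.range R, ea k) ≤ tr / 2 := by
      have h2 : 0 ≤ 1 - κ := by linarith
      have h3 := (le_abs_self _).trans b4
      nlinarith
    linarith
  have c1 := (abs_le.1 b1).1
  have c2 := (abs_le.1 b2).1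
  have c3 := (abs_le.1 b3).1
  linarith

end Dat

end

end Crest.Agent.R339.DF
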