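import Crest.Agent.R339.DF833D

/-!
# Row 339, (DF): the defect
-/

set_option autoImplicit false
set_option linter.unusedSectionVars false

namespace Crest.Agent.R339.DF

open MeasureTheory ProbabilityTheory Filter Topology Matrix Real
open Crest.Agent.R339.Guerra (G lin mp_update mp_int)
open Crest.Agent.R339.Trig
open Crest.Agent.R339.D3 (Sched Chain Step xp Kern comp gr K4 DD)
open Crest.Agent.R164.GC (tE g2)

noncomputable section

/-- Pythagoras -/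
theorem pyth {Ω : Type*} [MeasurableSpace Ω] {P : Measure Ω} {R : ℕ} {φ : ℕ → Ω → ℝ}
    {c : ℕ → ℝ} (hφ : ∀ i < R, MemLp (φ i) 2 P)
    (ho : ∀ i < R, ∀ j < R, ∫ ω, φ i ω * φ j ω ∂P = if i = j then c i else 0) :
    ∫ ω, (∑ i ∈ Finset.range R, φ i ω) ^ 2 ∂P = ∑ i ∈ Finset.range R, c i := by
  have hi2 : ∀ i ∈ Finset.range R, ∀ j ∈ Finset.range R,
      Integrable (fun ω => φ i ω * φ j ω) P := fun i hi j hj =>
    (hφ i (Finset.mem_range.1 hi)).integrable_mul (hφ j (Finset.mem_range.1 hj))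
  have e : ∀ ω, (∑ i ∈ Finset.range R, φ i ω) ^ 2 =
      ∑ i ∈ Finset.range R, ∑ j ∈ Finset.range R, φ i ω * φ j ω := by
    intro ω; rw [sq, Finset.sum_mul_sum]
  simp only [e]
  rw [integral_finsetSum _ fun i hi => integrable_finsetSum _ fun j hj => hi2 i hi j hj]
  refine Finset.sum_congr rfl fun i hi => ?_
  rw [integral_finsetSum _ fun j hj => hi2 i hi j hj]
  rw [Finset.sum_eq_single i]
  · rw [ho i (Finset.mem_range.1 hi) i (Finset.mem_range.1 hi), if_pos rfl]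
  · intro j hj hji
    rw [ho i (Finset.mem_range.1 hi) j (Finset.mem_range.1 hj), if_neg (Ne.symm hji)]
  · intro h; exact absurd hi h

variable {R : ℕ} {M C d : ℝ} {m : ℕ → ℝ} {f f1 f2 : ℕ → ℝ → ℝ} {θ : ℝ → ℝ} {B tr : ℝ}

/-- the truncation error -/
def Ee (d : ℝ) (m : ℕ → ℝ) (f f1 f2 : ℕ → ℝ → ℝ) (θ : ℝ → ℝ) (k : ℕ) (ω : Fin (R + 1) → ℝ) : ℝ :=
  √d * f2 k (XX d m f f1 k ω) * (θ (nz k ω) - nz k ω)

/-- the remainder of the strong estimate -/
def T4 (R : ℕ) (d : ℝ) (m : ℕ → ℝ) (f f1 f2 : ℕ → ℝ → ℝ) (ω : Fin (R + 1) → ℝ) : ℝ :=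
  f1 R (XX d m f f1 R ω) - f1 0 0 -
      ∑ i ∈ Finset.range R, f2 i (XX d m f f1 i ω) * (√d * nz i ω)

namespace Dat

variable (D : Dat R M C d m f f1 f2 θ B tr)

include D

theorem f1_le (x : ℝ) : |f1 R x| ≤ 1 := by
  have hR := D.R0
  have h := (D.S.step (R - 1) (by omega)).sm.b1 x
  rwa [show R - 1 + 1 = R by omega] at h

theorem f1_zero : f1 0 0 = 0 := by
  have h := D.odd 0 D.R0 0
  rw [neg_zero] at h
  linarith

theorem decomp (ω : Fin (R + 1) → ℝ) :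
    Mm d m f f1 f2 θ R ω - f1 R (XX d m f f1 R ω) =
      Dd d m f f1 f2 θ 0 ω +
      (∑ k ∈ Finset.range R, (1 - nr R d m f f1 f2 k) * Dd d m f f1 f2 θ (k + 1) ω) +
      (∑ k ∈ Finset.range R, Ee d m f f1 f2 θ k ω) - T4 R d m f f1 f2 ω := by
  have h0 := D.f1_zero
  have e1 : Mm d m f f1 f2 θ R ω = Dd d m f f1 f2 θ 0 ω +
      ∑ k ∈ Finset.range R, Dd d m f f1 f2 θ (k + 1) ω := by
    unfold Mm
    rw [Finset.sum_range_succ', add_comm]
  have e2 : ∑ k ∈ Finset.range R, Dd d m f f1 f2 θ (k + 1) ω =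
      (∑ k ∈ Finset.range R, (1 - nr R d m f f1 f2 k) * Dd d m f f1 f2 θ (k + 1) ω) +
      (∑ k ∈ Finset.range R, Ee d m f f1 f2 θ k ω) +
      ∑ k ∈ Finset.range R, f2 k (XX d m f f1 k ω) * (√d * nz k ω) := by
    rw [← Finset.sum_add_distrib, ← Finset.sum_add_distrib]
    refine Finset.sum_congr rfl fun k hk => ?_
    have hn := (D.nr_pos (Finset.mem_range.1 hk)).ne'
    simp only [Ee, Dd, aa]
    field_simp
    ring
  rw [e1, e2]
  unfold T4
  rw [h0]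
  ring

theorem Ee_memLp {k : ℕ} (hk : k < R) :
    MemLp (Ee (R := R) d m f f1 f2 θ k) 2 (G (Fin (R + 1))) := by
  have h1 : MemLp (fun ω : Fin (R + 1) → ℝ => θ (nz k ω) - nz k ω) 2 (G (Fin (R + 1))) :=
    (D.bdd_memLp (D.T.cont.comp (nz_cont k)) fun ω => D.T.bd _).sub (nz_memLp hk)
  refine MemLp.of_le_mul (c := √d * (C + M)) h1 ?_ (Eventually.of_forall fun ω => ?_)
  · exact ((continuous_const.mul ((D.f2c hk).comp (XX_cont D.S k hk.le))).mul
      ((D.T.cont.comp (nz_cont k)).sub (nz_cont k))).aestronglyMeasurable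
  · unfold Ee
    rw [norm_mul, norm_mul, Real.norm_eq_abs, Real.norm_eq_abs, abs_of_pos D.sd]
    exact mul_le_mul_of_nonneg_right (mul_le_mul_of_nonneg_left (D.b2 k hk _) D.sd.le)
      (norm_nonneg _)

theorem Ee_update {k l : ℕ} (hl : l < R) (hk : k < l) (ω : Fin (R + 1) → ℝ) (t : ℝ) :
    Ee d m f f1 f2 θ k (Function.update ω (Fin.succ ⟨l, hl⟩) t) = Ee d m f f1 f2 θ k ω := by
  unfold Ee
  rw [XX_congr k fun i _ hi => update_ne_of_le hl hk.le ω t i hi, nz_update hl hk]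

theorem f2_update {k l : ℕ} (hl : l < R) (hk : k ≤ l) (ω : Fin (R + 1) → ℝ) (t : ℝ) :
    f2 k (XX d m f f1 k (Function.update ω (Fin.succ ⟨l, hl⟩) t)) =
      f2 k (XX d m f f1 k ω) := by
  rw [XX_congr k fun i _ hi => update_ne_of_le hl hk ω t i hi]

theorem int_θ_sub : ∫ g, (θ g - g) ∂γ = 0 := by
  rw [integral_sub D.T.int Guerra.integrable_id_γ, D.T.zero]
  simp

theorem Ee_orth_lt {i l : ℕ} (hl : l < R) (hi : i < l) :
    ∫ ω, Ee d m f f1 f2 θ i ω * Ee d m f f1 f2 θ l ω ∂G (Fin (R + 1)) = 0 := by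
  have e : ∀ ω : Fin (R + 1) → ℝ, Ee d m f f1 f2 θ i ω * Ee d m f f1 f2 θ l ω =
      (Ee d m f f1 f2 θ i ω * (√d * f2 l (XX d m f f1 l ω))) *
        ((fun t => θ t - t) (ω (Fin.succ ⟨l, hl⟩))) := by
    intro ω
    simp only [Ee, nz_of_lt hl]; ring
  simp only [e]
  have hc : Continuous (Ee (R := R) d m f f1 f2 θ i) :=
    (continuous_const.mul ((D.f2c (by omega)).comp (XX_cont D.S i (by omega)))).mul
      ((D.T.cont.comp (nz_cont i)).sub (nz_cont i))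
  rw [int_mul_coord (Fin.succ ⟨l, hl⟩)
    (Y := fun ω => Ee d m f f1 f2 θ i ω * (√d * f2 l (XX d m f f1 l ω)))
    (φ := fun t => θ t - t)
    (fun ω t => by rw [D.Ee_update hl hi, D.f2_update hl le_rfl])
    ((hc.mul (continuous_const.mul ((D.f2c hl).comp (XX_cont D.S l hl.le)))).measurable)
    (D.T.cont.sub continuous_id).measurable, D.int_θ_sub, mul_zero]

theorem Ee_self {l : ℕ} (hl : l < R) :
    ∫ ω, Ee d m f f1 f2 θ l ω * Ee d m f f1 f2 θ l ω ∂G (Fin (R + 1)) =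
      d * (∫ ω, f2 l (XX d m f f1 l ω) ^ 2 ∂G (Fin (R + 1))) * ∫ g, (θ g - g) ^ 2 ∂γ := by
  have e : ∀ ω : Fin (R + 1) → ℝ, Ee d m f f1 f2 θ l ω * Ee d m f f1 f2 θ l ω =
      (d * f2 l (XX d m f f1 l ω) ^ 2) *
        ((fun t => (θ t - t) ^ 2) (ω (Fin.succ ⟨l, hl⟩))) := by
    intro ω
    simp only [Ee, nz_of_lt hl]
    linear_combination ((f2 l (XX d m f f1 l ω) *
      (θ (ω (Fin.succ ⟨l, hl⟩)) - ω (Fin.succ ⟨l, hl⟩))) ^ 2) * D.sdd
  simp only [e]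
  rw [int_mul_coord (Fin.succ ⟨l, hl⟩)
    (Y := fun ω => d * f2 l (XX d m f f1 l ω) ^ 2)
    (φ := fun t => (θ t - t) ^ 2)
    (fun ω t => by rw [D.f2_update hl le_rfl])
    ((continuous_const.mul (((D.f2c hl).comp (XX_cont D.S l hl.le)).pow 2)).measurable)
    ((D.T.cont.sub continuous_id).pow 2).measurable, integral_const_mul]

theorem int_T3 : ∫ ω, (∑ k ∈ Finset.range R, Ee d m f f1 f2 θ k ω) ^ 2 ∂G (Fin (R + 1)) ≤
    (C + M) ^ 2 * tr := by
  rw [pyth (c := fun l => d * (∫ ω, f2 l (XX d m f f1 l ω) ^ 2 ∂G (Fin (R + 1))) *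
    ∫ g, (θ g - g) ^ 2 ∂γ) (fun i hi => D.Ee_memLp hi) (fun i hi j hj => ?_)]
  · have hv0 : 0 ≤ ∫ g, (θ g - g) ^ 2 ∂γ := integral_nonneg fun g => sq_nonneg _
    have h1 : ∀ l ∈ Finset.range R, d * (∫ ω, f2 l (XX d m f f1 l ω) ^ 2 ∂G (Fin (R + 1))) *
        ∫ g, (θ g - g) ^ 2 ∂γ ≤ d * (C + M) ^ 2 * tr := by
      intro l hl
      rw [Finset.mem_range] at hl
      have h2 : ∫ ω, f2 l (XX d m f f1 l ω) ^ 2 ∂G (Fin (R + 1)) ≤ (C + M) ^ 2 := by
        have h3 : ∀ ω : Fin (R + 1) → ℝ, f2 l (XX d m f f1 l ω) ^ 2 ≤ (C + M) ^ 2 := fun ω => by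
          rw [← sq_abs]
          exact pow_le_pow_left₀ (abs_nonneg _) (D.b2 l hl _) 2
        calc ∫ ω, f2 l (XX d m f f1 l ω) ^ 2 ∂G (Fin (R + 1))
            ≤ ∫ _ω, (C + M) ^ 2 ∂G (Fin (R + 1)) := by
              refine integral_mono_of_nonneg (Eventually.of_forall fun ω => sq_nonneg _)
                (integrable_const _) (Eventually.of_forall h3)
          _ = (C + M) ^ 2 := by simp
      exact mul_le_mul (mul_le_mul_of_nonneg_left h2 D.d0.le) D.T.tr hv0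
        (mul_nonneg D.d0.le (sq_nonneg _))
    refine (Finset.sum_le_sum h1).trans ?_
    rw [Finset.sum_const, Finset.card_range, nsmul_eq_mul]
    have htr : 0 ≤ tr := hv0.trans D.T.tr
    calc (R : ℝ) * (d * (C + M) ^ 2 * tr) = (R * d) * ((C + M) ^ 2 * tr) := by ring
      _ ≤ 1 * ((C + M) ^ 2 * tr) := mul_le_mul_of_nonneg_right D.Rd_le (by positivity)
      _ = _ := one_mul _
  · rcases lt_trichotomy i j with h | h | h
    · rw [if_neg h.ne]; exact D.Ee_orth_lt hj h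
    · subst h; rw [if_pos rfl]; exact D.Ee_self hi
    · rw [if_neg h.ne']
      simp only [mul_comm (Ee d m f f1 f2 θ i _)]
      exact D.Ee_orth_lt hi h

theorem int_T2 {ρ : ℝ} (hρ : ∀ k < R, |1 - nr R d m f f1 f2 k| ≤ ρ) :
    ∫ ω, (∑ k ∈ Finset.range R, (1 - nr R d m f f1 f2 k) * Dd d m f f1 f2 θ (k + 1) ω) ^ 2
      ∂G (Fin (R + 1)) ≤ ρ ^ 2 := by
  rw [pyth (φ := fun k ω => (1 - nr R d m f f1 f2 k) * Dd d m f f1 f2 θ (k + 1) ω)
    (c := fun k => (1 - nr R d m f f1 f2 k) ^ 2 * d)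
    (fun i hi => (D.Dd_memLp (by omega)).const_mul _) (fun i hi j hj => ?_)]
  · have h1 : ∀ k ∈ Finset.range R, (1 - nr R d m f f1 f2 k) ^ 2 * d ≤ ρ ^ 2 * d := by
      intro k hk
      rw [Finset.mem_range] at hk
      refine mul_le_mul_of_nonneg_right ?_ D.d0.le
      rw [← sq_abs]
      exact pow_le_pow_left₀ (abs_nonneg _) (hρ k hk) 2
    refine (Finset.sum_le_sum h1).trans ?_
    rw [Finset.sum_const, Finset.card_range, nsmul_eq_mul]
    calc (R : ℝ) * (ρ ^ 2 * d) = (R * d) * ρ ^ 2 := by ring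
      _ ≤ 1 * ρ ^ 2 := mul_le_mul_of_nonneg_right D.Rd_le (sq_nonneg _)
      _ = _ := one_mul _
  · have e : ∀ ω : Fin (R + 1) → ℝ, (1 - nr R d m f f1 f2 i) * Dd d m f f1 f2 θ (i + 1) ω *
        ((1 - nr R d m f f1 f2 j) * Dd d m f f1 f2 θ (j + 1) ω) =
        ((1 - nr R d m f f1 f2 i) * (1 - nr R d m f f1 f2 j)) *
          (Dd d m f f1 f2 θ (i + 1) ω * Dd d m f f1 f2 θ (j + 1) ω) := by intro ω; ring
    simp only [e]
    rw [integral_const_mul, D.o1 (by omega) (by omega)]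
    by_cases h : i = j
    · subst h; rw [if_pos rfl, if_pos rfl]; ring
    · rw [if_neg (by omega), if_neg h, mul_zero]

/-- the size of the defect -/
theorem dl_sq {ρ : ℝ} (hρ : ∀ k < R, |1 - nr R d m f f1 f2 k| ≤ ρ) :
    ∫ ω, dl R d m f f1 f2 θ ω ^ 2 ∂G (Fin (R + 1)) ≤
      4 * (d + ρ ^ 2 + (C + M) ^ 2 * tr + DD M C * Real.exp 1 * d) := by
  obtain ⟨hs1, hs2⟩ := D3.strong D.S D.d0.le (chain (R := R) m d f f1) (r := R) le_rfl
  have hs1' : Integrable (fun ω => T4 R d m f f1 f2 ω ^ 2) (G (Fin (R + 1))) := hs1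
  have hs2' : ∫ ω, T4 R d m f f1 f2 ω ^ 2 ∂G (Fin (R + 1)) ≤ DD M C * Real.exp 1 * d := hs2
  have m1 : MemLp (fun ω : Fin (R + 1) → ℝ => Dd d m f f1 f2 θ 0 ω) 2 (G (Fin (R + 1))) :=
    D.Dd_memLp (Nat.zero_le R)
  have m2 : MemLp (fun ω : Fin (R + 1) → ℝ =>
      ∑ k ∈ Finset.range R, (1 - nr R d m f f1 f2 k) * Dd d m f f1 f2 θ (k + 1) ω) 2
      (G (Fin (R + 1))) :=
    memLp_finsetSum _ fun k hk => (D.Dd_memLp (by
      rw [Finset.mem_range] at hk; omega)).const_mul _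
  have m3 : MemLp (fun ω : Fin (R + 1) → ℝ =>
      ∑ k ∈ Finset.range R, Ee d m f f1 f2 θ k ω) 2 (G (Fin (R + 1))) :=
    memLp_finsetSum _ fun k hk => D.Ee_memLp (Finset.mem_range.1 hk)
  have i1 := m1.integrable_sq
  have i2 := m2.integrable_sq
  have i3 := m3.integrable_sq
  have hle : ∀ ω : Fin (R + 1) → ℝ, dl R d m f f1 f2 θ ω ^ 2 ≤
      4 * (Dd d m f f1 f2 θ 0 ω ^ 2 +
      (∑ k ∈ Finset.range R, (1 - nr R d m f f1 f2 k) * Dd d m f f1 f2 θ (k + 1) ω) ^ 2 +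
      (∑ k ∈ Finset.range R, Ee d m f f1 f2 θ k ω) ^ 2 + T4 R d m f f1 f2 ω ^ 2) := by
    intro ω
    have h1 : |dl R d m f f1 f2 θ ω| ≤ |Mm d m f f1 f2 θ R ω - f1 R (XX d m f f1 R ω)| := by
      unfold dl gg
      exact clip_dist (D.f1_le _)
    rw [D.decomp] at h1
    have h2 := pow_le_pow_left₀ (abs_nonneg _) h1 2
    rw [sq_abs, sq_abs] at h2
    refine h2.trans ?_
    generalize Dd d m f f1 f2 θ 0 ω = a
    generalize (∑ k ∈ Finset.range R, (1 - nr R d m f f1 f2 k) *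
      Dd d m f f1 f2 θ (k + 1) ω) = b
    generalize (∑ k ∈ Finset.range R, Ee d m f f1 f2 θ k ω) = c
    generalize T4 R d m f f1 f2 ω = e
    nlinarith [sq_nonneg (a - b), sq_nonneg (a - c), sq_nonneg (a + e), sq_nonneg (b - c),
      sq_nonneg (b + e), sq_nonneg (c + e)]
  have j1 := i1.add i2
  have j2 := j1.add i3
  have j3 := j2.add hs1'
  calc ∫ ω, dl R d m f f1 f2 θ ω ^ 2 ∂G (Fin (R + 1))
      ≤ ∫ ω, 4 * (Dd d m f f1 f2 θ 0 ω ^ 2 +
      (∑ k ∈ Finset.range R, (1 - nr R d m f f1 f2 k) * Dd d m f f1 f2 θ (k + 1) ω) ^ 2 +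
      (∑ k ∈ Finset.range R, Ee d m f f1 f2 θ k ω) ^ 2 + T4 R d m f f1 f2 ω ^ 2)
        ∂G (Fin (R + 1)) :=
        integral_mono D.dl_memLp.integrable_sq (j3.const_mul 4) hle
    _ = 4 * ((∫ ω, Dd d m f f1 f2 θ 0 ω ^ 2 ∂G (Fin (R + 1))) +
      (∫ ω, (∑ k ∈ Finset.range R, (1 - nr R d m f f1 f2 k) *
        Dd d m f f1 f2 θ (k + 1) ω) ^ 2 ∂G (Fin (R + 1))) +
      (∫ ω, (∑ k ∈ Finset.range R, Ee d m f f1 f2 θ k ω) ^ 2 ∂G (Fin (R + 1))) +
      ∫ ω, T4 R d m f f1 f2 ω ^ 2 ∂G (Fin (R + 1))) := by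
        rw [integral_const_mul]
        congr 1
        have k3 := integral_add j2 hs1'
        have k2 := integral_add j1 i3
        have k1 := integral_add i1 i2
        simp only [Pi.add_apply] at k1 k2 k3
        rw [k3, k2, k1]
    _ ≤ _ := by
        have e1 : ∫ ω, Dd d m f f1 f2 θ 0 ω ^ 2 ∂G (Fin (R + 1)) = d := by
          simp only [sq]
          exact D.o1_self (Nat.zero_le R)
        have e2 := D.int_T2 hρ
        have e3 := D.int_T3
        linarith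

end Dat

end

end Crest.Agent.R339.DF
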