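import Crest.Agent.R339.DF833E

/-!
# Row 339, (DF): the final statement
-/

set_option autoImplicit false
set_option linter.unusedSectionVars false

namespace Crest.Agent.R339.DF

open MeasureTheory ProbabilityTheory Filter Topology Matrix Real
open Crest.Agent.R339.Guerra (G lin mp_update mp_int)
open Crest.Agent.R339.Trig
open Crest.Agent.R339.D3 (Sched Chain Step xp Kern comp gr K4 DD)
open Crest.Agent.R164.GC (tE g2)

noncomputable section

/-- the constant of the marginals -/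
def X4 (M C : ℝ) : ℝ := Real.exp (gr M C) * K4 M C

/-- the deviation of the norms -/
def rho (M C s : ℝ) : ℝ := s + s * (2 * C * C * X4 M C)

/-- the defect -/
def Er (M C s : ℝ) : ℝ := 4 * (s ^ 2 + rho M C s ^ 2 + DD M C * Real.exp 1 * s ^ 2)

/-- the total error -/
def err (M C s : ℝ) : ℝ := rho M C s + s * (C * X4 M C) + 2 * √(Er M C s) + Er M C s

theorem rho_tendsto (M C : ℝ) : Tendsto (rho M C) (𝓝 0) (𝓝 0) := by
  have h : Continuous (rho M C) := by unfold rho; fun_prop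
  have := h.tendsto 0
  simpa [rho] using this

theorem err_tendsto (M C : ℝ) : Tendsto (err M C) (𝓝 0) (𝓝 0) := by
  have h : Continuous (err M C) := by unfold err Er rho; fun_prop
  have := h.tendsto 0
  simpa [err, rho, Er] using this

variable {R : ℕ} {M C d : ℝ} {m : ℕ → ℝ} {f f1 f2 : ℕ → ℝ → ℝ} {θ : ℝ → ℝ} {B tr : ℝ}

theorem X4_nonneg (S : Sched M C R d m (fun _ => d) f f1 f2) (hR : 0 < R) : 0 ≤ X4 M C :=
  mul_nonneg (Real.exp_pos _).le (S.step 0 hR).K4_nonneg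

/-- marginals of the control -/
theorem marg1 (S : Sched M C R d m (fun _ => d) f f1 f2) (hR : 0 < R) (hd : 0 ≤ d) {k : ℕ}
    (hk : k < R) :
    |∫ ω, f2 k (XX d m f f1 k ω) ∂G (Fin (R + 1)) - comp (Kern m (fun _ => d) f) k 0 (f2 k) 0| ≤
      √d * (C * X4 M C) := by
  cases k with
  | zero =>
    have := X4_nonneg S hR
    have := S.C0
    simp only [XX, D3.comp]
    rw [integral_const, probReal_univ, one_smul, sub_self, abs_zero]
    positivity
  | succ k =>
    have hs := S.step k (by omega)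
    exact D3.marg_close S hd (chain (R := R) m d f f1) hk.le hs.l2 hs.sm.b2

/-- marginals of the square of the control -/
theorem marg2 (S : Sched M C R d m (fun _ => d) f f1 f2) (hR : 0 < R) (hd : 0 ≤ d) {k : ℕ}
    (hk : k < R) :
    |∫ ω, f2 k (XX d m f f1 k ω) ^ 2 ∂G (Fin (R + 1)) -
      comp (Kern m (fun _ => d) f) k 0 (fun y => f2 k y ^ 2) 0| ≤
      √d * (2 * C * C * X4 M C) := by
  cases k with
  | zero =>
    have := X4_nonneg S hR
    have := S.C0
    simp only [XX, D3.comp]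
    rw [integral_const, probReal_univ, one_smul, sub_self, abs_zero]
    positivity
  | succ k =>
    have hs := S.step k (by omega)
    have hC := S.C0
    refine D3.marg_close S hd (chain (R := R) m d f f1) hk.le
      (V := fun y => f2 (k + 1) y ^ 2) (L := 2 * C * C) (B := C ^ 2) (fun x y => ?_) (fun x => ?_)
    · have e : f2 (k + 1) x ^ 2 - f2 (k + 1) y ^ 2 =
          (f2 (k + 1) x + f2 (k + 1) y) * (f2 (k + 1) x - f2 (k + 1) y) := by ring
      rw [e, abs_mul, mul_assoc]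
      refine mul_le_mul ?_ (hs.l2 x y) (abs_nonneg _) (by positivity)
      refine (abs_add_le _ _).trans ?_
      have := hs.sm.b2 x
      have := hs.sm.b2 y
      linarith
    · rw [abs_pow]
      exact pow_le_pow_left₀ (abs_nonneg _) (hs.sm.b2 x) 2

/-- the discrete incremental scheme -/
theorem df_pos (S : Sched M C R d m (fun _ => d) f f1 f2) (hR : 0 < R) (hd : 0 < d)
    (odd : ∀ r < R, ∀ x, f1 r (-x) = -f1 r x) (even : ∀ r < R, ∀ x, f2 r (-x) = f2 r x)
    {s : ℝ} (hs : 0 ≤ s) (hds : √d ≤ s)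
    (hth : ∀ k < R, |comp (Kern m (fun _ => d) f) k 0 (fun y => f2 k y ^ 2) 0 - 1| ≤ s)
    (hρ1 : rho M C s < 1) {ε : ℝ} (hε : 0 < ε) :
    ∃ (F : Fin R → (Fin (R + 1) → ℝ) → ℝ) (g : (Fin (R + 1) → ℝ) → ℝ) (K : ℝ),
      Adm F K ∧ (∀ j, Continuous (F j)) ∧ (∀ j x, F j (-x) = -F j x) ∧ Continuous g ∧
      (∀ x, g (-x) = -g x) ∧ (∀ x, |g x| ≤ 1) ∧ IsUnit (cov F).det ∧
      d * (∑ k ∈ Finset.range R, comp (Kern m (fun _ => d) f) k 0 (f2 k) 0) -
        (err M C s + ε) ≤ genValue F g (cov F) := by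
  have hC := S.C0
  have hX := X4_nonneg S hR
  set P := G (Fin (R + 1)) with hP
  have hdev : ∀ k < R, |∫ ω, f2 k (XX d m f f1 k ω) ^ 2 ∂P - 1| ≤ rho M C s := by
    intro k hk
    have h1 := marg2 S hR hd.le hk
    have h2 := hth k hk
    have h3 : √d * (2 * C * C * X4 M C) ≤ s * (2 * C * C * X4 M C) :=
      mul_le_mul_of_nonneg_right hds (by positivity)
    unfold rho
    rw [abs_le] at *
    constructor <;> linarith [h1.1, h1.2, h2.1, h2.2]
  have hpos : ∀ k < R, 0 < ∫ ω, f2 k (XX d m f f1 k ω) ^ 2 ∂P := by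
    intro k hk
    have := (abs_le.1 (hdev k hk)).1
    linarith
  have hrho0 : 0 ≤ rho M C s := by unfold rho; positivity
  have hnr : ∀ k < R, |1 - nr R d m f f1 f2 k| ≤ rho M C s := by
    intro k hk
    have h1 := hdev k hk
    have h2 : nr R d m f f1 f2 k ^ 2 = ∫ ω, f2 k (XX d m f f1 k ω) ^ 2 ∂P :=
      Real.sq_sqrt (hpos k hk).le
    rw [← h2] at h1
    have h3 : 0 ≤ nr R d m f f1 f2 k := Real.sqrt_nonneg _
    have h4 : |nr R d m f f1 f2 k ^ 2 - 1| = |1 - nr R d m f f1 f2 k| *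
        (1 + nr R d m f f1 f2 k) := by
      rw [show nr R d m f f1 f2 k ^ 2 - 1 =
        -((1 - nr R d m f f1 f2 k) * (1 + nr R d m f f1 f2 k)) by ring, abs_neg, abs_mul,
        abs_of_nonneg (by linarith : 0 ≤ 1 + nr R d m f f1 f2 k)]
    rw [h4] at h1
    refine le_trans ?_ h1
    have := abs_nonneg (1 - nr R d m f f1 f2 k)
    nlinarith
  -- the parameter of the truncation
  obtain ⟨tr, htr0, htr⟩ : ∃ tr : ℝ, 0 < tr ∧
      tr / 2 + 4 * ((C + M) * √tr) + 4 * ((C + M) ^ 2 * tr) ≤ ε := by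
    have h1 : Continuous (fun tr : ℝ => tr / 2 + 4 * ((C + M) * √tr) +
      4 * ((C + M) ^ 2 * tr)) := by fun_prop
    have h2 := h1.tendsto 0
    simp only [Real.sqrt_zero, mul_zero, zero_div, add_zero] at h2
    have h3 := (h2.mono_left (nhdsWithin_le_nhds (s := Set.Ioi 0))).eventually_lt_const hε
    obtain ⟨tr, h4, h5⟩ := (h3.and self_mem_nhdsWithin).exists
    exact ⟨tr, h5, h4.le⟩
  obtain ⟨θ, B, hT⟩ := exists_trunc htr0
  have D : Dat R M C d m f f1 f2 θ B tr := ⟨S, hR, hd, odd, even, hT, hpos⟩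
  obtain ⟨K, hK⟩ := D.adm
  refine ⟨fun j => FF (R := R) d m f f1 f2 θ j, GG d m f f1 f2 θ, K, hK, D.FF_cont, D.FF_odd,
    D.GG_cont, D.GG_odd, fun x => Dat.gg_bd _, D.det_cov, ?_⟩
  -- the defect
  have hCM := D.CM0
  have hDD := D3.DD_nonneg M C
  have hEr0 : 0 ≤ Er M C s := by unfold Er; positivity
  have hd2 : d ≤ s ^ 2 := by
    have h := pow_le_pow_left₀ (Real.sqrt_nonneg d) hds 2
    rwa [Real.sq_sqrt hd.le] at h
  have hE := D.dl_sq hnr
  set E' := Er M C s + 4 * ((C + M) ^ 2 * tr) with hE'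
  have hE'0 : 0 ≤ E' := by positivity
  have hE2 : ∫ ω, Dat.dl R d m f f1 f2 θ ω ^ 2 ∂P ≤ √E' ^ 2 := by
    rw [Real.sq_sqrt hE'0]
    refine hE.trans ?_
    rw [hE']
    unfold Er
    have h1 : DD M C * Real.exp 1 * d ≤ DD M C * Real.exp 1 * s ^ 2 :=
      mul_le_mul_of_nonneg_left hd2 (by positivity)
    linarith
  have hv := D.value_ge (Real.sqrt_nonneg _) hE2
  rw [Real.sq_sqrt hE'0] at hv
  have hsq : √E' ≤ √(Er M C s) + 2 * ((C + M) * √tr) := by
    refine (Real.sqrt_le_left (by positivity)).2 ?_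
    have h1 : √(Er M C s) ^ 2 = Er M C s := Real.sq_sqrt hEr0
    have h2 : √tr ^ 2 = tr := Real.sq_sqrt htr0.le
    have h3 : (√(Er M C s) + 2 * ((C + M) * √tr)) ^ 2 =
        √(Er M C s) ^ 2 + 4 * (√(Er M C s) * ((C + M) * √tr)) +
          4 * ((C + M) ^ 2 * √tr ^ 2) := by ring
    rw [h3, h1, h2, hE']
    have h4 : 0 ≤ √(Er M C s) * ((C + M) * √tr) := by positivity
    linarith
  -- the controls
  have hea : ∀ k ∈ Finset.range R, comp (Kern m (fun _ => d) f) k 0 (f2 k) 0 -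
      (rho M C s + s * (C * X4 M C)) ≤ ∫ ω, aa d m f f1 f2 k ω ∂P := by
    intro k hk
    rw [Finset.mem_range] at hk
    have h1 := marg1 S hR hd.le hk
    have h2 : √d * (C * X4 M C) ≤ s * (C * X4 M C) :=
      mul_le_mul_of_nonneg_right hds (by positivity)
    have h3 : ∫ ω, f2 k (XX d m f f1 k ω) ∂P =
        nr R d m f f1 f2 k * ∫ ω, aa d m f f1 f2 k ω ∂P := by
      rw [← integral_const_mul]
      congr 1
      ext ω
      unfold aa
      rw [mul_div_cancel₀ _ (D.nr_pos hk).ne']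
    have h4 : |∫ ω, aa d m f f1 f2 k ω ∂P| ≤ 1 := by
      refine abs_le_of_sq_le_sq ?_ zero_le_one
      rw [one_pow]; exact D.ea_bd hk
    have h5 : |(1 - nr R d m f f1 f2 k) * ∫ ω, aa d m f f1 f2 k ω ∂P| ≤ rho M C s := by
      rw [abs_mul]
      calc |1 - nr R d m f f1 f2 k| * |∫ ω, aa d m f f1 f2 k ω ∂P| ≤ rho M C s * 1 :=
            mul_le_mul (hnr k hk) h4 (abs_nonneg _) hrho0
        _ = _ := mul_one _
    rw [h3] at h1
    have h6 := (abs_le.1 h1).1
    have h7 := (abs_le.1 h5).1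
    linarith
  have hsum : d * (∑ k ∈ Finset.range R, comp (Kern m (fun _ => d) f) k 0 (f2 k) 0) -
      (rho M C s + s * (C * X4 M C)) ≤
      d * ∑ k ∈ Finset.range R, ∫ ω, aa d m f f1 f2 k ω ∂P := by
    have h1 := Finset.sum_le_sum hea
    rw [Finset.sum_sub_distrib, Finset.sum_const, Finset.card_range, nsmul_eq_mul] at h1
    have h2 := mul_le_mul_of_nonneg_left h1 hd.le
    have h3 : (R * d) * (rho M C s + s * (C * X4 M C)) ≤
        1 * (rho M C s + s * (C * X4 M C)) :=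
      mul_le_mul_of_nonneg_right D.Rd_le (by positivity)
    linarith
  unfold err
  linarith

/-- **(DF)**: the output in the form used by the assembly -/
theorem dfStmt (M C : ℝ) : ∀ ε > (0:ℝ), ∃ θ > (0:ℝ), ∃ d0 > (0:ℝ),
    ∀ (R : ℕ) (d : ℝ) (m : ℕ → ℝ) (f f1 f2 : ℕ → ℝ → ℝ), 0 < d → d ≤ d0 →
    D3.Sched M C R d m (fun _ => d) f f1 f2 →
    (∀ r x, f1 r (-x) = - f1 r x) → (∀ r x, f2 r (-x) = f2 r x) →
    (∀ k < R, |D3.comp (D3.Kern m (fun _ => d) f) k 0 (fun y => f2 k y ^ 2) 0 - 1| ≤ θ) →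
    ∃ (F : Fin R → (Fin (R + 1) → ℝ) → ℝ) (g : (Fin (R + 1) → ℝ) → ℝ) (C' : ℝ),
      Trig.Adm F C' ∧ (∀ i, Continuous (F i)) ∧ (∀ i x, F i (-x) = - F i x) ∧ Continuous g ∧
      (∀ x, g (-x) = - g x) ∧ (∀ x, |g x| ≤ 1) ∧ IsUnit (cov F).det ∧
      d * (∑ k ∈ Finset.range R, D3.comp (D3.Kern m (fun _ => d) f) k 0 (f2 k) 0) - ε ≤
        genValue F g (cov F) := by
  intro ε hε
  have h1 := ((err_tendsto M C).mono_left
    (nhdsWithin_le_nhds (s := Set.Ioi 0))).eventually_lt_const (half_pos hε)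
  have h2 := ((rho_tendsto M C).mono_left
    (nhdsWithin_le_nhds (s := Set.Ioi 0))).eventually_lt_const one_pos
  obtain ⟨s, ⟨h3, h4⟩, h5⟩ := ((h1.and h2).and self_mem_nhdsWithin).exists
  have hs : (0:ℝ) < s := h5
  refine ⟨s, hs, s ^ 2, by positivity, fun R d m f f1 f2 hd hd0 S odd even hth => ?_⟩
  have hds : √d ≤ s := (Real.sqrt_le_left hs.le).2 hd0
  rcases Nat.eq_zero_or_pos R with hR | hR
  · subst hR
    refine ⟨fun j => j.elim0, fun _ => 0, 0, ⟨fun j => j.elim0, fun j => j.elim0,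
      fun j => j.elim0⟩, fun j => j.elim0, fun j => j.elim0, continuous_const, fun x => by simp,
      fun x => by simp, ?_, ?_⟩
    · have hA : Adm (fun j : Fin 0 => (j.elim0 : (Fin (0 + 1) → ℝ) → ℝ)) 0 :=
        ⟨fun j => j.elim0, fun j => j.elim0, fun j => j.elim0⟩
      have : cov (fun j : Fin 0 => (j.elim0 : (Fin (0 + 1) → ℝ) → ℝ)) = 1 := by
        symm
        refine eq_cov hA ?_
        ext i j
        have hi : i = 0 := Fin.ext (by omega)
        have hj : j = 0 := Fin.ext (by omega)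
        subst hi; subst hj
        rw [step_zero_zero]; rfl
      rw [this]; simp
    · simp [genValue]
      exact hε.le
  · obtain ⟨F, g, K, a1, a2, a3, a4, a5, a6, a7, a8⟩ := df_pos S hR hd
      (fun r _ => odd r) (fun r _ => even r) hs.le hds hth h4 (half_pos hε)
    exact ⟨F, g, K, a1, a2, a3, a4, a5, a6, a7, by linarith⟩

end

end Crest.Agent.R339.DF
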