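import Crest.Agent.R339.Asm55
import Crest.Agent.R339.DF833F

/-!
# Row 339: the classical half, without hypotheses
-/

set_option autoImplicit false

namespace Crest.Agent.R339.Asm

open MeasureTheory ProbabilityTheory Filter Topology Set
open Crest.MathPhysics.SpinGlass
open Crest.Agent.R339.Var Crest.Agent.R339.Ref Crest.Agent.R339.Trig Crest.Agent.R339.Site

/-- (DF) -/
theorem dfStmt : DFStmt := by
  intro M C _ ε hε
  obtain ⟨θ, hθ, d0, hd0, h⟩ := DF.dfStmt M C ε hε
  exact ⟨θ, hθ, d0, hd0, fun R d m f f1 f2 hd hdd S odd even _ hth =>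
    h R d m f f1 f2 hd hdd S odd even hth⟩

/-- **the classical half**: trigonometric schemes reach the ground state energy -/
theorem classical_main {ε : ℝ} (hε : 0 < ε) : ∃ (M : ℕ) (S : TrigScheme M),
    ∀ n : ℕ, 0 < n → (∫ J, maxPairEnergy n J ∂(gaussianCouplings n)) / n - ε ≤ S.value :=
  classical dfStmt hε

/-- the statement from (C2) alone -/
theorem final_of_QStmt (hQ : QStmt) :
    ∀ ε > (0 : ℝ), ∃ angles : List (ℝ × ℝ), ∃ N : ℕ, ∀ n ≥ N,
      (∫ J, maxPairEnergy n J ∂(gaussianCouplings n)) / n - ε ≤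
        (∫ J, expectedEnergy n J (alternatingState n J angles) ∂(gaussianCouplings n)) / n :=
  final dfStmt hQ

end Crest.Agent.R339.Asm
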