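import Crest.Agent.R339.Trig716d
import Crest.Agent.R339.SiteModel

/-!
# Row 339, part (C): label calculus on the Fock space

`l : J → K` is a finite family of vectors with real Gram matrix `Q`; `Wl l a = exp(i φ(∑ a_j l_j))`
are commuting unitaries; `fld l T = T(φ(l))` for an odd trigonometric polynomial `T`.
-/

set_option autoImplicit false
set_option linter.unusedSectionVars false

noncomputable section

open scoped ComplexConjugate InnerProductSpace Topology
open Filter MeasureTheory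
open Crest.Agent.R339.Site

namespace Crest.Agent.R339.FE

open Crest.Agent.R339.Trig (gl TP TrigScheme)

variable {K : Type*} [NormedAddCommGroup K] [InnerProductSpace ℂ K]
variable {J : Type*} [Fintype J] [DecidableEq J]

/-- real linear combinations of the labels -/
def lc (l : J → K) (a : J → ℝ) : K := ∑ j, ((a j : ℝ) : ℂ) • l j

theorem lc_add (l : J → K) (a b : J → ℝ) : lc l (a + b) = lc l a + lc l b := by
  simp only [lc, Pi.add_apply, Complex.ofReal_add, add_smul, Finset.sum_add_distrib]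

theorem lc_neg (l : J → K) (a : J → ℝ) : lc l (-a) = - lc l a := by
  simp only [lc, Pi.neg_apply, Complex.ofReal_neg, neg_smul, Finset.sum_neg_distrib]

@[simp] theorem lc_zero (l : J → K) : lc l (0 : J → ℝ) = 0 := by
  simp [lc]

/-- the labels have the real Gram matrix `Q` -/
def RealGram (l : J → K) (Q : Matrix J J ℝ) : Prop := ∀ i j, ⟪l i, l j⟫_ℂ = ((Q i j : ℝ) : ℂ)

variable {l : J → K} {Q : Matrix J J ℝ}

theorem RealGram.inner_lc (h : RealGram l Q) (a b : J → ℝ) :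
    ⟪lc l a, lc l b⟫_ℂ = ((∑ i, ∑ j, a i * Q i j * b j : ℝ) : ℂ) := by
  rw [lc, lc, sum_inner]
  push_cast
  refine Finset.sum_congr rfl fun i _ => ?_
  rw [inner_sum]
  refine Finset.sum_congr rfl fun j _ => ?_
  rw [inner_smul_left, inner_smul_right, h i j, Complex.conj_ofReal]
  ring

theorem RealGram.norm_lc (h : RealGram l Q) (a : J → ℝ) :
    ‖lc l a‖ ^ 2 = ∑ i, ∑ j, a i * Q i j * a j := by
  have h1 := h.inner_lc a a
  rw [inner_self_eq_norm_sq_to_K] at h1
  have h2 : ((‖lc l a‖ ^ 2 : ℝ) : ℂ) = ((∑ i, ∑ j, a i * Q i j * a j : ℝ) : ℂ) := by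
    rw [← h1]; push_cast; rfl
  exact Complex.ofReal_injective h2

theorem RealGram.posSemidef (h : RealGram l Q) : Q.PosSemidef := by
  refine Matrix.PosSemidef.of_dotProduct_mulVec_nonneg ?_ fun v => ?_
  · ext i j
    rw [Matrix.conjTranspose_apply, star_trivial]
    have h1 := h i j
    have h2 := h j i
    rw [← inner_conj_symm, h2, Complex.conj_ofReal] at h1
    exact_mod_cast h1
  · have h1 := h.norm_lc v
    have h2 : star v ⬝ᵥ Matrix.mulVec Q v = ∑ i, ∑ j, v i * Q i j * v j := by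
      simp only [dotProduct, Matrix.mulVec, star_trivial, Finset.mul_sum]
      refine Finset.sum_congr rfl fun i _ => Finset.sum_congr rfl fun j _ => by ring
    rw [h2, ← h1]
    positivity

/-- Weyl operators of the labels -/
def Wl (l : J → K) (a : J → ℝ) : BF K := Wy (lc l a)

theorem RealGram.Wl_mul (h : RealGram l Q) (a b : J → ℝ) : Wl l a * Wl l b = Wl l (a + b) := by
  rw [Wl, Wl, Wy_mul, h.inner_lc, Complex.ofReal_im, Wl, lc_add]
  simp

theorem RealGram.Wl_coh (h : RealGram l Q) (a b : J → ℝ) :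
    Wl l a (coh (lc l b)) = coh (lc l (a + b)) := by
  rw [← Wy_vac, ← Wy_vac]
  exact congrArg (fun A : BF K => A vac) (h.Wl_mul a b)

theorem star_Wl (a : J → ℝ) : star (Wl l a) = Wl l (-a) := by
  rw [Wl, Wl, star_Wy, lc_neg]

/-- `T(φ(l))` -/
def fld (l : J → K) (T : TP J) : BF K :=
  ∑ k, ((T.c k : ℂ) * (-(Complex.I) / 2)) • (Wl l (T.a k) - Wl l (-T.a k))

theorem star_fld (T : TP J) : star (fld l T) = fld l T := by
  unfold fld
  rw [star_sum]
  refine Finset.sum_congr rfl fun k _ => ?_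
  rw [star_smul, star_sub, star_Wl, star_Wl, neg_neg, ← neg_sub (Wl l (T.a k)), smul_neg,
    ← neg_smul]
  congr 1
  have h2 : star (2 : ℂ) = 2 := by simp
  simp only [star_mul', star_div₀, star_neg, h2, RCLike.star_def, Complex.conj_ofReal,
    Complex.conj_I]
  ring

theorem RealGram.fld_coh (h : RealGram l Q) (T : TP J) (b : J → ℝ) :
    fld l T (coh (lc l b)) = ∑ k, ((T.c k : ℂ) * (-(Complex.I) / 2)) •
      (coh (lc l (b + T.a k)) - coh (lc l (b - T.a k))) := by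
  unfold fld
  rw [sum_apply]
  refine Finset.sum_congr rfl fun k _ => ?_
  rw [smul_apply, sub_apply, h.Wl_coh, h.Wl_coh, add_comm (T.a k) b,
    show -T.a k + b = b - T.a k by abel]

/-- the character -/
theorem ev_eq_sum (T : TP J) (x : J → ℝ) : ((T.ev x : ℝ) : ℂ) =
    ∑ k, ((T.c k : ℂ) * (-(Complex.I) / 2)) *
      (Trig.ex (T.a k) x - Trig.ex (-T.a k) x) := by
  unfold TP.ev Trig.ex
  push_cast
  refine Finset.sum_congr rfl fun k _ => ?_
  have e1 : ∑ i, (((-T.a k) i : ℝ) : ℂ) * (x i : ℂ) = - ∑ i, ((T.a k i : ℝ) : ℂ) * (x i : ℂ) := by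
    rw [← Finset.sum_neg_distrib]
    refine Finset.sum_congr rfl fun i _ => ?_
    rw [Pi.neg_apply]; push_cast; ring
  rw [e1, Complex.sin]
  ring

theorem ex_neg_mul (a b : J → ℝ) (x : J → ℝ) : Trig.ex a x * Trig.ex b x = Trig.ex (a + b) x :=
  congrFun (Trig.ex_mul a b) x

theorem norm_ex (a : J → ℝ) (x : J → ℝ) : ‖Trig.ex a x‖ = 1 := by
  unfold Trig.ex
  exact Complex.norm_exp_ofReal_mul_I _

theorem continuous_ex (a : J → ℝ) : Continuous (Trig.ex a) := by
  unfold Trig.ex; fun_prop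

theorem RealGram.inner_coh_coh (h : RealGram l Q) (a b : J → ℝ) :
    ⟪coh (lc l a), coh (lc l b)⟫_ℂ = ∫ x, Trig.ex (b - a) x ∂gl Q := by
  unfold Trig.ex
  rw [Trig.charFun_gl h.posSemidef, inner_coh, normSq_sub_div, h.inner_lc, Complex.ofReal_im]
  have e : lc l a - lc l b = lc l (a - b) := by
    rw [sub_eq_add_neg, sub_eq_add_neg, lc_add, lc_neg]
  rw [e, h.norm_lc]
  congr 1
  push_cast
  have e2 : ∑ i, ∑ j, (((a - b) i : ℝ) : ℂ) * (Q i j : ℂ) * (((a - b) j : ℝ) : ℂ) =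
      ∑ i, ∑ j, (((b - a) i : ℝ) : ℂ) * (Q i j : ℂ) * (((b - a) j : ℝ) : ℂ) := by
    refine Finset.sum_congr rfl fun i _ => Finset.sum_congr rfl fun j _ => ?_
    simp only [Pi.sub_apply]; push_cast; ring
  rw [e2]
  ring

theorem integrable_ex_mul (Q : Matrix J J ℝ) (b : J → ℝ) {f : (J → ℝ) → ℂ} (hf : Continuous f)
    {C : ℝ} (hC : ∀ x, ‖f x‖ ≤ C) : Integrable (fun x => Trig.ex b x * f x) (gl Q) := by
  refine (integrable_const C).mono' ((continuous_ex b).mul hf).aestronglyMeasurable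
    (Eventually.of_forall fun x => ?_)
  rw [norm_mul, norm_ex, one_mul]
  exact hC x

/-- `⟨coh b, T(φ)ⁿ vac⟩ = E[e^{-ib·x} T(x)ⁿ]` -/
theorem RealGram.inner_coh_fld_pow (h : RealGram l Q) (T : TP J) (n : ℕ) : ∀ b : J → ℝ,
    ⟪coh (lc l b), (fld l T ^ n) vac⟫_ℂ = ∫ x, Trig.ex (-b) x * ((T.ev x : ℝ) : ℂ) ^ n ∂gl Q := by
  induction n with
  | zero =>
    intro b
    have h1 := h.inner_coh_coh b 0
    rw [lc_zero, zero_sub] at h1
    simp only [pow_zero, mul_one]
    exact h1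
  | succ n ih =>
    intro b
    have h1 : (fld l T ^ (n + 1)) vac = fld l T ((fld l T ^ n) vac) := by
      rw [pow_succ']; rfl
    have h2 : ∀ v : Fock K, ⟪coh (lc l b), fld l T v⟫_ℂ = ⟪fld l T (coh (lc l b)), v⟫_ℂ := by
      intro v
      rw [← ContinuousLinearMap.adjoint_inner_left, ← ContinuousLinearMap.star_eq_adjoint, star_fld]
    rw [h1, h2, h.fld_coh, sum_inner]
    have h3 : ∀ x, Trig.ex (-b) x * ((T.ev x : ℝ) : ℂ) ^ (n + 1) =
        ∑ k, (starRingEnd ℂ) ((T.c k : ℂ) * (-(Complex.I) / 2)) *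
          (Trig.ex (-(b + T.a k)) x * ((T.ev x : ℝ) : ℂ) ^ n -
            Trig.ex (-(b - T.a k)) x * ((T.ev x : ℝ) : ℂ) ^ n) := by
      intro x
      rw [pow_succ, mul_comm (((T.ev x : ℝ) : ℂ) ^ n), ← mul_assoc]
      conv_lhs => rw [ev_eq_sum T x]
      rw [Finset.mul_sum, Finset.sum_mul]
      refine Finset.sum_congr rfl fun k _ => ?_
      have e1 : Trig.ex (-(b + T.a k)) x = Trig.ex (-b) x * Trig.ex (-T.a k) x := by
        rw [ex_neg_mul]; congr 1; abel
      have e2 : Trig.ex (-(b - T.a k)) x = Trig.ex (-b) x * Trig.ex (T.a k) x := by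
        rw [ex_neg_mul]; congr 1; abel
      rw [e1, e2, ← ev_eq_sum]
      simp only [map_mul, map_div₀, map_neg, Complex.conj_ofReal, Complex.conj_I, map_ofNat]
      ring
    simp_rw [h3]
    have hb : ∀ x, ‖((T.ev x : ℝ) : ℂ) ^ n‖ ≤ (∑ k, |T.c k|) ^ n := by
      intro x
      rw [norm_pow, Complex.norm_real, Real.norm_eq_abs]
      exact pow_le_pow_left₀ (abs_nonneg _) (T.abs_ev_le x) n
    have hc : Continuous fun x => ((T.ev x : ℝ) : ℂ) ^ n :=
      (Complex.continuous_ofReal.comp T.continuous_ev).pow n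
    have hi : ∀ k : Fin T.N, Integrable (fun x => (starRingEnd ℂ) ((T.c k : ℂ) *
        (-(Complex.I) / 2)) * (Trig.ex (-(b + T.a k)) x * ((T.ev x : ℝ) : ℂ) ^ n -
            Trig.ex (-(b - T.a k)) x * ((T.ev x : ℝ) : ℂ) ^ n)) (gl Q) := fun k =>
      ((integrable_ex_mul Q _ hc hb).sub (integrable_ex_mul Q _ hc hb)).const_mul _
    rw [integral_finsetSum _ fun k _ => hi k]
    refine Finset.sum_congr rfl fun k _ => ?_
    rw [integral_const_mul, integral_sub (integrable_ex_mul Q _ hc hb)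
      (integrable_ex_mul Q _ hc hb), ← ih, ← ih, inner_smul_left, inner_sub_left]

/-- `∂_j (e^{ib·x} T(x)ⁿ)` -/
def Dp (T : TP J) (j : J) (b : J → ℝ) (n : ℕ) (x : J → ℝ) : ℂ :=
  Trig.ex b x * (Complex.I * (b j : ℂ) * ((T.ev x : ℝ) : ℂ) ^ n +
    n * ((T.ev x : ℝ) : ℂ) ^ (n - 1) * ((T.d j x : ℝ) : ℂ))

theorem d_eq_sum (T : TP J) (j : J) (x : J → ℝ) : ((T.d j x : ℝ) : ℂ) =
    ∑ k, ((T.c k : ℂ) * (-(Complex.I) / 2)) * (Complex.I * (T.a k j : ℂ)) *
      (Trig.ex (T.a k) x + Trig.ex (-T.a k) x) := by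
  unfold TP.d Trig.ex
  push_cast
  refine Finset.sum_congr rfl fun k _ => ?_
  have e1 : ∑ i, (((-T.a k) i : ℝ) : ℂ) * (x i : ℂ) = - ∑ i, ((T.a k i : ℝ) : ℂ) * (x i : ℂ) := by
    rw [← Finset.sum_neg_distrib]
    refine Finset.sum_congr rfl fun i _ => ?_
    rw [Pi.neg_apply]; push_cast; ring
  rw [e1, Complex.cos]
  have := Complex.I_sq
  linear_combination (-(1/2) * (T.c k : ℂ) * (T.a k j : ℂ) *
    (Complex.exp ((∑ i, ((T.a k i : ℝ) : ℂ) * (x i : ℂ)) * Complex.I) +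
      Complex.exp (-(∑ i, ((T.a k i : ℝ) : ℂ) * (x i : ℂ)) * Complex.I)) * -1) * this

theorem Dp_succ (T : TP J) (j : J) (b : J → ℝ) (n : ℕ) (x : J → ℝ) :
    Dp T j b (n + 1) x = ∑ k, ((T.c k : ℂ) * (-(Complex.I) / 2)) *
      (Dp T j (b + T.a k) n x - Dp T j (b - T.a k) n x) := by
  have h1 : ∀ k, ((T.c k : ℂ) * (-(Complex.I) / 2)) *
      (Dp T j (b + T.a k) n x - Dp T j (b - T.a k) n x) =
      Trig.ex b x * (Complex.I * (b j : ℂ) * ((T.ev x : ℝ) : ℂ) ^ n +
        n * ((T.ev x : ℝ) : ℂ) ^ (n - 1) * ((T.d j x : ℝ) : ℂ)) *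
        (((T.c k : ℂ) * (-(Complex.I) / 2)) * (Trig.ex (T.a k) x - Trig.ex (-T.a k) x)) +
      Trig.ex b x * ((T.ev x : ℝ) : ℂ) ^ n *
        (((T.c k : ℂ) * (-(Complex.I) / 2)) * (Complex.I * (T.a k j : ℂ)) *
          (Trig.ex (T.a k) x + Trig.ex (-T.a k) x)) := by
    intro k
    unfold Dp
    have e1 : Trig.ex (b + T.a k) x = Trig.ex b x * Trig.ex (T.a k) x := (ex_neg_mul _ _ _).symm
    have e2 : Trig.ex (b - T.a k) x = Trig.ex b x * Trig.ex (-T.a k) x := by
      rw [ex_neg_mul, sub_eq_add_neg]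
    rw [e1, e2]
    simp only [Pi.add_apply, Pi.sub_apply, Complex.ofReal_add, Complex.ofReal_sub]
    ring
  simp_rw [h1]
  rw [Finset.sum_add_distrib, ← Finset.mul_sum, ← Finset.mul_sum, ← ev_eq_sum, ← d_eq_sum]
  unfold Dp
  rcases n with _ | n
  · simp; ring
  · rw [show n + 1 + 1 - 1 = n + 1 from rfl, show n + 1 - 1 = n from rfl]
    push_cast
    ring

theorem continuous_Dp (T : TP J) (j : J) (b : J → ℝ) (n : ℕ) : Continuous (Dp T j b n) := by
  have h1 : Continuous fun x => ((T.ev x : ℝ) : ℂ) := Complex.continuous_ofReal.comp T.continuous_ev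
  have h2 : Continuous fun x => ((T.d j x : ℝ) : ℂ) :=
    Complex.continuous_ofReal.comp (T.continuous_d j)
  unfold Dp
  exact (continuous_ex b).mul ((continuous_const.mul (h1.pow n)).add
    ((continuous_const.mul (h1.pow (n - 1))).mul h2))

theorem integrable_Dp (Q : Matrix J J ℝ) (T : TP J) (j : J) (b : J → ℝ) (n : ℕ) :
    Integrable (Dp T j b n) (gl Q) := by
  set A := ∑ k, |T.c k| with hA
  set B := ∑ k, |T.c k * T.a k j| with hB
  refine (integrable_const (|b j| * A ^ n + n * A ^ (n - 1) * B)).mono'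
    (continuous_Dp T j b n).aestronglyMeasurable (Eventually.of_forall fun x => ?_)
  unfold Dp
  rw [norm_mul, norm_ex, one_mul]
  refine (norm_add_le _ _).trans ?_
  have h1 : ‖((T.ev x : ℝ) : ℂ)‖ ≤ A := by
    rw [Complex.norm_real, Real.norm_eq_abs]; exact T.abs_ev_le x
  have h2 : ‖((T.d j x : ℝ) : ℂ)‖ ≤ B := by
    rw [Complex.norm_real, Real.norm_eq_abs]; exact T.abs_d_le j x
  have hA0 : 0 ≤ A := (norm_nonneg _).trans h1
  rw [norm_mul, norm_mul, norm_mul, norm_mul, norm_pow, norm_pow, Complex.norm_I, one_mul,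
    Complex.norm_real, Real.norm_eq_abs, Complex.norm_natCast]
  gcongr

/-- `⟨φ(f) vac, e^{iφ(b)} T(φ)ⁿ vac⟩ = ∑_j ⟨f, l_j⟩ E[∂_j(e^{ib·x} T(x)ⁿ)]` -/
theorem RealGram.inner_one_fld_pow (h : RealGram l Q) (T : TP J) (f : K) (n : ℕ) : ∀ b : J → ℝ,
    ⟪one f, Wl l b ((fld l T ^ n) vac)⟫_ℂ = ∑ j, ⟪f, l j⟫_ℂ * ∫ x, Dp T j b n x ∂gl Q := by
  induction n with
  | zero =>
    intro b
    have h0 : Wl l b ((fld l T ^ 0) vac) = coh (lc l b) := by
      rw [pow_zero]
      exact Wy_vac _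
    rw [h0, ← inner_conj_symm, inner_coh_one]
    have h1 : ∀ j, ∫ x, Dp T j b 0 x ∂gl Q =
        Complex.I * (b j : ℂ) * Complex.exp (-((‖lc l b‖ ^ 2 / 2 : ℝ) : ℂ)) := by
      intro j
      unfold Dp
      simp only [pow_zero, mul_one, Nat.cast_zero, zero_mul, add_zero]
      rw [integral_mul_const]
      unfold Trig.ex
      rw [Trig.charFun_gl h.posSemidef, h.norm_lc]
      rw [mul_comm]
      congr 2
      push_cast
      ring
    simp_rw [h1]
    have h2 : ⟪f, lc l b⟫_ℂ = ∑ j, ⟪f, l j⟫_ℂ * (b j : ℂ) := by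
      unfold lc
      rw [inner_sum]
      refine Finset.sum_congr rfl fun j _ => ?_
      rw [inner_smul_right]; ring
    simp only [map_mul, map_neg, Complex.conj_I, neg_neg, inner_conj_symm, ← Complex.exp_conj,
      Complex.conj_ofReal]
    rw [h2, Finset.mul_sum, Finset.sum_mul]
    refine Finset.sum_congr rfl fun j _ => by ring
  | succ n ih =>
    intro b
    have h1 : Wl l b ((fld l T ^ (n + 1)) vac) = ∑ k, ((T.c k : ℂ) * (-(Complex.I) / 2)) •
        (Wl l (b + T.a k) ((fld l T ^ n) vac) - Wl l (b - T.a k) ((fld l T ^ n) vac)) := by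
      have e : Wl l b * fld l T = ∑ k, ((T.c k : ℂ) * (-(Complex.I) / 2)) •
          (Wl l (b + T.a k) - Wl l (b - T.a k)) := by
        unfold fld
        rw [Finset.mul_sum]
        refine Finset.sum_congr rfl fun k _ => ?_
        rw [mul_smul_comm, mul_sub, h.Wl_mul, h.Wl_mul, sub_eq_add_neg b]
      have e2 : Wl l b ((fld l T ^ (n + 1)) vac) = (Wl l b * fld l T) ((fld l T ^ n) vac) := by
        rw [pow_succ']; rfl
      rw [e2, e, sum_apply]
      rfl
    rw [h1, inner_sum]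
    simp_rw [inner_smul_right, inner_sub_right, ih, Dp_succ]
    have h2 : ∀ j, ∫ x, ∑ k, ((T.c k : ℂ) * (-(Complex.I) / 2)) *
        (Dp T j (b + T.a k) n x - Dp T j (b - T.a k) n x) ∂gl Q =
        ∑ k, ((T.c k : ℂ) * (-(Complex.I) / 2)) *
          (∫ x, Dp T j (b + T.a k) n x ∂gl Q - ∫ x, Dp T j (b - T.a k) n x ∂gl Q) := by
      intro j
      have hi : ∀ k : Fin T.N, Integrable (fun x => ((T.c k : ℂ) * (-(Complex.I) / 2)) *
        (Dp T j (b + T.a k) n x - Dp T j (b - T.a k) n x)) (gl Q) := fun k =>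
        ((integrable_Dp Q T j _ n).sub (integrable_Dp Q T j _ n)).const_mul _
      rw [integral_finsetSum _ fun k _ => hi k]
      refine Finset.sum_congr rfl fun k _ => ?_
      rw [integral_const_mul, integral_sub (integrable_Dp Q T j _ n) (integrable_Dp Q T j _ n)]
    simp_rw [h2, Finset.mul_sum]
    rw [Finset.sum_comm]
    refine Finset.sum_congr rfl fun k _ => ?_
    rw [← Finset.sum_sub_distrib, Finset.mul_sum]
    refine Finset.sum_congr rfl fun j _ => by ring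

/-! ### Exponentials -/

open NormedSpace in
theorem hasSum_exp_inner (A : BF K) (z : ℂ) (v w : Fock K) :
    HasSum (fun n : ℕ => (((n.factorial : ℂ))⁻¹ * z ^ n) * ⟪v, (A ^ n) w⟫_ℂ)
      ⟪v, (exp (z • A)) w⟫_ℂ := by
  have h1 := exp_series_hasSum_exp' (𝕂 := ℂ) (z • A)
  have h2 := (h1.mapL (ContinuousLinearMap.apply ℂ (Fock K) w)).mapL (innerSL ℂ v)
  refine h2.congr_fun fun n => ?_
  simp only [smul_pow, map_smul, ContinuousLinearMap.apply_apply, innerSL_apply_apply, smul_eq_mul]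
  ring

theorem hasSum_integral_exp {α : Type*} [MeasurableSpace α] (μ : Measure α)
    [IsProbabilityMeasure μ] {g : α → ℂ} {T : α → ℝ} (hg : AEStronglyMeasurable g μ)
    (hT : AEStronglyMeasurable T μ) {C M : ℝ} (hC : ∀ x, ‖g x‖ ≤ C) (hM : ∀ x, |T x| ≤ M) (z : ℂ) :
    HasSum (fun n : ℕ => (((n.factorial : ℂ))⁻¹ * z ^ n) * ∫ x, g x * ((T x : ℝ) : ℂ) ^ n ∂μ)
      (∫ x, g x * Complex.exp (z * (T x : ℂ)) ∂μ) := by
  have hT' : AEStronglyMeasurable (fun x => ((T x : ℝ) : ℂ)) μ :=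
    Complex.continuous_ofReal.comp_aestronglyMeasurable hT
  have hC0 : ∀ x, 0 ≤ C := fun x => (norm_nonneg _).trans (hC x)
  set F : ℕ → α → ℂ := fun n x => (((n.factorial : ℂ))⁻¹ * z ^ n) * (g x * ((T x : ℝ) : ℂ) ^ n)
    with hF
  have hb : ∀ n x, ‖F n x‖ ≤ |C| * ((n.factorial : ℝ)⁻¹ * (‖z‖ * |M|) ^ n) := by
    intro n x
    simp only [hF]
    rw [norm_mul, norm_mul, norm_mul, norm_inv, norm_pow, norm_pow, Complex.norm_real,
      Complex.norm_natCast, Real.norm_eq_abs, mul_pow]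
    have h1 : ‖g x‖ ≤ |C| := (hC x).trans (le_abs_self _)
    have h2 : |T x| ≤ |M| := (hM x).trans (le_abs_self _)
    calc (n.factorial : ℝ)⁻¹ * ‖z‖ ^ n * (‖g x‖ * |T x| ^ n)
        ≤ (n.factorial : ℝ)⁻¹ * ‖z‖ ^ n * (|C| * |M| ^ n) := by gcongr
      _ = _ := by ring
  have hm : ∀ n, AEStronglyMeasurable (F n) μ := fun n =>
    (hg.mul (hT'.pow n)).const_mul _
  have hint : ∀ n, Integrable (F n) μ := fun n =>
    (integrable_const _).mono' (hm n) (Eventually.of_forall (hb n))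
  have hsum : Summable fun n => ∫ x, ‖F n x‖ ∂μ := by
    have hs : Summable fun n : ℕ => |C| * ((n.factorial : ℝ)⁻¹ * (‖z‖ * |M|) ^ n) := by
      refine Summable.mul_left _ ?_
      have := Real.summable_pow_div_factorial (‖z‖ * |M|)
      refine this.congr fun n => ?_
      rw [div_eq_inv_mul]
    refine hs.of_nonneg_of_le (fun n => integral_nonneg fun x => norm_nonneg _) fun n => ?_
    refine (integral_mono (hint n).norm (integrable_const _) (hb n)).trans ?_
    simp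
  have h := hasSum_integral_of_summable_integral_norm hint hsum
  have e1 : ∀ n, ∫ x, F n x ∂μ = (((n.factorial : ℂ))⁻¹ * z ^ n) *
      ∫ x, g x * ((T x : ℝ) : ℂ) ^ n ∂μ := fun n => integral_const_mul _ _
  have e2 : ∀ x, ∑' n, F n x = g x * Complex.exp (z * (T x : ℂ)) := by
    intro x
    rw [Complex.exp_eq_exp_ℂ, NormedSpace.exp_eq_tsum_div]
    simp only [hF]
    rw [← tsum_mul_left]
    refine tsum_congr fun n => ?_
    rw [mul_pow]
    field_simp
  simp_rw [e1, e2] at h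
  exact h

open NormedSpace in
/-- `⟨coh b, e^{zT(φ)} vac⟩ = E[e^{-ib·x} e^{zT(x)}]` -/
theorem RealGram.inner_coh_exp (h : RealGram l Q) (T : TP J) (z : ℂ) (b : J → ℝ) :
    ⟪coh (lc l b), (exp (z • fld l T)) vac⟫_ℂ =
      ∫ x, Trig.ex (-b) x * Complex.exp (z * ((T.ev x : ℝ) : ℂ)) ∂gl Q := by
  have h1 := hasSum_exp_inner (fld l T) z (coh (lc l b)) vac
  have h2 := hasSum_integral_exp (gl Q) (g := Trig.ex (-b)) (T := T.ev)
    (continuous_ex _).aestronglyMeasurable T.continuous_ev.aestronglyMeasurable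
    (C := 1) (M := ∑ k, |T.c k|) (fun x => (norm_ex _ x).le) (fun x => T.abs_ev_le x) z
  simp_rw [h.inner_coh_fld_pow] at h1
  exact h1.unique h2

open NormedSpace in
/-- `⟨φ(f) vac, e^{zT(φ)} vac⟩ = ∑_j ⟨f, l_j⟩ E[z ∂_jT e^{zT}]` -/
theorem RealGram.inner_one_exp (h : RealGram l Q) (T : TP J) (z : ℂ) (f : K) :
    ⟪one f, (exp (z • fld l T)) vac⟫_ℂ = ∑ j, ⟪f, l j⟫_ℂ *
      (z * ∫ x, ((T.d j x : ℝ) : ℂ) * Complex.exp (z * ((T.ev x : ℝ) : ℂ)) ∂gl Q) := by
  have h1 := hasSum_exp_inner (fld l T) z (one f) vac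
  have h0 : ∀ n, ⟪one f, (fld l T ^ n) vac⟫_ℂ = ∑ j, ⟪f, l j⟫_ℂ * ∫ x, Dp T j 0 n x ∂gl Q := by
    intro n
    have := h.inner_one_fld_pow T f n 0
    have e : Wl l (0 : J → ℝ) = 1 := by unfold Wl; rw [lc_zero, Wy_zero]
    rw [e] at this
    exact this
  have hD : ∀ j, HasSum (fun n : ℕ => (((n.factorial : ℂ))⁻¹ * z ^ n) *
      ∫ x, Dp T j 0 n x ∂gl Q)
      (z * ∫ x, ((T.d j x : ℝ) : ℂ) * Complex.exp (z * ((T.ev x : ℝ) : ℂ)) ∂gl Q) := by
    intro j
    have h2 := (hasSum_integral_exp (gl Q) (g := fun x => ((T.d j x : ℝ) : ℂ)) (T := T.ev)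
      (Complex.continuous_ofReal.comp (T.continuous_d j)).aestronglyMeasurable
      T.continuous_ev.aestronglyMeasurable
      (C := ∑ k, |T.c k * T.a k j|) (M := ∑ k, |T.c k|) (fun x => by
        rw [Complex.norm_real, Real.norm_eq_abs]; exact T.abs_d_le j x)
      (fun x => T.abs_ev_le x) z).mul_left z
    rw [← hasSum_nat_add_iff' 1]
    have e0 : ∑ i ∈ Finset.range 1, (((i.factorial : ℂ))⁻¹ * z ^ i) *
        ∫ x, Dp T j 0 i x ∂gl Q = 0 := by
      simp [Dp]
    rw [e0, sub_zero]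
    refine h2.congr_fun fun n => ?_
    have e1 : ∀ x, Dp T j 0 (n + 1) x =
        ((n : ℂ) + 1) * (((T.d j x : ℝ) : ℂ) * ((T.ev x : ℝ) : ℂ) ^ n) := by
      intro x
      have e2 : Trig.ex (0 : J → ℝ) x = 1 := by simp [Trig.ex]
      unfold Dp
      rw [e2]
      simp only [Pi.zero_apply, Complex.ofReal_zero, mul_zero, zero_mul, zero_add, one_mul,
        Nat.add_sub_cancel]
      push_cast
      ring
    simp_rw [e1]
    rw [integral_const_mul, Nat.factorial_succ]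
    push_cast
    have hn : ((n : ℂ) + 1) ≠ 0 := Nat.cast_add_one_ne_zero n
    have hf : ((n.factorial : ℂ)) ≠ 0 := by exact_mod_cast n.factorial_ne_zero
    field_simp
    ring
  have h3 : HasSum (fun n : ℕ => (((n.factorial : ℂ))⁻¹ * z ^ n) *
      ∑ j, ⟪f, l j⟫_ℂ * ∫ x, Dp T j 0 n x ∂gl Q) (∑ j, ⟪f, l j⟫_ℂ *
      (z * ∫ x, ((T.d j x : ℝ) : ℂ) * Complex.exp (z * ((T.ev x : ℝ) : ℂ)) ∂gl Q)) := by
    have := hasSum_sum (s := Finset.univ) fun j _ => (hD j).mul_left ⟪f, l j⟫_ℂ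
    refine this.congr_fun fun n => ?_
    rw [Finset.mul_sum]
    refine Finset.sum_congr rfl fun j _ => by ring
  simp_rw [h0] at h1
  exact h1.unique h3

end Crest.Agent.R339.FE
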