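import Crest.Agent.R339.FE716a

/-!
# Row 339, part (C): the energy of the final state in the site model

The final unitary is `U = D * exp A` where `A` is (half) the generator of the rotation about the
`Y` axis by the angle `Θ(φ(l))`, and `D` commutes with the spin and with `A`.  The energy is the
`value` of the trigonometric scheme.
-/

set_option autoImplicit false
set_option linter.unusedSectionVars false

noncomputable section

open scoped ComplexConjugate InnerProductSpace Topology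
open Filter MeasureTheory
open Crest.MathPhysics.SpinGlass
open Crest.Agent.R339.Site

namespace Crest.Agent.R339.FE

open Crest.Agent.R339.Trig (gl TP TrigScheme)

variable {K : Type*} [NormedAddCommGroup K] [InnerProductSpace ℂ K]

/-- the real rotation generator: `rotM F = -i F ⊗ Y`, entries `0, ∓F` -/
def rotM (F : BF K) : Matrix Bool Bool (BF K) := Matrix.of fun b b' =>
  if b = b' then 0 else ((spinSign b' : ℝ) : ℂ) • F

/-- `(⟨+| ⊗ 1) v` -/
def plusP : Sp K →L[ℂ] Fock K :=
  ((((1 : ℝ) / Real.sqrt 2 : ℝ) : ℂ)) • (∑ b : Bool,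
    (PiLp.proj 2 (fun _ : Bool => Fock K) b : Sp K →L[ℂ] Fock K))

theorem plusP_apply (v : Sp K) : plusP v = ((((1 : ℝ) / Real.sqrt 2 : ℝ) : ℂ)) • (v true + v false) := by
  simp [plusP]

theorem inner_Sop (ι : Sp K →ₗᵢ[ℂ] K) (v w : Sp K) :
    ⟪v, Sop ι w⟫_ℂ = ⟪plusP v, one (ι w)⟫_ℂ := by
  have e : Sop ι w = WithLp.toLp 2 fun _ => (((1 : ℝ) / Real.sqrt 2 : ℝ) : ℂ) • one (ι w) := rfl
  rw [e, PiLp.inner_apply, plusP_apply, inner_smul_left, inner_add_left, Fintype.sum_bool]
  simp only [inner_smul_right, Complex.conj_ofReal]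
  ring

/-- `|+⟩ ⊗ v` -/
def plusV (v : Fock K) : Sp K := WithLp.toLp 2 fun _ => (((1 : ℝ) / Real.sqrt 2 : ℝ) : ℂ) • v

theorem inner_plusV (v : Fock K) (w : Sp K) : ⟪plusV v, w⟫_ℂ = ⟪v, plusP w⟫_ℂ := by
  rw [plusV, PiLp.inner_apply, plusP_apply, inner_smul_right, inner_add_right, Fintype.sum_bool]
  simp only [inner_smul_left, Complex.conj_ofReal]
  ring

/-- the eigenvectors of `Y` (`s = ±1`) -/
def yV (s : ℝ) : Fock K →L[ℂ] Sp K :=
  ((PiLp.continuousLinearEquiv 2 ℂ (fun _ : Bool => Fock K)).symm :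
    (Bool → Fock K) →L[ℂ] Sp K) ∘L
    (ContinuousLinearMap.pi fun b => if b then ((s : ℂ) * Complex.I) • (1 : BF K) else 1)

theorem yV_true (s : ℝ) (v : Fock K) : yV s v true = ((s : ℂ) * Complex.I) • v := by
  simp [yV]

theorem yV_false (s : ℝ) (v : Fock K) : yV s v false = v := by
  simp [yV]

theorem rotM_yV (F : BF K) {s : ℝ} (hs : s * s = 1) :
    opM (rotM F) ∘L yV s = yV s ∘L ((-(Complex.I) * (s : ℂ)) • F) := by
  refine ContinuousLinearMap.ext fun v => ?_
  ext b
  have hs' : (s : ℂ) * (s : ℂ) = 1 := by exact_mod_cast hs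
  rw [ContinuousLinearMap.comp_apply, ContinuousLinearMap.comp_apply, opM_apply, Fintype.sum_bool]
  cases b
  · rw [yV_true, yV_false, yV_false]
    simp only [rotM, Matrix.of_apply, if_true, spinSign]
    simp [mul_comm]
  · rw [yV_true, yV_false, yV_true]
    simp only [rotM, Matrix.of_apply, if_true, spinSign]
    simp only [Bool.true_eq_false, if_false, zero_apply, zero_add, smul_apply,
      smul_smul, Bool.false_eq_true]
    congr 1
    have := Complex.I_mul_I
    simp
    linear_combination ((s : ℂ) * (s : ℂ)) * this - hs'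

open NormedSpace in
/-- intertwining and exponentials -/
theorem exp_comp {E F : Type*} [NormedAddCommGroup E] [NormedSpace ℂ E] [CompleteSpace E]
    [NormedAddCommGroup F] [NormedSpace ℂ F] [CompleteSpace F] (A : F →L[ℂ] F) (B : E →L[ℂ] E)
    (T : E →L[ℂ] F) (h : A ∘L T = T ∘L B) : (exp A) ∘L T = T ∘L (exp B) := by
  have hn : ∀ n : ℕ, (A ^ n) ∘L T = T ∘L (B ^ n) := by
    intro n
    induction n with
    | zero => rfl
    | succ n ih =>
      calc (A ^ (n + 1)) ∘L T = (A ^ n) ∘L (A ∘L T) := by rw [pow_succ]; rfl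
        _ = ((A ^ n) ∘L T) ∘L B := by rw [h]; rfl
        _ = (T ∘L (B ^ n)) ∘L B := by rw [ih]
        _ = T ∘L (B ^ (n + 1)) := by rw [pow_succ]; rfl
  refine ContinuousLinearMap.ext fun v => ?_
  have h1 := (exp_series_hasSum_exp' (𝕂 := ℂ) A).mapL (ContinuousLinearMap.apply ℂ F (T v))
  have h2 := ((exp_series_hasSum_exp' (𝕂 := ℂ) B).mapL (ContinuousLinearMap.apply ℂ E v)).mapL T
  have h3 : ∀ n : ℕ, (ContinuousLinearMap.apply ℂ F (T v)) (((n.factorial : ℂ))⁻¹ • A ^ n) =
      T ((ContinuousLinearMap.apply ℂ E v) (((n.factorial : ℂ))⁻¹ • B ^ n)) := by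
    intro n
    simp only [ContinuousLinearMap.apply_apply, map_smul]
    congr 1
    exact congrArg (fun S : E →L[ℂ] F => S v) (hn n)
  simp_rw [h3] at h1
  exact h1.unique h2

open NormedSpace in
/-- the `|+⟩` component of `Z exp(-i F Y) Ω` is `- sin F vac` -/
theorem plusP_final (F : BF K) : plusP (Zop ((exp (opM (rotM F))) (Om : Sp K))) =
    (Complex.I / 2) • ((exp (Complex.I • F)) vac - (exp ((-Complex.I) • F)) vac) := by
  have hsq : (((1 : ℝ) / Real.sqrt 2 : ℝ) : ℂ) * (((1 : ℝ) / Real.sqrt 2 : ℝ) : ℂ) = 1 / 2 := by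
    rw [← Complex.ofReal_mul, div_mul_div_comm, Real.mul_self_sqrt (by norm_num)]
    norm_num
  set r : ℂ := (((1 : ℝ) / Real.sqrt 2 : ℝ) : ℂ) with hr
  have hOm : (Om : Sp K) = yV 1 ((r * (1 - Complex.I) / 2) • vac) +
      yV (-1) ((r * (1 + Complex.I) / 2) • vac) := by
    ext b
    have h0 : (Om : Sp K) b = r • vac := rfl
    rw [h0, PiLp.add_apply]
    cases b
    · rw [yV_false, yV_false, ← add_smul]
      congr 1; ring
    · rw [yV_true, yV_true, smul_smul, smul_smul, ← add_smul]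
      congr 1
      have := Complex.I_sq
      push_cast
      linear_combination (r * this)
  have e1 : ∀ (s : ℝ), s * s = 1 → ∀ v : Fock K, (exp (opM (rotM F))) (yV s v) =
      yV s ((exp ((-(Complex.I) * (s : ℂ)) • F)) v) := by
    intro s hs v
    exact congrArg (fun S : Fock K →L[ℂ] Sp K => S v) (exp_comp _ _ _ (rotM_yV F hs))
  have e2 : ∀ (s : ℝ) (v : Fock K), plusP (Zop (yV s v)) = (r * (1 - (s : ℂ) * Complex.I)) • v := by
    intro s v
    rw [plusP_apply, ← hr, Zop_apply, Zop_apply, yV_true, yV_false, smul_smul, ← add_smul,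
      smul_smul]
    congr 1
    have h1 : spinSign true = -1 := rfl
    have h2 : spinSign false = 1 := rfl
    rw [h1, h2]
    push_cast
    ring
  rw [hOm, map_add, map_add, map_add, e1 1 (by norm_num), e1 (-1) (by norm_num), e2, e2]
  simp only [map_smul, smul_smul, Complex.ofReal_one, mul_one, Complex.ofReal_neg, mul_neg, neg_neg,
    smul_sub]
  have c1 : r * (1 - 1 * Complex.I) * (r * (1 - Complex.I) / 2) = -(Complex.I / 2) := by
    have := Complex.I_sq
    linear_combination ((1 - Complex.I) ^ 2 / 2) * hsq + (1 / 4) * this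
  have c2 : r * (1 - -1 * Complex.I) * (r * (1 + Complex.I) / 2) = Complex.I / 2 := by
    have := Complex.I_sq
    linear_combination ((1 + Complex.I) ^ 2 / 2) * hsq + (1 / 4) * this
  rw [c1, c2, neg_smul, sub_eq_add_neg, add_comm]

variable {J : Type*} [Fintype J] [DecidableEq J] {l : J → K} {Q : Matrix J J ℝ}

theorem ev_mul_integrable (Q : Matrix J J ℝ) {f : (J → ℝ) → ℝ} (hf : Continuous f) {C : ℝ}
    (hC : ∀ x, |f x| ≤ C) (T : TP J) (r : ℝ) : Integrable (fun x => ((f x : ℝ) : ℂ) *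
      Complex.exp (((r * T.ev x : ℝ) : ℂ) * Complex.I)) (gl Q) := by
  refine (integrable_const C).mono' ?_ (Eventually.of_forall fun x => ?_)
  · exact ((Complex.continuous_ofReal.comp hf).mul (Complex.continuous_exp.comp
      ((Complex.continuous_ofReal.comp (continuous_const.mul T.continuous_ev)).mul
        continuous_const))).aestronglyMeasurable
  · rw [norm_mul, Complex.norm_exp_ofReal_mul_I, mul_one, Complex.norm_real, Real.norm_eq_abs]
    exact hC x

theorem cexp_sub (t : ℝ) : Complex.exp (Complex.I * (t : ℂ)) - Complex.exp (-Complex.I * (t : ℂ)) =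
    2 * Complex.I * ((Real.sin t : ℝ) : ℂ) := by
  rw [Complex.ofReal_sin, Complex.sin]
  have := Complex.I_sq
  rw [show Complex.I * (t : ℂ) = (t : ℂ) * Complex.I by ring,
    show -Complex.I * (t : ℂ) = -(t : ℂ) * Complex.I by ring]
  linear_combination (Complex.exp (-(t : ℂ) * Complex.I) - Complex.exp ((t : ℂ) * Complex.I)) *
    (-1) * this

theorem cexp_add (t : ℝ) : Complex.exp (Complex.I * (t : ℂ)) + Complex.exp (-Complex.I * (t : ℂ)) =
    2 * ((Real.cos t : ℝ) : ℂ) := by
  rw [Complex.ofReal_cos, Complex.cos]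
  rw [show Complex.I * (t : ℂ) = (t : ℂ) * Complex.I by ring,
    show -Complex.I * (t : ℂ) = -(t : ℂ) * Complex.I by ring]
  ring

theorem integrable_mul_cexp (Q : Matrix J J ℝ) {f : (J → ℝ) → ℝ} (hf : Continuous f) {C : ℝ}
    (hC : ∀ x, |f x| ≤ C) (T : TP J) {z : ℂ} (hz : z = Complex.I ∨ z = -Complex.I) :
    Integrable (fun x => ((f x : ℝ) : ℂ) * Complex.exp (z * ((T.ev x : ℝ) : ℂ))) (gl Q) := by
  refine (integrable_const C).mono' ?_ (Eventually.of_forall fun x => ?_)
  · exact ((Complex.continuous_ofReal.comp hf).mul (Complex.continuous_exp.comp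
      (continuous_const.mul (Complex.continuous_ofReal.comp T.continuous_ev)))).aestronglyMeasurable
  · have h1 : ‖Complex.exp (z * ((T.ev x : ℝ) : ℂ))‖ = 1 := by
      rw [Complex.norm_exp]
      rcases hz with rfl | rfl <;> simp
    rw [norm_mul, h1, mul_one, Complex.norm_real, Real.norm_eq_abs]
    exact hC x

open NormedSpace in
/-- `⟨φ(f) vac, sin T(φ) vac⟩`, up to the factor of `plusP_final` -/
theorem RealGram.inner_one_sin (h : RealGram l Q) (T : TP J) (f : K) :
    ⟪one f, (Complex.I / 2) • ((exp (Complex.I • fld l T)) vac - (exp ((-Complex.I) • fld l T)) vac)⟫_ℂ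
      = -∑ j, ⟪f, l j⟫_ℂ * ((∫ x, Real.cos (T.ev x) * T.d j x ∂gl Q : ℝ) : ℂ) := by
  rw [inner_smul_right, inner_sub_right, h.inner_one_exp, h.inner_one_exp,
    ← Finset.sum_sub_distrib, Finset.mul_sum, ← Finset.sum_neg_distrib]
  refine Finset.sum_congr rfl fun j _ => ?_
  have hi1 := integrable_mul_cexp Q (T.continuous_d j) (T.abs_d_le j) T (Or.inl rfl)
  have hi2 := integrable_mul_cexp Q (T.continuous_d j) (T.abs_d_le j) T (Or.inr rfl)
  have h1 : ∫ x, ((T.d j x : ℝ) : ℂ) * Complex.exp (Complex.I * ((T.ev x : ℝ) : ℂ)) ∂gl Q +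
      ∫ x, ((T.d j x : ℝ) : ℂ) * Complex.exp (-Complex.I * ((T.ev x : ℝ) : ℂ)) ∂gl Q =
      2 * ((∫ x, Real.cos (T.ev x) * T.d j x ∂gl Q : ℝ) : ℂ) := by
    rw [← integral_add hi1 hi2, ← integral_complex_ofReal, ← integral_const_mul]
    refine integral_congr_ae (Eventually.of_forall fun x => ?_)
    simp only
    rw [← mul_add, cexp_add]
    push_cast
    ring
  have := Complex.I_sq
  linear_combination (⟪f, l j⟫_ℂ * Complex.I ^ 2 / 2) * h1 +
    (⟪f, l j⟫_ℂ * ((∫ x, Real.cos (T.ev x) * T.d j x ∂gl Q : ℝ) : ℂ)) * this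

/-- the vector `T(φ) vac` -/
theorem RealGram.inner_fld (h : RealGram l Q) (T' : TP J) (v : Fock K) :
    ⟪fld l T' vac, v⟫_ℂ = ∑ k, (starRingEnd ℂ) ((T'.c k : ℂ) * (-(Complex.I) / 2)) *
      (⟪coh (lc l (T'.a k)), v⟫_ℂ - ⟪coh (lc l (-T'.a k)), v⟫_ℂ) := by
  have h0 := h.fld_coh T' 0
  rw [lc_zero] at h0
  have h1 : fld l T' vac = fld l T' (coh 0) := rfl
  rw [h1, h0, sum_inner]
  refine Finset.sum_congr rfl fun k _ => ?_
  rw [inner_smul_left, inner_sub_left, zero_add, zero_sub]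

open NormedSpace in
theorem RealGram.inner_fld_exp (h : RealGram l Q) (T' T : TP J) {z : ℂ}
    (hz : z = Complex.I ∨ z = -Complex.I) :
    ⟪fld l T' vac, (exp (z • fld l T)) vac⟫_ℂ =
      ∫ x, ((T'.ev x : ℝ) : ℂ) * Complex.exp (z * ((T.ev x : ℝ) : ℂ)) ∂gl Q := by
  rw [h.inner_fld]
  simp_rw [h.inner_coh_exp, neg_neg]
  have hc : Continuous fun x => Complex.exp (z * ((T.ev x : ℝ) : ℂ)) :=
    Complex.continuous_exp.comp (continuous_const.mul (Complex.continuous_ofReal.comp
      T.continuous_ev))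
  have hn : ∀ x, ‖Complex.exp (z * ((T.ev x : ℝ) : ℂ))‖ ≤ 1 := by
    intro x
    rw [Complex.norm_exp]
    rcases hz with rfl | rfl <;> simp
  have hi := fun a => integrable_ex_mul Q a hc hn
  have h2 : ∀ x, ((T'.ev x : ℝ) : ℂ) * Complex.exp (z * ((T.ev x : ℝ) : ℂ)) =
      ∑ k, (starRingEnd ℂ) ((T'.c k : ℂ) * (-(Complex.I) / 2)) *
        (Trig.ex (-T'.a k) x * Complex.exp (z * ((T.ev x : ℝ) : ℂ)) -
          Trig.ex (T'.a k) x * Complex.exp (z * ((T.ev x : ℝ) : ℂ))) := by
    intro x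
    rw [ev_eq_sum, Finset.sum_mul]
    refine Finset.sum_congr rfl fun k _ => ?_
    simp only [map_mul, map_div₀, map_neg, Complex.conj_ofReal, Complex.conj_I, map_ofNat]
    ring
  simp_rw [h2]
  have hi' : ∀ k : Fin T'.N, Integrable (fun x => (starRingEnd ℂ) ((T'.c k : ℂ) *
      (-(Complex.I) / 2)) * (Trig.ex (-T'.a k) x * Complex.exp (z * ((T.ev x : ℝ) : ℂ)) -
          Trig.ex (T'.a k) x * Complex.exp (z * ((T.ev x : ℝ) : ℂ)))) (gl Q) := fun k =>
    ((hi _).sub (hi _)).const_mul _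
  rw [integral_finsetSum _ fun k _ => hi' k]
  refine Finset.sum_congr rfl fun k _ => ?_
  rw [integral_const_mul, integral_sub (hi _) (hi _)]

open NormedSpace in
theorem RealGram.inner_fld_sin (h : RealGram l Q) (T' T : TP J) :
    ⟪fld l T' vac, (Complex.I / 2) •
      ((exp (Complex.I • fld l T)) vac - (exp ((-Complex.I) • fld l T)) vac)⟫_ℂ
      = -((∫ x, T'.ev x * Real.sin (T.ev x) ∂gl Q : ℝ) : ℂ) := by
  rw [inner_smul_right, inner_sub_right, h.inner_fld_exp T' T (Or.inl rfl),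
    h.inner_fld_exp T' T (Or.inr rfl)]
  have hi1 := integrable_mul_cexp Q T'.continuous_ev T'.abs_ev_le T (Or.inl rfl)
  have hi2 := integrable_mul_cexp Q T'.continuous_ev T'.abs_ev_le T (Or.inr rfl)
  rw [← integral_sub hi1 hi2, ← integral_complex_ofReal, ← integral_const_mul, ← integral_neg]
  refine integral_congr_ae (Eventually.of_forall fun x => ?_)
  simp only
  rw [← mul_sub, cexp_sub]
  have := Complex.I_sq
  push_cast
  linear_combination ((T'.ev x : ℂ) * Complex.sin (T.ev x : ℂ)) * this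

end Crest.Agent.R339.FE
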