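import Crest.Agent.R339.FE716b

/-!
# Row 339, part (C): the final energy is the value of the scheme

* `realGram_of_labels`: labels built by the state-evolution recursion have Gram matrix `S.Q`.
* `energy_final`: the energy of `U = D * exp (½ rotation by Θ(φ(l)) about Y)` is `S.value`.
-/

set_option autoImplicit false
set_option linter.unusedSectionVars false

noncomputable section

open scoped ComplexConjugate InnerProductSpace Topology
open Filter MeasureTheory
open Crest.MathPhysics.SpinGlass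
open Crest.Agent.R339.Site

namespace Crest.Agent.R339.FE

open Crest.Agent.R339.Trig (gl TP TrigScheme)

variable {K : Type*} [NormedAddCommGroup K] [InnerProductSpace ℂ K]

/-- the label vectors of a scheme: the label `0` is a unit vector orthogonal to the range of `ι`,
the label `j+1` is `ι (|+⟩ ⊗ T_j(φ(l)) vac)` -/
structure Labels {m : ℕ} (S : TrigScheme m) (ι : Sp K →ₗᵢ[ℂ] K) (l : Fin (m + 1) → K) : Prop where
  norm0 : ‖l 0‖ = 1
  orth0 : ∀ v, ⟪l 0, ι v⟫_ℂ = 0
  succ : ∀ j : Fin m, l j.succ = ι (plusV (fld l (S.T j) vac))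

/-- sharpened form: `⟪T'(φ) vac, T(φ) vac⟫ = E[T' T]` -/
theorem RealGram.inner_fld_fld {J : Type*} [Fintype J] [DecidableEq J] {l : J → K}
    {Q : Matrix J J ℝ} (h : RealGram l Q) (T' T : TP J) :
    ⟪fld l T' vac, fld l T vac⟫_ℂ = ((∫ x, T'.ev x * T.ev x ∂gl Q : ℝ) : ℂ) := by
  rw [h.inner_fld]
  have h1 : ∀ b, ⟪coh (lc l b), fld l T vac⟫_ℂ = ∫ x, Trig.ex (-b) x * ((T.ev x : ℝ) : ℂ) ∂gl Q := by
    intro b
    have := h.inner_coh_fld_pow T 1 b
    simpa using this
  simp_rw [h1, neg_neg]
  have hc : Continuous fun x => ((T.ev x : ℝ) : ℂ) := Complex.continuous_ofReal.comp T.continuous_ev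
  have hn : ∀ x, ‖((T.ev x : ℝ) : ℂ)‖ ≤ ∑ k, |T.c k| := by
    intro x
    rw [Complex.norm_real, Real.norm_eq_abs]; exact T.abs_ev_le x
  have hi := fun a => integrable_ex_mul Q a hc hn
  rw [← integral_complex_ofReal]
  have h2 : ∀ x, ((T'.ev x * T.ev x : ℝ) : ℂ) =
      ∑ k, (starRingEnd ℂ) ((T'.c k : ℂ) * (-(Complex.I) / 2)) *
        (Trig.ex (-T'.a k) x * ((T.ev x : ℝ) : ℂ) - Trig.ex (T'.a k) x * ((T.ev x : ℝ) : ℂ)) := by
    intro x
    rw [Complex.ofReal_mul, ev_eq_sum T' x, Finset.sum_mul]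
    refine Finset.sum_congr rfl fun k _ => ?_
    simp only [map_mul, map_div₀, map_neg, Complex.conj_ofReal, Complex.conj_I, map_ofNat]
    ring
  simp_rw [h2]
  have hi' : ∀ k : Fin T'.N, Integrable (fun x => (starRingEnd ℂ) ((T'.c k : ℂ) *
      (-(Complex.I) / 2)) * (Trig.ex (-T'.a k) x * ((T.ev x : ℝ) : ℂ) -
          Trig.ex (T'.a k) x * ((T.ev x : ℝ) : ℂ))) (gl Q) := fun k =>
    ((hi _).sub (hi _)).const_mul _
  rw [integral_finsetSum _ fun k _ => hi' k]
  refine Finset.sum_congr rfl fun k _ => ?_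
  rw [integral_const_mul, integral_sub (hi _) (hi _)]

theorem inner_plusV_plusV (v w : Fock K) : ⟪plusV v, plusV w⟫_ℂ = ⟪v, w⟫_ℂ := by
  rw [inner_plusV]
  congr 1
  rw [plusP_apply]
  have e : (plusV w : Sp K) true = (((1 : ℝ) / Real.sqrt 2 : ℝ) : ℂ) • w := rfl
  have e' : (plusV w : Sp K) false = (((1 : ℝ) / Real.sqrt 2 : ℝ) : ℂ) • w := rfl
  rw [e, e', ← two_smul ℂ, smul_smul, smul_smul]
  have hsq : (((1 : ℝ) / Real.sqrt 2 : ℝ) : ℂ) * (((1 : ℝ) / Real.sqrt 2 : ℝ) : ℂ) = 1 / 2 := by
    rw [← Complex.ofReal_mul, div_mul_div_comm, Real.mul_self_sqrt (by norm_num)]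
    norm_num
  have : (((1 : ℝ) / Real.sqrt 2 : ℝ) : ℂ) * 2 * (((1 : ℝ) / Real.sqrt 2 : ℝ) : ℂ) = 1 := by
    linear_combination 2 * hsq
  rw [this, one_smul]

/-- operators only see the labels up to their level -/
theorem fld_congr {J : Type*} [Fintype J] [DecidableEq J] {l l' : J → K} (T : TP J)
    (h : ∀ k j, T.a k j ≠ 0 → l j = l' j) : fld l T = fld l' T := by
  unfold fld
  refine Finset.sum_congr rfl fun k _ => ?_
  have h1 : lc l (T.a k) = lc l' (T.a k) := by
    unfold lc
    refine Finset.sum_congr rfl fun j _ => ?_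
    by_cases hj : T.a k j = 0
    · rw [hj]; simp
    · rw [h k j hj]
  have h2 : lc l (-T.a k) = lc l' (-T.a k) := by rw [lc_neg, lc_neg, h1]
  rw [Wl, Wl, Wl, Wl, h1, h2]

/-- the labels have Gram matrix `S.Q` -/
theorem Labels.realGram {m : ℕ} {S : TrigScheme m} {ι : Sp K →ₗᵢ[ℂ] K} {l : Fin (m + 1) → K}
    (h : Labels S ι l) : RealGram l S.Q := by
  have key : ∀ n : ℕ, ∀ i j : Fin (m + 1), (i : ℕ) < n → (j : ℕ) < n →
      ⟪l i, l j⟫_ℂ = ((S.Q i j : ℝ) : ℂ) := by
    intro n
    induction n with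
    | zero => intro i j hi; exact absurd hi (Nat.not_lt_zero _)
    | succ n ih =>
      -- truncated labels
      set l' : Fin (m + 1) → K := fun i => if (i : ℕ) < n then l i else 0 with hl'
      set Q' : Matrix (Fin (m + 1)) (Fin (m + 1)) ℝ := Matrix.of fun i j =>
        if (i : ℕ) < n ∧ (j : ℕ) < n then S.Q i j else 0 with hQ'
      have hG : RealGram l' Q' := by
        intro i j
        simp only [hl', hQ', Matrix.of_apply]
        by_cases hi : (i : ℕ) < n
        · by_cases hj : (j : ℕ) < n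
          · simp only [hi, hj, and_self, if_true, ih i j hi hj]
          · simp only [hj, and_false, if_false, inner_zero_right, Complex.ofReal_zero]
        · simp only [hi, false_and, if_false, inner_zero_left, Complex.ofReal_zero]
      have hfld : ∀ j : Fin m, (j : ℕ) < n → fld l (S.T j) = fld l' (S.T j) := by
        intro j hj
        refine fld_congr _ fun k i hi => ?_
        have hij : (i : ℕ) ≤ j := by
          by_contra hc
          refine hi (S.causal j k i ?_)
          rw [Fin.lt_def, Fin.val_castSucc]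
          omega
        simp only [hl']
        rw [if_pos (lt_of_le_of_lt hij hj)]
      intro i j
      refine Fin.cases ?_ (fun i' => ?_) i
      · refine Fin.cases ?_ (fun j' => ?_) j
        · intro _ _
          rw [S.Q_zero_zero, inner_self_eq_norm_sq_to_K, h.norm0]
          simp
        · intro _ _
          rw [S.Q_zero_succ, h.succ j', h.orth0, Complex.ofReal_zero]
      · refine Fin.cases ?_ (fun j' => ?_) j
        · intro _ _
          rw [S.Q_succ_zero, h.succ i', ← inner_conj_symm, h.orth0, map_zero, Complex.ofReal_zero]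
        · intro hi hj
          rw [Fin.val_succ] at hi hj
          rw [h.succ i', h.succ j', ι.inner_map_map, inner_plusV_plusV, hfld i' (by omega),
            hfld j' (by omega), hG.inner_fld_fld, S.Q_succ_succ]
          congr 1
          refine Trig.integral_gl_congr hG.posSemidef S.posSemidef_Q
            (s := {i : Fin (m + 1) | (i : ℕ) < n}) (fun a ha b hb => ?_)
            ((TP.continuous_ev _).mul (TP.continuous_ev _)).stronglyMeasurable ?_
          · simp only [hQ', Matrix.of_apply]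
            rw [if_pos ⟨ha, hb⟩]
          · intro x y hxy
            have e : ∀ j : Fin m, (j : ℕ) < n → (S.T j).ev x = (S.T j).ev y := by
              intro j hj
              unfold TP.ev
              refine Finset.sum_congr rfl fun k _ => ?_
              have h2 : ∑ i, (S.T j).a k i * x i = ∑ i, (S.T j).a k i * y i := by
                refine Finset.sum_congr rfl fun i _ => ?_
                by_cases hi : (i : ℕ) < n
                · rw [hxy i hi]
                · rw [S.causal j k i (by rw [Fin.lt_def, Fin.val_castSucc]; omega), zero_mul,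
                    zero_mul]
              rw [h2]
            simp only [e i' (by omega), e j' (by omega)]
  intro i j
  exact key (m + 1) i j i.2 j.2

/-- one step of the construction of the labels -/
def labStep {m : ℕ} (S : TrigScheme m) (ι : Sp K →ₗᵢ[ℂ] K) (s : K) (l : Fin (m + 1) → K) :
    Fin (m + 1) → K := Fin.cons s fun j => ι (plusV (fld l (S.T j) vac))

theorem labStep_zero {m : ℕ} (S : TrigScheme m) (ι : Sp K →ₗᵢ[ℂ] K) (s : K)
    (l : Fin (m + 1) → K) : labStep S ι s l 0 = s := rfl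

theorem labStep_succ {m : ℕ} (S : TrigScheme m) (ι : Sp K →ₗᵢ[ℂ] K) (s : K)
    (l : Fin (m + 1) → K) (j : Fin m) :
    labStep S ι s l j.succ = ι (plusV (fld l (S.T j) vac)) := rfl

theorem labStep_agree {m : ℕ} (S : TrigScheme m) (ι : Sp K →ₗᵢ[ℂ] K) (s : K) (n : ℕ)
    {l l' : Fin (m + 1) → K} (h : ∀ i : Fin (m + 1), (i : ℕ) < n → l i = l' i)
    (i : Fin (m + 1)) (hi : (i : ℕ) < n + 1) : labStep S ι s l i = labStep S ι s l' i := by
  induction i using Fin.cases with
  | zero => rw [labStep_zero, labStep_zero]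
  | succ j =>
    rw [Fin.val_succ] at hi
    rw [labStep_succ, labStep_succ]
    have e : fld l (S.T j) = fld l' (S.T j) := by
      refine fld_congr (S.T j) fun k i hi' => ?_
      refine h i ?_
      by_contra hc
      refine hi' (S.causal j k i ?_)
      rw [Fin.lt_def, Fin.val_castSucc]
      omega
    rw [e]

theorem labStep_iterate_agree {m : ℕ} (S : TrigScheme m) (ι : Sp K →ₗᵢ[ℂ] K) (s : K) (n : ℕ)
    (l l' : Fin (m + 1) → K) : ∀ i : Fin (m + 1), (i : ℕ) < n →
      (labStep S ι s)^[n] l i = (labStep S ι s)^[n] l' i := by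
  induction n with
  | zero => intro i hi; exact absurd hi (Nat.not_lt_zero _)
  | succ n ih =>
    intro i hi
    rw [Function.iterate_succ_apply', Function.iterate_succ_apply']
    exact labStep_agree S ι s n ih i hi

/-- the labels exist -/
theorem exists_labels {m : ℕ} (S : TrigScheme m) (ι : Sp K →ₗᵢ[ℂ] K) {s : K} (hs : ‖s‖ = 1)
    (hs0 : ∀ v, ⟪s, ι v⟫_ℂ = 0) : ∃ l : Fin (m + 1) → K, l 0 = s ∧ Labels S ι l := by
  obtain ⟨l, hl⟩ : ∃ l : Fin (m + 1) → K, labStep S ι s l = l := by
    refine ⟨(labStep S ι s)^[m + 1] 0, ?_⟩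
    rw [← Function.iterate_succ_apply' (labStep S ι s), Function.iterate_succ_apply]
    funext i
    exact labStep_iterate_agree S ι s (m + 1) _ _ i i.2
  have h0 : l 0 = s := by
    have := congrFun hl 0
    rw [← this]; rfl
  refine ⟨l, h0, ⟨?_, fun v => ?_, fun j => ?_⟩⟩
  · rw [h0]; exact hs
  · rw [h0]; exact hs0 v
  · have := congrFun hl j.succ
    rw [← this]; rfl

/-! ### The final unitary -/

theorem star_rotM {F : BF K} (hF : star F = F) : star (rotM F) = -rotM F := by
  ext b b' : 1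
  rw [Matrix.star_apply, Matrix.neg_apply]
  simp only [rotM, Matrix.of_apply]
  by_cases h : b = b'
  · rw [if_pos h.symm, if_pos h]; simp
  · rw [if_neg (Ne.symm h), if_neg h, star_smul, hF, ← neg_smul]
    congr 1
    simp only [RCLike.star_def, Complex.conj_ofReal]
    cases b <;> cases b' <;> simp_all [spinSign]

theorem zM_rotM (F : BF K) : (zM : Matrix Bool Bool (BF K)) * rotM F = -(rotM F * zM) := by
  ext b b' : 1
  rw [Matrix.neg_apply, zM, Matrix.diagonal_mul, Matrix.mul_diagonal]
  simp only [rotM, Matrix.of_apply]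
  cases b <;> cases b' <;> simp [spinSign]

open NormedSpace in
/-- the algebra behind `eVec_final` -/
theorem alg_final {𝔸 : Type*} [NormedRing 𝔸] [NormedAlgebra ℂ 𝔸] [CompleteSpace 𝔸] [StarRing 𝔸]
    [ContinuousStar 𝔸] {A Z D : 𝔸} (hA : star A = -A) (hZA : Z * A = -A * Z)
    (hD : star D * D = 1) (hDZ : Commute D Z) :
    star (D * exp A) * (Z * (D * exp A)) = Z * exp (A + A) := by
  let _ : NormedAlgebra ℚ 𝔸 := NormedAlgebra.restrictScalars ℚ ℂ 𝔸
  have hZe : Z * exp A = exp (-A) * Z := by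
    have h1 := (exp_series_hasSum_exp' (𝕂 := ℂ) A).mul_left Z
    have h2 := (exp_series_hasSum_exp' (𝕂 := ℂ) (-A)).mul_right Z
    have h3 : ∀ n : ℕ, Z * (((n.factorial : ℂ))⁻¹ • A ^ n) =
        (((n.factorial : ℂ))⁻¹ • (-A) ^ n) * Z := by
      intro n
      have h4 : SemiconjBy Z A (-A) := hZA
      have h5 := (h4.pow_right n).eq
      rw [mul_smul_comm, smul_mul_assoc, h5]
    simp_rw [h3] at h1
    exact h1.unique h2
  have hstar : star (D * exp A) = exp (-A) * star D := by
    rw [star_mul, star_exp, hA]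
  have hexp : exp A * exp A = exp (A + A) := (exp_add_of_commute (Commute.refl A)).symm
  calc star (D * exp A) * (Z * (D * exp A))
      = exp (-A) * star D * ((Z * D) * exp A) := by rw [hstar, mul_assoc Z]
    _ = exp (-A) * star D * ((D * Z) * exp A) := by rw [hDZ.eq]
    _ = exp (-A) * (star D * D) * (Z * exp A) := by simp only [mul_assoc]
    _ = exp (-A) * Z * exp A := by rw [hD, mul_one, mul_assoc]
    _ = Z * exp A * exp A := by rw [hZe]
    _ = Z * exp (A + A) := by rw [mul_assoc, hexp]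

open NormedSpace in
/-- the energy vector of `U = D exp (½ rotM F)` in terms of `F` -/
theorem eVec_final (F : BF K) (hF : star F = F) {D : Sp K →L[ℂ] Sp K} (hD : star D * D = 1)
    (hDZ : Commute D Zop) (U : USp K)
    (hU : (U : Sp K →L[ℂ] Sp K) = D * exp (opM (rotM ((1 / 2 : ℂ) • F)))) :
    eVec U = Zop ((exp (opM (rotM F))) (Om : Sp K)) := by
  have hF' : star ((1 / 2 : ℂ) • F) = (1 / 2 : ℂ) • F := by
    rw [star_smul, hF]
    congr 1
    simp
  have hneg : ∀ M : Matrix Bool Bool (BF K), opM (-M) = -opM M := fun M => map_neg opMHom M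
  have hA : star (opM (rotM ((1 / 2 : ℂ) • F))) = -opM (rotM ((1 / 2 : ℂ) • F)) := by
    rw [opM_star, star_rotM hF', hneg]
  have hZA : (Zop : Sp K →L[ℂ] Sp K) * opM (rotM ((1 / 2 : ℂ) • F)) =
      -opM (rotM ((1 / 2 : ℂ) • F)) * Zop := by
    rw [Zop, ← opM_mul, ← hneg, ← opM_mul, zM_rotM, neg_mul]
  have hAA : opM (rotM ((1 / 2 : ℂ) • F)) + opM (rotM ((1 / 2 : ℂ) • F)) = opM (rotM F) := by
    rw [← opM_add]
    congr 1
    ext b b' : 1
    rw [Matrix.add_apply]
    simp only [rotM, Matrix.of_apply]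
    by_cases h : b = b'
    · simp [h]
    · rw [if_neg h, if_neg h, smul_smul, ← add_smul]
      congr 1
      ring
  have hmain := alg_final hA hZA hD hDZ
  rw [hAA, ← hU] at hmain
  have := congrArg (fun S : Sp K →L[ℂ] Sp K => S Om) hmain
  exact this

open NormedSpace in
/-- **The energy of the final state is the value of the scheme.** -/
theorem energy_final {m : ℕ} {S : TrigScheme m} {ι : Sp K →ₗᵢ[ℂ] K} {l : Fin (m + 1) → K}
    (h : Labels S ι l) {D : Sp K →L[ℂ] Sp K} (hD : star D * D = 1) (hDZ : Commute D Zop)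
    (U : USp K)
    (hU : (U : Sp K →L[ℂ] Sp K) = D * exp (opM (rotM ((1 / 2 : ℂ) • fld l S.Th)))) :
    energy ι U = S.value := by
  have hG := h.realGram
  have he := eVec_final (fld l S.Th) (star_fld _) hD hDZ U hU
  have hP : plusP (eVec U) = (Complex.I / 2) • ((exp (Complex.I • fld l S.Th)) vac -
      (exp ((-Complex.I) • fld l S.Th)) vac) := by
    rw [he, plusP_final]
  unfold energy
  rw [inner_Sop, ← inner_conj_symm, Complex.conj_re, hP, hG.inner_one_sin, Complex.neg_re,
    Complex.re_sum, Fin.sum_univ_succ]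
  have h0 : ⟪ι (eVec U), l 0⟫_ℂ = 0 := by rw [← inner_conj_symm, h.orth0, map_zero]
  have hj : ∀ j : Fin m, ⟪ι (eVec U), l j.succ⟫_ℂ =
      ((-(∫ x, S.msg j x * S.out x ∂gl S.Q) : ℝ) : ℂ) := by
    intro j
    rw [h.succ j, ι.inner_map_map, ← inner_conj_symm, inner_plusV, hP, hG.inner_fld_sin]
    rw [map_neg, Complex.conj_ofReal, Complex.ofReal_neg]
    rfl
  rw [h0, zero_mul, Complex.zero_re, zero_add]
  simp_rw [hj, ← Complex.ofReal_mul, Complex.ofReal_re]
  unfold TrigScheme.value
  rw [← Finset.sum_neg_distrib]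
  refine Finset.sum_congr rfl fun j _ => ?_
  have : ∫ x, Real.cos (S.Th.ev x) * S.Th.d j.succ x ∂gl S.Q = ∫ x, S.dout j.succ x ∂gl S.Q := rfl
  rw [this]
  ring

end Crest.Agent.R339.FE
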