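import Crest.Agent.R339.FE716c
import Crest.Agent.R339.Li728A

/-!
# Row 339, part (C), block LI: label calculus in an abstract IL system, final energy

Port of `FE716a..c` to helper728's structure `ILSys`.
-/

set_option autoImplicit false
set_option linter.unusedSectionVars false

noncomputable section

open scoped ComplexConjugate InnerProductSpace Topology
open Filter MeasureTheory
open Crest.Agent.R339.Li

namespace Crest.Agent.R339.FEIL

open Crest.Agent.R339.Trig (gl TP TrigScheme)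
open Crest.Agent.R339.FE (lc lc_add lc_neg lc_zero RealGram Dp Dp_succ integrable_Dp continuous_Dp
  integrable_ex_mul ex_neg_mul norm_ex continuous_ex ev_eq_sum hasSum_integral_exp cexp_sub cexp_add
  integrable_mul_cexp)

variable {Λ H : Type*} [MeasurableSpace Λ] [NormedAddCommGroup H] [InnerProductSpace ℂ H]
  [CompleteSpace H] (I : ILSys Λ H)
variable {J : Type*} [Fintype J] [DecidableEq J] {l : J → H} {Q : Matrix J J ℝ}

/-- `sin φ(f)` -/
def snW (f : H) : H →L[ℂ] H := (-(Complex.I) / 2 : ℂ) • (I.W f - I.W (-f))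

/-- `T(φ(l))` -/
def fldI (l : J → H) (T : TP J) : H →L[ℂ] H := ∑ k, (T.c k : ℂ) • snW I (lc l (T.a k))

variable {I}

theorem inner_W_left (f : H) (v w : H) : ⟪I.W f v, w⟫_ℂ = ⟪v, I.W (-f) w⟫_ℂ := by
  rw [← I.W_star, ContinuousLinearMap.star_eq_adjoint, ContinuousLinearMap.adjoint_inner_right]

theorem inner_P_left {A : Set Λ} (hA : MeasurableSet A) (v w : H) :
    ⟪I.P A v, w⟫_ℂ = ⟪v, I.P A w⟫_ℂ := by
  conv_rhs => rw [← I.P_star A hA, ContinuousLinearMap.star_eq_adjoint,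
    ContinuousLinearMap.adjoint_inner_right]

theorem star_snW (f : H) : star (snW I f) = snW I f := by
  unfold snW
  rw [star_smul, star_sub, I.W_star, I.W_star, neg_neg, ← neg_sub, smul_neg, ← neg_smul]
  congr 1
  have h2 : star (2 : ℂ) = 2 := by simp
  simp only [star_div₀, star_neg, h2, RCLike.star_def, Complex.conj_I]
  ring

theorem star_fldI (T : TP J) : star (fldI I l T) = fldI I l T := by
  unfold fldI
  rw [star_sum]
  refine Finset.sum_congr rfl fun k _ => ?_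
  rw [star_smul, star_snW, RCLike.star_def, Complex.conj_ofReal]

theorem W_lc_mul (h : RealGram l Q) (a b : J → ℝ) :
    I.W (lc l a) * I.W (lc l b) = I.W (lc l (a + b)) := by
  rw [I.W_mul, h.inner_lc, Complex.ofReal_im, lc_add]
  simp

theorem fldI_mul_W (h : RealGram l Q) (T : TP J) (b : J → ℝ) :
    fldI I l T * I.W (lc l b) = ∑ k, ((T.c k : ℂ) * (-(Complex.I) / 2)) •
      (I.W (lc l (b + T.a k)) - I.W (lc l (b - T.a k))) := by
  unfold fldI snW
  rw [Finset.sum_mul]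
  refine Finset.sum_congr rfl fun k _ => ?_
  rw [smul_mul_assoc, smul_mul_assoc, smul_smul, sub_mul, W_lc_mul h, ← lc_neg, W_lc_mul h,
    add_comm (T.a k) b, show -T.a k + b = b - T.a k by abel]

theorem W_mul_fldI (h : RealGram l Q) (T : TP J) (b : J → ℝ) :
    I.W (lc l b) * fldI I l T = ∑ k, ((T.c k : ℂ) * (-(Complex.I) / 2)) •
      (I.W (lc l (b + T.a k)) - I.W (lc l (b - T.a k))) := by
  unfold fldI snW
  rw [Finset.mul_sum]
  refine Finset.sum_congr rfl fun k _ => ?_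
  rw [mul_smul_comm, mul_smul_comm, smul_smul, mul_sub, W_lc_mul h, ← lc_neg, W_lc_mul h,
    sub_eq_add_neg b]

theorem P_fldI {A : Set Λ} (hA : MeasurableSet A) (T : TP J) :
    Commute (I.P A) (fldI I l T) := by
  unfold fldI snW
  exact Commute.sum_right _ _ _ fun k _ =>
    (((I.P_W A _ hA).sub_right (I.P_W A _ hA)).smul_right _).smul_right _

theorem sg_fldI (M : Matrix Bool Bool ℂ) (T : TP J) : Commute (I.sg M) (fldI I l T) := by
  unfold fldI snW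
  exact Commute.sum_right _ _ _ fun k _ =>
    (((I.sg_W M _).sub_right (I.sg_W M _)).smul_right _).smul_right _

/-- `⟪P_A W(h) Om, Om⟫` -/
theorem inner_PW_Om {A : Set Λ} (hA : MeasurableSet A) (f : H) :
    ⟪I.P A (I.W f I.Om), I.Om⟫_ℂ = (I.μ.real A : ℂ) * Complex.exp (-((‖f‖ ^ 2 / 2 : ℝ) : ℂ)) := by
  rw [inner_P_left hA, inner_W_left]
  have h1 : I.W (-f) (I.P A I.Om) = I.P A (I.W (-f) I.Om) :=
    congrArg (fun S : H →L[ℂ] H => S I.Om) (I.P_W A (-f) hA).eq.symm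
  rw [h1, I.inner_Om A _ hA, norm_neg]

/-- `⟪one f, P_A W(h) Om⟫` -/
theorem inner_one_PW {A : Set Λ} (hA : MeasurableSet A) (f h : H) :
    ⟪I.one f, I.P A (I.W h I.Om)⟫_ℂ =
      (I.μ.real A : ℂ) * (Complex.I * ⟪f, h⟫_ℂ * Complex.exp (-((‖h‖ ^ 2 / 2 : ℝ) : ℂ))) := by
  have h1 : HasDerivAt (fun t : ℝ => ⟪I.W ((t : ℂ) • f) I.Om, I.P A (I.W h I.Om)⟫_ℂ)
      ⟪Complex.I • I.one f, I.P A (I.W h I.Om)⟫_ℂ 0 := by
    have := (I.one_deriv f).inner ℂ (hasDerivAt_const (0 : ℝ) (I.P A (I.W h I.Om)))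
    simp only [inner_zero_right, zero_add] at this
    exact this
  have h2 : ∀ t : ℝ, ⟪I.W ((t : ℂ) • f) I.Om, I.P A (I.W h I.Om)⟫_ℂ =
      (I.μ.real A : ℂ) * Complex.exp ((t : ℂ) * ⟪f, h⟫_ℂ - ((‖h‖ ^ 2 / 2 : ℝ) : ℂ) -
        (t : ℂ) ^ 2 * ((‖f‖ ^ 2 / 2 : ℝ) : ℂ)) := by
    intro t
    rw [inner_W_left]
    have e1 : I.W (-((t : ℂ) • f)) (I.P A (I.W h I.Om)) =
        I.P A ((I.W (-((t : ℂ) • f)) * I.W h) I.Om) :=
      congrArg (fun S : H →L[ℂ] H => S (I.W h I.Om)) (I.P_W A (-((t : ℂ) • f)) hA).eq.symm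
    rw [e1, I.W_mul, smul_apply, map_smul, inner_smul_right, I.inner_Om A _ hA, mul_comm, mul_assoc,
      ← Complex.exp_add]
    congr 2
    have e2 : ‖-((t : ℂ) • f) + h‖ ^ 2 = t ^ 2 * ‖f‖ ^ 2 - 2 * t * (⟪f, h⟫_ℂ).re + ‖h‖ ^ 2 := by
      rw [@norm_add_sq ℂ, norm_neg, norm_smul, Complex.norm_real, mul_pow, Real.norm_eq_abs, sq_abs,
        inner_neg_left, inner_smul_left, Complex.conj_ofReal]
      simp only [RCLike.re_eq_complex_re, Complex.neg_re, Complex.re_ofReal_mul]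
      ring
    rw [e2, inner_neg_left, inner_smul_left, Complex.conj_ofReal, Complex.neg_im,
      Complex.im_ofReal_mul]
    conv_rhs => rw [← Complex.re_add_im ⟪f, h⟫_ℂ]
    push_cast
    ring
  simp_rw [h2] at h1
  have h3 : HasDerivAt (fun t : ℝ => (I.μ.real A : ℂ) * Complex.exp ((t : ℂ) * ⟪f, h⟫_ℂ -
      ((‖h‖ ^ 2 / 2 : ℝ) : ℂ) - (t : ℂ) ^ 2 * ((‖f‖ ^ 2 / 2 : ℝ) : ℂ)))
      ((I.μ.real A : ℂ) * (Complex.exp (-((‖h‖ ^ 2 / 2 : ℝ) : ℂ)) * ⟪f, h⟫_ℂ)) 0 := by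
    have g1 : HasDerivAt (fun t : ℝ => (t : ℂ)) 1 0 := Complex.ofRealCLM.hasDerivAt
    have g2 : HasDerivAt (fun t : ℝ => (t : ℂ) * ⟪f, h⟫_ℂ - ((‖h‖ ^ 2 / 2 : ℝ) : ℂ) -
        (t : ℂ) ^ 2 * ((‖f‖ ^ 2 / 2 : ℝ) : ℂ)) ⟪f, h⟫_ℂ 0 := by
      refine (((g1.mul_const ⟪f, h⟫_ℂ).sub_const (((‖h‖ ^ 2 / 2 : ℝ) : ℂ))).fun_sub
        ((g1.fun_pow 2).mul_const (((‖f‖ ^ 2 / 2 : ℝ) : ℂ)))).congr_deriv ?_
      simp
    have := (g2.cexp).const_mul (I.μ.real A : ℂ)
    simpa using this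
  have h4 := h1.unique h3
  rw [inner_smul_left, Complex.conj_I] at h4
  have := Complex.I_mul_I
  linear_combination Complex.I * h4 + (⟪I.one f, I.P A (I.W h I.Om)⟫_ℂ) * this

/-- `⟪P_A W(b·l) Om, T(φ)ⁿ Om⟫ = μ(A) E[e^{-ib·x} T(x)ⁿ]` -/
theorem inner_W_fldI_pow (h : RealGram l Q) {A : Set Λ} (hA : MeasurableSet A) (T : TP J) (n : ℕ) :
    ∀ b : J → ℝ, ⟪I.P A (I.W (lc l b) I.Om), (fldI I l T ^ n) I.Om⟫_ℂ =
      (I.μ.real A : ℂ) * ∫ x, Trig.ex (-b) x * ((T.ev x : ℝ) : ℂ) ^ n ∂gl Q := by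
  induction n with
  | zero =>
    intro b
    rw [pow_zero]
    have h0 : (1 : H →L[ℂ] H) I.Om = I.Om := rfl
    rw [h0, inner_PW_Om hA]
    simp only [pow_zero, mul_one]
    unfold Trig.ex
    rw [Trig.charFun_gl h.posSemidef, h.norm_lc]
    congr 2
    push_cast
    have e2 : ∑ i, ∑ j, (((-b) i : ℝ) : ℂ) * (Q i j : ℂ) * (((-b) j : ℝ) : ℂ) =
        ∑ i, ∑ j, ((b i : ℝ) : ℂ) * (Q i j : ℂ) * ((b j : ℝ) : ℂ) := by
      refine Finset.sum_congr rfl fun i _ => Finset.sum_congr rfl fun j _ => ?_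
      simp only [Pi.neg_apply]; push_cast; ring
    rw [e2]
    ring
  | succ n ih =>
    intro b
    have h1 : (fldI I l T ^ (n + 1)) I.Om = fldI I l T ((fldI I l T ^ n) I.Om) := by
      rw [pow_succ']; rfl
    have h2 : ∀ v w : H, ⟪v, fldI I l T w⟫_ℂ = ⟪fldI I l T v, w⟫_ℂ := by
      intro v w
      rw [← ContinuousLinearMap.adjoint_inner_left, ← ContinuousLinearMap.star_eq_adjoint,
        star_fldI]
    have h3 : fldI I l T (I.P A (I.W (lc l b) I.Om)) = ∑ k, ((T.c k : ℂ) * (-(Complex.I) / 2)) •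
        (I.P A (I.W (lc l (b + T.a k)) I.Om) - I.P A (I.W (lc l (b - T.a k)) I.Om)) := by
      have e1 : fldI I l T (I.P A (I.W (lc l b) I.Om)) =
          I.P A ((fldI I l T * I.W (lc l b)) I.Om) :=
        congrArg (fun S : H →L[ℂ] H => S (I.W (lc l b) I.Om)) (P_fldI (l := l) hA T).eq.symm
      rw [e1, fldI_mul_W h, sum_apply, map_sum]
      refine Finset.sum_congr rfl fun k _ => ?_
      rw [smul_apply, sub_apply, map_smul, map_sub]
    rw [h1, h2, h3, sum_inner]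
    have h4 : ∀ x, Trig.ex (-b) x * ((T.ev x : ℝ) : ℂ) ^ (n + 1) =
        ∑ k, (starRingEnd ℂ) ((T.c k : ℂ) * (-(Complex.I) / 2)) *
          (Trig.ex (-(b + T.a k)) x * ((T.ev x : ℝ) : ℂ) ^ n -
            Trig.ex (-(b - T.a k)) x * ((T.ev x : ℝ) : ℂ) ^ n) := by
      intro x
      rw [pow_succ, mul_comm (((T.ev x : ℝ) : ℂ) ^ n), ← mul_assoc]
      conv_lhs => rw [ev_eq_sum T x]
      rw [Finset.mul_sum, Finset.sum_mul]
      refine Finset.sum_congr rfl fun k _ => ?_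
      have e1 : Trig.ex (-(b + T.a k)) x = Trig.ex (-b) x * Trig.ex (-T.a k) x := by
        rw [ex_neg_mul]; congr 1; abel
      have e2 : Trig.ex (-(b - T.a k)) x = Trig.ex (-b) x * Trig.ex (T.a k) x := by
        rw [ex_neg_mul]; congr 1; abel
      rw [e1, e2, ← ev_eq_sum]
      simp only [map_mul, map_div₀, map_neg, Complex.conj_ofReal, Complex.conj_I, map_ofNat]
      ring
    simp_rw [h4]
    have hb : ∀ x, ‖((T.ev x : ℝ) : ℂ) ^ n‖ ≤ (∑ k, |T.c k|) ^ n := by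
      intro x
      rw [norm_pow, Complex.norm_real, Real.norm_eq_abs]
      exact pow_le_pow_left₀ (abs_nonneg _) (T.abs_ev_le x) n
    have hc : Continuous fun x => ((T.ev x : ℝ) : ℂ) ^ n :=
      (Complex.continuous_ofReal.comp T.continuous_ev).pow n
    have hi : ∀ k : Fin T.N, Integrable (fun x => (starRingEnd ℂ) ((T.c k : ℂ) *
        (-(Complex.I) / 2)) * (Trig.ex (-(b + T.a k)) x * ((T.ev x : ℝ) : ℂ) ^ n -
            Trig.ex (-(b - T.a k)) x * ((T.ev x : ℝ) : ℂ) ^ n)) (gl Q) := fun k =>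
      ((integrable_ex_mul Q _ hc hb).sub (integrable_ex_mul Q _ hc hb)).const_mul _
    rw [integral_finsetSum _ fun k _ => hi k, Finset.mul_sum]
    refine Finset.sum_congr rfl fun k _ => ?_
    rw [integral_const_mul, integral_sub (integrable_ex_mul Q _ hc hb)
      (integrable_ex_mul Q _ hc hb), inner_smul_left, inner_sub_left, ih, ih]
    ring

/-- `⟪φ(f) Om, P_A e^{iφ(b)} T(φ)ⁿ Om⟫ = μ(A) ∑_j ⟪f, l_j⟫ E[∂_j(e^{ib·x} T(x)ⁿ)]` -/
theorem inner_one_fldI_pow (h : RealGram l Q) {A : Set Λ} (hA : MeasurableSet A) (T : TP J)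
    (f : H) (n : ℕ) : ∀ b : J → ℝ,
    ⟪I.one f, I.P A (I.W (lc l b) ((fldI I l T ^ n) I.Om))⟫_ℂ =
      (I.μ.real A : ℂ) * ∑ j, ⟪f, l j⟫_ℂ * ∫ x, Dp T j b n x ∂gl Q := by
  induction n with
  | zero =>
    intro b
    rw [pow_zero]
    have h0 : (1 : H →L[ℂ] H) I.Om = I.Om := rfl
    rw [h0, inner_one_PW hA]
    have h1 : ∀ j, ∫ x, Dp T j b 0 x ∂gl Q =
        Complex.I * (b j : ℂ) * Complex.exp (-((‖lc l b‖ ^ 2 / 2 : ℝ) : ℂ)) := by
      intro j
      unfold Dp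
      simp only [pow_zero, mul_one, Nat.cast_zero, zero_mul, add_zero]
      rw [integral_mul_const]
      unfold Trig.ex
      rw [Trig.charFun_gl h.posSemidef, h.norm_lc, mul_comm]
      congr 2
      push_cast
      ring
    simp_rw [h1]
    have h2 : ⟪f, lc l b⟫_ℂ = ∑ j, ⟪f, l j⟫_ℂ * (b j : ℂ) := by
      unfold lc
      rw [inner_sum]
      refine Finset.sum_congr rfl fun j _ => ?_
      rw [inner_smul_right]; ring
    rw [h2, Finset.mul_sum, Finset.sum_mul, Finset.mul_sum, Finset.mul_sum]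
    refine Finset.sum_congr rfl fun j _ => by ring
  | succ n ih =>
    intro b
    have h1 : I.P A (I.W (lc l b) ((fldI I l T ^ (n + 1)) I.Om)) =
        ∑ k, ((T.c k : ℂ) * (-(Complex.I) / 2)) •
        (I.P A (I.W (lc l (b + T.a k)) ((fldI I l T ^ n) I.Om)) -
          I.P A (I.W (lc l (b - T.a k)) ((fldI I l T ^ n) I.Om))) := by
      have e2 : I.W (lc l b) ((fldI I l T ^ (n + 1)) I.Om) =
          (I.W (lc l b) * fldI I l T) ((fldI I l T ^ n) I.Om) := by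
        rw [pow_succ']; rfl
      rw [e2, W_mul_fldI h, sum_apply, map_sum]
      refine Finset.sum_congr rfl fun k _ => ?_
      rw [smul_apply, sub_apply, map_smul, map_sub]
    rw [h1, inner_sum]
    simp_rw [inner_smul_right, inner_sub_right, ih, Dp_succ]
    have h2 : ∀ j, ∫ x, ∑ k, ((T.c k : ℂ) * (-(Complex.I) / 2)) *
        (Dp T j (b + T.a k) n x - Dp T j (b - T.a k) n x) ∂gl Q =
        ∑ k, ((T.c k : ℂ) * (-(Complex.I) / 2)) *
          (∫ x, Dp T j (b + T.a k) n x ∂gl Q - ∫ x, Dp T j (b - T.a k) n x ∂gl Q) := by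
      intro j
      have hi : ∀ k : Fin T.N, Integrable (fun x => ((T.c k : ℂ) * (-(Complex.I) / 2)) *
        (Dp T j (b + T.a k) n x - Dp T j (b - T.a k) n x)) (gl Q) := fun k =>
        ((integrable_Dp Q T j _ n).sub (integrable_Dp Q T j _ n)).const_mul _
      rw [integral_finsetSum _ fun k _ => hi k]
      refine Finset.sum_congr rfl fun k _ => ?_
      rw [integral_const_mul, integral_sub (integrable_Dp Q T j _ n) (integrable_Dp Q T j _ n)]
    simp_rw [h2, Finset.mul_sum]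
    rw [Finset.sum_comm]
    refine Finset.sum_congr rfl fun k _ => ?_
    rw [← Finset.sum_sub_distrib, Finset.mul_sum]
    refine Finset.sum_congr rfl fun j _ => by ring

/-! ### Exponentials -/

open NormedSpace in
theorem hasSum_exp_inner (A : H →L[ℂ] H) (z : ℂ) (v w : H) :
    HasSum (fun n : ℕ => (((n.factorial : ℂ))⁻¹ * z ^ n) * ⟪v, (A ^ n) w⟫_ℂ)
      ⟪v, (exp (z • A)) w⟫_ℂ := by
  have h1 := exp_series_hasSum_exp' (𝕂 := ℂ) (z • A)
  have h2 := (h1.mapL (ContinuousLinearMap.apply ℂ H w)).mapL (innerSL ℂ v)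
  refine h2.congr_fun fun n => ?_
  simp only [smul_pow, map_smul, ContinuousLinearMap.apply_apply, innerSL_apply_apply, smul_eq_mul]
  ring

open NormedSpace in
/-- `⟪P_A W(b·l) Om, e^{zT(φ)} Om⟫ = μ(A) E[e^{-ib·x} e^{zT(x)}]` -/
theorem inner_W_exp (h : RealGram l Q) {A : Set Λ} (hA : MeasurableSet A) (T : TP J) (z : ℂ)
    (b : J → ℝ) : ⟪I.P A (I.W (lc l b) I.Om), (exp (z • fldI I l T)) I.Om⟫_ℂ =
      (I.μ.real A : ℂ) * ∫ x, Trig.ex (-b) x * Complex.exp (z * ((T.ev x : ℝ) : ℂ)) ∂gl Q := by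
  have h1 := hasSum_exp_inner (fldI I l T) z (I.P A (I.W (lc l b) I.Om)) I.Om
  have h2 := (hasSum_integral_exp (gl Q) (g := Trig.ex (-b)) (T := T.ev)
    (continuous_ex _).aestronglyMeasurable T.continuous_ev.aestronglyMeasurable
    (C := 1) (M := ∑ k, |T.c k|) (fun x => (norm_ex _ x).le)
    (fun x => T.abs_ev_le x) z).mul_left (I.μ.real A : ℂ)
  simp_rw [inner_W_fldI_pow h hA] at h1
  exact h1.unique (h2.congr_fun fun n => by ring)

open NormedSpace in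
/-- `⟪φ(f) Om, P_A e^{zT(φ)} Om⟫ = μ(A) ∑_j ⟪f, l_j⟫ E[z ∂_jT e^{zT}]` -/
theorem inner_one_exp (h : RealGram l Q) {A : Set Λ} (hA : MeasurableSet A) (T : TP J) (z : ℂ)
    (f : H) : ⟪I.one f, I.P A ((exp (z • fldI I l T)) I.Om)⟫_ℂ =
      (I.μ.real A : ℂ) * ∑ j, ⟪f, l j⟫_ℂ *
      (z * ∫ x, ((T.d j x : ℝ) : ℂ) * Complex.exp (z * ((T.ev x : ℝ) : ℂ)) ∂gl Q) := by
  have hP : ∀ B : H →L[ℂ] H, ⟪I.one f, I.P A (B I.Om)⟫_ℂ = ⟪I.P A (I.one f), B I.Om⟫_ℂ :=
    fun B => (inner_P_left hA _ _).symm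
  rw [hP]
  have h1 := hasSum_exp_inner (fldI I l T) z (I.P A (I.one f)) I.Om
  have h0 : ∀ n, ⟪I.P A (I.one f), (fldI I l T ^ n) I.Om⟫_ℂ =
      (I.μ.real A : ℂ) * ∑ j, ⟪f, l j⟫_ℂ * ∫ x, Dp T j 0 n x ∂gl Q := by
    intro n
    have := inner_one_fldI_pow (I := I) h hA T f n 0
    rw [lc_zero, I.W_zero] at this
    rw [← hP]
    exact this
  have hD : ∀ j, HasSum (fun n : ℕ => (((n.factorial : ℂ))⁻¹ * z ^ n) *
      ∫ x, Dp T j 0 n x ∂gl Q)
      (z * ∫ x, ((T.d j x : ℝ) : ℂ) * Complex.exp (z * ((T.ev x : ℝ) : ℂ)) ∂gl Q) := by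
    intro j
    have h2 := (hasSum_integral_exp (gl Q) (g := fun x => ((T.d j x : ℝ) : ℂ)) (T := T.ev)
      (Complex.continuous_ofReal.comp (T.continuous_d j)).aestronglyMeasurable
      T.continuous_ev.aestronglyMeasurable
      (C := ∑ k, |T.c k * T.a k j|) (M := ∑ k, |T.c k|) (fun x => by
        rw [Complex.norm_real, Real.norm_eq_abs]; exact T.abs_d_le j x)
      (fun x => T.abs_ev_le x) z).mul_left z
    rw [← hasSum_nat_add_iff' 1]
    have e0 : ∑ i ∈ Finset.range 1, (((i.factorial : ℂ))⁻¹ * z ^ i) *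
        ∫ x, Dp T j 0 i x ∂gl Q = 0 := by
      simp [Dp]
    rw [e0, sub_zero]
    refine h2.congr_fun fun n => ?_
    have e1 : ∀ x, Dp T j 0 (n + 1) x =
        ((n : ℂ) + 1) * (((T.d j x : ℝ) : ℂ) * ((T.ev x : ℝ) : ℂ) ^ n) := by
      intro x
      have e2 : Trig.ex (0 : J → ℝ) x = 1 := by simp [Trig.ex]
      unfold Dp
      rw [e2]
      simp only [Pi.zero_apply, Complex.ofReal_zero, mul_zero, zero_mul, zero_add, one_mul,
        Nat.add_sub_cancel]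
      push_cast
      ring
    simp_rw [e1]
    rw [integral_const_mul, Nat.factorial_succ]
    push_cast
    have hn : ((n : ℂ) + 1) ≠ 0 := Nat.cast_add_one_ne_zero n
    have hf : ((n.factorial : ℂ)) ≠ 0 := by exact_mod_cast n.factorial_ne_zero
    field_simp
    ring
  have h3 : HasSum (fun n : ℕ => (((n.factorial : ℂ))⁻¹ * z ^ n) * ((I.μ.real A : ℂ) *
      ∑ j, ⟪f, l j⟫_ℂ * ∫ x, Dp T j 0 n x ∂gl Q)) ((I.μ.real A : ℂ) * ∑ j, ⟪f, l j⟫_ℂ *
      (z * ∫ x, ((T.d j x : ℝ) : ℂ) * Complex.exp (z * ((T.ev x : ℝ) : ℂ)) ∂gl Q)) := by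
    have := (hasSum_sum (s := Finset.univ) fun j _ =>
      (hD j).mul_left ⟪f, l j⟫_ℂ).mul_left (I.μ.real A : ℂ)
    refine this.congr_fun fun n => ?_
    rw [mul_left_comm, Finset.mul_sum]
    congr 1
    refine Finset.sum_congr rfl fun j _ => by ring
  simp_rw [h0] at h1
  exact h1.unique h3

end Crest.Agent.R339.FEIL
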