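import Crest.Agent.R339.FEIL716a

/-!
# Row 339, part (C), block LI: the final energy in an IL system is `μ(A)^{3/2} * value`
-/

set_option autoImplicit false
set_option linter.unusedSectionVars false

noncomputable section

open scoped ComplexConjugate InnerProductSpace Topology
open Filter MeasureTheory
open Crest.Agent.R339.Li

namespace Crest.Agent.R339.FEIL

open Crest.Agent.R339.Trig (gl TP TrigScheme)
open Crest.Agent.R339.FE (lc lc_add lc_neg lc_zero RealGram Dp Dp_succ integrable_Dp continuous_Dp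
  integrable_ex_mul ex_neg_mul norm_ex continuous_ex ev_eq_sum hasSum_integral_exp cexp_sub cexp_add
  integrable_mul_cexp)

variable {Λ H : Type*} [MeasurableSpace Λ] [NormedAddCommGroup H] [InnerProductSpace ℂ H]
  [CompleteSpace H] {I : ILSys Λ H}
variable {J : Type*} [Fintype J] [DecidableEq J] {l : J → H} {Q : Matrix J J ℝ}

/-- `sin F`, `cos F` for a bounded operator -/
def sinO (F : H →L[ℂ] H) : H →L[ℂ] H := (-(Complex.I) / 2 : ℂ) •
  (NormedSpace.exp (Complex.I • F) - NormedSpace.exp ((-Complex.I) • F))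

/-- `cos F` -/
def cosO (F : H →L[ℂ] H) : H →L[ℂ] H := (1 / 2 : ℂ) •
  (NormedSpace.exp (Complex.I • F) + NormedSpace.exp ((-Complex.I) • F))

theorem fldI_Om (h : RealGram l Q) (A : Set Λ) (T' : TP J) :
    I.P A (fldI I l T' I.Om) = ∑ k, ((T'.c k : ℂ) * (-(Complex.I) / 2)) •
      (I.P A (I.W (lc l (T'.a k)) I.Om) - I.P A (I.W (lc l (-T'.a k)) I.Om)) := by
  have h0 := W_mul_fldI (I := I) h T' 0
  rw [lc_zero, I.W_zero, one_mul] at h0
  rw [h0, sum_apply, map_sum]
  refine Finset.sum_congr rfl fun k _ => ?_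
  rw [smul_apply, sub_apply, map_smul, map_sub, zero_add, zero_sub]

/-- linearity step: moments against `P_A T'(φ) Om` -/
theorem inner_fldI_aux (h : RealGram l Q) {A : Set Λ} (hA : MeasurableSet A) (T' : TP J)
    {v : H} {f : (J → ℝ) → ℂ} (hf : Continuous f) {C : ℝ} (hC : ∀ x, ‖f x‖ ≤ C)
    (hv : ∀ b : J → ℝ, ⟪I.P A (I.W (lc l b) I.Om), v⟫_ℂ =
      (I.μ.real A : ℂ) * ∫ x, Trig.ex (-b) x * f x ∂gl Q) :
    ⟪I.P A (fldI I l T' I.Om), v⟫_ℂ =
      (I.μ.real A : ℂ) * ∫ x, ((T'.ev x : ℝ) : ℂ) * f x ∂gl Q := by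
  rw [fldI_Om h A, sum_inner]
  have hi := fun a => integrable_ex_mul Q a hf hC
  have h2 : ∀ x, ((T'.ev x : ℝ) : ℂ) * f x =
      ∑ k, (starRingEnd ℂ) ((T'.c k : ℂ) * (-(Complex.I) / 2)) *
        (Trig.ex (-T'.a k) x * f x - Trig.ex (T'.a k) x * f x) := by
    intro x
    rw [ev_eq_sum T' x, Finset.sum_mul]
    refine Finset.sum_congr rfl fun k _ => ?_
    simp only [map_mul, map_div₀, map_neg, Complex.conj_ofReal, Complex.conj_I, map_ofNat]
    ring
  simp_rw [h2]
  have hi' : ∀ k : Fin T'.N, Integrable (fun x => (starRingEnd ℂ) ((T'.c k : ℂ) *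
      (-(Complex.I) / 2)) * (Trig.ex (-T'.a k) x * f x - Trig.ex (T'.a k) x * f x)) (gl Q) :=
    fun k => ((hi _).sub (hi _)).const_mul _
  rw [integral_finsetSum _ fun k _ => hi' k, Finset.mul_sum]
  refine Finset.sum_congr rfl fun k _ => ?_
  rw [integral_const_mul, integral_sub (hi _) (hi _), inner_smul_left, inner_sub_left, hv, hv,
    neg_neg]
  ring

/-- `⟪P_A T'(φ) Om, T(φ) Om⟫ = μ(A) E[T' T]` -/
theorem inner_fldI_fldI (h : RealGram l Q) {A : Set Λ} (hA : MeasurableSet A) (T' T : TP J) :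
    ⟪I.P A (fldI I l T' I.Om), fldI I l T I.Om⟫_ℂ =
      ((I.μ.real A * ∫ x, T'.ev x * T.ev x ∂gl Q : ℝ) : ℂ) := by
  have hn : ∀ x, ‖((T.ev x : ℝ) : ℂ)‖ ≤ ∑ k, |T.c k| := by
    intro x
    rw [Complex.norm_real, Real.norm_eq_abs]; exact T.abs_ev_le x
  rw [inner_fldI_aux h hA T' (v := fldI I l T I.Om) (f := fun x => ((T.ev x : ℝ) : ℂ))
    (Complex.continuous_ofReal.comp T.continuous_ev) hn (fun b => ?_)]
  · rw [Complex.ofReal_mul, ← integral_complex_ofReal]
    congr 1
    refine integral_congr_ae (Eventually.of_forall fun x => ?_)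
    simp only
    push_cast
    ring
  · have := inner_W_fldI_pow (I := I) h hA T 1 b
    simpa using this

theorem inner_fldI_exp (h : RealGram l Q) {A : Set Λ} (hA : MeasurableSet A) (T' T : TP J) {z : ℂ}
    (hz : z = Complex.I ∨ z = -Complex.I) :
    ⟪I.P A (fldI I l T' I.Om), (NormedSpace.exp (z • fldI I l T)) I.Om⟫_ℂ =
      (I.μ.real A : ℂ) *
        ∫ x, ((T'.ev x : ℝ) : ℂ) * Complex.exp (z * ((T.ev x : ℝ) : ℂ)) ∂gl Q := by
  have hc : Continuous fun x => Complex.exp (z * ((T.ev x : ℝ) : ℂ)) :=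
    Complex.continuous_exp.comp (continuous_const.mul (Complex.continuous_ofReal.comp
      T.continuous_ev))
  have hn : ∀ x, ‖Complex.exp (z * ((T.ev x : ℝ) : ℂ))‖ ≤ 1 := by
    intro x
    rw [Complex.norm_exp]
    rcases hz with rfl | rfl <;> simp
  exact inner_fldI_aux h hA T' hc hn fun b => inner_W_exp h hA T z b

/-- `⟪P_A T'(φ) Om, sin T(φ) Om⟫ = μ(A) E[T' sin T]` -/
theorem inner_fldI_sin (h : RealGram l Q) {A : Set Λ} (hA : MeasurableSet A) (T' T : TP J) :
    ⟪I.P A (fldI I l T' I.Om), sinO (fldI I l T) I.Om⟫_ℂ =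
      ((I.μ.real A * ∫ x, T'.ev x * Real.sin (T.ev x) ∂gl Q : ℝ) : ℂ) := by
  unfold sinO
  rw [smul_apply, sub_apply, inner_smul_right, inner_sub_right,
    inner_fldI_exp h hA T' T (Or.inl rfl), inner_fldI_exp h hA T' T (Or.inr rfl)]
  have hi1 := integrable_mul_cexp Q T'.continuous_ev T'.abs_ev_le T (Or.inl rfl)
  have hi2 := integrable_mul_cexp Q T'.continuous_ev T'.abs_ev_le T (Or.inr rfl)
  rw [← mul_sub, ← integral_sub hi1 hi2, Complex.ofReal_mul, ← integral_complex_ofReal,
    mul_left_comm, ← integral_const_mul]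
  congr 1
  refine integral_congr_ae (Eventually.of_forall fun x => ?_)
  simp only
  rw [← mul_sub, cexp_sub]
  have := Complex.I_sq
  push_cast
  linear_combination (-(T'.ev x : ℂ) * Complex.sin (T.ev x : ℂ)) * this

/-- `⟪φ(f) Om, P_A sin T(φ) Om⟫ = μ(A) ∑_j ⟪f, l_j⟫ E[∂_j T cos T]` -/
theorem inner_one_sin (h : RealGram l Q) {A : Set Λ} (hA : MeasurableSet A) (T : TP J) (f : H) :
    ⟪I.one f, I.P A (sinO (fldI I l T) I.Om)⟫_ℂ =
      (I.μ.real A : ℂ) *
        ∑ j, ⟪f, l j⟫_ℂ * ((∫ x, Real.cos (T.ev x) * T.d j x ∂gl Q : ℝ) : ℂ) := by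
  unfold sinO
  rw [smul_apply, sub_apply, map_smul, map_sub, inner_smul_right, inner_sub_right,
    inner_one_exp h hA, inner_one_exp h hA, ← mul_sub, ← Finset.sum_sub_distrib, mul_left_comm,
    Finset.mul_sum]
  congr 1
  refine Finset.sum_congr rfl fun j _ => ?_
  have hi1 := integrable_mul_cexp Q (T.continuous_d j) (T.abs_d_le j) T (Or.inl rfl)
  have hi2 := integrable_mul_cexp Q (T.continuous_d j) (T.abs_d_le j) T (Or.inr rfl)
  have h1 : ∫ x, ((T.d j x : ℝ) : ℂ) * Complex.exp (Complex.I * ((T.ev x : ℝ) : ℂ)) ∂gl Q +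
      ∫ x, ((T.d j x : ℝ) : ℂ) * Complex.exp (-Complex.I * ((T.ev x : ℝ) : ℂ)) ∂gl Q =
      2 * ((∫ x, Real.cos (T.ev x) * T.d j x ∂gl Q : ℝ) : ℂ) := by
    rw [← integral_add hi1 hi2, ← integral_complex_ofReal, ← integral_const_mul]
    refine integral_congr_ae (Eventually.of_forall fun x => ?_)
    simp only
    rw [← mul_add, cexp_add]
    push_cast
    ring
  have := Complex.I_sq
  linear_combination (-⟪f, l j⟫_ℂ * Complex.I ^ 2 / 2) * h1 -
    (⟪f, l j⟫_ℂ * ((∫ x, Real.cos (T.ev x) * T.d j x ∂gl Q : ℝ) : ℂ)) * this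

/-! ### Labels -/

/-- the label vectors of a scheme in an IL system, with main class `A` -/
structure LabelsIL {m : ℕ} (S : TrigScheme m) (I : ILSys Λ H) (A : Set Λ) (l : Fin (m + 1) → H) :
    Prop where
  norm0 : ‖l 0‖ = 1
  orth0 : ∀ v, ⟪l 0, I.P A v⟫_ℂ = 0
  succ : ∀ j : Fin m, l j.succ =
    (((Real.sqrt (I.μ.real A))⁻¹ : ℝ) : ℂ) • I.P A (fldI I l (S.T j) I.Om)

theorem fldI_congr {l l' : J → H} (T : TP J)
    (h : ∀ k j, T.a k j ≠ 0 → l j = l' j) : fldI I l T = fldI I l' T := by
  unfold fldI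
  refine Finset.sum_congr rfl fun k _ => ?_
  have h1 : lc l (T.a k) = lc l' (T.a k) := by
    unfold lc
    refine Finset.sum_congr rfl fun j _ => ?_
    by_cases hj : T.a k j = 0
    · rw [hj]; simp
    · rw [h k j hj]
  rw [h1]

/-- the labels have Gram matrix `S.Q` -/
theorem LabelsIL.realGram {m : ℕ} {S : TrigScheme m} {A : Set Λ} {l : Fin (m + 1) → H}
    (h : LabelsIL S I A l) (hA : MeasurableSet A) (hpos : 0 < I.μ.real A) : RealGram l S.Q := by
  have key : ∀ n : ℕ, ∀ i j : Fin (m + 1), (i : ℕ) < n → (j : ℕ) < n →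
      ⟪l i, l j⟫_ℂ = ((S.Q i j : ℝ) : ℂ) := by
    intro n
    induction n with
    | zero => intro i j hi; exact absurd hi (Nat.not_lt_zero _)
    | succ n ih =>
      -- truncated labels
      set l' : Fin (m + 1) → H := fun i => if (i : ℕ) < n then l i else 0 with hl'
      set Q' : Matrix (Fin (m + 1)) (Fin (m + 1)) ℝ := Matrix.of fun i j =>
        if (i : ℕ) < n ∧ (j : ℕ) < n then S.Q i j else 0 with hQ'
      have hG : RealGram l' Q' := by
        intro i j
        simp only [hl', hQ', Matrix.of_apply]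
        by_cases hi : (i : ℕ) < n
        · by_cases hj : (j : ℕ) < n
          · simp only [hi, hj, and_self, if_true, ih i j hi hj]
          · simp only [hj, and_false, if_false, inner_zero_right, Complex.ofReal_zero]
        · simp only [hi, false_and, if_false, inner_zero_left, Complex.ofReal_zero]
      have hfld : ∀ j : Fin m, (j : ℕ) < n → fldI I l (S.T j) = fldI I l' (S.T j) := by
        intro j hj
        refine fldI_congr _ fun k i hi => ?_
        have hij : (i : ℕ) ≤ j := by
          by_contra hc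
          refine hi (S.causal j k i ?_)
          rw [Fin.lt_def, Fin.val_castSucc]
          omega
        simp only [hl']
        rw [if_pos (lt_of_le_of_lt hij hj)]
      intro i j
      refine Fin.cases ?_ (fun i' => ?_) i
      · refine Fin.cases ?_ (fun j' => ?_) j
        · intro _ _
          rw [S.Q_zero_zero, inner_self_eq_norm_sq_to_K, h.norm0]
          simp
        · intro _ _
          rw [S.Q_zero_succ, h.succ j', inner_smul_right, h.orth0, mul_zero, Complex.ofReal_zero]
      · refine Fin.cases ?_ (fun j' => ?_) j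
        · intro _ _
          rw [S.Q_succ_zero, h.succ i', inner_smul_left, ← inner_conj_symm, h.orth0, map_zero,
            mul_zero, Complex.ofReal_zero]
        · intro hi hj
          rw [Fin.val_succ] at hi hj
          rw [h.succ i', h.succ j', inner_smul_left, inner_smul_right, inner_P_left hA]
          have e1 : I.P A (I.P A (fldI I l (S.T j') I.Om)) = I.P A (fldI I l (S.T j') I.Om) :=
            congrArg (fun S' : H →L[ℂ] H => S' (fldI I l (S.T j') I.Om)) (ILSys.P_sq hA)
          rw [e1, ← inner_P_left hA, hfld i' (by omega), hfld j' (by omega),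
            inner_fldI_fldI hG hA, S.Q_succ_succ, Complex.conj_ofReal, ← Complex.ofReal_mul,
            ← Complex.ofReal_mul]
          congr 1
          have e2 : ∫ x, (S.T i').ev x * (S.T j').ev x ∂gl Q' =
              ∫ x, S.msg i' x * S.msg j' x ∂gl S.Q := by
            refine Trig.integral_gl_congr hG.posSemidef S.posSemidef_Q
              (s := {i : Fin (m + 1) | (i : ℕ) < n}) (fun a ha b hb => ?_)
              ((TP.continuous_ev _).mul (TP.continuous_ev _)).stronglyMeasurable ?_
            · simp only [hQ', Matrix.of_apply]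
              rw [if_pos ⟨ha, hb⟩]
            · intro x y hxy
              have e : ∀ j : Fin m, (j : ℕ) < n → (S.T j).ev x = (S.T j).ev y := by
                intro j hj
                unfold TP.ev
                refine Finset.sum_congr rfl fun k _ => ?_
                have h2 : ∑ i, (S.T j).a k i * x i = ∑ i, (S.T j).a k i * y i := by
                  refine Finset.sum_congr rfl fun i _ => ?_
                  by_cases hi : (i : ℕ) < n
                  · rw [hxy i hi]
                  · rw [S.causal j k i (by rw [Fin.lt_def, Fin.val_castSucc]; omega), zero_mul,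
                      zero_mul]
                rw [h2]
              simp only [e i' (by omega), e j' (by omega)]
          rw [e2]
          have e3 : (Real.sqrt (I.μ.real A))⁻¹ * (Real.sqrt (I.μ.real A))⁻¹ * I.μ.real A = 1 := by
            rw [← mul_inv, Real.mul_self_sqrt hpos.le, inv_mul_cancel₀ hpos.ne']
          linear_combination (∫ x, S.msg i' x * S.msg j' x ∂gl S.Q) * e3
  intro i j
  exact key (m + 1) i j i.2 j.2

end Crest.Agent.R339.FEIL
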