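import Crest.Agent.R339.FEIL716b

/-!
# Row 339, part (C), block LI: the final energy in an IL system is `μ(A)^{3/2} * value`
-/

set_option autoImplicit false
set_option linter.unusedSectionVars false

noncomputable section

open scoped ComplexConjugate InnerProductSpace Topology
open Filter MeasureTheory
open Crest.Agent.R339.Li

namespace Crest.Agent.R339.FEIL

open Crest.Agent.R339.Trig (gl TP TrigScheme)
open Crest.Agent.R339.FE (lc lc_add lc_neg lc_zero RealGram)

section alg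

variable {𝔸 : Type*} [NormedRing 𝔸] [NormedAlgebra ℂ 𝔸] [CompleteSpace 𝔸]

open NormedSpace in
theorem exp_semiconj {A B P : 𝔸} (h : A * P = P * B) : exp A * P = P * exp B := by
  have h1 := (exp_series_hasSum_exp' (𝕂 := ℂ) B).mul_left P
  have h2 := (exp_series_hasSum_exp' (𝕂 := ℂ) A).mul_right P
  have h3 : ∀ n : ℕ, P * (((n.factorial : ℂ))⁻¹ • B ^ n) =
      (((n.factorial : ℂ))⁻¹ • A ^ n) * P := by
    intro n
    have h4 : SemiconjBy P B A := h.symm
    have h5 := (h4.pow_right n).eq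
    rw [mul_smul_comm, smul_mul_assoc, h5]
  simp_rw [h3] at h1
  exact h2.unique h1

open NormedSpace in
/-- Euler's formula with an imaginary unit `R` -/
theorem exp_euler {R F : 𝔸} (hR : R * R = -1) (hRF : Commute R F) :
    exp (R * F) = (1 / 2 : ℂ) • (exp (Complex.I • F) + exp ((-Complex.I) • F)) +
      R * ((-(Complex.I) / 2 : ℂ) • (exp (Complex.I • F) - exp ((-Complex.I) • F))) := by
  have key : ∀ s : ℂ, s * s = 1 → exp (R * F) * ((1 / 2 : ℂ) • (1 + (Complex.I * s) • R)) =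
      ((1 / 2 : ℂ) • (1 + (Complex.I * s) • R)) * exp ((-Complex.I * s) • F) := by
    intro s hs
    refine exp_semiconj ?_
    rw [mul_smul_comm, smul_mul_assoc]
    congr 1
    rw [mul_add, mul_one, mul_smul_comm, add_mul, one_mul, smul_mul_assoc, mul_smul_comm, smul_smul]
    have e1 : R * F * R = -F := by
      rw [mul_assoc, ← hRF.eq, ← mul_assoc, hR, neg_one_mul]
    rw [e1, smul_neg, ← neg_smul, ← neg_mul]
    have e2 : Complex.I * s * (-Complex.I * s) = 1 := by
      linear_combination (-s * s) * Complex.I_sq + hs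
    rw [e2, one_smul, add_comm, neg_mul]
  have k1 := key 1 (by norm_num)
  have k2 := key (-1) (by norm_num)
  have hsum : ((1 / 2 : ℂ) • (1 + (Complex.I * 1) • R)) + ((1 / 2 : ℂ) • (1 + (Complex.I * -1) • R))
      = (1 : 𝔸) := by
    rw [← smul_add, mul_one, mul_neg, mul_one, neg_smul]
    have : (1 : 𝔸) + Complex.I • R + (1 + -(Complex.I • R)) = (2 : ℂ) • 1 := by
      rw [two_smul]; abel
    rw [this, smul_smul]
    norm_num
  have e1 : (-Complex.I * 1 : ℂ) = -Complex.I := by ring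
  have e2 : (-Complex.I * -1 : ℂ) = Complex.I := by ring
  rw [e1] at k1
  rw [e2] at k2
  calc exp (R * F) = exp (R * F) * (((1 / 2 : ℂ) • (1 + (Complex.I * 1) • R)) +
        ((1 / 2 : ℂ) • (1 + (Complex.I * -1) • R))) := by rw [hsum, mul_one]
    _ = ((1 / 2 : ℂ) • (1 + (Complex.I * 1) • R)) * exp ((-Complex.I) • F) +
        ((1 / 2 : ℂ) • (1 + (Complex.I * -1) • R)) * exp (Complex.I • F) := by
      rw [mul_add, k1, k2]
    _ = _ := by
      generalize exp ((-Complex.I) • F) = E1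
      generalize exp (Complex.I • F) = E2
      simp only [smul_mul_assoc, add_mul, one_mul, mul_smul_comm, mul_sub]
      module

end alg

variable {Λ H : Type*} [MeasurableSpace Λ] [NormedAddCommGroup H] [InnerProductSpace ℂ H]
  [CompleteSpace H] {I : ILSys Λ H}

theorem Z_X : I.Z * I.X = -(I.X * I.Z) := by
  unfold ILSys.Z ILSys.X
  rw [← map_mul, ← map_mul, ← map_neg]
  congr 1
  ext s t
  fin_cases s <;> fin_cases t <;> simp [xM, zM, dM, Matrix.mul_apply]

theorem XZ_sq : (I.X * I.Z) * (I.X * I.Z) = -1 := by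
  calc (I.X * I.Z) * (I.X * I.Z) = I.X * (I.Z * I.X) * I.Z := by simp only [mul_assoc]
    _ = -((I.X * I.X) * (I.Z * I.Z)) := by rw [Z_X]; simp only [mul_neg, neg_mul, mul_assoc]
    _ = -1 := by rw [ILSys.X_mul_X, ILSys.Z_mul_Z, mul_one]

theorem star_XZ : star (I.X * I.Z) = -(I.X * I.Z) := by
  rw [star_mul, ILSys.star_X, ILSys.star_Z, Z_X]

theorem inner_X_left (v w : H) : ⟪I.X v, w⟫_ℂ = ⟪v, I.X w⟫_ℂ := by
  conv_rhs => rw [← ILSys.star_X, ContinuousLinearMap.star_eq_adjoint,
    ContinuousLinearMap.adjoint_inner_right]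

/-- the one-particle vectors have spin `X = 1` -/
theorem X_one (f : H) : I.X (I.one f) = I.one f := by
  have h1 := I.one_deriv f
  have h2 : HasDerivAt (fun t : ℝ => I.X (I.W ((t : ℂ) • f) I.Om)) (I.X (Complex.I • I.one f)) 0 :=
    (I.X.restrictScalars ℝ).hasFDerivAt.comp_hasDerivAt (0 : ℝ) h1
  have h3 : ∀ t : ℝ, I.X (I.W ((t : ℂ) • f) I.Om) = I.W ((t : ℂ) • f) I.Om := by
    intro t
    have e : I.X (I.W ((t : ℂ) • f) I.Om) = I.W ((t : ℂ) • f) (I.X I.Om) :=
      congrArg (fun S : H →L[ℂ] H => S I.Om) (ILSys.X_W ((t : ℂ) • f)).eq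
    have e2 : I.X I.Om = I.Om := I.Om_X
    rw [e, e2]
  simp_rw [h3] at h2
  have h4 := h1.unique h2
  rw [map_smul] at h4
  exact (smul_right_injective H Complex.I_ne_zero h4).symm

/-- the vectors `Z v`, `X v = v`, are orthogonal to the one-particle vectors -/
theorem inner_Z_one {v : H} (hv : I.X v = v) (f : H) : ⟪I.Z v, I.one f⟫_ℂ = 0 := by
  have h1 : ⟪I.Z v, I.one f⟫_ℂ = ⟪I.X (I.Z v), I.one f⟫_ℂ := by
    conv_lhs => rw [← X_one f]
    rw [← inner_X_left]
  have h2 : I.X (I.Z v) = -(I.Z v) := by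
    have e : (I.X * I.Z) v = -((I.Z * I.X) v) := by rw [Z_X]; simp
    have e2 : (I.Z * I.X) v = I.Z v := by
      show I.Z (I.X v) = I.Z v
      rw [hv]
    rw [e2] at e
    exact e
  rw [h2, inner_neg_left] at h1
  have : (2 : ℂ) * ⟪I.Z v, I.one f⟫_ℂ = 0 := by linear_combination h1
  simpa using this

open NormedSpace in
/-- the energy vector of the final state -/
theorem eV_final {A : Set Λ} (hA : MeasurableSet A) {F : H →L[ℂ] H} (hF : star F = F)
    (hFs : ∀ M, Commute (I.sg M) F) (hFP : Commute (I.P A) F) {D : H →L[ℂ] H}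
    (hD : star D * D = 1) (hDZ : Commute D I.Z) (U : UH H)
    (hU : (U : H →L[ℂ] H) = D * I.blk A (exp ((I.X * I.Z) * ((1 / 2 : ℂ) • F)))) :
    I.eV U = I.P Aᶜ (I.Z I.Om) + I.P A (I.Z (cosO F I.Om) - sinO F I.Om) := by
  have hRF : Commute (I.X * I.Z) F := (hFs xM).mul_left (hFs zM)
  set G : H →L[ℂ] H := (I.X * I.Z) * ((1 / 2 : ℂ) • F) with hG
  have hF2 : star ((1 / 2 : ℂ) • F) = (1 / 2 : ℂ) • F := by
    rw [star_smul, hF]
    congr 1
    simp
  have hGs : star G = -G := by
    rw [hG, star_mul, hF2, star_XZ, mul_neg]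
    congr 1
    exact ((hRF.smul_right _).eq).symm
  have hZG : I.Z * G = -G * I.Z := by
    have h1 : I.Z * (I.X * I.Z) = -(I.X * I.Z) * I.Z := by
      rw [← mul_assoc, Z_X]
    have h2 : Commute I.Z ((1 / 2 : ℂ) • F) := (hFs zM).smul_right _
    rw [hG, ← mul_assoc, h1, mul_assoc, h2.eq, ← mul_assoc, neg_mul]
  have hGG : G + G = (I.X * I.Z) * F := by
    rw [hG, ← mul_add, ← add_smul]
    norm_num
  have hE := FE.alg_final (A := G) (Z := I.Z) (D := 1) hGs hZG (by simp) (Commute.one_left _)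
  rw [one_mul, hGG] at hE
  -- commutation with the projections
  have hPG : Commute (I.P A) G := ((I.P_sg A xM hA).mul_right (I.P_sg A zM hA)).mul_right
    (hFP.smul_right _)
  have hPE : Commute (I.P A) (exp G) := by
    have := exp_semiconj (A := G) (B := G) (P := I.P A) hPG.eq.symm
    exact this.symm
  have hPE' : Commute (I.P A) (star (exp G)) := by
    have h1 := congrArg star hPE.eq
    rw [star_mul, star_mul, I.P_star A hA] at h1
    exact h1.symm
  have hmain : star (U : H →L[ℂ] H) * (I.Z * (U : H →L[ℂ] H)) =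
      I.P Aᶜ * I.Z + I.P A * (I.Z * exp ((I.X * I.Z) * F)) := by
    have h1 : star (I.blk A (exp G)) = I.blk A (star (exp G)) := ILSys.star_blk hA hPE'
    have hPc : ∀ B : H →L[ℂ] H, Commute (I.P A) B → Commute (I.P Aᶜ) B := by
      intro B hB
      have e : I.P Aᶜ = 1 - I.P A := by rw [← ILSys.P_compl_add hA]; abel
      rw [e]
      exact (Commute.one_left _).sub_left hB
    have hPZ : Commute (I.P A) I.Z := ILSys.P_Z hA
    have e12 : I.P Aᶜ * I.P A = 0 := ILSys.P_disj hA.compl hA disjoint_compl_left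
    have e21 : I.P A * I.P Aᶜ = 0 := ILSys.P_disj hA hA.compl disjoint_compl_right
    have eAA : I.P A * I.P A = I.P A := ILSys.P_sq hA
    have ecc : I.P Aᶜ * I.P Aᶜ = I.P Aᶜ := ILSys.P_sq hA.compl
    calc star (U : H →L[ℂ] H) * (I.Z * (U : H →L[ℂ] H))
        = star (I.blk A (exp G)) * star D * ((I.Z * D) * I.blk A (exp G)) := by
          rw [hU, star_mul]; simp only [mul_assoc]
      _ = star (I.blk A (exp G)) * (star D * D) * (I.Z * I.blk A (exp G)) := by
          rw [← hDZ.eq]; simp only [mul_assoc]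
      _ = I.blk A (star (exp G)) * (I.Z * I.blk A (exp G)) := by rw [hD, mul_one, h1]
      _ = I.P Aᶜ * I.Z + I.P A * (star (exp G) * (I.Z * exp G)) := by
          unfold ILSys.blk
          have t1 : I.P Aᶜ * (I.Z * I.P Aᶜ) = I.P Aᶜ * I.Z := by
            rw [← (hPc _ hPZ).eq, ← mul_assoc, ecc]
          have t2 : I.P Aᶜ * (I.Z * (I.P A * exp G)) = 0 := by
            rw [← mul_assoc I.Z, ← hPZ.eq, mul_assoc, ← mul_assoc, e12, zero_mul]
          have t3 : I.P A * star (exp G) * (I.Z * I.P Aᶜ) = 0 := by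
            rw [← (hPc _ hPZ).eq, ← mul_assoc, mul_assoc (I.P A), ← (hPc _ hPE').eq, ← mul_assoc,
              e21, zero_mul, zero_mul]
          have t4 : I.P A * star (exp G) * (I.Z * (I.P A * exp G)) =
              I.P A * (star (exp G) * (I.Z * exp G)) := by
            rw [← mul_assoc I.Z, ← hPZ.eq, mul_assoc (I.P A) I.Z, ← mul_assoc, mul_assoc (I.P A),
              ← hPE'.eq, ← mul_assoc (I.P A), eAA, mul_assoc]
          rw [mul_add, add_mul, mul_add, mul_add, t1, t2, t3, t4]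
          abel
      _ = _ := by rw [hE]
  have h2 : I.eV U = (I.P Aᶜ * I.Z + I.P A * (I.Z * exp ((I.X * I.Z) * F))) I.Om := by
    rw [← hmain]; rfl
  rw [h2, exp_euler XZ_sq hRF]
  have h3 : I.Z * (cosO F + (I.X * I.Z) * sinO F) = I.Z * cosO F - I.X * sinO F := by
    have e1 : I.Z * (I.X * I.Z) = -I.X := by
      rw [← mul_assoc, Z_X, neg_mul, mul_assoc, ILSys.Z_mul_Z, mul_one]
    rw [mul_add, ← mul_assoc I.Z, e1, neg_mul, sub_eq_add_neg]
  have h4 : I.X * sinO F = sinO F * I.X := by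
    have hc : ∀ z : ℂ, Commute I.X (exp (z • F)) := by
      intro z
      have := exp_semiconj (A := z • F) (B := z • F) (P := I.X) (((hFs xM).smul_right z).eq.symm)
      exact this.symm
    exact (((hc _).sub_right (hc _)).smul_right _).eq
  change (I.P Aᶜ * I.Z + I.P A * (I.Z * (cosO F + (I.X * I.Z) * sinO F))) I.Om = _
  rw [h3, h4]
  have e2 : I.X I.Om = I.Om := I.Om_X
  show I.P Aᶜ (I.Z I.Om) + I.P A (I.Z (cosO F I.Om) - sinO F (I.X I.Om)) = _
  rw [e2]

open NormedSpace in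
/-- **Final energy in an IL system.** -/
theorem energy_final {m : ℕ} {S : TrigScheme m} {A : Set Λ} (hA : MeasurableSet A)
    (hpos : 0 < I.μ.real A) {l : Fin (m + 1) → H} (h : LabelsIL S I A l)
    (h0 : (⟪I.P Aᶜ (I.Z I.Om), l 0⟫_ℂ).re = 0)
    {D : H →L[ℂ] H} (hD : star D * D = 1) (hDZ : Commute D I.Z) (U : UH H)
    (hU : (U : H →L[ℂ] H) =
      D * I.blk A (exp ((I.X * I.Z) * ((1 / 2 : ℂ) • fldI I l S.Th)))) :
    I.energy U = I.μ.real A * Real.sqrt (I.μ.real A) * S.value := by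
  have hG := h.realGram hA hpos
  have he := eV_final hA (star_fldI S.Th) (fun M => sg_fldI M S.Th) (P_fldI hA S.Th) hD hDZ U hU
  set e := I.eV U with hedef
  set F := fldI I l S.Th with hF
  -- the `X = 1` component
  have hcos : I.X (cosO F I.Om) = cosO F I.Om := by
    have hc : ∀ z : ℂ, Commute I.X (exp (z • F)) := by
      intro z
      have := exp_semiconj (A := z • F) (B := z • F) (P := I.X)
        (((sg_fldI (I := I) (l := l) xM S.Th).smul_right z).eq.symm)
      exact this.symm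
    have h4 : I.X * cosO F = cosO F * I.X := (((hc _).add_right (hc _)).smul_right _).eq
    have e2 : I.X I.Om = I.Om := I.Om_X
    have := congrArg (fun S' : H →L[ℂ] H => S' I.Om) h4
    have h5 : I.X (cosO F I.Om) = cosO F (I.X I.Om) := this
    rw [h5, e2]
  have hP : ∀ v, I.P A (I.Z v) = I.Z (I.P A v) := fun v =>
    congrArg (fun S' : H →L[ℂ] H => S' v) (ILSys.P_Z hA).eq
  have hPc : ∀ v, I.P Aᶜ (I.Z v) = I.Z (I.P Aᶜ v) := fun v =>
    congrArg (fun S' : H →L[ℂ] H => S' v) (ILSys.P_Z hA.compl).eq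
  have hXP : ∀ v, I.X v = v → I.X (I.P A v) = I.P A v := by
    intro v hv
    have := congrArg (fun S' : H →L[ℂ] H => S' v) (ILSys.P_X (I := I) hA).eq
    have h5 : I.P A (I.X v) = I.X (I.P A v) := this
    rw [← h5, hv]
  have hXPc : I.X (I.P Aᶜ I.Om) = I.P Aᶜ I.Om := by
    have := congrArg (fun S' : H →L[ℂ] H => S' I.Om) (ILSys.P_X (I := I) hA.compl).eq
    have h5 : I.P Aᶜ (I.X I.Om) = I.X (I.P Aᶜ I.Om) := this
    have e2 : I.X I.Om = I.Om := I.Om_X
    rw [← h5, e2]
  have hleft : ∀ g, ⟪e, I.one g⟫_ℂ = -⟪I.P A (sinO F I.Om), I.one g⟫_ℂ := by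
    intro g
    rw [he, inner_add_left, map_sub, inner_sub_left, hP, hPc, inner_Z_one hXPc,
      inner_Z_one (hXP _ hcos)]
    ring
  have hone := inner_one_sin (I := I) hG hA S.Th e
  have hsw : ⟪I.P A (sinO F I.Om), I.one e⟫_ℂ = (starRingEnd ℂ) ⟪I.one e, I.P A (sinO F I.Om)⟫_ℂ :=
    (inner_conj_symm _ _).symm
  -- inner products of `e` with the labels
  have hj : ∀ j : Fin m, ⟪e, l j.succ⟫_ℂ =
      ((-(Real.sqrt (I.μ.real A) * ∫ x, S.msg j x * S.out x ∂gl S.Q) : ℝ) : ℂ) := by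
    intro j
    have g1 : ⟪I.P A (fldI I l (S.T j) I.Om), e⟫_ℂ =
        ((-(I.μ.real A * ∫ x, S.msg j x * S.out x ∂gl S.Q) : ℝ) : ℂ) := by
      have hX' : I.X (I.P A (fldI I l (S.T j) I.Om)) = I.P A (fldI I l (S.T j) I.Om) := by
        refine hXP _ ?_
        have := congrArg (fun S' : H →L[ℂ] H => S' I.Om) (sg_fldI (I := I) (l := l) xM (S.T j)).eq
        have h5 : I.X (fldI I l (S.T j) I.Om) = fldI I l (S.T j) (I.X I.Om) := this
        have e2 : I.X I.Om = I.Om := I.Om_X
        rw [h5, e2]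
      have hXZ0 : ∀ v w : H, I.X v = v → I.X w = w → ⟪v, I.Z w⟫_ℂ = 0 := by
        intro v w hv hw
        have t1 : ⟪v, I.Z w⟫_ℂ = ⟪v, I.X (I.Z w)⟫_ℂ := by
          rw [← inner_X_left, hv]
        have t2 : I.X (I.Z w) = -(I.Z w) := by
          have e : (I.X * I.Z) w = -((I.Z * I.X) w) := by rw [Z_X]; simp
          have e2 : (I.Z * I.X) w = I.Z w := by
            show I.Z (I.X w) = I.Z w
            rw [hw]
          rw [e2] at e
          exact e
        rw [t2, inner_neg_right] at t1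
        have : (2 : ℂ) * ⟪v, I.Z w⟫_ℂ = 0 := by linear_combination t1
        simpa using this
      rw [he, inner_add_right, map_sub, inner_sub_right, hPc, hP, hXZ0 _ _ hX' hXPc,
        hXZ0 _ _ hX' (hXP _ hcos), ← inner_P_left hA]
      have e1 : I.P A (I.P A (fldI I l (S.T j) I.Om)) = I.P A (fldI I l (S.T j) I.Om) :=
        congrArg (fun S' : H →L[ℂ] H => S' (fldI I l (S.T j) I.Om)) (ILSys.P_sq hA)
      rw [e1, hF, inner_fldI_sin hG hA, zero_add, zero_sub, Complex.ofReal_neg]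
      rfl
    rw [h.succ j, inner_smul_right, ← inner_conj_symm, g1, Complex.conj_ofReal,
      ← Complex.ofReal_mul]
    congr 1
    have e3 : (Real.sqrt (I.μ.real A))⁻¹ * I.μ.real A = Real.sqrt (I.μ.real A) := by
      rw [inv_mul_eq_div, Real.div_sqrt]
    linear_combination (-∫ x, S.msg j x * S.out x ∂gl S.Q) * e3
  have h00 : (⟪e, l 0⟫_ℂ).re = 0 := by
    rw [he, inner_add_left, Complex.add_re, h0, ← inner_conj_symm, h.orth0]
    simp
  unfold ILSys.energy
  rw [← hedef, hleft, hsw, Complex.neg_re, Complex.conj_re, hone, Complex.re_ofReal_mul,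
    Complex.re_sum, Fin.sum_univ_succ]
  rw [mul_comm ⟪e, l 0⟫_ℂ, Complex.re_ofReal_mul, h00, mul_zero, zero_add]
  simp_rw [hj, ← Complex.ofReal_mul, Complex.ofReal_re]
  unfold TrigScheme.value
  rw [Finset.mul_sum, Finset.mul_sum, ← Finset.sum_neg_distrib]
  refine Finset.sum_congr rfl fun j _ => ?_
  have : ∫ x, Real.cos (S.Th.ev x) * S.Th.d j.succ x ∂gl S.Q = ∫ x, S.dout j.succ x ∂gl S.Q := rfl
  rw [this]
  ring

/-! ### Existence of the labels -/

/-- one step of the construction of the labels -/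
def labStep {m : ℕ} (S : TrigScheme m) (I : ILSys Λ H) (A : Set Λ) (s : H) (l : Fin (m + 1) → H) :
    Fin (m + 1) → H := Fin.cons s fun j =>
      (((Real.sqrt (I.μ.real A))⁻¹ : ℝ) : ℂ) • I.P A (fldI I l (S.T j) I.Om)

theorem labStep_zero {m : ℕ} (S : TrigScheme m) (A : Set Λ) (s : H)
    (l : Fin (m + 1) → H) : labStep S I A s l 0 = s := rfl

theorem labStep_succ {m : ℕ} (S : TrigScheme m) (A : Set Λ) (s : H)
    (l : Fin (m + 1) → H) (j : Fin m) : labStep S I A s l j.succ =
      (((Real.sqrt (I.μ.real A))⁻¹ : ℝ) : ℂ) • I.P A (fldI I l (S.T j) I.Om) := rfl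

theorem labStep_agree {m : ℕ} (S : TrigScheme m) (A : Set Λ) (s : H) (n : ℕ)
    {l l' : Fin (m + 1) → H} (h : ∀ i : Fin (m + 1), (i : ℕ) < n → l i = l' i)
    (i : Fin (m + 1)) (hi : (i : ℕ) < n + 1) : labStep S I A s l i = labStep S I A s l' i := by
  induction i using Fin.cases with
  | zero => rw [labStep_zero, labStep_zero]
  | succ j =>
    rw [Fin.val_succ] at hi
    rw [labStep_succ, labStep_succ]
    have e : fldI I l (S.T j) = fldI I l' (S.T j) := by
      refine fldI_congr (S.T j) fun k i hi' => ?_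
      refine h i ?_
      by_contra hc
      refine hi' (S.causal j k i ?_)
      rw [Fin.lt_def, Fin.val_castSucc]
      omega
    rw [e]

theorem labStep_iterate_agree {m : ℕ} (S : TrigScheme m) (A : Set Λ) (s : H) (n : ℕ)
    (l l' : Fin (m + 1) → H) : ∀ i : Fin (m + 1), (i : ℕ) < n →
      (labStep S I A s)^[n] l i = (labStep S I A s)^[n] l' i := by
  induction n with
  | zero => intro i hi; exact absurd hi (Nat.not_lt_zero _)
  | succ n ih =>
    intro i hi
    rw [Function.iterate_succ_apply', Function.iterate_succ_apply']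
    exact labStep_agree S A s n ih i hi

/-- the labels exist -/
theorem exists_labelsIL {m : ℕ} (S : TrigScheme m) (I : ILSys Λ H) (A : Set Λ) {s : H}
    (hs : ‖s‖ = 1) (hs0 : ∀ v, ⟪s, I.P A v⟫_ℂ = 0) :
    ∃ l : Fin (m + 1) → H, l 0 = s ∧ LabelsIL S I A l := by
  obtain ⟨l, hl⟩ : ∃ l : Fin (m + 1) → H, labStep S I A s l = l := by
    refine ⟨(labStep S I A s)^[m + 1] 0, ?_⟩
    rw [← Function.iterate_succ_apply' (labStep S I A s), Function.iterate_succ_apply]
    funext i
    exact labStep_iterate_agree S A s (m + 1) _ _ i i.2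
  have h0 : l 0 = s := by
    have := congrFun hl 0
    rw [← this]; rfl
  refine ⟨l, h0, ⟨?_, fun v => ?_, fun j => ?_⟩⟩
  · rw [h0]; exact hs
  · rw [h0]; exact hs0 v
  · have := congrFun hl j.succ
    rw [← this]; rfl

end Crest.Agent.R339.FEIL
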