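import Crest.Agent.R339.FEIL716c
import Crest.Agent.R339.Li728C

/-!
# Row 339, part (C), block LI: the last step of the label induction

If the pure label gates of all the labels of a scheme are available, then the energy
`μ(A)^{3/2} * value` is reached.
-/

set_option autoImplicit false
set_option linter.unusedSectionVars false

noncomputable section

open scoped ComplexConjugate InnerProductSpace Topology
open Filter MeasureTheory
open Crest.Agent.R339.Li

namespace Crest.Agent.R339.FEIL

open Crest.Agent.R339.Trig (gl TP TrigScheme)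
open Crest.Agent.R339.FE (lc lc_add lc_neg lc_zero RealGram)

variable {Λ H : Type*} [MeasurableSpace Λ] [NormedAddCommGroup H] [InnerProductSpace ℂ H]
  [CompleteSpace H] {I : ILSys Λ H}
variable {J : Type*} [Fintype J] [DecidableEq J] {l : J → H} {Q : Matrix J J ℝ}

theorem snW_eq (f : H) : snW I f = I.sW f := by
  unfold snW ILSys.sW
  rw [neg_div]

theorem fldI_eq (T : TP J) : fldI I l T = ∑ k, (T.c k : ℂ) • I.sW (lc l (T.a k)) := by
  unfold fldI
  exact Finset.sum_congr rfl fun k _ => by rw [snW_eq]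

/-- the scheme with the opposite final angle -/
def negTh {m : ℕ} (S : TrigScheme m) : TrigScheme m where
  T := S.T
  Th := ⟨S.Th.N, fun k => -S.Th.c k, S.Th.a⟩
  causal := S.causal

theorem negTh_ev {m : ℕ} (S : TrigScheme m) (x : Fin (m + 1) → ℝ) :
    (negTh S).Th.ev x = -S.Th.ev x := by
  unfold negTh TP.ev
  simp only [neg_mul, Finset.sum_neg_distrib]

theorem negTh_d {m : ℕ} (S : TrigScheme m) (j : Fin (m + 1)) (x : Fin (m + 1) → ℝ) :
    (negTh S).Th.d j x = -S.Th.d j x := by
  unfold negTh TP.d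
  simp only [neg_mul, Finset.sum_neg_distrib]

theorem negTh_value {m : ℕ} (S : TrigScheme m) : (negTh S).value = S.value := by
  unfold TrigScheme.value
  refine Finset.sum_congr rfl fun j _ => ?_
  have hQ : (negTh S).Q = S.Q := rfl
  have h1 : ∀ x, (negTh S).dout j.succ x = -S.dout j.succ x := by
    intro x
    unfold TrigScheme.dout
    rw [negTh_ev, negTh_d, Real.cos_neg, mul_neg]
  have h2 : ∀ x, (negTh S).msg j x * (negTh S).out x = -(S.msg j x * S.out x) := by
    intro x
    unfold TrigScheme.out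
    rw [negTh_ev, Real.sin_neg, mul_neg]
    rfl
  simp_rw [h1, h2, hQ, integral_neg]
  ring

theorem fldI_negTh {m : ℕ} (S : TrigScheme m) (l : Fin (m + 1) → H) :
    fldI I l (negTh S).Th = -fldI I l S.Th := by
  unfold fldI negTh
  simp only [Complex.ofReal_neg, neg_smul, Finset.sum_neg_distrib]

/-- exponential of a block generator -/
theorem exp_blk {A : Set Λ} (hA : MeasurableSet A) {G : H →L[ℂ] H} (hG : Commute (I.P A) G) :
    NormedSpace.exp (I.P A * G) = I.blk A (NormedSpace.exp G) := by
  have e12 : I.P A * I.P Aᶜ = 0 := ILSys.P_disj hA hA.compl disjoint_compl_right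
  have h1 : NormedSpace.exp (I.P A * G) * I.P A = I.P A * NormedSpace.exp G := by
    refine exp_semiconj ?_
    rw [mul_assoc, ← hG.eq, ← mul_assoc, ILSys.P_sq hA]
  have h2 : NormedSpace.exp (I.P A * G) * I.P Aᶜ = I.P Aᶜ * NormedSpace.exp 0 := by
    refine exp_semiconj ?_
    have hGc : Commute (I.P Aᶜ) G := by
      have e : I.P Aᶜ = 1 - I.P A := by rw [← ILSys.P_compl_add hA]; abel
      rw [e]
      exact (Commute.one_left _).sub_left hG
    rw [mul_zero, mul_assoc, ← hGc.eq, ← mul_assoc, e12, zero_mul]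
  rw [NormedSpace.exp_zero, mul_one] at h2
  calc NormedSpace.exp (I.P A * G) = NormedSpace.exp (I.P A * G) * (I.P Aᶜ + I.P A) := by
        rw [ILSys.P_compl_add hA, mul_one]
    _ = _ := by rw [mul_add, h1, h2]; rfl

open ILSys in
/-- **Last step of the label induction.** -/
theorem final_step {m : ℕ} {S : TrigScheme m} {R A : Set Λ} {L : Set H} {c : ℝ} (hA : I.Cl A)
    (hAR : A ⊆ R) (hpos : 0 < I.μ.real A) {l : Fin (m + 1) → H} (h : LabelsIL S I A l)
    (hl : ∀ j, l j ∈ L) (hL : RealSet L) (h0 : (⟪I.P Aᶜ (I.Z I.Om), l 0⟫_ℂ).re = 0)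
    (hgood : I.Good R L c 1) : I.μ.real A * Real.sqrt (I.μ.real A) * S.value ≤ c := by
  have hm := I.Cl_meas A hA
  have := I.nontriv
  have hspan : ∀ a : Fin (m + 1) → ℝ, lc l a ∈ Submodule.span ℝ L := by
    intro a
    unfold lc
    refine Submodule.sum_mem _ fun j _ => ?_
    rw [Complex.coe_smul]
    exact Submodule.smul_mem _ _ (Submodule.subset_span (hl j))
  set G : H →L[ℂ] H := ∑ k, (S.Th.c k / 2) •
    (Complex.I • (I.P A * (I.Y * I.sW (lc l (S.Th.a k))))) with hG
  have hGL : G ∈ I.LG R L c := by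
    refine Trot.sum_mem_lieOf (isClosed_GP R L c) _ _ fun k _ => ?_
    exact Trot.smul_mem_lieOf (Ys_mem_LG hL hA hAR (hspan _)) _
  have hGe : G = I.P A * ((I.X * I.Z) * ((1 / 2 : ℂ) • fldI I l (negTh S).Th)) := by
    have hY : Complex.I • I.Y = -(I.X * I.Z) := by
      unfold ILSys.Y
      rw [smul_smul, ILSys.Z_X]
      have : Complex.I * -Complex.I = 1 := by
        have := Complex.I_mul_I
        linear_combination -this
      rw [this, one_smul]
    rw [hG, fldI_negTh, fldI_eq, smul_neg, mul_neg, Finset.smul_sum, Finset.mul_sum,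
      ← Finset.sum_neg_distrib, Finset.mul_sum]
    refine Finset.sum_congr rfl fun k _ => ?_
    have e1 : Complex.I • (I.P A * (I.Y * I.sW (lc l (S.Th.a k)))) =
        -(I.P A * ((I.X * I.Z) * I.sW (lc l (S.Th.a k)))) := by
      rw [← mul_smul_comm, ← smul_mul_assoc, hY, neg_mul, mul_neg]
    rw [e1, ← Complex.coe_smul]
    simp only [mul_smul_comm, mul_neg, smul_neg, smul_smul]
    congr 2
    push_cast
    ring
  have hexp := hGL 1
  rw [one_smul] at hexp
  have hcomm : Commute (I.P A) ((I.X * I.Z) * ((1 / 2 : ℂ) • fldI I l (negTh S).Th)) :=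
    ((P_X hm).mul_right (P_Z hm)).mul_right ((P_fldI hm _).smul_right _)
  obtain ⟨hu, hpres⟩ := hexp
  have h1 := hpres 1 hgood
  rw [mul_one] at h1
  have h2 := h1.energy_le
  have h' : LabelsIL (negTh S) I A l := ⟨h.norm0, h.orth0, h.succ⟩
  have h3 := energy_final (I := I) hm hpos h' h0 (D := 1) (by simp) (Commute.one_left _)
    ⟨NormedSpace.exp G, hu⟩ (by
      rw [one_mul]
      show NormedSpace.exp G = _
      rw [hGe, exp_blk hm hcomm])
  rw [h3, negTh_value] at h2
  exact h2

end Crest.Agent.R339.FEIL
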