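import Crest.Agent.R339.B107GC2

/-!
R339 (B): `heatGW` and `gclass` live in `B107GC2.lean`; this file only re-exports them.
-/
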