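import Crest.Agent.R339.GUp

/-!
# Row 339, part (A): lower bound for the scalar tree, and a law of large numbers
-/

set_option autoImplicit false

namespace Crest.Agent.R339.Guerra

open MeasureTheory ProbabilityTheory Real

noncomputable section

/-! ### the scalar Gaussian tree -/

def JA (N : ℕ) : Lev → Type
  | [] => Empty
  | _ :: ℓ => Fin N ⊕ (Fin N × JA N ℓ)

instance JA.fintype (N : ℕ) : ∀ ℓ, Fintype (JA N ℓ)
  | [] => inferInstanceAs (Fintype Empty)
  | _ :: ℓ => letI := JA.fintype N ℓ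
    inferInstanceAs (Fintype (Fin N ⊕ (Fin N × JA N ℓ)))

instance JA.deceq (N : ℕ) : ∀ ℓ, DecidableEq (JA N ℓ)
  | [] => inferInstanceAs (DecidableEq Empty)
  | _ :: ℓ => letI := JA.deceq N ℓ
    inferInstanceAs (DecidableEq (Fin N ⊕ (Fin N × JA N ℓ)))

/-- variance of one scalar increment -/
def vv (n : ℕ) (q δ : ℝ) : ℝ := (n / 2 : ℝ) * ((q + δ) ^ 2 - q ^ 2)

/-- coefficients of the scalar field -/
def Am {N : ℕ} {S : Type} (n : ℕ) : ∀ (ℓ : Lev) (_ : ℝ), Idx N S ℓ → JA N ℓ → ℝ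
  | [], _, _, _ => 0
  | x :: _, q, a, Sum.inl j => if a.1 = j then Real.sqrt (vv n q x.2) else 0
  | x :: ℓ, q, a, Sum.inr j => if a.1 = j.1 then Am n ℓ (q + x.2) a.2 j.2 else 0

theorem lin_Am_cons {N n : ℕ} {S : Type} [Fintype S] (x : ℝ × ℝ) (ℓ : Lev) (q : ℝ)
    (g : JA N (x :: ℓ) → ℝ) (c : Fin N) (a : Idx N S ℓ) :
    lin (Am n (x :: ℓ) q) g ((c, a) : Fin N × Idx N S ℓ) =
      Real.sqrt (vv n q x.2) * g (Sum.inl c) +
        lin (Am n ℓ (q + x.2)) (fun j => g (Sum.inr (c, j))) a := by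
  unfold lin
  have e : ∑ j : JA N (x :: ℓ), Am n (x :: ℓ) q ((c, a) : Fin N × Idx N S ℓ) j * g j =
    ∑ j : Fin N ⊕ (Fin N × JA N ℓ),
      Am n (x :: ℓ) q ((c, a) : Fin N × Idx N S ℓ) j * g j := rfl
  rw [e, Fintype.sum_sum_type, Fintype.sum_prod_type]
  congr 1
  · rw [Finset.sum_eq_single c]
    · simp only [Am, if_true]
    · intro c' _ hc
      simp only [Am]
      rw [if_neg (Ne.symm hc)]; ring
    · intro h; exact absurd (Finset.mem_univ _) h
  · rw [Finset.sum_eq_single c]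
    · refine Finset.sum_congr rfl fun i _ => ?_
      simp only [Am, if_true]
    · intro c' _ hc
      refine Finset.sum_eq_zero fun i _ => ?_
      simp only [Am]
      rw [if_neg (Ne.symm hc)]; ring
    · intro h; exact absurd (Finset.mem_univ _) h

theorem W_shift {β : ℝ} (hβ : 0 < β) {N : ℕ} (hN : 0 < N) {S : Type} [Fintype S]
    [DecidableEq S] [Nonempty S] :
    ∀ (ℓ : Lev), Good β ℓ → ∀ (h : Idx N S ℓ → ℝ) (t : ℝ),
      W β ℓ (fun a => t + h a) = Real.exp (mh β ℓ * t) * W β ℓ h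
  | [], _, h, t => by
    simp only [W, mh]
    rw [Finset.mul_sum]
    refine Finset.sum_congr rfl fun a _ => ?_
    rw [← Real.exp_add, mul_add]
  | x :: ℓ, hG, h, t => by
    obtain ⟨hm, hmm, hδ, hG'⟩ := hG
    have hm2 := mh_pos hβ hG'
    have hcls := inCls_W hβ hN (S := S) ℓ hG'
    have ih : ∀ c : Fin N, W β ℓ (fun a => t + h ((c, a) : Fin N × Idx N S ℓ)) =
      Real.exp (mh β ℓ * t) * W β ℓ (fun a => h ((c, a) : Fin N × Idx N S ℓ)) := fun c =>
      W_shift hβ hN ℓ hG' _ t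
    simp only [W, ih]
    have e : ∀ c : Fin N, (Real.exp (mh β ℓ * t) *
        W β ℓ (fun a => h ((c, a) : Fin N × Idx N S ℓ))) ^ (x.1 / mh β ℓ) =
        Real.exp (x.1 * t) * (W β ℓ (fun a => h ((c, a) : Fin N × Idx N S ℓ))) ^
          (x.1 / mh β ℓ) := by
      intro c
      rw [Real.mul_rpow (Real.exp_pos _).le (hcls.pos _).le, ← Real.exp_mul]
      congr 2
      field_simp
    simp only [e]
    rw [← Finset.mul_sum]
    simp only [mh]
    ring

/-- the single level functional -/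
def lam (N : ℕ) (m v : ℝ) : ℝ :=
  ∫ y, (1 / m) * Real.log ((1 / (N:ℝ)) * ∑ c : Fin N, Real.exp (m * (Real.sqrt v * y c)))
    ∂(G (Fin N))

def lamSum (n N : ℕ) : Lev → ℝ → ℝ
  | [], _ => 0
  | x :: ℓ, q => lam N x.1 (vv n q x.2) + lamSum n N ℓ (q + x.2)

/-- convexity of `V ↦ log avg exp` -/
theorem logavg_ge {N : ℕ} (hN : 0 < N) {m : ℝ} (hm : 0 < m) (s V : Fin N → ℝ) :
    (1 / m) * Real.log ((1 / (N:ℝ)) * ∑ c, Real.exp (m * s c)) +
      ∑ c, (Real.exp (m * s c) / ∑ c', Real.exp (m * s c')) * V c ≤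
    (1 / m) * Real.log ((1 / (N:ℝ)) * ∑ c, Real.exp (m * (s c + V c))) := by
  have : Nonempty (Fin N) := ⟨⟨0, hN⟩⟩
  have hN' : (0:ℝ) < N := by exact_mod_cast hN
  set Z := ∑ c', Real.exp (m * s c') with hZ
  have hZp : 0 < Z := Finset.sum_pos (fun a _ => Real.exp_pos _) Finset.univ_nonempty
  set w : Fin N → ℝ := fun c => Real.exp (m * s c) / Z with hw
  have hw0 : ∀ c ∈ Finset.univ, 0 ≤ w c := fun c _ => by positivity
  have hw1 : ∑ c, w c = 1 := by
    rw [← Finset.sum_div]; exact div_self hZp.ne'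
  have hj := convexOn_exp.map_sum_le (t := Finset.univ) (w := w) (p := fun c => m * V c)
    hw0 hw1 (fun _ _ => Set.mem_univ _)
  simp only [smul_eq_mul] at hj
  have h1 : Z * Real.exp (m * ∑ c, w c * V c) ≤ ∑ c, Real.exp (m * (s c + V c)) := by
    calc Z * Real.exp (m * ∑ c, w c * V c) = Z * Real.exp (∑ c, w c * (m * V c)) := by
          rw [Finset.mul_sum]
          congr 2
          refine Finset.sum_congr rfl fun c _ => by ring
      _ ≤ Z * ∑ c, w c * Real.exp (m * V c) := mul_le_mul_of_nonneg_left hj hZp.le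
      _ = ∑ c, Real.exp (m * (s c + V c)) := by
          rw [Finset.mul_sum]
          refine Finset.sum_congr rfl fun c _ => ?_
          rw [mul_add, Real.exp_add]
          simp only [hw]
          field_simp
  have h2 : (1 / (N:ℝ)) * Z * Real.exp (m * ∑ c, w c * V c) ≤
      (1 / (N:ℝ)) * ∑ c, Real.exp (m * (s c + V c)) := by
    rw [mul_assoc]
    exact mul_le_mul_of_nonneg_left h1 (by positivity)
  have h3 := Real.log_le_log (by positivity) h2
  rw [Real.log_mul (by positivity) (Real.exp_pos _).ne', Real.log_exp] at h3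
  have h4 := mul_le_mul_of_nonneg_left h3 (by positivity : 0 ≤ 1 / m)
  have e : 1 / m * (Real.log (1 / (N:ℝ) * Z) + m * ∑ c, w c * V c) =
    1 / m * Real.log (1 / (N:ℝ) * Z) + ∑ c, w c * V c := by field_simp
  rw [e] at h4
  exact h4

theorem integrable_logavg {N : ℕ} (hN : 0 < N) {m : ℝ} (hm : 0 < m) (v : ℝ) :
    Integrable (fun y : Fin N → ℝ => (1 / m) * Real.log ((1 / (N:ℝ)) *
      ∑ c : Fin N, Real.exp (m * (Real.sqrt v * y c)))) (G (Fin N)) := by
  have : Nonempty (Fin N) := ⟨⟨0, hN⟩⟩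
  have hN' : (0:ℝ) < N := by exact_mod_cast hN
  have h1 := (inCls_base (I := Fin N) m hm).integrable_log (ι := Fin N) (fun _ => 0)
    (fun a j => if a = j then Real.sqrt v else 0)
  have h2 := ((integrable_const (Real.log (1 / (N:ℝ)))).add h1).const_mul (1 / m)
  refine h2.congr (Filter.Eventually.of_forall fun y => ?_)
  simp only [Pi.add_apply]
  have e : ∀ c, lin (fun a j : Fin N => if a = j then Real.sqrt v else 0) y c =
      Real.sqrt v * y c := by
    intro c; simp [lin]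
  simp only [e, zero_add]
  rw [Real.log_mul (by positivity)
    (Finset.sum_pos (fun a _ => Real.exp_pos _) Finset.univ_nonempty).ne']

/-- the lower bound for the scalar tree -/
theorem lower {β : ℝ} (hβ : 0 < β) {N n : ℕ} (hN : 0 < N) {S : Type} [Fintype S]
    [DecidableEq S] [Nonempty S] (u : S → ℝ) : ∀ (ℓ : Lev), Good β ℓ → ∀ q : ℝ,
    (1 / β) * Real.log (∑ a, Real.exp (β * u a)) + lamSum n N ℓ q ≤
    ∫ g, (1 / mh β ℓ) * Real.log (W β ℓ (fun a : Idx N S ℓ => u (leaf ℓ a) +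
      lin (Am n ℓ q) g a)) ∂(G (JA N ℓ))
  | [], _, q => by
    have h1 : ∀ g : JA N [] → ℝ, W β [] (fun a : Idx N S [] =>
        u (leaf [] a) + lin (Am n [] q) g a) = ∑ a, Real.exp (β * u a) := by
      intro g
      simp only [W]
      refine Finset.sum_congr rfl fun a _ => ?_
      congr 2
      have : lin (Am (N := N) (S := S) n [] q) g a = 0 := by
        unfold lin
        refine Finset.sum_eq_zero fun j _ => ?_
        exact (show Empty from j).elim
      rw [this, add_zero]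
      rfl
    simp only [h1, mh, lamSum, add_zero]
    rw [integral_const]
    simp
  | lv :: ℓ, hG, q => by
    obtain ⟨hm, hmm, hδ, hG'⟩ := hG
    have hm2 := mh_pos hβ hG'
    have hN' : (0:ℝ) < N := by exact_mod_cast hN
    have hcls := inCls_W hβ hN (S := S) ℓ hG'
    have hcls1 := inCls_W hβ hN (S := S) (lv :: ℓ) ⟨hm, hmm, hδ, hG'⟩
    have : Nonempty (Fin N) := ⟨⟨0, hN⟩⟩
    set V : (JA N ℓ → ℝ) → ℝ := fun g => (1 / mh β ℓ) * Real.log (W β ℓ
      (fun a : Idx N S ℓ => u (leaf ℓ a) + lin (Am n ℓ (q + lv.2)) g a)) with hV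
    have hVi : Integrable V (G (JA N ℓ)) :=
      (hcls.integrable_log (fun a => u (leaf ℓ a)) (Am n ℓ (q + lv.2))).const_mul _
    -- the function
    set Ψ : ((Fin N ⊕ (Fin N × JA N ℓ)) → ℝ) → ℝ := fun g => (1 / mh β (lv :: ℓ)) *
      Real.log (W β (lv :: ℓ) (fun a : Idx N S (lv :: ℓ) => u (leaf (lv :: ℓ) a) +
      lin (Am n (lv :: ℓ) q) g a)) with hΨ
    have hΨi : Integrable Ψ (G (Fin N ⊕ (Fin N × JA N ℓ))) :=
      (hcls1.integrable_log (ι := Fin N ⊕ (Fin N × JA N ℓ)) (fun a => u (leaf (lv :: ℓ) a))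
        (Am n (lv :: ℓ) q)).const_mul _
    have hΨe : ∀ g, Ψ g = (1 / lv.1) * Real.log ((1 / (N:ℝ)) * ∑ c, Real.exp (lv.1 *
        (Real.sqrt (vv n q lv.2) * g (Sum.inl c) + V (fun j => g (Sum.inr (c, j)))))) := by
      intro g
      have hmhe : mh β (lv :: ℓ) = lv.1 := rfl
      simp only [hΨ, hmhe, W]
      congr 3
      refine Finset.sum_congr rfl fun c _ => ?_
      have e1 : (fun a : Idx N S ℓ => u (leaf (lv :: ℓ) ((c, a) : Fin N × Idx N S ℓ)) +
          lin (Am n (lv :: ℓ) q) g ((c, a) : Fin N × Idx N S ℓ)) =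
          fun a => Real.sqrt (vv n q lv.2) * g (Sum.inl c) + (u (leaf ℓ a) +
            lin (Am n ℓ (q + lv.2)) (fun j => g (Sum.inr (c, j))) a) := by
        ext a
        have e0 := lin_Am_cons (n := n) lv ℓ q (g : JA N (lv :: ℓ) → ℝ) c a
        exact (congrArg (fun z => u (leaf ℓ a) + z) e0).trans (by ring)
      rw [e1, W_shift hβ hN ℓ hG']
      set w := W β ℓ fun a => u (leaf ℓ a) + lin (Am n ℓ (q + lv.2))
        (fun j => g (Sum.inr (c, j))) a with hw
      have hwp : 0 < w := hcls.pos _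
      have e2 : w = Real.exp (mh β ℓ * V (fun j => g (Sum.inr (c, j)))) := by
        simp only [hV, ← hw]
        rw [← mul_assoc, mul_one_div, div_self hm2.ne', one_mul, Real.exp_log hwp]
      rw [e2, ← Real.exp_add, ← Real.exp_mul]
      congr 1
      field_simp
    have hsum := mp_sum (ι := Fin N) (κ := Fin N × JA N ℓ)
    have hgoal : ∫ g, Ψ g ∂(G (Fin N ⊕ (Fin N × JA N ℓ))) =
        ∫ y, ∫ g, Ψ (Sum.elim y g) ∂(G (Fin N × JA N ℓ)) ∂(G (Fin N)) := by
      rw [← mp_int hsum hΨi.aestronglyMeasurable]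
      exact integral_prod _ (hsum.integrable_comp_of_integrable hΨi)
    have hΨi2 : Integrable (fun q : (Fin N → ℝ) × (Fin N × JA N ℓ → ℝ) => Ψ (Sum.elim q.1 q.2))
        ((G (Fin N)).prod (G (Fin N × JA N ℓ))) := hsum.integrable_comp_of_integrable hΨi
    have hmp : ∀ c : Fin N, MeasurePreserving
        (fun (g : (Fin N × JA N ℓ) → ℝ) => fun k => g (c, k))
        (G (Fin N × JA N ℓ)) (G (JA N ℓ)) := fun c => mp_comp (Prod.mk c)
          (Prod.mk_right_injective c)
    have hVc : ∀ c : Fin N, ∫ g : (Fin N × JA N ℓ) → ℝ, V (fun j => g (c, j))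
        ∂(G (Fin N × JA N ℓ)) = ∫ g, V g ∂(G (JA N ℓ)) := fun c =>
      mp_int (hmp c) hVi.aestronglyMeasurable
    have hVci : ∀ c : Fin N, Integrable (fun g : (Fin N × JA N ℓ) → ℝ => V (fun j => g (c, j)))
        (G (Fin N × JA N ℓ)) := fun c => (hmp c).integrable_comp_of_integrable hVi
    have hinner : ∀ᵐ y ∂(G (Fin N)), (1 / lv.1) * Real.log ((1 / (N:ℝ)) *
        ∑ c : Fin N, Real.exp (lv.1 * (Real.sqrt (vv n q lv.2) * y c))) +
        ∫ g, V g ∂(G (JA N ℓ)) ≤ ∫ g, Ψ (Sum.elim y g) ∂(G (Fin N × JA N ℓ)) := by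
      filter_upwards [hΨi2.prod_right_ae] with y hy
      set w : Fin N → ℝ := fun c => Real.exp (lv.1 * (Real.sqrt (vv n q lv.2) * y c)) /
        ∑ c', Real.exp (lv.1 * (Real.sqrt (vv n q lv.2) * y c')) with hw
      have hZp : 0 < ∑ c', Real.exp (lv.1 * (Real.sqrt (vv n q lv.2) * y c')) :=
        Finset.sum_pos (fun a _ => Real.exp_pos _) Finset.univ_nonempty
      have hw1 : ∑ c, w c = 1 := by
        rw [← Finset.sum_div]; exact div_self hZp.ne'
      have e1 : ∫ g : (Fin N × JA N ℓ) → ℝ, ((1 / lv.1) * Real.log ((1 / (N:ℝ)) *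
          ∑ c : Fin N, Real.exp (lv.1 * (Real.sqrt (vv n q lv.2) * y c))) +
          ∑ c, w c * V (fun j => g (c, j))) ∂(G (Fin N × JA N ℓ)) =
          (1 / lv.1) * Real.log ((1 / (N:ℝ)) *
            ∑ c : Fin N, Real.exp (lv.1 * (Real.sqrt (vv n q lv.2) * y c))) +
          ∫ g, V g ∂(G (JA N ℓ)) := by
        rw [integral_add (integrable_const _) (integrable_finsetSum _ fun c _ =>
          (hVci c).const_mul _), integral_finsetSum _ fun c _ => (hVci c).const_mul _]
        simp only [integral_const_mul, hVc]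
        rw [← Finset.sum_mul, hw1]
        simp
      rw [← e1]
      refine integral_mono ((integrable_const _).add (integrable_finsetSum _ fun c _ =>
          (hVci c).const_mul _)) hy fun g => ?_
      simp only
      rw [hΨe]
      exact logavg_ge hN hm _ _
    have hfin : lam N lv.1 (vv n q lv.2) + ∫ g, V g ∂(G (JA N ℓ)) ≤
        ∫ y, ∫ g, Ψ (Sum.elim y g) ∂(G (Fin N × JA N ℓ)) ∂(G (Fin N)) := by
      have e1 : lam N lv.1 (vv n q lv.2) + ∫ g, V g ∂(G (JA N ℓ)) =
          ∫ y : Fin N → ℝ, ((1 / lv.1) * Real.log ((1 / (N:ℝ)) *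
            ∑ c : Fin N, Real.exp (lv.1 * (Real.sqrt (vv n q lv.2) * y c))) +
            ∫ g, V g ∂(G (JA N ℓ))) ∂(G (Fin N)) := by
        rw [integral_add (integrable_logavg hN hm _) (integrable_const _), integral_const]
        simp [lam]
      rw [e1]
      exact integral_mono_ae ((integrable_logavg hN hm _).add (integrable_const _))
        hΨi2.integral_prod_left hinner
    have ih := lower hβ (n := n) hN u ℓ hG' (q + lv.2)
    have hgoal2 : ∫ g, (1 / mh β (lv :: ℓ)) * Real.log (W β (lv :: ℓ)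
        (fun a : Idx N S (lv :: ℓ) => u (leaf (lv :: ℓ) a) +
        lin (Am n (lv :: ℓ) q) g a)) ∂(G (JA N (lv :: ℓ))) =
        ∫ g, Ψ g ∂(G (Fin N ⊕ (Fin N × JA N ℓ))) := rfl
    rw [hgoal2, hgoal]
    simp only [lamSum]
    refine le_trans ?_ hfin
    simp only [hV]
    linarith

/-! ### law of large numbers for one level -/

theorem int_exp_γ (t : ℝ) : ∫ x, Real.exp (t * x) ∂γ = Real.exp (t ^ 2 / 2) := by
  have h := congrFun (mgf_id_gaussianReal (μ := 0) (v := 1)) t
  simp only [mgf, id] at h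
  rw [h]; congr 1; simp

theorem int_exp_coord {N : ℕ} (t : ℝ) (c : Fin N) :
    ∫ y : Fin N → ℝ, Real.exp (t * y c) ∂(G (Fin N)) = Real.exp (t ^ 2 / 2) := by
  rw [← int_exp_γ]
  exact mp_int (measurePreserving_eval (fun _ : Fin N => γ) c)
    (f := fun x => Real.exp (t * x)) (by fun_prop)

/-- convexity: `(avg w)⁻² ≤ avg w⁻²` -/
theorem inv_sq_avg {N : ℕ} (hN : 0 < N) (w : Fin N → ℝ) (hw : ∀ c, 0 < w c) :
    (((1 / (N:ℝ)) * ∑ c, w c)⁻¹) ^ 2 ≤ (1 / (N:ℝ)) * ∑ c, ((w c)⁻¹) ^ 2 := by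
  have : Nonempty (Fin N) := ⟨⟨0, hN⟩⟩
  have hN' : (0:ℝ) < N := by exact_mod_cast hN
  have hcv : ConvexOn ℝ (Set.Ioi (0:ℝ)) (fun x : ℝ => x ^ (-2 : ℤ)) :=
    (convexOn_zpow (-2))
  have hj := hcv.map_sum_le (t := Finset.univ) (w := fun _ : Fin N => 1 / (N:ℝ))
    (p := w) (fun _ _ => by positivity) (by simp [hN'.ne']) (fun c _ => hw c)
  simp only [smul_eq_mul, ← Finset.mul_sum] at hj
  have e : ∀ x : ℝ, x ^ (-2:ℤ) = (x⁻¹) ^ 2 := by
    intro x; rw [zpow_neg, inv_pow]; rfl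
  simp only [e] at hj
  exact hj

theorem lam_ge {m v : ℝ} (hm : 0 < m) (hv : 0 ≤ v) {ε : ℝ} (hε : 0 < ε) :
    ∃ N0 : ℕ, ∀ N : ℕ, N0 ≤ N → 0 < N → m * v / 2 - ε ≤ lam N m v := by
  set s := m * Real.sqrt v with hs
  have hs2 : s ^ 2 = m ^ 2 * v := by rw [hs, mul_pow, Real.sq_sqrt hv]
  set C1 := Real.exp (s ^ 2) with hC1
  set C2 := Real.exp (3 * s ^ 2) with hC2
  have hC1p : 0 < C1 := Real.exp_pos _
  have hC2p : 0 < C2 := Real.exp_pos _
  set t : ℝ := C2 / (ε * m) with ht
  have htp : 0 < t := by positivity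
  obtain ⟨N0, hN0⟩ := exists_nat_gt (t * C1 / (ε * m))
  refine ⟨N0, fun N hN hNpos => ?_⟩
  have : Nonempty (Fin N) := ⟨⟨0, hNpos⟩⟩
  have hN' : (0:ℝ) < N := by exact_mod_cast hNpos
  have hNN : t * C1 / (ε * m) < N := hN0.trans_le (by exact_mod_cast hN)
  set w : Fin N → (Fin N → ℝ) → ℝ := fun c y => Real.exp (s * y c - s ^ 2 / 2) with hw
  have hwp : ∀ c y, 0 < w c y := fun c y => Real.exp_pos _
  have hwe : ∀ c y, w c y = Real.exp (-(s ^ 2 / 2)) * Real.exp (s * y c) := by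
    intro c y; simp only [hw]; rw [← Real.exp_add]; congr 1; ring
  set Sa : (Fin N → ℝ) → ℝ := fun y => (1 / (N:ℝ)) * ∑ c, w c y with hSa
  have hSap : ∀ y, 0 < Sa y := fun y => by
    have : 0 < ∑ c, w c y := Finset.sum_pos (fun a _ => hwp a y) Finset.univ_nonempty
    positivity
  have hwi : ∀ c, Integrable (w c) (G (Fin N)) := fun c =>
    ((integrable_exp_coord s c).const_mul (Real.exp (-(s ^ 2 / 2)))).congr
      (Filter.Eventually.of_forall fun y => (hwe c y).symm)
  have hw1 : ∀ c, ∫ y, w c y ∂(G (Fin N)) = 1 := by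
    intro c
    simp only [hwe]
    rw [integral_const_mul, int_exp_coord, ← Real.exp_add]
    simp
  have hw2e : ∀ c y, (w c y) ^ 2 = Real.exp (-(s ^ 2)) * Real.exp ((2 * s) * y c) := by
    intro c y; rw [hwe, mul_pow, ← Real.exp_nat_mul, ← Real.exp_nat_mul]
    congr 2 <;> (push_cast; ring)
  have hw2i : ∀ c, Integrable (fun y => (w c y) ^ 2) (G (Fin N)) := fun c =>
    ((integrable_exp_coord (2 * s) c).const_mul (Real.exp (-(s ^ 2)))).congr
      (Filter.Eventually.of_forall fun y => (hw2e c y).symm)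
  have hw2 : ∀ c, ∫ y, (w c y) ^ 2 ∂(G (Fin N)) = C1 := by
    intro c
    simp only [hw2e]
    rw [integral_const_mul, int_exp_coord, ← Real.exp_add, hC1]
    congr 1; ring
  have hwm2e : ∀ c y, ((w c y)⁻¹) ^ 2 = Real.exp (s ^ 2) * Real.exp ((-2 * s) * y c) := by
    intro c y
    rw [hwe, mul_inv, ← Real.exp_neg, ← Real.exp_neg, mul_pow, ← Real.exp_nat_mul,
      ← Real.exp_nat_mul]
    congr 2 <;> (push_cast; ring)
  have hwm2i : ∀ c, Integrable (fun y => ((w c y)⁻¹) ^ 2) (G (Fin N)) := fun c =>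
    ((integrable_exp_coord (-2 * s) c).const_mul (Real.exp (s ^ 2))).congr
      (Filter.Eventually.of_forall fun y => (hwm2e c y).symm)
  have hwm2 : ∀ c, ∫ y, ((w c y)⁻¹) ^ 2 ∂(G (Fin N)) = C2 := by
    intro c
    simp only [hwm2e]
    rw [integral_const_mul, int_exp_coord, ← Real.exp_add, hC2]
    congr 1; ring
  have hmeas : ∀ c, Measurable (w c) := fun c => by simp only [hw]; fun_prop
  have hSam : Measurable Sa := by
    simp only [hSa]
    exact (Finset.measurable_sum _ fun c _ => hmeas c).const_mul _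
  -- variance of the average
  have hvar : Integrable (fun y => (Sa y - 1) ^ 2) (G (Fin N)) ∧
      ∫ y, (Sa y - 1) ^ 2 ∂(G (Fin N)) ≤ C1 / N := by
    set f : ℝ → ℝ := fun x => Real.exp (s * x - s ^ 2 / 2) with hf
    have hfm : Measurable f := by simp only [hf]; fun_prop
    have hfi2 : MemLp f 2 γ := by
      rw [memLp_two_iff_integrable_sq hfm.aestronglyMeasurable]
      have : (fun x => f x ^ 2) = fun x => Real.exp (-(s ^ 2)) * Real.exp ((2 * s) * x) := by
        ext x
        simp only [hf]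
        rw [← Real.exp_nat_mul, ← Real.exp_add]; congr 1; push_cast; ring
      rw [this]
      exact (integrable_exp_mul_gaussianReal (2 * s)).const_mul _
    have hvs := variance_sum_pi (ι := Fin N) (Ω := fun _ => ℝ) (μ := fun _ => γ)
      (X := fun _ => f) (fun _ => hfi2)
    have hmean : ∫ x, f x ∂γ = 1 := by
      have : f = fun x => Real.exp (-(s ^ 2 / 2)) * Real.exp (s * x) := by
        ext x; simp only [hf]; rw [← Real.exp_add]; congr 1; ring
      rw [this, integral_const_mul, int_exp_γ, ← Real.exp_add]; simp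
    have hvf : Var[f; γ] ≤ C1 := by
      rw [variance_eq_sub hfi2]
      have h1 : ∫ x, (f ^ 2) x ∂γ = C1 := by
        have : (f ^ 2) = fun x => Real.exp (-(s ^ 2)) * Real.exp ((2 * s) * x) := by
          ext x
          simp only [hf, Pi.pow_apply]
          rw [← Real.exp_nat_mul, ← Real.exp_add]; congr 1; push_cast; ring
        rw [this, integral_const_mul, int_exp_γ, ← Real.exp_add, hC1]; congr 1; ring
      rw [h1]
      nlinarith [sq_nonneg (∫ x, f x ∂γ)]
    have hSmem : MemLp (∑ c : Fin N, fun y : Fin N → ℝ => f (y c)) 2 (G (Fin N)) := by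
      refine memLp_finsetSum' _ fun c _ => ?_
      exact hfi2.comp_measurePreserving (measurePreserving_eval (fun _ : Fin N => γ) c)
    have hSe : ∀ y, Sa y - 1 = (1 / (N:ℝ)) *
        ((∑ c : Fin N, fun y : Fin N → ℝ => f (y c)) y - N) := by
      intro y
      simp only [hSa, hw, Finset.sum_apply, hf]
      rw [mul_sub]
      congr 1
      field_simp
    have hEs : ∫ y, (∑ c : Fin N, fun y : Fin N → ℝ => f (y c)) y ∂(G (Fin N)) = N := by
      have e1 : (fun y : Fin N → ℝ => (∑ c : Fin N, fun y : Fin N → ℝ => f (y c)) y) =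
          fun y => ∑ c, w c y := by
        ext y; simp only [Finset.sum_apply]; rfl
      rw [e1, integral_finsetSum _ fun c _ => hwi c]
      simp [hw1]
    constructor
    · have h1 : MemLp (fun y => Sa y - 1) 2 (G (Fin N)) := by
        have h2 := (hSmem.sub (memLp_const (N:ℝ))).const_mul (1 / (N:ℝ))
        refine h2.ae_eq (Filter.Eventually.of_forall fun y => ?_)
        exact (hSe y).symm
      exact h1.integrable_sq
    · have h3 : ∫ y, (Sa y - 1) ^ 2 ∂(G (Fin N)) = (1 / (N:ℝ)) ^ 2 *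
          Var[∑ c : Fin N, fun y : Fin N → ℝ => f (y c); G (Fin N)] := by
        rw [variance_eq_integral hSmem.aestronglyMeasurable.aemeasurable, hEs,
          ← integral_const_mul]
        congr 1
        ext y
        rw [hSe y]; ring
      rw [h3]
      have h4 : Var[∑ c : Fin N, fun y : Fin N → ℝ => f (y c); G (Fin N)] ≤ N * C1 := by
        refine (le_of_eq hvs).trans ?_
        simp only [Finset.sum_const, Finset.card_univ, Fintype.card_fin, nsmul_eq_mul]
        exact mul_le_mul_of_nonneg_left hvf hN'.le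
      calc (1 / (N:ℝ)) ^ 2 * Var[∑ c : Fin N, fun y : Fin N → ℝ => f (y c); G (Fin N)]
          ≤ (1 / (N:ℝ)) ^ 2 * (N * C1) := mul_le_mul_of_nonneg_left h4 (by positivity)
        _ = C1 / N := by field_simp
  -- inverse second moment of the average
  have hinv : Integrable (fun y => ((Sa y)⁻¹) ^ 2) (G (Fin N)) ∧
      ∫ y, ((Sa y)⁻¹) ^ 2 ∂(G (Fin N)) ≤ C2 := by
    have hle : ∀ y, ((Sa y)⁻¹) ^ 2 ≤ (1 / (N:ℝ)) * ∑ c, ((w c y)⁻¹) ^ 2 := fun y =>
      inv_sq_avg hNpos (fun c => w c y) (fun c => hwp c y)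
    have hi : Integrable (fun y => (1 / (N:ℝ)) * ∑ c, ((w c y)⁻¹) ^ 2) (G (Fin N)) :=
      (integrable_finsetSum _ fun c _ => hwm2i c).const_mul _
    have hi2 : Integrable (fun y => ((Sa y)⁻¹) ^ 2) (G (Fin N)) := by
      refine hi.mono' ((hSam.inv.pow_const 2).aestronglyMeasurable)
        (Filter.Eventually.of_forall fun y => ?_)
      rw [Real.norm_eq_abs, abs_of_nonneg (by positivity)]
      exact hle y
    refine ⟨hi2, (integral_mono hi2 hi hle).trans (le_of_eq ?_)⟩
    rw [integral_const_mul, integral_finsetSum _ fun c _ => hwm2i c]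
    simp only [hwm2, Finset.sum_const, Finset.card_univ, Fintype.card_fin, nsmul_eq_mul]
    field_simp
  -- pointwise bound
  have hlog : ∀ y, -(t / 2 * (Sa y - 1) ^ 2 + 1 / (2 * t) * ((Sa y)⁻¹) ^ 2) ≤
      Real.log (Sa y) := by
    intro y
    have h1 := Real.one_sub_inv_le_log_of_pos (hSap y)
    have h2 : 1 - (Sa y)⁻¹ = (Sa y - 1) * (Sa y)⁻¹ := by
      rw [sub_mul, mul_inv_cancel₀ (hSap y).ne']; ring
    have h3 : 0 ≤ (t * (Sa y - 1) + (Sa y)⁻¹) ^ 2 / (2 * t) := by positivity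
    have h4 : (t * (Sa y - 1) + (Sa y)⁻¹) ^ 2 / (2 * t) =
      t / 2 * (Sa y - 1) ^ 2 + (Sa y - 1) * (Sa y)⁻¹ + 1 / (2 * t) * ((Sa y)⁻¹) ^ 2 := by
      field_simp
      ring
    linarith
  have hexp : ∀ y : Fin N → ℝ, (1 / m) * Real.log ((1 / (N:ℝ)) *
      ∑ c : Fin N, Real.exp (m * (Real.sqrt v * y c))) = m * v / 2 + (1 / m) * Real.log (Sa y) := by
    intro y
    have h1 : (1 / (N:ℝ)) * ∑ c : Fin N, Real.exp (m * (Real.sqrt v * y c)) =
        Real.exp (s ^ 2 / 2) * Sa y := by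
      simp only [hSa, hw]
      rw [Finset.mul_sum, Finset.mul_sum, Finset.mul_sum]
      refine Finset.sum_congr rfl fun c _ => ?_
      have e1 : Real.exp (s ^ 2 / 2) * (1 / (N:ℝ) * Real.exp (s * y c - s ^ 2 / 2)) =
        1 / (N:ℝ) * (Real.exp (s ^ 2 / 2) * Real.exp (s * y c - s ^ 2 / 2)) := by ring
      rw [e1, ← Real.exp_add]
      congr 2
      rw [hs]; ring
    rw [h1, Real.log_mul (Real.exp_pos _).ne' (hSap y).ne', Real.log_exp, hs2]
    field_simp
  have hli : Integrable (fun y => Real.log (Sa y)) (G (Fin N)) := by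
    have h1 := integrable_logavg hNpos hm v
    have h2 := ((h1.congr (Filter.Eventually.of_forall fun y => hexp y)).sub
      (integrable_const (m * v / 2))).const_mul m
    refine h2.congr (Filter.Eventually.of_forall fun y => ?_)
    simp only [Pi.sub_apply]
    field_simp
    ring
  unfold lam
  simp only [hexp]
  rw [integral_add (integrable_const _) (hli.const_mul _), integral_const, integral_const_mul]
  simp only [probReal_univ, one_smul]
  have hb : -(t / 2 * (C1 / N) + 1 / (2 * t) * C2) ≤ ∫ y, Real.log (Sa y) ∂(G (Fin N)) := by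
    have h1 : ∫ y, -(t / 2 * (Sa y - 1) ^ 2 + 1 / (2 * t) * ((Sa y)⁻¹) ^ 2) ∂(G (Fin N)) ≤
        ∫ y, Real.log (Sa y) ∂(G (Fin N)) :=
      integral_mono ((hvar.1.const_mul _).add (hinv.1.const_mul _)).neg hli hlog
    rw [integral_neg, integral_add (hvar.1.const_mul _) (hinv.1.const_mul _),
      integral_const_mul, integral_const_mul] at h1
    have h2 : t / 2 * ∫ y, (Sa y - 1) ^ 2 ∂(G (Fin N)) ≤ t / 2 * (C1 / N) :=
      mul_le_mul_of_nonneg_left hvar.2 (by positivity)
    have h3 : 1 / (2 * t) * ∫ y, ((Sa y)⁻¹) ^ 2 ∂(G (Fin N)) ≤ 1 / (2 * t) * C2 :=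
      mul_le_mul_of_nonneg_left hinv.2 (by positivity)
    linarith
  have h5 : t / 2 * (C1 / N) ≤ ε * m / 2 := by
    have : t * C1 / (ε * m) < N := hNN
    rw [div_lt_iff₀ (by positivity)] at this
    rw [show t / 2 * (C1 / N) = t * C1 / (2 * N) by field_simp]
    rw [div_le_div_iff₀ (by positivity) (by positivity)]
    nlinarith
  have h6 : 1 / (2 * t) * C2 = ε * m / 2 := by
    rw [ht]; field_simp
  have h7 : -(ε * m) ≤ ∫ y, Real.log (Sa y) ∂(G (Fin N)) := by linarith
  have h8 : -ε ≤ 1 / m * ∫ y, Real.log (Sa y) ∂(G (Fin N)) := by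
    have := mul_le_mul_of_nonneg_left h7 (by positivity : 0 ≤ 1 / m)
    have e : 1 / m * -(ε * m) = -ε := by field_simp
    linarith
  linarith

end

end Crest.Agent.R339.Guerra
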