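import Crest.Agent.R339.Kahane

/-!
# Row 339, part (A): the tree functional and its mixed second derivatives
-/

set_option autoImplicit false

namespace Crest.Agent.R339.Guerra

open MeasureTheory ProbabilityTheory Real

noncomputable section

/-- positive functions with nonnegative first and nonpositive mixed second derivatives. -/
structure Cls {I : Type*} [Fintype I] (c : ℝ) (W : (I → ℝ) → ℝ) (P : I → (I → ℝ) → ℝ)
    (H : I → I → (I → ℝ) → ℝ) : Prop where
  pos : ∀ h, 0 < W h
  dW : ∀ h, HasFDerivAt W (dual fun a => P a h) h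
  dP : ∀ a h, HasFDerivAt (P a) (dual fun b => H a b h) h
  cH : ∀ a b, Continuous (H a b)
  Pnn : ∀ a h, 0 ≤ P a h
  Hnp : ∀ a b h, a ≠ b → H a b h ≤ 0
  Pb : ∀ a h, P a h ≤ c * W h
  Hb : ∀ a b h, |H a b h| ≤ c * W h

def InCls {I : Type*} [Fintype I] (W : (I → ℝ) → ℝ) : Prop :=
  ∃ c P H, 0 ≤ c ∧ Cls (I := I) c W P H

variable {I : Type*} [Fintype I]

theorem Cls.cW {c : ℝ} {W : (I → ℝ) → ℝ} {P : I → (I → ℝ) → ℝ}
    {H : I → I → (I → ℝ) → ℝ} (hc : Cls c W P H) : Continuous W :=
  continuous_iff_continuousAt.2 fun h => (hc.dW h).continuousAt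

theorem Cls.cP {c : ℝ} {W : (I → ℝ) → ℝ} {P : I → (I → ℝ) → ℝ}
    {H : I → I → (I → ℝ) → ℝ} (hc : Cls c W P H) (a : I) : Continuous (P a) :=
  continuous_iff_continuousAt.2 fun h => (hc.dP a h).continuousAt

/-- base case: partition function -/
theorem inCls_base [DecidableEq I] [Nonempty I] (β : ℝ) (hβ : 0 < β) :
    InCls (fun h : I → ℝ => ∑ a, Real.exp (β * h a)) := by
  refine ⟨β + β ^ 2, fun a h => β * Real.exp (β * h a),
    fun a b h => if a = b then β ^ 2 * Real.exp (β * h a) else 0, by positivity, ?_⟩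
  have hexp : ∀ (a : I) (h : I → ℝ), HasFDerivAt (fun h : I → ℝ => Real.exp (β * h a))
      (Real.exp (β * h a) • (β • (ContinuousLinearMap.proj a : (I → ℝ) →L[ℝ] ℝ))) h := by
    intro a h
    have h1 : HasFDerivAt (fun h : I → ℝ => β * h a)
        (β • (ContinuousLinearMap.proj a : (I → ℝ) →L[ℝ] ℝ)) h :=
      (hasFDerivAt_apply a h).const_mul β
    exact h1.exp
  have hle : ∀ (a : I) (h : I → ℝ), Real.exp (β * h a) ≤ ∑ a, Real.exp (β * h a) := fun a h =>
    Finset.single_le_sum (f := fun a => Real.exp (β * h a)) (fun b _ => (Real.exp_pos _).le)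
      (Finset.mem_univ a)
  refine ⟨fun h => ?_, fun h => ?_, fun a h => ?_, fun a b => ?_, fun a h => ?_,
    fun a b h hab => ?_, fun a h => ?_, fun a b h => ?_⟩
  · exact Finset.sum_pos (fun a _ => Real.exp_pos _) Finset.univ_nonempty
  · have h1 := HasFDerivAt.fun_sum (u := Finset.univ) fun a _ => hexp a h
    refine h1.congr_fderiv ?_
    ext v
    simp only [dual_apply, _root_.sum_apply, _root_.smul_apply,
      ContinuousLinearMap.proj_apply, smul_eq_mul]
    refine Finset.sum_congr rfl fun a _ => by ring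
  · have h1 := (hexp a h).const_mul β
    refine h1.congr_fderiv ?_
    ext v
    simp only [dual_apply, _root_.smul_apply,
      ContinuousLinearMap.proj_apply, smul_eq_mul, ite_mul, zero_mul, Finset.sum_ite_eq,
      Finset.mem_univ, if_true]
    ring
  · by_cases hab : a = b
    · simp only [hab, if_true]; fun_prop
    · simp only [hab, if_false]; exact continuous_const
  · positivity
  · simp [hab]
  · have := hle a h
    have h2 : 0 ≤ ∑ a, Real.exp (β * h a) := Finset.sum_nonneg fun b _ => (Real.exp_pos _).le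
    nlinarith [sq_nonneg β]
  · have := hle a h
    have h2 : 0 ≤ ∑ a, Real.exp (β * h a) := Finset.sum_nonneg fun b _ => (Real.exp_pos _).le
    by_cases hab : a = b
    · simp only [hab, if_true]
      rw [abs_of_nonneg (by positivity)]
      subst hab
      nlinarith [sq_nonneg β]
    · simp only [hab, if_false, abs_zero]
      positivity

/-- disjoint blocks -/
theorem inCls_block {N : ℕ} (hN : 0 < N) {W : (I → ℝ) → ℝ} (hW : InCls W) :
    InCls (fun h : Fin N × I → ℝ => (1 / (N:ℝ)) * ∑ c, W (fun a => h (c, a))) := by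
  obtain ⟨c0, P, H, hc0, hc⟩ := hW
  have hN' : (0:ℝ) < N := by exact_mod_cast hN
  have hNN : (0:ℝ) < 1 / (N:ℝ) := by positivity
  refine ⟨c0, fun x h => (1 / (N:ℝ)) * P x.2 (fun a => h (x.1, a)),
    fun x y h => if x.1 = y.1 then (1 / (N:ℝ)) * H x.2 y.2 (fun a => h (x.1, a)) else 0, hc0, ?_⟩
  -- the restriction map
  have hr : ∀ (c : Fin N) (h : Fin N × I → ℝ), HasFDerivAt
      (fun (h : Fin N × I → ℝ) (a : I) => h (c, a))
      (ContinuousLinearMap.pi fun a : I =>
        (ContinuousLinearMap.proj (c, a) : (Fin N × I → ℝ) →L[ℝ] ℝ)) h := by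
    intro c h
    rw [hasFDerivAt_pi]
    intro a
    exact hasFDerivAt_apply (c, a) h
  refine ⟨fun h => ?_, fun h => ?_, fun a h => ?_, fun a b => ?_, fun a h => ?_,
    fun a b h hab => ?_, fun a h => ?_, fun a b h => ?_⟩
  · haveI : Nonempty (Fin N) := ⟨⟨0, hN⟩⟩
    exact mul_pos hNN (Finset.sum_pos (fun a _ => hc.pos _) Finset.univ_nonempty)
  · have h1 := HasFDerivAt.fun_sum (u := Finset.univ) fun (c : Fin N) _ =>
      (hc.dW (fun a => h (c, a))).comp h (hr c h)
    have h2 := h1.const_mul (1 / (N:ℝ))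
    refine h2.congr_fderiv ?_
    ext v
    simp only [dual_apply, _root_.sum_apply, _root_.smul_apply,
      ContinuousLinearMap.comp_apply, ContinuousLinearMap.pi_apply,
      ContinuousLinearMap.proj_apply, smul_eq_mul, Fintype.sum_prod_type]
    rw [Finset.mul_sum]
    refine Finset.sum_congr rfl fun c _ => ?_
    rw [Finset.mul_sum]
    refine Finset.sum_congr rfl fun a _ => by ring
  · have h1 := (hc.dP a.2 (fun b => h (a.1, b))).comp h (hr a.1 h)
    have h2 := h1.const_mul (1 / (N:ℝ))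
    refine h2.congr_fderiv ?_
    ext v
    simp only [dual_apply, _root_.smul_apply,
      ContinuousLinearMap.comp_apply, ContinuousLinearMap.pi_apply,
      ContinuousLinearMap.proj_apply, smul_eq_mul, Fintype.sum_prod_type]
    rw [Finset.sum_eq_single a.1]
    · simp only [if_true]
      rw [Finset.mul_sum]
      refine Finset.sum_congr rfl fun b _ => by ring
    · intro c _ hca
      refine Finset.sum_eq_zero fun b _ => ?_
      rw [if_neg (Ne.symm hca)]; ring
    · intro h; exact absurd (Finset.mem_univ _) h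
  · by_cases hab : a.1 = b.1
    · simp only [hab, if_true]
      have : Continuous fun h : Fin N × I → ℝ => fun d : I => h (b.1, d) := by fun_prop
      exact continuous_const.mul ((hc.cH a.2 b.2).comp this)
    · simp only [hab, if_false]; exact continuous_const
  · exact mul_nonneg hNN.le (hc.Pnn _ _)
  · by_cases h1 : a.1 = b.1
    · rw [if_pos h1]
      have h2 : a.2 ≠ b.2 := fun h2 => hab (Prod.ext h1 h2)
      exact mul_nonpos_of_nonneg_of_nonpos hNN.le (hc.Hnp _ _ _ h2)
    · rw [if_neg h1]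
  · have h1 := hc.Pb a.2 (fun d => h (a.1, d))
    have h2 : W (fun d => h (a.1, d)) ≤ ∑ c, W (fun d => h (c, d)) :=
      Finset.single_le_sum (f := fun c => W (fun d => h (c, d)))
        (fun b _ => (hc.pos _).le) (Finset.mem_univ a.1)
    calc (1 / (N:ℝ)) * P a.2 (fun d => h (a.1, d)) ≤ (1 / (N:ℝ)) *
        (c0 * W (fun d => h (a.1, d))) := mul_le_mul_of_nonneg_left h1 hNN.le
      _ ≤ (1 / (N:ℝ)) * (c0 * ∑ c, W (fun d => h (c, d))) := by gcongr
      _ = _ := by ring
  · have h2 : W (fun d => h (a.1, d)) ≤ ∑ c, W (fun d => h (c, d)) :=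
      Finset.single_le_sum (f := fun c => W (fun d => h (c, d)))
        (fun b _ => (hc.pos _).le) (Finset.mem_univ a.1)
    have h3 : 0 < ∑ c, W (fun d => h (c, d)) := lt_of_lt_of_le (hc.pos _) h2
    by_cases hab : a.1 = b.1
    · rw [if_pos hab, abs_mul, abs_of_pos hNN]
      calc (1 / (N:ℝ)) * |H a.2 b.2 (fun d => h (a.1, d))| ≤ (1 / (N:ℝ)) *
          (c0 * W (fun d => h (a.1, d))) := mul_le_mul_of_nonneg_left (hc.Hb _ _ _) hNN.le
        _ ≤ (1 / (N:ℝ)) * (c0 * ∑ c, W (fun d => h (c, d))) := by gcongr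
        _ = _ := by ring
    · rw [if_neg hab, abs_zero]
      positivity

/-- concave powers -/
theorem inCls_pow {p : ℝ} (hp : 0 < p) (hp1 : p ≤ 1) {W : (I → ℝ) → ℝ} (hW : InCls W) :
    InCls (fun h : I → ℝ => W h ^ p) := by
  obtain ⟨c0, P, H, hc0, hc⟩ := hW
  refine ⟨p * c0 + p * (1 - p) * c0 ^ 2, fun a h => p * (W h ^ (p - 1) * P a h),
    fun a b h => p * ((p - 1) * W h ^ (p - 2) * P b h * P a h + W h ^ (p - 1) * H a b h), ?_, ?_⟩
  · have : 0 ≤ 1 - p := by linarith
    positivity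
  have hpow : ∀ (r : ℝ) (h : I → ℝ), HasFDerivAt (fun h => W h ^ r)
      ((r * W h ^ (r - 1)) • (dual fun a => P a h)) h := by
    intro r h
    exact (hc.dW h).rpow_const (Or.inl (hc.pos h).ne')
  have hw : ∀ (r : ℝ) h, 0 < W h ^ r := fun r h => Real.rpow_pos_of_pos (hc.pos h) r
  have hw1 : ∀ h, W h ^ (p - 1) * W h = W h ^ p := by
    intro h
    nth_rewrite 2 [← Real.rpow_one (W h)]
    rw [← Real.rpow_add (hc.pos h)]; congr 1; ring
  have hw2 : ∀ h, W h ^ (p - 2) * W h ^ 2 = W h ^ p := by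
    intro h
    rw [← Real.rpow_natCast, ← Real.rpow_add (hc.pos h)]; congr 1; push_cast; ring
  have h1p : 0 ≤ 1 - p := by linarith
  refine ⟨fun h => hw p h, fun h => ?_, fun a h => ?_, fun a b => ?_, fun a h => ?_,
    fun a b h hab => ?_, fun a h => ?_, fun a b h => ?_⟩
  · refine (hpow p h).congr_fderiv ?_
    ext v
    simp only [dual_apply, _root_.smul_apply, smul_eq_mul]
    rw [Finset.mul_sum]
    refine Finset.sum_congr rfl fun c _ => by ring
  · have h1 := ((hpow (p - 1) h).mul (hc.dP a h)).const_mul p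
    refine h1.congr_fderiv ?_
    ext v
    simp only [dual_apply, _root_.smul_apply, _root_.add_apply,
      smul_eq_mul]
    have e : p - 1 - 1 = p - 2 := by ring
    rw [e, Finset.mul_sum, Finset.mul_sum, Finset.mul_sum, ← Finset.sum_add_distrib,
      Finset.mul_sum]
    refine Finset.sum_congr rfl fun c _ => by ring
  · have hcr : ∀ r : ℝ, Continuous fun h => W h ^ r := fun r =>
      hc.cW.rpow_const fun h => Or.inl (hc.pos h).ne'
    have c1 := hcr (p - 2)
    have c2 := hcr (p - 1)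
    have c3 := hc.cP a
    have c4 := hc.cP b
    have c5 := hc.cH a b
    fun_prop
  · have := hw (p - 1) h
    have := hc.Pnn a h
    positivity
  · have a1 := hw (p - 1) h
    have a2 := hw (p - 2) h
    have a3 := hc.Pnn a h
    have a4 := hc.Pnn b h
    have a5 := hc.Hnp a b h hab
    have b1 : (p - 1) * W h ^ (p - 2) * P b h * P a h ≤ 0 := by
      have : 0 ≤ W h ^ (p - 2) * P b h * P a h := by positivity
      nlinarith
    have b2 : W h ^ (p - 1) * H a b h ≤ 0 := mul_nonpos_of_nonneg_of_nonpos a1.le a5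
    exact mul_nonpos_of_nonneg_of_nonpos hp.le (by linarith)
  · have a1 := hw (p - 1) h
    have a2 := hc.Pb a h
    have a3 : W h ^ (p - 1) * P a h ≤ c0 * W h ^ p := by
      calc W h ^ (p - 1) * P a h ≤ W h ^ (p - 1) * (c0 * W h) :=
            mul_le_mul_of_nonneg_left a2 a1.le
        _ = c0 * (W h ^ (p - 1) * W h) := by ring
        _ = _ := by rw [hw1]
    have a4 : 0 ≤ p * (1 - p) * c0 ^ 2 * W h ^ p := by
      have := hw p h
      positivity
    have a5 := mul_le_mul_of_nonneg_left a3 hp.le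
    linarith
  · have a1 := hw (p - 1) h
    have a1' := hw (p - 2) h
    have a2 := hc.Pb a h
    have a2' := hc.Pb b h
    have a3 := hc.Hb a b h
    have p1 := hc.Pnn a h
    have p2 := hc.Pnn b h
    have b1 : |W h ^ (p - 1) * H a b h| ≤ c0 * W h ^ p := by
      rw [abs_mul, abs_of_pos a1]
      calc W h ^ (p - 1) * |H a b h| ≤ W h ^ (p - 1) * (c0 * W h) :=
            mul_le_mul_of_nonneg_left a3 a1.le
        _ = c0 * (W h ^ (p - 1) * W h) := by ring
        _ = _ := by rw [hw1]
    have b2 : |(p - 1) * W h ^ (p - 2) * P b h * P a h| ≤ (1 - p) * c0 ^ 2 * W h ^ p := by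
      have e : (p - 1) * W h ^ (p - 2) * P b h * P a h =
        -((1 - p) * (W h ^ (p - 2) * (P b h * P a h))) := by ring
      rw [e, abs_neg, abs_of_nonneg (by positivity)]
      have : P b h * P a h ≤ (c0 * W h) * (c0 * W h) :=
        mul_le_mul a2' a2 p1 (mul_nonneg hc0 (hc.pos h).le)
      calc (1 - p) * (W h ^ (p - 2) * (P b h * P a h)) ≤
          (1 - p) * (W h ^ (p - 2) * ((c0 * W h) * (c0 * W h))) := by gcongr
        _ = (1 - p) * c0 ^ 2 * (W h ^ (p - 2) * W h ^ 2) := by ring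
        _ = _ := by rw [hw2]
    rw [abs_mul, abs_of_pos hp]
    have b3 := abs_add_le ((p - 1) * W h ^ (p - 2) * P b h * P a h) (W h ^ (p - 1) * H a b h)
    have b4 : |(p - 1) * W h ^ (p - 2) * P b h * P a h + W h ^ (p - 1) * H a b h| ≤
      (1 - p) * c0 ^ 2 * W h ^ p + c0 * W h ^ p := by linarith
    have b5 := mul_le_mul_of_nonneg_left b4 hp.le
    linarith

/-- what we need for `F = (1/m) log W` -/
theorem InCls.log {W : (I → ℝ) → ℝ} (hW : InCls W) {m : ℝ} (hm : 0 < m) :
    ∃ (c : ℝ) (P : I → (I → ℝ) → ℝ) (H : I → I → (I → ℝ) → ℝ), 0 ≤ c ∧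
      (∀ h, HasFDerivAt (fun h => (1 / m) * Real.log (W h)) (dual fun a => P a h) h) ∧
      (∀ a h, HasFDerivAt (P a) (dual fun b => H a b h) h) ∧
      (∀ a b, Continuous (H a b)) ∧
      (∀ a h, |P a h| ≤ c) ∧ (∀ a b h, |H a b h| ≤ c) ∧
      (∀ a b h, a ≠ b → H a b h ≤ 0) := by
  obtain ⟨c0, P, H, hc0, hc⟩ := hW
  have hm' : 0 < 1 / m := by positivity
  refine ⟨(1 / m) * (c0 + c0 ^ 2), fun a h => (1 / m) * (P a h * (W h)⁻¹),
    fun a b h => (1 / m) * (H a b h * (W h)⁻¹ - P b h * P a h * ((W h)⁻¹) ^ 2),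
    by positivity, fun h => ?_, fun a h => ?_, fun a b => ?_, fun a h => ?_, fun a b h => ?_,
    fun a b h hab => ?_⟩
  · have h1 := ((hc.dW h).log (hc.pos h).ne').const_mul (1 / m)
    refine h1.congr_fderiv ?_
    ext v
    simp only [dual_apply, _root_.smul_apply, smul_eq_mul]
    rw [Finset.mul_sum, Finset.mul_sum]
    refine Finset.sum_congr rfl fun c _ => by ring
  · have hinv : HasFDerivAt (fun h => (W h)⁻¹) ((-((W h) ^ 2)⁻¹) • (dual fun a => P a h)) h := by
      have := (hasDerivAt_inv (hc.pos h).ne').comp_hasFDerivAt h (hc.dW h)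
      exact this
    have h1 := ((hc.dP a h).mul hinv).const_mul (1 / m)
    refine h1.congr_fderiv ?_
    ext v
    simp only [dual_apply, _root_.smul_apply, _root_.add_apply,
      smul_eq_mul]
    rw [Finset.mul_sum, Finset.mul_sum, Finset.mul_sum, ← Finset.sum_add_distrib,
      Finset.mul_sum]
    refine Finset.sum_congr rfl fun c _ => ?_
    rw [inv_pow]; ring
  · have c1 : Continuous fun h => (W h)⁻¹ := hc.cW.inv₀ fun h => (hc.pos h).ne'
    have c3 := hc.cP a
    have c4 := hc.cP b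
    have c5 := hc.cH a b
    fun_prop
  · have a1 := hc.pos h
    have a2 := hc.Pb a h
    have a3 := hc.Pnn a h
    have a4 : P a h * (W h)⁻¹ ≤ c0 := by
      rw [← div_eq_mul_inv, div_le_iff₀ a1]; exact a2
    rw [abs_of_nonneg (by positivity)]
    have : 0 ≤ c0 ^ 2 := by positivity
    exact mul_le_mul_of_nonneg_left (by linarith) hm'.le
  · have a1 := hc.pos h
    have a2 := hc.Pb a h
    have a3 := hc.Pnn a h
    have a2' := hc.Pb b h
    have a3' := hc.Pnn b h
    have a4 : P a h * (W h)⁻¹ ≤ c0 := by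
      rw [← div_eq_mul_inv, div_le_iff₀ a1]; exact a2
    have a4' : P b h * (W h)⁻¹ ≤ c0 := by
      rw [← div_eq_mul_inv, div_le_iff₀ a1]; exact a2'
    have a5 : |H a b h * (W h)⁻¹| ≤ c0 := by
      rw [abs_mul, abs_of_pos (inv_pos.2 a1), ← div_eq_mul_inv, div_le_iff₀ a1]
      exact hc.Hb a b h
    have a6 : |P b h * P a h * ((W h)⁻¹) ^ 2| ≤ c0 ^ 2 := by
      rw [abs_of_nonneg (by positivity)]
      calc P b h * P a h * ((W h)⁻¹) ^ 2 = (P b h * (W h)⁻¹) * (P a h * (W h)⁻¹) := by ring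
        _ ≤ c0 * c0 := mul_le_mul a4' a4 (by positivity) hc0
        _ = _ := by ring
    rw [abs_mul, abs_of_pos hm']
    refine mul_le_mul_of_nonneg_left ?_ hm'.le
    exact (abs_sub _ _).trans (by linarith)
  · have a1 := hc.pos h
    have a3 := hc.Pnn a h
    have a3' := hc.Pnn b h
    have a5 := hc.Hnp a b h hab
    have b1 : H a b h * (W h)⁻¹ ≤ 0 := mul_nonpos_of_nonpos_of_nonneg a5 (inv_pos.2 a1).le
    have b2 : 0 ≤ P b h * P a h * ((W h)⁻¹) ^ 2 := by positivity
    exact mul_nonpos_of_nonneg_of_nonpos hm'.le (by linarith)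

end

end Crest.Agent.R339.Guerra
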