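import Crest.Agent.R339.Li728B

/-!
# R339, block LI: functional analysis (helper728)

* `exists_unitary_lim`: unitaries converging strongly on a total set, with their adjoints.
* `norm_exp_sub_apply_le`: `‖(e^{iA} - e^{iB}) v‖ ≤ ‖(A - B) v‖` for commuting selfadjoint `A`, `B`.
-/

set_option autoImplicit false

noncomputable section

open scoped ComplexConjugate InnerProductSpace Topology
open Filter

namespace Crest.Agent.R339.Li

variable {H : Type*} [NormedAddCommGroup H] [InnerProductSpace ℂ H] [CompleteSpace H]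

section Lim

variable {α : Type*} {l : Filter α} [l.NeBot] {U : α → UH H} {T : Set H}

lemma exists_lim_of_total (hT : (Submodule.span ℂ T).topologicalClosure = ⊤)
    (h1 : ∀ v ∈ T, ∃ w, Tendsto (fun i => (U i : H →L[ℂ] H) v) l (𝓝 w)) (v : H) :
    ∃ w, Tendsto (fun i => (U i : H →L[ℂ] H) v) l (𝓝 w) := by
  have hspan : ∀ v ∈ Submodule.span ℂ T, ∃ w, Tendsto (fun i => (U i : H →L[ℂ] H) v) l (𝓝 w) := by
    intro v hv
    induction hv using Submodule.span_induction with
    | mem v hv => exact h1 v hv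
    | zero => exact ⟨0, by simpa using tendsto_const_nhds⟩
    | add v w _ _ hv hw =>
      obtain ⟨a, ha⟩ := hv
      obtain ⟨b, hb⟩ := hw
      exact ⟨a + b, by simpa using ha.add hb⟩
    | smul c v _ hv =>
      obtain ⟨a, ha⟩ := hv
      exact ⟨c • a, by simpa using ha.const_smul c⟩
  refine cauchy_map_iff_exists_tendsto.mp ?_
  rw [Metric.cauchy_iff]
  refine ⟨inferInstance, fun ε hε => ?_⟩
  have hv : v ∈ (Submodule.span ℂ T).topologicalClosure := by rw [hT]; trivial
  rw [← SetLike.mem_coe, Submodule.topologicalClosure_coe, Metric.mem_closure_iff] at hv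
  obtain ⟨w, hw, hvw⟩ := hv (ε / 4) (by positivity)
  obtain ⟨a, ha⟩ := hspan w hw
  have h3 := (Metric.tendsto_nhds.mp ha) (ε / 4) (by positivity)
  refine ⟨(fun i => (U i : H →L[ℂ] H) v) '' {i | dist ((U i : H →L[ℂ] H) w) a < ε / 4},
    Filter.image_mem_map h3, ?_⟩
  rintro _ ⟨i, hi, rfl⟩ _ ⟨j, hj, rfl⟩
  have e : ∀ i, dist ((U i : H →L[ℂ] H) v) ((U i : H →L[ℂ] H) w) < ε / 4 := fun i => by
    rw [dist_eq_norm, ← map_sub, norm_U_apply, ← dist_eq_norm]; exact hvw
  have hi' : dist ((U i : H →L[ℂ] H) w) a < ε / 4 := hi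
  have hj' : dist ((U j : H →L[ℂ] H) w) a < ε / 4 := hj
  have e1 := e i
  have e2 := e j
  have d1 := dist_triangle ((U i : H →L[ℂ] H) v) ((U i : H →L[ℂ] H) w) a
  have d2 := dist_triangle ((U j : H →L[ℂ] H) v) ((U j : H →L[ℂ] H) w) a
  have d3 := dist_triangle_right ((U i : H →L[ℂ] H) v) ((U j : H →L[ℂ] H) v) a
  show dist ((U i : H →L[ℂ] H) v) ((U j : H →L[ℂ] H) v) < ε
  linarith

/-- the limit isometry -/
lemma exists_isometry_lim (h : ∀ v, ∃ w, Tendsto (fun i => (U i : H →L[ℂ] H) v) l (𝓝 w)) :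
    ∃ V : H →L[ℂ] H, (∀ v, Tendsto (fun i => (U i : H →L[ℂ] H) v) l (𝓝 (V v))) ∧
      ∀ v, ‖V v‖ = ‖v‖ := by
  choose f hf using h
  let V : H →ₗ[ℂ] H := linearMapOfTendsto f (fun i => ((U i : H →L[ℂ] H) : H →ₗ[ℂ] H))
    (tendsto_pi_nhds.2 hf)
  have hV : ∀ v, V v = f v := fun v => rfl
  have hn : ∀ v, ‖V v‖ = ‖v‖ := fun v =>
    tendsto_nhds_unique ((hf v).norm) (tendsto_const_nhds.congr fun i => (norm_U_apply _ _).symm)
  refine ⟨V.mkContinuous 1 fun v => by rw [hn, one_mul], fun v => hf v, fun v => hn v⟩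

lemma star_mul_self_of_norm {V : H →L[ℂ] H} (h : ∀ v, ‖V v‖ = ‖v‖) : star V * V = 1 := by
  rw [ContinuousLinearMap.star_eq_adjoint]
  exact (ContinuousLinearMap.norm_map_iff_adjoint_comp_self V).mp h

theorem exists_unitary_lim (hT : (Submodule.span ℂ T).topologicalClosure = ⊤)
    (h1 : ∀ v ∈ T, ∃ w, Tendsto (fun i => (U i : H →L[ℂ] H) v) l (𝓝 w))
    (h2 : ∀ v ∈ T, ∃ w, Tendsto (fun i => ((star (U i) : UH H) : H →L[ℂ] H) v) l (𝓝 w)) :
    ∃ U₀ : UH H, STends U l U₀ := by
  obtain ⟨V, hV, hVn⟩ := exists_isometry_lim (exists_lim_of_total hT h1)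
  obtain ⟨V', hV', hVn'⟩ := exists_isometry_lim (U := fun i => star (U i))
    (exists_lim_of_total hT h2)
  have hadj : star V = V' := by
    rw [ContinuousLinearMap.star_eq_adjoint, eq_comm, ContinuousLinearMap.eq_adjoint_iff]
    intro v w
    refine tendsto_nhds_unique ((hV' v).inner tendsto_const_nhds)
      ((tendsto_const_nhds.inner (hV w)).congr fun i => ?_)
    show _ = ⟪(star (U i : H →L[ℂ] H)) v, w⟫_ℂ
    rw [ContinuousLinearMap.star_eq_adjoint, ContinuousLinearMap.adjoint_inner_left]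
  have e1 := star_mul_self_of_norm hVn
  have e2 := star_mul_self_of_norm hVn'
  rw [← hadj, star_star] at e2
  exact ⟨⟨V, Unitary.mem_iff.mpr ⟨e1, e2⟩⟩, hV⟩

end Lim

section Exp

open Complex in
/-- `exp (i A)` for selfadjoint `A` -/
def eU (A : H →L[ℂ] H) (hA : star A = A) : UH H :=
  selfAdjoint.expUnitary ⟨A, hA⟩

@[simp] lemma coe_eU (A : H →L[ℂ] H) (hA : star A = A) :
    (eU A hA : H →L[ℂ] H) = NormedSpace.exp (Complex.I • A) := rfl

lemma norm_exp_I_apply {A : H →L[ℂ] H} (hA : star A = A) (v : H) :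
    ‖NormedSpace.exp (Complex.I • A) v‖ = ‖v‖ := norm_U_apply (eU A hA) v

lemma norm_exp_sub_one_apply_le {C : H →L[ℂ] H} (hC : star C = C) (v : H) :
    ‖NormedSpace.exp (Complex.I • C) v - v‖ ≤ ‖C v‖ := by
  have hd : ∀ s : ℝ, HasDerivAt (fun s : ℝ => NormedSpace.exp (s • (Complex.I • C)) v)
      ((NormedSpace.exp (s • (Complex.I • C)) * (Complex.I • C)) v) s := by
    intro s
    have h1 := hasDerivAt_exp_smul_const (𝕂 := ℝ) (Complex.I • C) s
    exact ((ContinuousLinearMap.apply ℂ H v).restrictScalars ℝ).hasFDerivAt.comp_hasDerivAt s h1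
  have hb : ∀ s : ℝ, ‖(NormedSpace.exp (s • (Complex.I • C)) * (Complex.I • C)) v‖ ≤ ‖C v‖ := by
    intro s
    have e : s • (Complex.I • C) = Complex.I • (s • C) := smul_comm _ _ _
    have hs : star (s • C) = s • C := by rw [star_smul, hC, star_trivial]
    rw [mul_apply_eq_comp, e, norm_exp_I_apply hs, _root_.smul_apply, norm_smul, Complex.norm_I,
      one_mul]
  have h := norm_image_sub_le_of_norm_deriv_le_segment_01'
    (f := fun s : ℝ => NormedSpace.exp (s • (Complex.I • C)) v)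
    (fun s _ => (hd s).hasDerivWithinAt) (fun s _ => hb s)
  simpa using h

theorem norm_exp_sub_apply_le {A B : H →L[ℂ] H} (hA : star A = A) (hB : star B = B)
    (hc : Commute A B) (v : H) :
    ‖NormedSpace.exp (Complex.I • A) v - NormedSpace.exp (Complex.I • B) v‖ ≤ ‖(A - B) v‖ := by
  letI : NormedAlgebra ℚ (H →L[ℂ] H) := NormedAlgebra.restrictScalars ℚ ℂ (H →L[ℂ] H)
  have e : NormedSpace.exp (Complex.I • A) = NormedSpace.exp (Complex.I • B) *
      NormedSpace.exp (Complex.I • (A - B)) := by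
    rw [← NormedSpace.exp_add_of_commute]
    · congr 1
      rw [smul_sub]; abel
    · exact ((hc.symm.sub_right (Commute.refl B)).smul_left _).smul_right _
  have hs : star (A - B) = A - B := by rw [star_sub, hA, hB]
  rw [e, mul_apply_eq_comp, ← map_sub, norm_exp_I_apply hB]
  exact norm_exp_sub_one_apply_le hs v

/-- conjugation of exponentials by unitaries -/
lemma star_mul_exp_mul (U : UH H) (A : H →L[ℂ] H) :
    star (U : H →L[ℂ] H) * NormedSpace.exp A * (U : H →L[ℂ] H) =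
      NormedSpace.exp (star (U : H →L[ℂ] H) * A * (U : H →L[ℂ] H)) := by
  letI : NormedAlgebra ℚ (H →L[ℂ] H) := NormedAlgebra.restrictScalars ℚ ℂ (H →L[ℂ] H)
  have := NormedSpace.exp_units_conj' (⟨(U : H →L[ℂ] H), star (U : H →L[ℂ] H), U_mul_star_self U,
    star_U_mul_self U⟩ : (H →L[ℂ] H)ˣ) A
  simpa using this.symm

/-- operators commuting with `A` commute with `exp (c A)` -/
lemma commute_exp {A B : H →L[ℂ] H} (h : Commute A B) : Commute A (NormedSpace.exp B) := by
  letI : NormedAlgebra ℚ (H →L[ℂ] H) := NormedAlgebra.restrictScalars ℚ ℂ (H →L[ℂ] H)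
  exact h.exp_right

end Exp

end Crest.Agent.R339.Li
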