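import Crest.Agent.R339.Li728D
import Crest.Agent.R339.Li728F
import Crest.Agent.R339.MF569A

/-!
# R339, gadget theorem (G4): the strong limit `D` (helper233)

`D = s-lim_{t → 0} exp (-i κ T sin(t φ(e)) / t)` for a real label function `T`.
-/

set_option autoImplicit false
set_option linter.style.haveILetI false
set_option linter.unusedSectionVars false

noncomputable section

open scoped ComplexConjugate InnerProductSpace Topology
open Filter MeasureTheory NormedSpace

namespace Crest.Agent.R339.Gad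

open Crest.Agent.R339.Li Crest.Agent.R339.Li.ILSys Crest.Agent.R339.MF

section General

variable {H : Type*} [NormedAddCommGroup H] [InnerProductSpace ℂ H] [CompleteSpace H]

/-- the exponential of a skew-adjoint operator as unitary -/
def skU (A : H →L[ℂ] H) (hA : star A = -A) : UH H :=
  ⟨exp A, by
    letI : NormedAlgebra ℚ (H →L[ℂ] H) := NormedAlgebra.restrictScalars ℚ ℝ (H →L[ℂ] H)
    have : A ∈ skewAdjoint (H →L[ℂ] H) := skewAdjoint.mem_iff.mpr hA
    exact exp_mem_unitary_of_mem_skewAdjoint this⟩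

@[simp] lemma skU_coe (A : H →L[ℂ] H) (hA : star A = -A) : (skU A hA : H →L[ℂ] H) = exp A := rfl

lemma sk_norm_exp_apply {A : H →L[ℂ] H} (hA : star A = -A) (v : H) : ‖(exp A) v‖ = ‖v‖ :=
  norm_U_apply (skU A hA) v

lemma skew_smul {A : H →L[ℂ] H} (hA : star A = -A) (t : ℝ) : star (t • A) = -(t • A) := by
  rw [star_smul, hA]; simp

/-- `‖exp C v - v‖ ≤ ‖C v‖` for skew-adjoint `C` -/
lemma sk_exp_sub_one_le {C : H →L[ℂ] H} (hC : star C = -C) (v : H) :
    ‖(exp C) v - v‖ ≤ ‖C v‖ := by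
  have hd : ∀ t : ℝ, HasDerivAt (fun t : ℝ => (exp (t • C)) v) ((exp (t • C)) (C v)) t := by
    intro t
    have h1 : HasDerivAt (fun t : ℝ => exp (t • C)) (exp (t • C) * C) t :=
      hasDerivAt_exp_smul_const (𝕂 := ℝ) C t
    have h2 := ((ContinuousLinearMap.apply ℂ H v).restrictScalars ℝ).hasFDerivAt.comp_hasDerivAt t h1
    exact h2
  have h := norm_image_sub_le_of_norm_deriv_le_segment_01' (f := fun t : ℝ => (exp (t • C)) v)
    (f' := fun t => (exp (t • C)) (C v)) (C := ‖C v‖)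
    (fun t _ => (hd t).hasDerivWithinAt) (fun t _ => by rw [sk_norm_exp_apply (skew_smul hC t)])
  simpa using h

/-- commuting skew-adjoint operators -/
lemma sk_exp_sub_exp_le {A B : H →L[ℂ] H} (hA : star A = -A) (hB : star B = -B)
    (hAB : Commute A B) (v : H) : ‖(exp A) v - (exp B) v‖ ≤ ‖(A - B) v‖ := by
  letI : NormedAlgebra ℚ (H →L[ℂ] H) := NormedAlgebra.restrictScalars ℚ ℝ (H →L[ℂ] H)
  have hs : star (A - B) = -(A - B) := by rw [star_sub, hA, hB]; abel
  have h1 : exp A = exp B * exp (A - B) := by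
    rw [← exp_add_of_commute (hAB.symm.sub_right (Commute.refl B))]
    congr 1; abel
  rw [h1]
  have h2 : (exp B * exp (A - B)) v - (exp B) v = (exp B) ((exp (A - B)) v - v) := by
    rw [map_sub]; rfl
  rw [h2, sk_norm_exp_apply hB]
  exact sk_exp_sub_one_le hs v

variable {α : Type*} {l : Filter α} {U : α → UH H}

lemma exists_tendsto_of_total [l.NeBot] {T : Set H}
    (hT : (Submodule.span ℂ T).topologicalClosure = ⊤)
    (h : ∀ v ∈ T, ∃ w, Tendsto (fun i => (U i : H →L[ℂ] H) v) l (𝓝 w)) (v : H) :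
    ∃ w, Tendsto (fun i => (U i : H →L[ℂ] H) v) l (𝓝 w) := by
  have hspan : ∀ v ∈ Submodule.span ℂ T, ∃ w,
      Tendsto (fun i => (U i : H →L[ℂ] H) v) l (𝓝 w) := by
    intro v hv
    induction hv using Submodule.span_induction with
    | mem v hv => exact h v hv
    | zero => exact ⟨0, by simp⟩
    | add v w _ _ hv hw =>
      obtain ⟨a, ha⟩ := hv
      obtain ⟨b, hb⟩ := hw
      exact ⟨a + b, by simpa using ha.add hb⟩
    | smul c v _ hv =>
      obtain ⟨a, ha⟩ := hv
      exact ⟨c • a, by simpa using ha.const_smul c⟩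
  have hc : Cauchy (map (fun i => (U i : H →L[ℂ] H) v) l) := by
    rw [Metric.cauchy_iff]
    refine ⟨inferInstance, fun ε hε => ?_⟩
    have hv : v ∈ (Submodule.span ℂ T).topologicalClosure := by rw [hT]; trivial
    rw [← SetLike.mem_coe, Submodule.topologicalClosure_coe, Metric.mem_closure_iff] at hv
    obtain ⟨w, hw, hvw⟩ := hv (ε / 4) (by positivity)
    obtain ⟨a, ha⟩ := hspan w hw
    have hev := (Metric.tendsto_nhds.mp ha) (ε / 4) (by positivity)
    refine ⟨(fun i => (U i : H →L[ℂ] H) v) '' {i | dist ((U i : H →L[ℂ] H) w) a < ε / 4},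
      image_mem_map hev, ?_⟩
    rintro _ ⟨i, hi, rfl⟩ _ ⟨j, hj, rfl⟩
    have key : ∀ i, dist ((U i : H →L[ℂ] H) w) a < ε / 4 →
        dist ((U i : H →L[ℂ] H) v) a < ε / 2 := by
      intro i hi
      have e1 : dist ((U i : H →L[ℂ] H) v) ((U i : H →L[ℂ] H) w) < ε / 4 := by
        rw [dist_eq_norm, ← map_sub, norm_U_apply, ← dist_eq_norm]; exact hvw
      calc _ ≤ dist ((U i : H →L[ℂ] H) v) ((U i : H →L[ℂ] H) w) + dist ((U i : H →L[ℂ] H) w) a :=
            dist_triangle _ _ _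
        _ < ε / 4 + ε / 4 := add_lt_add e1 hi
        _ = ε / 2 := by ring
    calc _ ≤ dist ((U i : H →L[ℂ] H) v) a + dist ((U j : H →L[ℂ] H) v) a :=
          dist_triangle_right _ _ _
      _ < ε / 2 + ε / 2 := add_lt_add (key i hi) (key j hj)
      _ = ε := by ring
  exact cauchy_map_iff_exists_tendsto.mp hc

/-- a pointwise convergent net of unitaries whose adjoints converge pointwise has a unitary limit -/
theorem exists_UH [l.NeBot]
    (h : ∀ v, ∃ w, Tendsto (fun i => (U i : H →L[ℂ] H) v) l (𝓝 w))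
    (h' : ∀ v, ∃ w, Tendsto (fun i => (star (U i : H →L[ℂ] H)) v) l (𝓝 w)) :
    ∃ D : UH H, STends U l D := by
  choose f hf using h
  choose f' hf' using h'
  have hadd : ∀ x y, f (x + y) = f x + f y := fun x y =>
    tendsto_nhds_unique (hf (x + y)) (by simpa using (hf x).add (hf y))
  have hsmul : ∀ (c : ℂ) x, f (c • x) = c • f x := fun c x =>
    tendsto_nhds_unique (hf (c • x)) (by simpa using (hf x).const_smul c)
  have hadd' : ∀ x y, f' (x + y) = f' x + f' y := fun x y =>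
    tendsto_nhds_unique (hf' (x + y)) (by simpa using (hf' x).add (hf' y))
  have hsmul' : ∀ (c : ℂ) x, f' (c • x) = c • f' x := fun c x =>
    tendsto_nhds_unique (hf' (c • x)) (by simpa using (hf' x).const_smul c)
  have hn : ∀ x, ‖f x‖ = ‖x‖ := fun x =>
    tendsto_nhds_unique ((hf x).norm) (by simp [norm_U_apply])
  have hn' : ∀ x, ‖f' x‖ = ‖x‖ := fun x =>
    tendsto_nhds_unique ((hf' x).norm) (by simp [norm_star_U_apply])
  let F : H →L[ℂ] H := LinearMap.mkContinuous
    { toFun := f, map_add' := hadd, map_smul' := hsmul } 1 (fun x => by simp [hn x])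
  let F' : H →L[ℂ] H := LinearMap.mkContinuous
    { toFun := f', map_add' := hadd', map_smul' := hsmul' } 1 (fun x => by simp [hn' x])
  have hF : ∀ x, F x = f x := fun x => rfl
  have hF' : ∀ x, F' x = f' x := fun x => rfl
  have hstar : star F = F' := by
    rw [ContinuousLinearMap.star_eq_adjoint]
    symm
    rw [ContinuousLinearMap.eq_adjoint_iff]
    intro x y
    refine tendsto_nhds_unique (((hf' x).inner (tendsto_const_nhds (x := y)))) ?_
    refine ((tendsto_const_nhds (x := x)).inner (hf y)).congr fun i => ?_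
    rw [ContinuousLinearMap.star_eq_adjoint, ContinuousLinearMap.adjoint_inner_left]
  have iso : ∀ G : H →L[ℂ] H, (∀ x, ‖G x‖ = ‖x‖) → star G * G = 1 := by
    intro G hG
    exact (ContinuousLinearMap.norm_map_iff_adjoint_comp_self G).mp hG
  have hu : F ∈ unitary (H →L[ℂ] H) := by
    rw [Unitary.mem_iff]
    refine ⟨iso F fun x => hn x, ?_⟩
    have := iso F' fun x => hn' x
    rw [← hstar, star_star] at this
    exact this
  exact ⟨⟨F, hu⟩, fun v => hf v⟩

end General

variable {Λ H : Type*} [MeasurableSpace Λ] [NormedAddCommGroup H] [InnerProductSpace ℂ H]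
  [CompleteSpace H] {I : ILSys Λ H}

/-! ### Weyl operators: commutation, real fields -/

lemma W_comm (f g : H) : I.W f * I.W g =
    Complex.exp (-(2 * Complex.I * ((⟪f, g⟫_ℂ).im : ℂ))) • (I.W g * I.W f) := by
  rw [I.W_mul, I.W_mul, smul_smul, ← Complex.exp_add, add_comm g f, ← inner_conj_symm g f,
    Complex.conj_im]
  congr 2
  push_cast
  ring

lemma W_commute {f g : H} (h : (⟪f, g⟫_ℂ).im = 0) : Commute (I.W f) (I.W g) := by
  show _ = _
  rw [W_comm, h]; simp

lemma im_symm {f g : H} (h : (⟪f, g⟫_ℂ).im = 0) : (⟪g, f⟫_ℂ).im = 0 := by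
  rw [← inner_conj_symm, Complex.conj_im, h, neg_zero]

lemma im_smul_left {f g : H} (h : (⟪f, g⟫_ℂ).im = 0) (a : ℝ) : (⟪a • f, g⟫_ℂ).im = 0 := by
  rw [← Complex.coe_smul, inner_smul_left, Complex.conj_ofReal, Complex.im_ofReal_mul, h, mul_zero]

lemma im_smul_right {f g : H} (h : (⟪f, g⟫_ℂ).im = 0) (a : ℝ) : (⟪f, a • g⟫_ℂ).im = 0 := by
  rw [← Complex.coe_smul, inner_smul_right, Complex.im_ofReal_mul, h, mul_zero]

lemma W_sW_comm {f g : H} (h : (⟪f, g⟫_ℂ).im = 0) : Commute (I.W f) (I.sW g) := by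
  have h' : (⟪f, -g⟫_ℂ).im = 0 := by rw [inner_neg_right, Complex.neg_im, h, neg_zero]
  exact ((W_commute h).sub_right (W_commute h')).smul_right _

lemma sW_comm {f g : H} (h : (⟪f, g⟫_ℂ).im = 0) : Commute (I.sW f) (I.sW g) := by
  have h' : (⟪-f, g⟫_ℂ).im = 0 := by rw [inner_neg_left, Complex.neg_im, h, neg_zero]
  exact ((W_sW_comm h).sub_left (W_sW_comm h')).smul_left _

lemma fT_comm_of {n : ℕ} {a : Fin n → ℝ} {u : Fin n → H} {f : H} (h : ∀ k, (⟪f, u k⟫_ℂ).im = 0) :
    Commute (I.W f) (I.fT a u) :=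
  commute_fT fun k => W_sW_comm (h k)

/-- the difference quotient `sin(t φ(e)) / t` -/
def qS (I : ILSys Λ H) (e : H) (t : ℝ) : H →L[ℂ] H := ((t⁻¹ : ℝ) : ℂ) • I.sW (t • e)

lemma star_qS (e : H) (t : ℝ) : star (qS I e t) = qS I e t := by
  rw [qS, star_smul, star_sW]
  congr 1
  exact Complex.conj_ofReal _

/-- the exponent `i κ T sin(t φ(e)) / t` -/
def gD (I : ILSys Λ H) (T : H →L[ℂ] H) (κ : ℝ) (e : H) (t : ℝ) : H →L[ℂ] H :=
  (Complex.I * κ) • (T * qS I e t)

/-- hypotheses on the operator `T` -/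
structure TH (I : ILSys Λ H) (T : H →L[ℂ] H) (e : H) : Prop where
  star : star T = T
  PC : PC I T
  sg : ∀ M, Commute (I.sg M) T
  W : ∀ t : ℝ, Commute (I.W (t • e)) T

lemma TH.sW {T : H →L[ℂ] H} {e : H} (h : TH I T e) (t : ℝ) : Commute (I.sW (t • e)) T := by
  have h2 := h.W (-t)
  rw [neg_smul] at h2
  exact ((h.W t).sub_left h2).smul_left _

lemma TH.qS {T : H →L[ℂ] H} {e : H} (h : TH I T e) (t : ℝ) : Commute (qS I e t) T :=
  (h.sW t).smul_left _

lemma TH_fT {n : ℕ} {a : Fin n → ℝ} {u : Fin n → H} {e : H} (h : ∀ k, (⟪e, u k⟫_ℂ).im = 0) :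
    TH I (I.fT a u) e :=
  ⟨star_fT, PC_fT, fun M => sg_fT M, fun t => fT_comm_of fun k => im_smul_left (h k) t⟩

lemma qS_comm (e : H) (s t : ℝ) : Commute (qS I e s) (qS I e t) := by
  have : (⟪s • e, t • e⟫_ℂ).im = 0 :=
    im_smul_left (im_smul_right (by simpa using inner_self_im (𝕜 := ℂ) e) t) s
  exact ((sW_comm this).smul_left _).smul_right _

section D

variable {T : H →L[ℂ] H} {e : H} (hT : TH I T e) (κ : ℝ)

include hT

lemma star_gD (t : ℝ) : star (gD I T κ e t) = - gD I T κ e t := by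
  have h1 : star (T * qS I e t) = T * qS I e t := by
    rw [star_mul, star_qS, hT.star, (hT.qS t).eq]
  rw [gD, star_smul, h1, ← neg_smul]
  congr 1
  simp

lemma gD_comm (s t : ℝ) : Commute (gD I T κ e s) (gD I T κ e t) := by
  have h1 : Commute (T * qS I e s) (T * qS I e t) :=
    ((Commute.refl T).mul_right (hT.qS t).symm).mul_left
      (((hT.qS s)).mul_right (qS_comm e s t))
  exact (h1.smul_left _).smul_right _

end D

/-! ### The difference quotient on the total set -/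

lemma W_smul_zero (e : H) : I.W ((0 : ℝ) • e) = 1 := by rw [zero_smul, I.W_zero]

lemma hasDerivAt_W_Om (e : H) : HasDerivAt (fun t : ℝ => I.W (t • e) I.Om) (Complex.I • I.one e) 0 := by
  have h := I.one_deriv e
  simpa only [Complex.coe_smul] using h

/-- `t ↦ W(t e) v` is differentiable at `0` on the total set -/
lemma hasDerivAt_W_total (e : H) {A : Set Λ} (hA : MeasurableSet A) (M : Matrix Bool Bool ℂ) (f : H) :
    ∃ w, HasDerivAt (fun t : ℝ => I.W (t • e) (I.P A (I.sg M (I.W f I.Om)))) w 0 := by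
  have h1 : ∀ t : ℝ, I.W (t • e) (I.P A (I.sg M (I.W f I.Om))) =
      Complex.exp (-(2 * Complex.I * ((t * (⟪e, f⟫_ℂ).im : ℝ) : ℂ))) •
        (I.P A * I.sg M * I.W f) (I.W (t • e) I.Om) := by
    intro t
    have e1 : I.W (t • e) * (I.P A * (I.sg M * I.W f)) =
        Complex.exp (-(2 * Complex.I * ((t * (⟪e, f⟫_ℂ).im : ℝ) : ℂ))) •
        (I.P A * I.sg M * I.W f * I.W (t • e)) := by
      rw [← mul_assoc, ← (I.P_W A _ hA).eq, mul_assoc, ← mul_assoc (I.W _), ← (I.sg_W M _).eq,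
        mul_assoc (I.sg M), W_comm]
      have : (⟪t • e, f⟫_ℂ).im = t * (⟪e, f⟫_ℂ).im := by
        rw [← Complex.coe_smul, inner_smul_left, Complex.conj_ofReal, Complex.im_ofReal_mul]
      rw [this]
      simp only [mul_smul_comm, mul_assoc]
    calc _ = (I.W (t • e) * (I.P A * (I.sg M * I.W f))) I.Om := rfl
      _ = _ := by rw [e1]; rfl
  have h2 : HasDerivAt (fun t : ℝ => Complex.exp (-(2 * Complex.I *
      ((t * (⟪e, f⟫_ℂ).im : ℝ) : ℂ)))) (-(2 * Complex.I * ((⟪e, f⟫_ℂ).im : ℂ))) 0 := by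
    have h3 : HasDerivAt (fun t : ℝ => -(2 * Complex.I * ((t * (⟪e, f⟫_ℂ).im : ℝ) : ℂ)))
        (-(2 * Complex.I * ((⟪e, f⟫_ℂ).im : ℂ))) 0 := by
      have h4 : HasDerivAt (fun t : ℝ => ((t * (⟪e, f⟫_ℂ).im : ℝ) : ℂ)) (((⟪e, f⟫_ℂ).im : ℝ) : ℂ) 0 := by
        have := ((hasDerivAt_id (0 : ℝ)).mul_const (⟪e, f⟫_ℂ).im).ofReal_comp
        simpa using this
      exact (h4.const_mul _).neg
    have := h3.cexp
    simpa using this
  have h5 := ((I.P A * I.sg M * I.W f).restrictScalars ℝ).hasFDerivAt.comp_hasDerivAt (0 : ℝ)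
    (hasDerivAt_W_Om (I := I) e)
  have h6 := h2.smul h5
  exact ⟨_, h6.congr_of_eventuallyEq (Eventually.of_forall fun t => h1 t)⟩

lemma tendsto_qS {e v w : H} (h : HasDerivAt (fun t : ℝ => I.W (t • e) v) w 0) :
    Tendsto (fun t : ℝ => (qS I e t) v) (𝓝[≠] 0) (𝓝 ((-Complex.I) • w)) := by
  have h1 : HasDerivAt (fun t : ℝ => I.W ((-t) • e) v) (-w) 0 := by
    have hn : HasDerivAt (fun t : ℝ => -t) (-1) 0 := hasDerivAt_neg 0
    have h' : HasDerivAt (fun t : ℝ => I.W (t • e) v) w ((fun t : ℝ => -t) 0) := by simpa using h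
    have h'' := h'.scomp (0 : ℝ) hn
    rw [neg_one_smul] at h''
    exact h''
  have h2 : HasDerivAt (fun t : ℝ => (-(Complex.I / 2)) • (I.W (t • e) v - I.W ((-t) • e) v))
      ((-(Complex.I / 2)) • (w - -w)) 0 := (h.sub h1).const_smul _
  have h3 := h2.tendsto_slope_zero
  have e1 : (-(Complex.I / 2)) • (w - -w) = (-Complex.I) • w := by
    rw [sub_neg_eq_add, ← two_smul ℂ w, smul_smul]; congr 1; ring
  rw [e1] at h3
  refine h3.congr fun t => ?_
  simp only [zero_add, neg_zero, zero_smul, sub_self, smul_zero, sub_zero, neg_smul]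
  rw [← Complex.coe_smul]
  simp only [qS, sW, neg_smul]
  rfl

/-- Cauchy criterion for exponentials of commuting skew-adjoint operators -/
lemma exists_tendsto_exp {α : Type*} {l : Filter α} [l.NeBot] {A : α → (H →L[ℂ] H)}
    (hs : ∀ i, star (A i) = - A i) (hc : ∀ i j, Commute (A i) (A j)) {v w : H}
    (h : Tendsto (fun i => (A i) v) l (𝓝 w)) :
    ∃ w', Tendsto (fun i => (exp (A i)) v) l (𝓝 w') := by
  refine cauchy_map_iff_exists_tendsto.mp ?_
  rw [Metric.cauchy_iff]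
  refine ⟨inferInstance, fun ε hε => ?_⟩
  have hev := (Metric.tendsto_nhds.mp h) (ε / 2) (by positivity)
  refine ⟨(fun i => (exp (A i)) v) '' {i | dist ((A i) v) w < ε / 2}, image_mem_map hev, ?_⟩
  rintro _ ⟨i, hi, rfl⟩ _ ⟨j, hj, rfl⟩
  calc dist ((exp (A i)) v) ((exp (A j)) v) ≤ ‖(A i - A j) v‖ := by
        rw [dist_eq_norm]; exact sk_exp_sub_exp_le (hs i) (hs j) (hc i j) v
    _ = dist ((A i) v) ((A j) v) := by rw [dist_eq_norm]; rfl
    _ ≤ dist ((A i) v) w + dist ((A j) v) w := dist_triangle_right _ _ _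
    _ < ε / 2 + ε / 2 := add_lt_add hi hj
    _ = ε := by ring

/-- the approximating unitaries -/
def Dt (I : ILSys Λ H) {T : H →L[ℂ] H} {e : H} (hT : TH I T e) (κ t : ℝ) : UH H :=
  skU (gD I T κ e t) (star_gD hT κ t)

section D

variable {T : H →L[ℂ] H} {e : H} (hT : TH I T e) (κ : ℝ)

lemma star_exp_skew {A : H →L[ℂ] H} (hA : star A = -A) : star (exp A) = exp (-A) := by
  letI : NormedAlgebra ℚ (H →L[ℂ] H) := NormedAlgebra.restrictScalars ℚ ℝ (H →L[ℂ] H)
  rw [star_exp, hA]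

theorem exists_D1 : ∃ D : UH H, STends (fun t : ℝ => Dt I hT κ t) (𝓝[≠] 0) D := by
  have key : ∀ κ : ℝ, ∀ v ∈ {v : H | ∃ A M f, MeasurableSet A ∧ v = I.P A (I.sg M (I.W f I.Om))},
      ∃ w, Tendsto (fun t : ℝ => (exp (gD I T κ e t)) v) (𝓝[≠] 0) (𝓝 w) := by
    rintro κ _ ⟨A, M, f, hA, rfl⟩
    obtain ⟨w, hw⟩ := hasDerivAt_W_total (I := I) e hA M f
    have h1 := tendsto_qS hw
    have h2 : Tendsto (fun t : ℝ => (gD I T κ e t) (I.P A (I.sg M (I.W f I.Om)))) (𝓝[≠] 0)
        (𝓝 ((Complex.I * κ) • T ((-Complex.I) • w))) :=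
      (((T.continuous.tendsto _).comp h1)).const_smul _
    exact exists_tendsto_exp (fun t => star_gD hT κ t) (fun s t => gD_comm hT κ s t) h2
  refine exists_UH (fun v => exists_tendsto_of_total I.total (fun v hv => key κ v hv) v) ?_
  have hneg : ∀ t, (star (Dt I hT κ t : H →L[ℂ] H)) = (Dt I hT (-κ) t : H →L[ℂ] H) := by
    intro t
    show star (exp (gD I T κ e t)) = exp (gD I T (-κ) e t)
    rw [star_exp_skew (star_gD hT κ t)]
    congr 1
    rw [gD, gD]
    push_cast
    rw [mul_neg, neg_smul]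
  intro v
  obtain ⟨w, hw⟩ := exists_tendsto_of_total (U := fun t => Dt I hT (-κ) t) I.total
    (fun v hv => key (-κ) v hv) v
  exact ⟨w, hw.congr fun t => by rw [hneg]⟩

variable {hT κ} {D : UH H} (hD : STends (fun t : ℝ => Dt I hT κ t) (𝓝[≠] 0) D)

omit hT in
/-- commutation passes to strong limits -/
lemma commute_of_STends {α : Type*} {l : Filter α} [l.NeBot] {U : α → UH H} {D : UH H}
    (hU : STends U l D) {K : H →L[ℂ] H} (h : ∀ i, Commute K (U i : H →L[ℂ] H)) :
    Commute K (D : H →L[ℂ] H) := by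
  show _ = _
  ext v
  refine tendsto_nhds_unique ((K.continuous.tendsto _).comp (hU v)) ?_
  refine (hU (K v)).congr fun i => ?_
  have := congrArg (fun T : H →L[ℂ] H => T v) (h i).eq
  exact this.symm

lemma commute_gD {K : H →L[ℂ] H} (h1 : Commute K T) (h2 : ∀ t : ℝ, Commute K (I.W (t • e)))
    (t : ℝ) : Commute K (gD I T κ e t) := by
  have h3 := h2 (-t)
  rw [neg_smul] at h3
  exact (h1.mul_right ((((h2 t).sub_right h3).smul_right _).smul_right _)).smul_right _

lemma commute_Dt {K : H →L[ℂ] H} (h1 : Commute K T) (h2 : ∀ t : ℝ, Commute K (I.W (t • e)))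
    (t : ℝ) : Commute K (Dt I hT κ t : H →L[ℂ] H) := by
  letI : NormedAlgebra ℚ (H →L[ℂ] H) := NormedAlgebra.restrictScalars ℚ ℝ (H →L[ℂ] H)
  exact (commute_gD h1 h2 t).exp_right

include hD in
lemma commute_D1 {K : H →L[ℂ] H} (h1 : Commute K T) (h2 : ∀ t : ℝ, Commute K (I.W (t • e))) :
    Commute K (D : H →L[ℂ] H) :=
  commute_of_STends hD fun t => commute_Dt h1 h2 t

include hD in
lemma PC_D1 : PC I (D : H →L[ℂ] H) := fun B hB =>
  commute_D1 hD (hT.PC B hB) fun _ => I.P_W _ _ hB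

include hD in
lemma sg_D1 (M : Matrix Bool Bool ℂ) : Commute (I.sg M) (D : H →L[ℂ] H) :=
  commute_D1 hD (hT.sg M) fun _ => I.sg_W _ _

include hD in
lemma T_D1 : Commute T (D : H →L[ℂ] H) :=
  commute_D1 hD (Commute.refl T) fun t => (hT.W t).symm

include hD in
lemma W_D1_of_im {f : H} (h1 : Commute (I.W f) T) (h2 : (⟪f, e⟫_ℂ).im = 0) :
    Commute (I.W f) (D : H →L[ℂ] H) :=
  commute_D1 hD h1 fun t => W_commute (im_smul_right h2 t)

end D

/-! ### Conjugation of Weyl operators by `D` -/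

/-- shifted difference quotient -/
def qS' (I : ILSys Λ H) (e : H) (b t : ℝ) : H →L[ℂ] H :=
  ((t⁻¹ : ℝ) : ℂ) • (-(Complex.I / 2)) • (Complex.exp ((2 * (t * b) : ℝ) * Complex.I) • I.W (t • e)
    - Complex.exp (-((2 * (t * b) : ℝ) * Complex.I)) • I.W (-(t • e)))

lemma WfW {f e : H} : I.W (-f) * I.W e * I.W f =
    Complex.exp ((2 * (⟪f, e⟫_ℂ).im : ℝ) * Complex.I) • I.W e := by
  rw [mul_assoc, W_comm e f, mul_smul_comm, ← mul_assoc, W_neg_mul, one_mul, ← inner_conj_symm e f,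
    Complex.conj_im]
  congr 2
  push_cast
  ring

lemma W_qS_W (f e : H) (t : ℝ) :
    I.W (-f) * qS I e t * I.W f = qS' I e (⟪f, e⟫_ℂ).im t := by
  have h1 : (⟪f, t • e⟫_ℂ).im = t * (⟪f, e⟫_ℂ).im := by
    rw [← Complex.coe_smul, inner_smul_right, Complex.im_ofReal_mul]
  rw [qS, sW, qS']
  simp only [mul_smul_comm, smul_mul_assoc, mul_sub, sub_mul, WfW, inner_neg_right, Complex.neg_im,
    h1]
  congr 4
  push_cast
  ring_nf

lemma qS'_sub_tendsto (e : H) (b : ℝ) (v : H) :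
    Tendsto (fun t : ℝ => (qS' I e b t - qS I e t) v) (𝓝[≠] 0) (𝓝 (((2 * b : ℝ) : ℂ) • v)) := by
  have hc : ∀ b : ℝ, Tendsto (fun t : ℝ => ((t⁻¹ : ℝ) : ℂ) *
      (Complex.exp ((2 * (t * b) : ℝ) * Complex.I) - 1)) (𝓝[≠] 0) (𝓝 ((2 * b : ℝ) * Complex.I)) := by
    intro b
    have h1 : HasDerivAt (fun t : ℝ => Complex.exp ((2 * (t * b) : ℝ) * Complex.I))
        ((2 * b : ℝ) * Complex.I) 0 := by
      have h2 : HasDerivAt (fun t : ℝ => ((2 * (t * b) : ℝ) : ℂ)) ((2 * b : ℝ) : ℂ) 0 := by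
        have := (((hasDerivAt_id (0 : ℝ)).mul_const b).const_mul 2).ofReal_comp
        simpa using this
      have := (h2.mul_const Complex.I).cexp
      simpa using this
    have h3 := h1.tendsto_slope_zero
    refine h3.congr fun t => ?_
    simp
  have hW : ∀ s : ℝ, Tendsto (fun t : ℝ => I.W ((s * t) • e) v) (𝓝[≠] 0) (𝓝 v) := by
    intro s
    have h1 : Tendsto (fun t : ℝ => (s * t) • e) (𝓝 0) (𝓝 ((s * 0) • e)) :=
      ((continuous_const.mul continuous_id).smul continuous_const).tendsto 0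
    have h2 := (tendsto_W (I := I) h1 (tendsto_const_nhds (x := v))).mono_left
      (nhdsWithin_le_nhds (s := {0}ᶜ))
    simpa [I.W_zero] using h2
  have h1 := ((hc b).smul (hW 1)).sub ((hc (-b)).smul (hW (-1)))
  have h2 := h1.const_smul (-(Complex.I / 2))
  have e1 : (-(Complex.I / 2)) • (((2 * b : ℝ) * Complex.I) • v - ((2 * (-b) : ℝ) * Complex.I) • v)
      = (((2 * b : ℝ) : ℂ) • v) := by
    rw [← sub_smul, smul_smul]
    congr 1
    push_cast
    linear_combination (-2 * (b : ℂ)) * Complex.I_sq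
  rw [e1] at h2
  refine h2.congr fun t => ?_
  have e2 : qS' I e b t - qS I e t = (-(Complex.I / 2)) • ((((t⁻¹ : ℝ) : ℂ) *
      (Complex.exp ((2 * (t * b) : ℝ) * Complex.I) - 1)) • I.W ((1 * t) • e) -
      (((t⁻¹ : ℝ) : ℂ) * (Complex.exp ((2 * (t * (-b)) : ℝ) * Complex.I) - 1)) •
        I.W ((-1 * t) • e)) := by
    have hm : (-1 * t) • e = -(t • e) := by rw [neg_one_mul, neg_smul]
    have hb : ((2 * (t * -b) : ℝ) : ℂ) * Complex.I = -(((2 * (t * b) : ℝ) : ℂ) * Complex.I) := by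
      push_cast; ring
    rw [qS', qS, sW, one_mul, hm, hb]
    module
  rw [e2]
  rfl

section Conj

variable {T : H →L[ℂ] H} {e : H} {hT : TH I T e} {κ : ℝ} {D : UH H}
  (hD : STends (fun t : ℝ => Dt I hT κ t) (𝓝[≠] 0) D)

omit hT in
lemma commute_qS' (e : H) (b t s : ℝ) : Commute (qS' I e b t) (I.W (s • e)) := by
  have h0 : (⟪e, e⟫_ℂ).im = 0 := by simpa using inner_self_im (𝕜 := ℂ) e
  have h1 : Commute (I.W (t • e)) (I.W (s • e)) :=
    W_commute (im_smul_left (im_smul_right h0 s) t)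
  have h2 : Commute (I.W (-(t • e))) (I.W (s • e)) := by
    refine W_commute ?_
    rw [inner_neg_left, Complex.neg_im, im_smul_left (im_smul_right h0 s) t, neg_zero]
  exact (((h1.smul_left _).sub_left (h2.smul_left _)).smul_left _).smul_left _

lemma TH.qS' (hT : TH I T e) (b t : ℝ) : Commute (qS' I e b t) T := by
  have h2 := hT.W (-t)
  rw [neg_smul] at h2
  exact ((((hT.W t).smul_left _).sub_left (h2.smul_left _)).smul_left _).smul_left _

include hD in
/-- `D* W(f) D = W(f) exp(-2 i κ Im⟨f,e⟩ T)` -/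
theorem star_D1_W_D1 {f : H} (hf : Commute (I.W f) T) :
    star (D : H →L[ℂ] H) * I.W f * (D : H →L[ℂ] H) =
      I.W f * exp ((-(Complex.I * (2 * κ * (⟪f, e⟫_ℂ).im : ℝ))) • T) := by
  letI : NormedAlgebra ℚ (H →L[ℂ] H) := NormedAlgebra.restrictScalars ℚ ℝ (H →L[ℂ] H)
  set b := (⟪f, e⟫_ℂ).im with hb
  have hf' : Commute (I.W (-f)) T := by
    show I.W (-f) * T = T * I.W (-f)
    calc I.W (-f) * T = I.W (-f) * (T * I.W f) * I.W (-f) := by
          rw [mul_assoc, mul_assoc T, W_mul_neg, mul_one]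
      _ = T * I.W (-f) := by rw [← hf.eq, ← mul_assoc, W_neg_mul, one_mul]
  -- the operator at `t`
  have h1 : ∀ t, star (Dt I hT κ t : H →L[ℂ] H) * I.W f * (Dt I hT κ t : H →L[ℂ] H) =
      I.W f * exp ((-(Complex.I * κ)) • (T * (qS' I e b t - qS I e t))) := by
    intro t
    have e1 : star (Dt I hT κ t : H →L[ℂ] H) * I.W f =
        I.W f * exp ((-(Complex.I * κ)) • (T * qS' I e b t)) := by
      show star (exp (gD I T κ e t)) * I.W f = _
      rw [star_exp_skew (star_gD hT κ t)]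
      have h2 : I.W (-f) * exp (-gD I T κ e t) * I.W f =
          exp (I.W (-f) * (-gD I T κ e t) * I.W f) := by
        have := star_mul_exp_mul (I.WU f) (-gD I T κ e t)
        have hs : star ((I.WU f : UH H) : H →L[ℂ] H) = I.W (-f) := I.W_star f
        rw [hs] at this
        exact this
      have h3 : I.W (-f) * (-gD I T κ e t) * I.W f = (-(Complex.I * κ)) • (T * qS' I e b t) := by
        rw [gD, ← neg_smul, mul_smul_comm, smul_mul_assoc, ← mul_assoc, hf'.eq, mul_assoc T,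
          mul_assoc T, W_qS_W]
      rw [h3] at h2
      rw [← h2, ← mul_assoc, ← mul_assoc, W_mul_neg, one_mul]
    rw [e1, mul_assoc]
    congr 1
    show exp _ * exp (gD I T κ e t) = _
    rw [← exp_add_of_commute]
    · congr 1
      rw [gD, mul_sub]
      module
    · refine (Commute.smul_left (Commute.smul_right ?_ _) _)
      exact ((Commute.refl T).mul_right (hT.qS t).symm).mul_left
        ((hT.qS' b t).mul_right ((((commute_qS' e b t t).sub_right (by
          have := commute_qS' (I := I) e b t (-t)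
          rwa [neg_smul] at this)).smul_right _).smul_right _))
  -- the limit of the left hand side
  refine ContinuousLinearMap.ext fun v => ?_
  have h2 : Tendsto (fun t : ℝ => (star (Dt I hT κ t : H →L[ℂ] H) * I.W f *
      (Dt I hT κ t : H →L[ℂ] H)) v) (𝓝[≠] 0)
      (𝓝 ((star (D : H →L[ℂ] H) * I.W f * (D : H →L[ℂ] H)) v)) :=
    tendsto_U_apply hD.adj (((I.W f).continuous.tendsto _).comp (hD v))
  have h3 : Tendsto (fun t : ℝ => (I.W f * exp ((-(Complex.I * κ)) •
      (T * (qS' I e b t - qS I e t)))) v) (𝓝[≠] 0)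
      (𝓝 ((I.W f * exp ((-(Complex.I * (2 * κ * b : ℝ))) • T)) v)) := by
    refine ((I.W f).continuous.tendsto _).comp ?_
    rw [tendsto_iff_norm_sub_tendsto_zero]
    have h4 : Tendsto (fun t : ℝ => ((-(Complex.I * κ)) • (T * (qS' I e b t - qS I e t)) -
        (-(Complex.I * (2 * κ * b : ℝ))) • T) v) (𝓝[≠] 0) (𝓝 0) := by
      have h5 := (((T.continuous.tendsto _).comp (qS'_sub_tendsto (I := I) e b v)).const_smul
        (-(Complex.I * κ))).sub_const ((-(Complex.I * (2 * κ * b : ℝ))) • T v)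
      have e5 : (-(Complex.I * κ)) • T (((2 * b : ℝ) : ℂ) • v) -
          (-(Complex.I * (2 * κ * b : ℝ))) • T v = 0 := by
        rw [map_smul, smul_smul, ← sub_smul]
        push_cast
        rw [show -(Complex.I * κ) * (2 * (b : ℂ)) - -(Complex.I * (2 * κ * b)) = 0 by ring, zero_smul]
      rw [e5] at h5
      exact h5
    refine squeeze_zero (fun _ => norm_nonneg _) (fun t => ?_) (tendsto_zero_iff_norm_tendsto_zero.mp h4)
    refine sk_exp_sub_exp_le ?_ ?_ ?_ v
    · have hq : star (qS' I e b t) = qS' I e b t := by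
        rw [hb, ← W_qS_W, star_mul, star_mul, I.W_star, I.W_star, neg_neg, star_qS, mul_assoc]
      have hm : star (T * (qS' I e b t - qS I e t)) = T * (qS' I e b t - qS I e t) := by
        rw [star_mul, star_sub, hq, star_qS, hT.star, ((hT.qS' b t).sub_left (hT.qS t)).eq]
      rw [star_smul, hm, ← neg_smul]
      congr 1
      simp
    · rw [star_smul, hT.star, ← neg_smul]
      congr 1
      simp
    · refine Commute.smul_left (Commute.smul_right ?_ _) _
      exact (Commute.refl T).mul_left ((hT.qS' b t).sub_left (hT.qS t))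
  exact tendsto_nhds_unique h2 (h3.congr fun t => by rw [h1])

end Conj

/-! ### The gate `D` on the class `N` -/

section Gate

variable {T : H →L[ℂ] H} {e : H} (hT : TH I T e) (κ : ℝ) {N : Set Λ} (hN : MeasurableSet N)

lemma PC_Dt (t : ℝ) : PC I (Dt I hT κ t : H →L[ℂ] H) := fun B hB =>
  commute_Dt (hT.PC B hB) (fun _ => I.P_W _ _ hB) t

/-- strong limits of node gates -/
lemma STends_nd {α : Type*} {l : Filter α} {U : α → UH H} {U₀ : UH H} (h : STends U l U₀)
    (hU : ∀ i, PC I (U i : H →L[ℂ] H)) (hU₀ : PC I (U₀ : H →L[ℂ] H)) :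
    STends (fun i => nd I hN (U i) (hU i)) l (nd I hN U₀ hU₀) := by
  intro v
  show Tendsto (fun i => I.P Nᶜ v + I.P N ((U i : H →L[ℂ] H) v)) l
    (𝓝 (I.P Nᶜ v + I.P N ((U₀ : H →L[ℂ] H) v)))
  exact tendsto_const_nhds.add (((I.P N).continuous.tendsto _).comp (h v))

/-- the properties of the gate `D = on N exp(i κ T φ(e))` -/
structure DGate (I : ILSys Λ H) (N : Set Λ) (T : H →L[ℂ] H) (κ : ℝ) (e : H) (D : UH H) : Prop where
  PC : PC I (D : H →L[ℂ] H)
  sg : ∀ m, Commute (I.sg m) (D : H →L[ℂ] H)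
  W : ∀ f, Commute (I.W f) T → star (D : H →L[ℂ] H) * I.W f * (D : H →L[ℂ] H) =
    I.W f * I.blk N (exp ((-(Complex.I * (2 * κ * (⟪f, e⟫_ℂ).im : ℝ))) • T))
  off : ∀ B, MeasurableSet B → Disjoint B N → (D : H →L[ℂ] H) * I.P B = I.P B
  comm : ∀ K : H →L[ℂ] H, Commute K T → Commute K (I.P N) → (∀ t : ℝ, Commute K (I.W (t • e))) →
    Commute K (D : H →L[ℂ] H)

lemma P_compl_eq {A : Set Λ} (hA : MeasurableSet A) : I.P Aᶜ = 1 - I.P A := by
  rw [← P_compl_add (I := I) hA]; abel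

lemma commute_blk {A : Set Λ} (hA : MeasurableSet A) {K a : H →L[ℂ] H} (h : Commute K (I.P A))
    (ha : Commute K a) : Commute K (I.blk A a) := by
  rw [ILSys.blk, P_compl_eq hA]
  exact ((Commute.one_right _).sub_right h).add_right (h.mul_right ha)

/-- **existence of `D`** -/
theorem exists_D : ∃ D : UH H, DGate I N T κ e D ∧
    STends (fun t : ℝ => nd I hN (Dt I hT κ t) (PC_Dt hT κ t)) (𝓝[≠] 0) D := by
  letI : NormedAlgebra ℚ (H →L[ℂ] H) := NormedAlgebra.restrictScalars ℚ ℝ (H →L[ℂ] H)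
  obtain ⟨D, hD⟩ := exists_D1 hT κ
  have hPC := PC_D1 hD
  refine ⟨nd I hN D hPC, ⟨PC.blk hN hPC, fun m => ?_, fun f hf => ?_, fun B hB hBN => ?_,
    fun K h1 h2 h3 => ?_⟩, STends_nd hN hD _ _⟩
  · exact commute_blk hN (I.P_sg _ _ hN).symm (sg_D1 hD m)
  · have h1 := star_D1_W_D1 hD hf
    set E := exp ((-(Complex.I * (2 * κ * (⟪f, e⟫_ℂ).im : ℝ))) • T) with hE
    show star (I.blk N D) * I.W f * I.blk N D = I.W f * I.blk N E
    have e1 : star (I.blk N D) * I.W f = I.P Nᶜ * I.W f + I.P N * (star (D : H →L[ℂ] H) * I.W f) := by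
      rw [star_blk hN (hPC.star N hN), ILSys.blk, add_mul, mul_assoc]
    have e2 : (I.P Nᶜ * I.W f + I.P N * (star (D : H →L[ℂ] H) * I.W f)) *
        (I.P Nᶜ * 1 + I.P N * D) = I.P Nᶜ * (I.W f * 1) +
          I.P N * (star (D : H →L[ℂ] H) * I.W f * D) :=
      blk_mul hN (fun B hB => I.P_W _ _ hB)
        (hPC.star.mul (fun B hB => I.P_W _ _ hB))
    rw [mul_one, mul_one] at e2
    rw [e1, ILSys.blk, e2, h1, ILSys.blk, mul_add, ← mul_assoc (I.P N), (I.P_W _ f hN).eq,
      (I.P_W _ f hN.compl).eq, mul_assoc]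
  · show I.blk N D * I.P B = I.P B
    rw [ILSys.blk, P_compl_eq hN, add_mul, sub_mul, one_mul, P_disj hN hB hBN.symm, sub_zero,
      mul_assoc, ← (hPC B hB).eq, ← mul_assoc, P_disj hN hB hBN.symm, zero_mul, add_zero]
  · exact commute_blk hN h2 (commute_D1 hD h1 h3)

end Gate

end Crest.Agent.R339.Gad
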