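import Crest.Agent.R339.Gad233C
import Crest.Agent.R339.Li728L
import Crest.Agent.R339.Cel90E

/-!
# R339: the gadget theorem from the cell limit (G4) (helper233)
-/

set_option autoImplicit false
set_option linter.style.haveILetI false
set_option linter.unusedSectionVars false

noncomputable section

open scoped ComplexConjugate InnerProductSpace Topology
open Filter MeasureTheory NormedSpace

namespace Crest.Agent.R339.Gad

open Crest.Agent.R339.Li Crest.Agent.R339.Li.ILSys Crest.Agent.R339.MF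

variable {Λ H : Type*} [MeasurableSpace Λ] [NormedAddCommGroup H] [InnerProductSpace ℂ H]
  [CompleteSpace H] {I : ILSys Λ H}

/-- output of (G3) -/
def CellsStmt (I : ILSys Λ H) (cc : ℝ) : Prop :=
  ∀ (S Mn M A : Set Λ) (L : Set H), I.Cl A → Lab I S Mn L → I.Cl Mn → Mn ⊆ S → I.Cl M →
    M ⊆ S → Disjoint M Mn → 0 < I.μ.real M → A ⊆ S → Disjoint A M →
    ∀ U : UH H, Dom I L U → (U : H →L[ℂ] H) * I.P M = I.P M →
      (∀ f, I.P M f = f → Commute (I.W f) (U : H →L[ℂ] H)) →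
      ∀ (n : ℕ) (c a b : Fin n → ℝ) (u : Fin n → H), (∀ k, b k = 1 ∨ b k = -1) →
      (∀ k, u k ∈ Submodule.span ℝ L) →
      (∀ h : H, ∑ k, (c k : ℂ) • I.sW ((a k : ℂ) • h + u k) = 0) →
      ∀ (t : ℝ) (V : UH H),
      (V : H →L[ℂ] H) = I.blk Mn (Cel.eI (-t) (Cel.csS I (fun k => c k * b k)
          (fun k => (a k : ℂ) • I.eA A U + u k))) *
        (I.blk A (I.zW ((-(t : ℂ)) • Cel.pV I Mn U (Cel.snS I (fun k => c k * a k * b k)
          (fun k => (a k : ℂ) • I.eA A U + u k)))) * U) →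
      I.Good S L cc U → I.Good S L cc V

/-! ### The four term family -/

/-- coefficients -/
def cf : Fin 4 → ℝ := ![-1, 1, 1, 1]
/-- coefficients -/
def af : Fin 4 → ℝ := ![1, 1, -1, 1]
/-- coefficients -/
def bf : Fin 4 → ℝ := ![1, 1, 1, -1]
/-- coefficients -/
def uf : Fin 4 → ℝ := ![1, -1, 1, 1]

lemma sum_four {M : Type*} [AddCommMonoid M] {n : ℕ} (F : Fin n → Fin 4 → M) :
    ∑ k : Fin (n * 4), F (finProdFinEquiv.symm k).1 (finProdFinEquiv.symm k).2 =
      ∑ j, (F j 0 + F j 1 + F j 2 + F j 3) := by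
  rw [Fintype.sum_equiv (finProdFinEquiv (m := n) (n := 4)).symm _ (fun p => F p.1 p.2)
    (fun _ => rfl), Fintype.sum_prod_type]
  refine Finset.sum_congr rfl fun j _ => ?_
  rw [Fin.sum_univ_four]

variable {n : ℕ}

/-- the coefficients `c` of the family -/
def fc (a : Fin n → ℝ) (s : ℝ) (k : Fin (n * 4)) : ℝ :=
  a (finProdFinEquiv.symm k).1 / (4 * s) * cf (finProdFinEquiv.symm k).2
/-- the coefficients `a` of the family -/
def fa (s : ℝ) (k : Fin (n * 4)) : ℝ := s * af (finProdFinEquiv.symm k).2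
/-- the coefficients `b` of the family -/
def fb (k : Fin (n * 4)) : ℝ := bf (finProdFinEquiv.symm k).2
/-- the vectors of the family -/
def fu (u : Fin n → H) (k : Fin (n * 4)) : H :=
  uf (finProdFinEquiv.symm k).2 • u (finProdFinEquiv.symm k).1

lemma fb_pm (k : Fin (n * 4)) : fb k = 1 ∨ fb k = -1 := by
  unfold fb
  generalize (finProdFinEquiv.symm k).2 = i
  fin_cases i <;> simp [bf]

lemma fu_mem {L : Set H} {u : Fin n → H} (hu : ∀ k, u k ∈ Submodule.span ℝ L) (k : Fin (n * 4)) :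
    fu u k ∈ Submodule.span ℝ L := Submodule.smul_mem _ _ (hu _)

lemma fam_zero (a : Fin n → ℝ) (s : ℝ) (u : Fin n → H) (h : H) :
    ∑ k, (fc a s k : ℂ) • I.sW ((fa s k : ℂ) • h + fu u k) = 0 := by
  have := sum_four (M := H →L[ℂ] H) (n := n) (fun j i => ((a j / (4 * s) * cf i : ℝ) : ℂ) •
    I.sW (((s * af i : ℝ) : ℂ) • h + uf i • u j))
  refine this.trans (Finset.sum_eq_zero fun j _ => ?_)
  have e : I.sW (((s * af 2 : ℝ) : ℂ) • h + uf 2 • u j) =
      - I.sW (((s * af 1 : ℝ) : ℂ) • h + uf 1 • u j) := by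
    rw [← sW_neg]
    congr 1
    simp [af, uf]
    abel
  rw [e]
  simp [cf, af, uf]

lemma fam_vec (s : ℝ) (h v : H) :
    ((s * af 0 : ℝ) : ℂ) • h + uf 0 • v = v + s • h ∧
    ((s * af 1 : ℝ) : ℂ) • h + uf 1 • v = -(v - s • h) ∧
    ((s * af 2 : ℝ) : ℂ) • h + uf 2 • v = v - s • h ∧
    ((s * af 3 : ℝ) : ℂ) • h + uf 3 • v = v + s • h := by
  simp only [Complex.coe_smul, af, uf, Matrix.cons_val_zero, Matrix.cons_val_one,
    Matrix.cons_val, mul_one, mul_neg, one_smul, neg_smul]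
  refine ⟨?_, ?_, ?_, ?_⟩ <;> abel

lemma fam_cos (a : Fin n → ℝ) {s : ℝ} (u : Fin n → H) {h : H}
    (hr : ∀ k, (⟪u k, h⟫_ℂ).im = 0) :
    Cel.csS I (fun k => fc a s k * fb k) (fun k => (fa s k : ℂ) • h + fu u k) =
      I.fT a u * qS I h s := by
  have := sum_four (M := H →L[ℂ] H) (n := n) (fun j i => ((a j / (4 * s) * cf i * bf i : ℝ) : ℂ) •
    I.cW (((s * af i : ℝ) : ℂ) • h + uf i • u j))
  refine this.trans ?_
  rw [fT, Finset.sum_mul]
  refine Finset.sum_congr rfl fun j _ => ?_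
  have hi : (⟪u j, s • h⟫_ℂ).im = 0 := im_smul_right (hr j) s
  obtain ⟨e0, e1, e2, e3⟩ := fam_vec s h (u j)
  rw [e0, e1, e2, e3, cW_neg, qS, smul_mul_smul_comm, Cel.sW_mul_sW hi]
  simp only [cf, bf, Matrix.cons_val_zero, Matrix.cons_val_one, Matrix.cons_val]
  push_cast
  module

lemma fam_sin (a : Fin n → ℝ) {s : ℝ} (hs : s ≠ 0) (u : Fin n → H) {h : H}
    (hr : ∀ k, (⟪u k, h⟫_ℂ).im = 0) :
    Cel.snS I (fun k => fc a s k * fa s k * fb k) (fun k => (fa s k : ℂ) • h + fu u k) =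
      -(I.fT a u * I.cW (s • h)) := by
  have := sum_four (M := H →L[ℂ] H) (n := n)
    (fun j i => ((a j / (4 * s) * cf i * (s * af i) * bf i : ℝ) : ℂ) •
    I.sW (((s * af i : ℝ) : ℂ) • h + uf i • u j))
  refine this.trans ?_
  rw [fT, Finset.sum_mul, ← Finset.sum_neg_distrib]
  refine Finset.sum_congr rfl fun j _ => ?_
  have hi : (⟪u j, s • h⟫_ℂ).im = 0 := im_smul_right (hr j) s
  have hs' : (s : ℂ) ≠ 0 := by exact_mod_cast hs
  obtain ⟨e0, e1, e2, e3⟩ := fam_vec s h (u j)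
  rw [e0, e1, e2, e3, sW_neg, smul_mul_assoc, Cel.sW_mul_cW hi]
  simp only [cf, bf, af, Matrix.cons_val_zero, Matrix.cons_val_one, Matrix.cons_val]
  push_cast
  match_scalars
  · field_simp
    ring
  · field_simp
    ring

/-! ### The gadget theorem -/

lemma im_span_left {L : Set H} {e x : H} (h : ∀ l ∈ L, (⟪l, e⟫_ℂ).im = 0)
    (hx : x ∈ Submodule.span ℝ L) : (⟪x, e⟫_ℂ).im = 0 := by
  induction hx using Submodule.span_induction with
  | mem x hx => exact h x hx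
  | zero => simp
  | add x y _ _ hx hy => rw [inner_add_left, Complex.add_im, hx, hy, add_zero]
  | smul a x _ hx => exact im_smul_left hx a

lemma tendsto_cW_smul (e v : H) : Tendsto (fun t : ℝ => I.cW (t • e) v) (𝓝[≠] 0) (𝓝 v) := by
  have hW : ∀ s : ℝ, Tendsto (fun t : ℝ => I.W ((s * t) • e) v) (𝓝[≠] 0) (𝓝 v) := by
    intro s
    have h1 : Tendsto (fun t : ℝ => (s * t) • e) (𝓝 0) (𝓝 ((s * 0) • e)) :=
      ((continuous_const.mul continuous_id).smul continuous_const).tendsto 0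
    have h2 := (tendsto_W (I := I) h1 (tendsto_const_nhds (x := v))).mono_left
      (nhdsWithin_le_nhds (s := {0}ᶜ))
    simpa [I.W_zero] using h2
  have h := ((hW 1).add (hW (-1))).const_smul (1 / 2 : ℂ)
  have e1 : (1 / 2 : ℂ) • (v + v) = v := by module
  rw [e1] at h
  refine h.congr fun t => ?_
  rw [one_mul, neg_one_mul, neg_smul]
  rfl

theorem gadget_of_cells {cc : ℝ} (hc : CellsStmt I cc) : Gadget I cc := by
  intro S Mn M A L hA hlab hMn hMnS hM hMS hdis hpos hAS hAM U hU hUM hUW n a u hu κ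
  set e := I.eA A U with he
  have hmMn := I.Cl_meas Mn hMn
  have hmA := I.Cl_meas A hA
  -- reality of the target vector
  have hle : ∀ l ∈ L, (⟪l, e⟫_ℂ).im = 0 := fun l hl => im_symm (hU.im_eA hlab hmA hAS hl)
  have hue : ∀ k, (⟪u k, e⟫_ℂ).im = 0 := fun k => im_span_left hle (hu k)
  have hT : TH I (I.fT a u) e := TH_fT fun k => im_symm (hue k)
  obtain ⟨D, hD, hlim⟩ := exists_D hT κ hmMn
  refine ⟨D, ⟨hD.PC, hD.sg, hD.comm _ (Commute.refl _) (PC_fT Mn hmMn).symm fun t =>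
    (hT.W t).symm, fun f => -(2 * κ * (⟪f, e⟫_ℂ).im), fun f => ?_, fun f hf => ?_⟩, fun hG => ?_⟩
  · show -(2 * κ * (⟪-f, e⟫_ℂ).im) = -(-(2 * κ * (⟪f, e⟫_ℂ).im))
    rw [inner_neg_left, Complex.neg_im]; ring
  · rw [hD.W f (fT_comm_of fun k => ?_)]
    · congr 3
      rw [← Complex.coe_smul, smul_smul]
      congr 1
      push_cast
      ring
    · have : ∀ l ∈ L, (⟪l, f⟫_ℂ).im = 0 := fun l hl => im_symm (hf l hl)
      exact im_symm (im_span_left this (hu k))
  · -- the approximating states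
    have hUT : (U : H →L[ℂ] H) * I.fT a u = I.fT a u * U := (fT_comm_K hlab.real hu hU.W).eq
    have hgood : ∀ t : ℝ, t ≠ 0 → I.Good S L cc (nd I hmMn (Dt I hT κ t) (PC_Dt hT κ t) *
        (I.cst hmA ((κ : ℂ) • Cel.pV I Mn U (I.fT a u * I.cW (t • e))) * U)) := by
      intro t ht
      refine hc S Mn M A L hA hlab hMn hMnS hM hMS hdis hpos hAS hAM U hU hUM hUW (n * 4)
        (fc a t) (fa t) fb (fu u) fb_pm (fu_mem hu) (fam_zero a t u) κ _ ?_ hG
      rw [← he, fam_cos a u hue, fam_sin a ht u hue]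
      show I.blk Mn (exp (gD I (I.fT a u) κ e t)) * (I.blk A (I.zW _) * U) = _
      rw [Cel.eI, gD, Cel.pV_neg]
      congr 3
      · congr 2
        push_cast
        ring
      · rw [smul_neg, neg_smul, neg_neg]
    refine Good.of_tendsto (l := 𝓝[≠] (0 : ℝ)) (U := fun t => nd I hmMn (Dt I hT κ t) (PC_Dt hT κ t) *
        (I.cst hmA ((κ : ℂ) • Cel.pV I Mn U (I.fT a u * I.cW (t • e))) * U))
      (eventually_nhdsWithin_of_forall fun t ht => hgood t ht) ?_
    refine hlim.mul ((STends_cst hmA ?_).mul (STends.const U))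
    refine Tendsto.const_smul ?_ _
    have h1 := tendsto_cW_smul (I := I) e ((U : H →L[ℂ] H) I.Om)
    have h2 := (((I.P Mn * star (U : H →L[ℂ] H) * I.fT a u).continuous.tendsto _).comp h1)
    have e2 : (I.P Mn * star (U : H →L[ℂ] H) * I.fT a u) ((U : H →L[ℂ] H) I.Om) =
        I.P Mn (I.fT a u I.Om) := by
      show (I.P Mn * star (U : H →L[ℂ] H) * I.fT a u * (U : H →L[ℂ] H)) I.Om = _
      rw [mul_assoc, ← hUT, ← mul_assoc, mul_assoc (I.P Mn), star_U_mul_self, mul_one]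
      rfl
    rw [e2] at h2
    exact h2

end Crest.Agent.R339.Gad
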