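import Crest.Agent.R339.GTools

/-!
# Row 339, part (A): Kahane's Gaussian comparison inequality (finite dimensional, smooth)
-/

set_option autoImplicit false

namespace Crest.Agent.R339.Guerra

open MeasureTheory ProbabilityTheory Real

noncomputable section

variable {I ι : Type*} [Fintype I] [Fintype ι]

/-- the linear image of a vector -/
def lin (A : I → ι → ℝ) (g : ι → ℝ) : I → ℝ := fun a => ∑ j, A a j * g j

/-- the continuous linear functional with coefficients `p` -/
def dual (p : I → ℝ) : (I → ℝ) →L[ℝ] ℝ :=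
  ∑ a, p a • (ContinuousLinearMap.proj a : (I → ℝ) →L[ℝ] ℝ)

@[simp] theorem dual_apply (p : I → ℝ) (v : I → ℝ) : dual p v = ∑ a, p a * v a := by
  simp [dual]

theorem norm_dual_le (p : I → ℝ) : ‖dual p‖ ≤ ∑ a, |p a| := by
  refine ContinuousLinearMap.opNorm_le_bound _ (Finset.sum_nonneg fun a _ => abs_nonneg _)
    fun v => ?_
  rw [dual_apply, Real.norm_eq_abs, Finset.sum_mul]
  refine (Finset.abs_sum_le_sum_abs _ _).trans (Finset.sum_le_sum fun a _ => ?_)
  rw [abs_mul]
  exact mul_le_mul_of_nonneg_left (norm_le_pi_norm v a) (abs_nonneg _)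

theorem continuous_lin (A : I → ι → ℝ) : Continuous (lin A) := by
  unfold lin; fun_prop

theorem hasDerivAt_lin_update [DecidableEq ι] (A : I → ι → ℝ) (g : ι → ℝ) (j : ι) (t : ℝ) :
    HasDerivAt (fun t => lin A (Function.update g j t)) (fun a => A a j) t := by
  rw [hasDerivAt_pi]
  intro a
  unfold lin
  have h := fun k : ι => ((hasDerivAt_pi.1 (hasDerivAt_update g j t)) k).const_mul (A a k)
  have h2 := HasDerivAt.fun_sum (u := Finset.univ) (fun k _ => h k)
  have e : ∑ k, A a k * (Pi.single j (1:ℝ) : ι → ℝ) k = A a j := by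
    rw [Finset.sum_eq_single j]
    · simp
    · intro b _ hb; simp [Pi.single_eq_of_ne hb]
    · intro h; exact absurd (Finset.mem_univ j) h
  rw [e] at h2
  exact h2

/-- growth of a function with bounded gradient -/
theorem growth {F : (I → ℝ) → ℝ} {P : I → (I → ℝ) → ℝ} {c : ℝ}
    (hF : ∀ h, HasFDerivAt F (dual fun a => P a h) h) (hc : 0 ≤ c) (hPb : ∀ a h, |P a h| ≤ c)
    (h : I → ℝ) : |F h| ≤ |F 0| + c * Fintype.card I * ‖h‖ := by
  have h1 := Convex.norm_image_sub_le_of_norm_hasFDerivWithin_le (s := (Set.univ : Set (I → ℝ)))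
    (f := F) (f' := fun h => dual fun a => P a h) (C := c * Fintype.card I)
    (fun x _ => (hF x).hasFDerivWithinAt) (fun x _ => by
      refine (norm_dual_le _).trans ?_
      calc ∑ a, |P a x| ≤ ∑ _a : I, c := Finset.sum_le_sum fun a _ => hPb a x
        _ = c * Fintype.card I := by simp [mul_comm]) convex_univ (Set.mem_univ 0)
    (Set.mem_univ h)
  rw [sub_zero, Real.norm_eq_abs] at h1
  calc |F h| = |F 0 + (F h - F 0)| := by ring_nf
    _ ≤ |F 0| + |F h - F 0| := abs_add_le _ _
    _ ≤ _ := by linarith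

theorem norm_lin_le (A : I → ι → ℝ) (g : ι → ℝ) :
    ‖lin A g‖ ≤ (∑ a, ∑ j, |A a j|) * ∑ j, |g j| := by
  rw [pi_norm_le_iff_of_nonneg (by positivity)]
  intro a
  unfold lin
  rw [Real.norm_eq_abs]
  refine (Finset.abs_sum_le_sum_abs _ _).trans ?_
  rw [Finset.sum_mul]
  refine le_trans ?_ (Finset.single_le_sum (f := fun a => (∑ j, |A a j|) * ∑ j, |g j|)
    (fun b _ => by positivity) (Finset.mem_univ a))
  rw [Finset.sum_mul]
  refine Finset.sum_le_sum fun j _ => ?_
  rw [abs_mul]
  exact mul_le_mul_of_nonneg_left (Finset.single_le_sum (f := fun j => |g j|)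
    (fun b _ => abs_nonneg _) (Finset.mem_univ j)) (abs_nonneg _)

theorem integrable_comp_lin {F : (I → ℝ) → ℝ} {P : I → (I → ℝ) → ℝ} {c : ℝ}
    (hF : ∀ h, HasFDerivAt F (dual fun a => P a h) h) (hc : 0 ≤ c) (hPb : ∀ a h, |P a h| ≤ c)
    (A : I → ι → ℝ) : Integrable (fun g => F (lin A g)) (G ι) := by
  have hFc : Continuous F := continuous_iff_continuousAt.2 fun h => (hF h).continuousAt
  have hi : Integrable (fun g : ι → ℝ => |F 0| + c * Fintype.card I *
      ((∑ a, ∑ j, |A a j|) * ∑ j, |g j|)) (G ι) := by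
    refine (integrable_const _).add (Integrable.const_mul (Integrable.const_mul ?_ _) _)
    exact integrable_finsetSum _ fun j _ => (integrable_coord j).abs
  refine hi.mono' (hFc.comp (continuous_lin A)).aestronglyMeasurable
    (Filter.Eventually.of_forall fun g => ?_)
  rw [Real.norm_eq_abs]
  refine (growth hF hc hPb _).trans ?_
  have := norm_lin_le A g
  have h2 : 0 ≤ c * Fintype.card I := by positivity
  have := mul_le_mul_of_nonneg_left this h2
  linarith

theorem kahane [DecidableEq ι] {F : (I → ℝ) → ℝ} {P : I → (I → ℝ) → ℝ}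
    {H : I → I → (I → ℝ) → ℝ} {c : ℝ}
    (hF : ∀ h, HasFDerivAt F (dual fun a => P a h) h)
    (hP : ∀ a h, HasFDerivAt (P a) (dual fun b => H a b h) h)
    (hHc : ∀ a b, Continuous (H a b)) (hc : 0 ≤ c)
    (hPb : ∀ a h, |P a h| ≤ c) (hHb : ∀ a b h, |H a b h| ≤ c)
    (hH : ∀ a b h, a ≠ b → H a b h ≤ 0)
    (A B : I → ι → ℝ) (hAB : ∀ a b j, A a j * B b j = 0)
    (hdiag : ∀ a, ∑ j, A a j * A a j = ∑ j, B a j * B a j)
    (hoff : ∀ a b, ∑ j, B a j * B b j ≤ ∑ j, A a j * A b j) :
    ∫ g, F (lin A g) ∂(G ι) ≤ ∫ g, F (lin B g) ∂(G ι) := by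
  classical
  set M : ℝ → I → ι → ℝ := fun θ a j => sin θ * A a j + cos θ * B a j with hM
  set M' : ℝ → I → ι → ℝ := fun θ a j => cos θ * A a j - sin θ * B a j with hM'
  have hFc : Continuous F := continuous_iff_continuousAt.2 fun h => (hF h).continuousAt
  have hPc : ∀ a, Continuous (P a) := fun a =>
    continuous_iff_continuousAt.2 fun h => (hP a h).continuousAt
  have hMd : ∀ g θ, HasDerivAt (fun θ => lin (M θ) g) (lin (M' θ) g) θ := by
    intro g θ
    rw [hasDerivAt_pi]
    intro a
    unfold lin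
    refine HasDerivAt.fun_sum fun j _ => ?_
    have h1 := ((hasDerivAt_sin θ).mul_const (A a j)).add ((hasDerivAt_cos θ).mul_const (B a j))
    have h2 := h1.mul_const (g j)
    refine h2.congr_deriv ?_
    simp only [hM']; ring
  -- the bound
  set bd : (ι → ℝ) → ℝ := fun g => c * ∑ a, ∑ j, (|A a j| + |B a j|) * |g j| with hbd
  have hbdi : Integrable bd (G ι) := by
    refine Integrable.const_mul ?_ _
    refine integrable_finsetSum _ fun a _ => integrable_finsetSum _ fun j _ => ?_
    exact (integrable_coord j).abs.const_mul _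
  have hM'b : ∀ θ g a, |lin (M' θ) g a| ≤ ∑ j, (|A a j| + |B a j|) * |g j| := by
    intro θ g a
    unfold lin
    refine (Finset.abs_sum_le_sum_abs _ _).trans (Finset.sum_le_sum fun j _ => ?_)
    rw [abs_mul]
    refine mul_le_mul_of_nonneg_right ?_ (abs_nonneg _)
    simp only [hM']
    refine (abs_sub _ _).trans ?_
    rw [abs_mul, abs_mul]
    have h1 := abs_cos_le_one θ
    have h2 := abs_sin_le_one θ
    have h3 := abs_nonneg (A a j)
    have h4 := abs_nonneg (B a j)
    nlinarith
  have hderiv : ∀ θ, HasDerivAt (fun θ => ∫ g, F (lin (M θ) g) ∂(G ι))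
      (∫ g, ∑ a, P a (lin (M θ) g) * lin (M' θ) g a ∂(G ι)) θ := by
    intro θ
    refine (hasDerivAt_integral_of_dominated_loc_of_deriv_le (𝕜 := ℝ) (μ := G ι)
      (F := fun θ g => F (lin (M θ) g))
      (F' := fun θ g => ∑ a, P a (lin (M θ) g) * lin (M' θ) g a) (x₀ := θ)
      (bound := bd) Filter.univ_mem ?_ ?_ ?_ ?_ hbdi ?_).2
    · exact Filter.Eventually.of_forall fun θ' =>
        (hFc.comp (continuous_lin _)).aestronglyMeasurable
    · exact integrable_comp_lin hF hc hPb _
    · have hcc : Continuous fun g : ι → ℝ => ∑ a, P a (lin (M θ) g) * lin (M' θ) g a :=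
        continuous_finsetSum _ fun a _ => ((hPc a).comp (continuous_lin _)).mul
          ((continuous_apply a).comp (continuous_lin _))
      exact hcc.aestronglyMeasurable
    · refine Filter.Eventually.of_forall fun g θ' _ => ?_
      rw [Real.norm_eq_abs, hbd]
      simp only
      rw [Finset.mul_sum]
      refine (Finset.abs_sum_le_sum_abs _ _).trans (Finset.sum_le_sum fun a _ => ?_)
      rw [abs_mul]
      exact mul_le_mul (hPb a _) (hM'b θ' g a) (abs_nonneg _) hc
    · refine Filter.Eventually.of_forall fun g θ' _ => ?_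
      have := (hF (lin (M θ') g)).comp_hasDerivAt θ' (hMd g θ')
      refine this.congr_deriv ?_
      rw [dual_apply]
  have hstein : ∀ θ a j, ∫ g, g j * P a (lin (M θ) g) ∂(G ι) =
      ∫ g, ∑ b, H a b (lin (M θ) g) * M θ b j ∂(G ι) := by
    intro θ a j
    refine steinG j (C := c) (C' := ∑ b, c * |M θ b j|)
      ((hPc a).comp (continuous_lin _)) ?_ ?_ (fun g => hPb a _) ?_
    · refine Continuous.measurable ?_
      refine continuous_finsetSum _ fun b _ => ?_
      exact ((hHc a b).comp (continuous_lin _)).mul continuous_const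
    · intro g
      have h1 := hasDerivAt_lin_update (M θ) g j (g j)
      have h2 : HasFDerivAt (P a) (dual fun b => H a b (lin (M θ) g))
          (lin (M θ) (Function.update g j (g j))) := by
        rw [Function.update_eq_self]; exact hP a _
      have h3 := h2.comp_hasDerivAt (g j) h1
      refine h3.congr_deriv ?_
      rw [dual_apply]
    · intro g
      refine (Finset.abs_sum_le_sum_abs _ _).trans (Finset.sum_le_sum fun b _ => ?_)
      rw [abs_mul]
      exact mul_le_mul_of_nonneg_right (hHb a b _) (abs_nonneg _)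
  have hiH : ∀ θ a b, Integrable (fun g => H a b (lin (M θ) g)) (G ι) := fun θ a b =>
    (integrable_const c).mono' ((hHc a b).comp (continuous_lin _)).aestronglyMeasurable
      (Filter.Eventually.of_forall fun g => hHb a b _)
  have hiP : ∀ θ a j, Integrable (fun g => g j * P a (lin (M θ) g)) (G ι) := by
    intro θ a j
    refine ((integrable_coord j).norm.const_mul c).mono' ?_
      (Filter.Eventually.of_forall fun x => ?_)
    · exact ((continuous_apply j).mul ((hPc a).comp (continuous_lin _))).aestronglyMeasurable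
    · rw [Real.norm_eq_abs, abs_mul, Real.norm_eq_abs, mul_comm]
      exact mul_le_mul_of_nonneg_right (hPb a _) (abs_nonneg _)
  have hval : ∀ θ, ∫ g, ∑ a, P a (lin (M θ) g) * lin (M' θ) g a ∂(G ι) =
      sin θ * cos θ * ∑ a, ∑ b, (∑ j, A a j * A b j - ∑ j, B a j * B b j) *
        ∫ g, H a b (lin (M θ) g) ∂(G ι) := by
    intro θ
    have e1 : ∀ g, ∑ a, P a (lin (M θ) g) * lin (M' θ) g a =
        ∑ a, ∑ j, M' θ a j * (g j * P a (lin (M θ) g)) := by
      intro g
      refine Finset.sum_congr rfl fun a _ => ?_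
      simp only [lin, Finset.mul_sum]
      refine Finset.sum_congr rfl fun j _ => by ring
    simp only [e1]
    rw [integral_finsetSum _ fun a _ => integrable_finsetSum _ fun j _ =>
      (hiP θ a j).const_mul _]
    rw [Finset.mul_sum]
    refine Finset.sum_congr rfl fun a _ => ?_
    rw [integral_finsetSum _ fun j _ => (hiP θ a j).const_mul _]
    have e2 : ∀ j, ∫ g, M' θ a j * (g j * P a (lin (M θ) g)) ∂(G ι) =
        ∑ b, M' θ a j * M θ b j * ∫ g, H a b (lin (M θ) g) ∂(G ι) := by
      intro j
      rw [integral_const_mul, hstein, integral_finsetSum _ fun b _ => (hiH θ a b).mul_const _,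
        Finset.mul_sum]
      refine Finset.sum_congr rfl fun b _ => ?_
      rw [integral_mul_const]; ring
    simp only [e2]
    rw [Finset.sum_comm, Finset.mul_sum]
    refine Finset.sum_congr rfl fun b _ => ?_
    rw [← Finset.sum_mul, ← mul_assoc]
    congr 1
    rw [← Finset.sum_sub_distrib, Finset.mul_sum]
    refine Finset.sum_congr rfl fun j _ => ?_
    have h1 := hAB a b j
    have h2 := hAB b a j
    simp only [hM, hM']
    have h3 : (cos θ * A a j - sin θ * B a j) * (sin θ * A b j + cos θ * B b j) =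
        sin θ * cos θ * (A a j * A b j - B a j * B b j) + cos θ ^ 2 * (A a j * B b j) -
          sin θ ^ 2 * (A b j * B a j) := by ring
    rw [h3, h1, h2]; ring
  have hnp : ∀ θ, 0 ≤ sin θ * cos θ →
      ∫ g, ∑ a, P a (lin (M θ) g) * lin (M' θ) g a ∂(G ι) ≤ 0 := by
    intro θ hθ
    rw [hval]
    refine mul_nonpos_of_nonneg_of_nonpos hθ ?_
    refine Finset.sum_nonpos fun a _ => Finset.sum_nonpos fun b _ => ?_
    by_cases hab : a = b
    · subst hab
      rw [hdiag a]; simp
    · refine mul_nonpos_of_nonneg_of_nonpos (sub_nonneg.2 (hoff a b)) ?_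
      exact integral_nonpos fun g => hH a b _ hab
  have hanti : AntitoneOn (fun θ => ∫ g, F (lin (M θ) g) ∂(G ι)) (Set.Icc 0 (π / 2)) := by
    refine antitoneOn_of_deriv_nonpos (convex_Icc _ _)
      (continuous_iff_continuousAt.2 fun θ => (hderiv θ).continuousAt).continuousOn
      (fun θ _ => (hderiv θ).differentiableAt.differentiableWithinAt) ?_
    intro θ hθ
    rw [interior_Icc] at hθ
    rw [(hderiv θ).deriv]
    refine hnp θ (mul_nonneg ?_ ?_)
    · exact (sin_pos_of_pos_of_lt_pi hθ.1 (by linarith [hθ.2, pi_pos])).le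
    · exact (cos_pos_of_mem_Ioo ⟨by linarith [hθ.1, pi_pos], hθ.2⟩).le
  have h := hanti (Set.left_mem_Icc.2 (by positivity)) (Set.right_mem_Icc.2 (by positivity))
    (by positivity : (0:ℝ) ≤ π / 2)
  have e1 : M (π / 2) = A := by
    ext a j; simp [hM]
  have e0 : M 0 = B := by
    ext a j; simp [hM]
  simp only [e1, e0] at h
  exact h

end

end Crest.Agent.R339.Guerra
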