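import Crest.Agent.R339.LabXi286
import Crest.Agent.R339.Ant575D

/-!
R339: helper575's labelled model on `IL io`, overlaps with label-controlled spin matrices, parity.
-/

set_option autoImplicit false
set_option linter.unusedSectionVars false

noncomputable section

namespace Crest.Agent.R339.LF

open MeasureTheory ProbabilityTheory Filter Topology
open scoped InnerProductSpace ENNReal
open Crest.Agent.R339.Site Crest.Agent.R339.Lab Crest.MathPhysics.SpinGlass

section ant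
variable {K0 K : Type*} [NormedAddCommGroup K0] [InnerProductSpace ℂ K0]
  [NormedAddCommGroup K] [InnerProductSpace ℂ K]

lemma cp_IL (io : SL K0 ≃ₗᵢ[ℂ] K0) : Ant.Cp (IL io) where
  sg _ := rfl
  P _ := rfl
  Om := rfl
  Cl _ := Iff.rfl
  mu := rfl

/-- helper575's model on `IL io` -/
abbrev LM (io : SL K0 ≃ₗᵢ[ℂ] K0) : Ant.LS (SL K0) := Ant.lsI (cp_IL io) xiS

variable (io : SL K0 ≃ₗᵢ[ℂ] K0)

lemma LM_mix (b : ℝ) : (LM io).mix b = mixL b := rfl

lemma LM_lam (a : ℝ) : (LM io).lam a = labL a := rfl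

lemma LM_cost (g : ℝ) (e : SL K0) : (LM io).cost g e = costL io g e := by
  show (IL io).cst MeasurableSet.univ ((-(g : ℂ)) • e) = _
  rw [costL]
  congr 2
  push_cast
  rfl

lemma LM_eV (U : USL K0) : (LM io).eV U = (IL io).eV U := by
  show star (U : SL K0 →L[ℂ] SL K0) (ZS ((U : SL K0 →L[ℂ] SL K0) OmS)) = _
  rw [Li.ILSys.eV, IL_Z]
  rfl

lemma LM_m (U : USL K0) : (LM io).m U = mS io U := by
  rw [Ant.LS.m, LM_eV]
  rfl

lemma LM_En (U : USL K0) : (LM io).En ((LM io).eV U) = (IL io).energy U := by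
  rw [LM_eV]
  rfl

/-- translation of letters -/
def cvt : Ant.LS.Mv → Mark.Lg
  | .B b => .B b
  | .C g => .C g
  | .L a => .L a

lemma LM_act (x : Ant.LS.Mv) (U : USL K0) : (LM io).act x U = appS io (cvt x) U := by
  cases x with
  | B b => rfl
  | C g =>
    show (LM io).cost g ((LM io).eV U) * U = mvC io g U
    rw [LM_cost, LM_eV]
    rfl
  | L a => rfl

lemma LM_run (w : List Ant.LS.Mv) : ∀ U : USL K0, (LM io).run w U = runS io (w.map cvt) U := by
  induction w with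
  | nil => intro U; rfl
  | cons x w ih =>
    intro U
    rw [Ant.LS.run_cons, ih, LM_act]
    rfl

lemma admS_append (w w' : List Mark.Lg) : ∀ U : USL K0,
    admS io (w ++ w') U ↔ admS io w U ∧ admS io w' (runS io w U) := by
  induction w with
  | nil => intro U; simp [admS, runS]
  | cons g w ih =>
    intro U
    cases g with
    | C γ => exact ih _
    | B β =>
      show mS io (mvB β U) ≠ 0 ∧ admS io (w ++ w') (mvB β U) ↔
        (mS io (mvB β U) ≠ 0 ∧ admS io w (mvB β U)) ∧ admS io w' (runS io w (mvB β U))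
      rw [ih, and_assoc]
    | L a =>
      show mS io U ≠ 0 ∧ admS io (w ++ w') (mvL a U) ↔
        (mS io U ≠ 0 ∧ admS io w (mvL a U)) ∧ admS io w' (runS io w (mvL a U))
      rw [ih, and_assoc]

lemma runS_append (w w' : List Mark.Lg) : ∀ U : USL K0,
    runS io (w ++ w') U = runS io w' (runS io w U) := by
  induction w with
  | nil => intro U; rfl
  | cons g w ih => intro U; exact ih _

lemma admS_of_Pos (w : List Ant.LS.Mv) : ∀ U : USL K0, (LM io).Pos w U →
    admS io (w.map cvt) U := by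
  induction w with
  | nil => intro U _; trivial
  | cons x w ih =>
    intro U h
    obtain ⟨h1, h2⟩ := h
    have h3 := ih _ h2
    have h4 := Ant.LS.Pos.head (LM io) h2
    rw [LM_m] at h1 h4
    rw [LM_act] at h3 h4
    cases x with
    | B b => exact ⟨ne_of_gt h4, h3⟩
    | C g => exact h3
    | L a => exact ⟨ne_of_gt h1, h3⟩

/-- **Output of L1' for helper575's model**: every admissible labelled prefix leads to a good
state. -/
theorem good_of_adm (D : BridgeData K0 K) {α0 : ℝ} {hα : α0 ≠ 0} {ε : ℕ → ℝ} {hε : ∀ n, 0 < ε n}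
    (hε0 : Tendsto ε atTop (𝓝 0)) (hLam : Mark.LamStmt D.ip D.hs D.hsi hα hε) {c : ℝ}
    (hc : ∀ (j : Sp K →ₗᵢ[ℂ] K) (angles : List (ℝ × ℝ)), energy j (wordU j angles) ≤ c)
    (w0 : List Mark.Lg) (hw : admS D.io w0 (labL α0)) :
    (LM D.io).Good c (runS D.io w0 (labL α0)) := by
  intro w hpos
  rw [LM_En, LM_run, ← runS_append]
  exact SL_le D hε0 hLam hc _ ((admS_append D.io _ _ _).2 ⟨hw, admS_of_Pos D.io w _ hpos⟩)

end ant

/-! ### overlaps -/
section overlap
variable {K0 : Type*} [NormedAddCommGroup K0] [InnerProductSpace ℂ K0]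

lemma conj_rt2_mul : (starRingEnd ℂ) (((1 : ℝ) / Real.sqrt 2 : ℝ) : ℂ)
    * ((((1 : ℝ) / Real.sqrt 2 : ℝ)) : ℂ) = 1 / 2 := by
  rw [Complex.conj_ofReal, ← Complex.ofReal_mul]
  have : (1 : ℝ) / Real.sqrt 2 * (1 / Real.sqrt 2) = 1 / 2 := by
    rw [div_mul_div_comm, one_mul, Real.mul_self_sqrt (by norm_num)]
  rw [this]
  push_cast
  ring

lemma OmS_apply (b : Bool) :
    (OmS : SL K0) b = (((1 : ℝ) / Real.sqrt 2 : ℝ) : ℂ) • wave 0 vac := rfl

lemma BM.integrable {c : ℝ → ℂ} (hc : BM c) : Integrable c gam1 := by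
  obtain ⟨h1, C, hC⟩ := hc
  exact Integrable.of_bound h1.aestronglyMeasurable C (Eventually.of_forall hC)

lemma BM.integrable_mul_id {c : ℝ → ℂ} (hc : BM c) : Integrable (fun x : ℝ => (x : ℂ) * c x) gam1 := by
  obtain ⟨h1, C, hC⟩ := hc
  have hx : Integrable (fun x : ℝ => (x : ℂ)) gam1 :=
    ((memLp_id_gam1 1).integrable (by norm_num)).ofReal
  refine (hx.norm.mul_const C).mono
    ((Complex.measurable_ofReal.mul h1).aestronglyMeasurable) (Eventually.of_forall fun x => ?_)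
  rw [norm_mul, norm_mul, norm_norm]
  refine mul_le_mul_of_nonneg_left ?_ (norm_nonneg _)
  exact (hC x).trans (le_abs_self _)

lemma inner_wave0_mF {c : ℝ → ℂ} (hc : BM c) (v w : Fock K0) :
    ⟪wave 0 v, mF c (wave 0 w)⟫_ℂ = (∫ x, c x ∂gam1) * ⟪v, w⟫_ℂ := by
  rw [L2.inner_def, ← integral_mul_const]
  refine integral_congr_ae ?_
  filter_upwards [coeFn_mF hc (wave 0 w), coeFn_wave 0 w, coeFn_wave 0 v] with x h1 h2 h3
  rw [h1, h2, h3, chi_zero, one_smul, one_smul, inner_smul_right]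

lemma inner_xw_mF {c : ℝ → ℂ} (hc : BM c) (v w : Fock K0) :
    ⟪xw v, mF c (wave 0 w)⟫_ℂ = (∫ x, (x : ℂ) * c x ∂gam1) * ⟪v, w⟫_ℂ := by
  rw [L2.inner_def, ← integral_mul_const]
  refine integral_congr_ae ?_
  filter_upwards [coeFn_mF hc (wave 0 w), coeFn_wave 0 w, coeFn_xw v] with x h1 h2 h3
  rw [h1, h2, h3, chi_zero, one_smul, inner_smul_left, inner_smul_right, Complex.conj_ofReal]
  ring

/-- `⟨+| g |+⟩` -/
def pp (m : Matrix Bool Bool ℂ) : ℂ := (1 / 2) * ∑ b, ∑ b', m b b'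

lemma inner_OmS_gS {g : ℝ → Matrix Bool Bool ℂ} (hg : BMM g) :
    ⟪(OmS : SL K0), gS g OmS⟫_ℂ = ∫ x, pp (g x) ∂gam1 := by
  have h1 : ∀ b b', ⟪(OmS : SL K0) b, mF (fun x => g x b b') ((OmS : SL K0) b')⟫_ℂ
      = (1 / 2) * ∫ x, g x b b' ∂gam1 := by
    intro b b'
    rw [OmS_apply, OmS_apply, map_smul, inner_smul_left, inner_smul_right,
      inner_wave0_mF (hg b b'), inner_self_eq_norm_sq_to_K, norm_vac, ← mul_assoc, conj_rt2_mul]
    simp
  rw [C2_inner]
  simp_rw [gS_apply, inner_sum, h1, pp, Finset.mul_sum]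
  rw [integral_finsetSum _ fun b _ => integrable_finsetSum _ fun b' _ =>
    ((hg b b').integrable).const_mul _]
  refine Finset.sum_congr rfl fun b _ => ?_
  rw [integral_finsetSum _ fun b' _ => ((hg b b').integrable).const_mul _]
  refine Finset.sum_congr rfl fun b' _ => ?_
  rw [integral_const_mul]

lemma inner_xiS_gS {g : ℝ → Matrix Bool Bool ℂ} (hg : BMM g) :
    ⟪(xiS : SL K0), gS g OmS⟫_ℂ = ∫ x, (x : ℂ) * pp (g x) ∂gam1 := by
  have h1 : ∀ b b', ⟪(xiS : SL K0) b, mF (fun x => g x b b') ((OmS : SL K0) b')⟫_ℂ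
      = (1 / 2) * ∫ x, (x : ℂ) * g x b b' ∂gam1 := by
    intro b b'
    rw [OmS_apply, xiS_apply, map_smul, inner_smul_left, inner_smul_right,
      inner_xw_mF (hg b b'), inner_self_eq_norm_sq_to_K, norm_vac, ← mul_assoc, conj_rt2_mul]
    simp
  have h2 : ∀ x : ℝ, (x : ℂ) * pp (g x) = ∑ b, ∑ b', (1 / 2) * ((x : ℂ) * g x b b') := by
    intro x
    rw [pp, Finset.mul_sum, Finset.mul_sum]
    refine Finset.sum_congr rfl fun b _ => ?_
    rw [Finset.mul_sum, Finset.mul_sum]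
    refine Finset.sum_congr rfl fun b' _ => ?_
    ring
  rw [C2_inner]
  simp_rw [gS_apply, inner_sum, h1, h2]
  rw [integral_finsetSum _ fun b _ => integrable_finsetSum _ fun b' _ =>
    ((hg b b').integrable_mul_id).const_mul _]
  refine Finset.sum_congr rfl fun b _ => ?_
  rw [integral_finsetSum _ fun b' _ => ((hg b b').integrable_mul_id).const_mul _]
  refine Finset.sum_congr rfl fun b' _ => ?_
  rw [integral_const_mul]

lemma inner_gS_gS {g h : ℝ → Matrix Bool Bool ℂ} (hg : BMM g) (hh : BMM h) :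
    ⟪gS g (OmS : SL K0), gS h OmS⟫_ℂ = ∫ x, pp (star (g x) * h x) ∂gam1 := by
  have h1 : ⟪gS g (OmS : SL K0), gS h OmS⟫_ℂ = ⟪(OmS : SL K0), (star (gS g : SL K0 →L[ℂ] SL K0)
      * gS h : SL K0 →L[ℂ] SL K0) OmS⟫_ℂ := by
    rw [mul_apply_eq_comp, ContinuousLinearMap.star_eq_adjoint,
      ContinuousLinearMap.adjoint_inner_right]
  rw [h1, gS_star hg, ← gS_mul hg.star hh, inner_OmS_gS (hg.star.mul hh)]

end overlap

/-! ### parity of the label -/
section parity
variable {E : Type*} [NormedAddCommGroup E] [InnerProductSpace ℂ E] [CompleteSpace E]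

lemma mp_neg : MeasurePreserving (fun x : ℝ => -x) gam1 gam1 :=
  ⟨measurable_neg, Ant.map_neg_gam1⟩

/-- `ψ(x) ↦ ψ(-x)` -/
def parF : Lp E 2 gam1 →L[ℂ] Lp E 2 gam1 :=
  (Lp.compMeasurePreservingₗᵢ ℂ (fun x : ℝ => -x) mp_neg).toContinuousLinearMap

lemma coeFn_parF (f : Lp E 2 gam1) : parF f =ᵐ[gam1] fun x => f (-x) :=
  Lp.coeFn_compMeasurePreserving f mp_neg

lemma norm_parF (f : Lp E 2 gam1) : ‖parF f‖ = ‖f‖ :=
  (Lp.compMeasurePreservingₗᵢ ℂ (fun x : ℝ => -x) mp_neg).norm_map f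

lemma ae_neg {p : ℝ → Prop} (h : ∀ᵐ x ∂gam1, p x) : ∀ᵐ x ∂gam1, p (-x) :=
  mp_neg.quasiMeasurePreserving.ae h

lemma parF_parF (f : Lp E 2 gam1) : parF (parF f) = f := by
  refine Lp.ext ?_
  filter_upwards [coeFn_parF (parF f), ae_neg (coeFn_parF f)] with x h1 h2
  rw [h1, h2, neg_neg]

lemma parF_wave (t : ℝ) (v : E) : parF (wave t v) = wave (-t) v := by
  refine Lp.ext ?_
  filter_upwards [coeFn_parF (wave t v), ae_neg (coeFn_wave t v), coeFn_wave (-t) v]
    with x h1 h2 h3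
  rw [h1, h2, h3, chi, chi]
  congr 3
  push_cast
  ring

lemma parF_xw (v : E) : parF (xw v) = -xw v := by
  refine Lp.ext ?_
  filter_upwards [coeFn_parF (xw v), ae_neg (coeFn_xw v), coeFn_xw v, Lp.coeFn_neg (xw v)]
    with x h1 h2 h3 h4
  rw [h1, h2, h4, Pi.neg_apply, h3]
  push_cast
  rw [neg_smul]

lemma parF_lift (A : E →L[ℂ] E) (f : Lp E 2 gam1) : parF (lift A f) = lift A (parF f) := by
  refine Lp.ext ?_
  filter_upwards [coeFn_parF (lift A f), ae_neg (coeFn_lift A f), coeFn_lift A (parF f),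
    coeFn_parF f] with x h1 h2 h3 h4
  rw [h1, h2, h3, h4]

lemma BM.comp_neg {c : ℝ → ℂ} (hc : BM c) : BM (fun x => c (-x)) :=
  ⟨hc.1.comp measurable_neg, hc.2.choose, fun x => hc.2.choose_spec (-x)⟩

lemma parF_mF {c : ℝ → ℂ} (hc : BM c) (f : Lp E 2 gam1) :
    parF (mF c f) = mF (fun x => c (-x)) (parF f) := by
  refine Lp.ext ?_
  filter_upwards [coeFn_parF (mF c f), ae_neg (coeFn_mF hc f), coeFn_mF hc.comp_neg (parF f),
    coeFn_parF f] with x h1 h2 h3 h4
  rw [h1, h2, h3, h4]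

lemma star_parF : star (parF : Lp E 2 gam1 →L[ℂ] Lp E 2 gam1) = parF := by
  rw [ContinuousLinearMap.star_eq_adjoint, eq_comm, ContinuousLinearMap.eq_adjoint_iff]
  intro f g
  have h := (Lp.compMeasurePreservingₗᵢ (E := E) (p := 2) ℂ (fun x : ℝ => -x) mp_neg).inner_map_map
    (parF f) g
  rw [← h]
  show ⟪parF (parF f), parF g⟫_ℂ = ⟪f, parF g⟫_ℂ
  rw [parF_parF]

end parity

section parityS
variable {K0 : Type*} [NormedAddCommGroup K0] [InnerProductSpace ℂ K0]

/-- the parity of the label on the labelled space -/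
def parS : SL K0 →L[ℂ] SL K0 := dg parF

lemma parS_apply (v : SL K0) (b : Bool) : parS v b = parF (v b) := dg_apply _ _ _

lemma parS_parS (v : SL K0) : parS (parS v) = v := by
  ext b : 1
  rw [parS_apply, parS_apply, parF_parF]

lemma parS_mul_parS : (parS : SL K0 →L[ℂ] SL K0) * parS = 1 :=
  ContinuousLinearMap.ext parS_parS

lemma star_parS : star (parS : SL K0 →L[ℂ] SL K0) = parS := by
  rw [parS, dg_star, star_parF]

lemma parS_OmS : parS (OmS : SL K0) = OmS := by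
  ext b : 1
  rw [parS_apply, OmS_apply, map_smul, parF_wave, neg_zero]

lemma parS_xiS : parS (xiS : SL K0) = -xiS := by
  ext b : 1
  rw [parS_apply, PiLp.neg_apply, xiS_apply, map_smul, parF_xw, smul_neg]

lemma parS_spG (m : Matrix Bool Bool ℂ) :
    (parS : SL K0 →L[ℂ] SL K0) * spG m = spG m * parS := (spG_dg_comm m _).symm

lemma parS_ZS : (parS : SL K0 →L[ℂ] SL K0) * ZS = ZS * parS := parS_spG _
lemma parS_XS : (parS : SL K0 →L[ℂ] SL K0) * XS = XS * parS := parS_spG _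

lemma parS_WS (f : K0) : (parS : SL K0 →L[ℂ] SL K0) * WS f = WS f * parS := by
  refine ContinuousLinearMap.ext fun v => ?_
  ext b : 1
  rw [mul_apply_eq_comp, mul_apply_eq_comp, parS_apply, WS, dg_apply, dg_apply, parS_apply,
    parF_lift]

lemma BMM.comp_neg {g : ℝ → Matrix Bool Bool ℂ} (hg : BMM g) : BMM (fun x => g (-x)) :=
  fun b b' => (hg b b').comp_neg

lemma parS_gS {g : ℝ → Matrix Bool Bool ℂ} (hg : BMM g) :
    (parS : SL K0 →L[ℂ] SL K0) * gS g = gS (fun x => g (-x)) * parS := by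
  refine ContinuousLinearMap.ext fun v => ?_
  ext b : 1
  rw [mul_apply_eq_comp, mul_apply_eq_comp, parS_apply, gS_apply, gS_apply, map_sum]
  refine Finset.sum_congr rfl fun b' _ => ?_
  rw [parS_apply, parF_mF (hg b b')]

lemma parS_PS {A : Set ℝ} (hA : ClE A) :
    (parS : SL K0 →L[ℂ] SL K0) * PS A = PS A * parS := by
  refine ContinuousLinearMap.ext fun v => ?_
  ext b : 1
  rw [mul_apply_eq_comp, mul_apply_eq_comp, parS_apply, PS, dg_apply, dg_apply, parS_apply,
    parF_mF (BM.indicator hA.1)]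
  congr 2
  funext x
  by_cases hx : x ∈ A
  · have : -x ∈ A := (hA.2 x).2 hx
    simp [hx, this]
  · have : -x ∉ A := fun h => hx ((hA.2 x).1 h)
    simp [hx, this]

/-- if `U` commutes with the parity then its label moment vanishes -/
lemma mS_eq_zero_of_par (io : SL K0 ≃ₗᵢ[ℂ] K0) (U : USL K0)
    (hU : (parS : SL K0 →L[ℂ] SL K0) * (U : SL K0 →L[ℂ] SL K0)
      = (U : SL K0 →L[ℂ] SL K0) * parS) : mS io U = 0 := by
  have hs : (parS : SL K0 →L[ℂ] SL K0) * star (U : SL K0 →L[ℂ] SL K0)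
      = star (U : SL K0 →L[ℂ] SL K0) * parS := by
    have := congrArg star hU
    rw [star_mul, star_mul, star_parS] at this
    exact this.symm
  have e1 : parS ((IL io).eV U) = (IL io).eV U := by
    rw [Li.ILSys.eV, IL_Z]
    have a1 : ∀ v, parS (star (U : SL K0 →L[ℂ] SL K0) v) = star (U : SL K0 →L[ℂ] SL K0) (parS v) :=
      fun v => DFunLike.congr_fun hs v
    have a2 : ∀ v, parS ((ZS : SL K0 →L[ℂ] SL K0) v) = ZS (parS v) :=
      fun v => DFunLike.congr_fun parS_ZS v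
    have a3 : ∀ v, parS ((U : SL K0 →L[ℂ] SL K0) v) = (U : SL K0 →L[ℂ] SL K0) (parS v) :=
      fun v => DFunLike.congr_fun hU v
    have a4 : parS ((IL io).Om) = (IL io).Om := parS_OmS
    rw [a1, a2, a3, a4]
  have e2 : ⟪(xiS : SL K0), (IL io).eV U⟫_ℂ = -⟪(xiS : SL K0), (IL io).eV U⟫_ℂ := by
    conv_lhs => rw [← e1]
    have h3 : ⟪(xiS : SL K0), parS ((IL io).eV U)⟫_ℂ = ⟪parS (xiS : SL K0), (IL io).eV U⟫_ℂ := by
      conv_lhs => rw [← star_parS]
      rw [ContinuousLinearMap.star_eq_adjoint, ContinuousLinearMap.adjoint_inner_right]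
    rw [h3, parS_xiS, inner_neg_left]
  have e3 := congrArg Complex.re e2
  rw [Complex.neg_re] at e3
  rw [mS]
  linarith

end parityS

end Crest.Agent.R339.LF
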