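import Mathlib

/-!
R339: the label space `L²(γ; E)`, `γ = gaussianReal 0 1`; the waves `x ↦ e^{itx} v` are total.
-/

set_option autoImplicit false
set_option linter.unusedSectionVars false

noncomputable section

namespace Crest.Agent.R339.LF

open MeasureTheory ProbabilityTheory Filter Topology
open scoped InnerProductSpace ENNReal

/-- standard Gaussian law of the label. -/
abbrev gam1 : Measure ℝ := gaussianReal 0 1

/-- the character `x ↦ e^{itx}`. -/
def chi (t x : ℝ) : ℂ := Complex.exp (((t * x : ℝ) : ℂ) * Complex.I)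

lemma norm_chi (t x : ℝ) : ‖chi t x‖ = 1 := Complex.norm_exp_ofReal_mul_I _

lemma continuous_chi (t : ℝ) : Continuous (chi t) := by
  unfold chi; fun_prop

lemma chi_add (s t x : ℝ) : chi (s + t) x = chi s x * chi t x := by
  unfold chi
  rw [← Complex.exp_add]
  congr 1
  push_cast
  ring

lemma conj_chi (t x : ℝ) : (starRingEnd ℂ) (chi t x) = chi (-t) x := by
  unfold chi
  rw [← Complex.exp_conj]
  congr 1
  simp

lemma integral_chi (t : ℝ) : ∫ x, chi t x ∂gam1 = Complex.exp (-((t ^ 2 / 2 : ℝ) : ℂ)) := by
  have h := charFun_gaussianReal (μ := 0) (v := 1) t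
  rw [charFun_apply_real] at h
  have h2 : ∀ x : ℝ, chi t x = Complex.exp (t * x * Complex.I) := by
    intro x
    unfold chi
    push_cast
    rfl
  simp_rw [h2]
  rw [h]
  congr 1
  push_cast
  simp

/-- A real integrable function all of whose Fourier coefficients vanish is zero. -/
theorem ae_zero_of_fourier_real {μ : Measure ℝ} [IsFiniteMeasure μ] {h : ℝ → ℝ}
    (hh : Integrable h μ) (h0 : ∀ t : ℝ, ∫ x, chi t x * (h x : ℂ) ∂μ = 0) : h =ᵐ[μ] 0 := by
  set f1 : ℝ → ℝ≥0∞ := fun x => ENNReal.ofReal (h x) with hf1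
  set f2 : ℝ → ℝ≥0∞ := fun x => ENNReal.ofReal (-(h x)) with hf2
  have m1 : AEMeasurable f1 μ := hh.aestronglyMeasurable.aemeasurable.ennreal_ofReal
  have m2 : AEMeasurable f2 μ := hh.aestronglyMeasurable.aemeasurable.neg.ennreal_ofReal
  have i1 : IsFiniteMeasure (μ.withDensity f1) := isFiniteMeasure_withDensity_ofReal hh.2
  have i2 : IsFiniteMeasure (μ.withDensity f2) := isFiniteMeasure_withDensity_ofReal hh.neg.2
  have e1 : ∀ t : ℝ, charFun (μ.withDensity f1) t - charFun (μ.withDensity f2) t = 0 := by
    intro t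
    rw [charFun_apply_real, charFun_apply_real,
      integral_withDensity_eq_integral_toReal_smul₀ m1 (Eventually.of_forall fun _ => by simp [hf1]),
      integral_withDensity_eq_integral_toReal_smul₀ m2 (Eventually.of_forall fun _ => by simp [hf2])]
    rw [← integral_sub, ← h0 t]
    · refine integral_congr_ae (Eventually.of_forall fun x => ?_)
      simp only [hf1, hf2]
      rcases le_total 0 (h x) with h3 | h3
      · rw [ENNReal.toReal_ofReal h3, ENNReal.ofReal_of_nonpos (by linarith)]
        simp [chi]
        ring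
      · rw [ENNReal.toReal_ofReal (by linarith : 0 ≤ -(h x)), ENNReal.ofReal_of_nonpos h3]
        simp [chi]
        ring
    · refine Integrable.mono (g := h) hh ?_ ?_
      · exact (m1.ennreal_toReal.aestronglyMeasurable).smul (by fun_prop)
      · refine Eventually.of_forall fun x => ?_
        rw [norm_smul]
        have : ‖Complex.exp (t * x * Complex.I)‖ = 1 := by
          have := norm_chi t x
          unfold chi at this
          push_cast at this
          exact this
        rw [this, mul_one, Real.norm_eq_abs, Real.norm_eq_abs, abs_of_nonneg ENNReal.toReal_nonneg]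
        simp only [hf1]
        rcases le_total 0 (h x) with h3 | h3
        · rw [ENNReal.toReal_ofReal h3, abs_of_nonneg h3]
        · rw [ENNReal.ofReal_of_nonpos h3]
          simp
    · refine Integrable.mono (g := h) hh ?_ ?_
      · exact (m2.ennreal_toReal.aestronglyMeasurable).smul (by fun_prop)
      · refine Eventually.of_forall fun x => ?_
        rw [norm_smul]
        have : ‖Complex.exp (t * x * Complex.I)‖ = 1 := by
          have := norm_chi t x
          unfold chi at this
          push_cast at this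
          exact this
        rw [this, mul_one, Real.norm_eq_abs, Real.norm_eq_abs, abs_of_nonneg ENNReal.toReal_nonneg]
        simp only [hf2]
        rcases le_total 0 (h x) with h3 | h3
        · rw [ENNReal.ofReal_of_nonpos (by linarith)]
          simp
        · rw [ENNReal.toReal_ofReal (by linarith : 0 ≤ -(h x)), abs_of_nonpos h3]
  have e2 : μ.withDensity f1 = μ.withDensity f2 :=
    Measure.ext_of_charFun (funext fun t => sub_eq_zero.1 (e1 t))
  have e3 : f1 =ᵐ[μ] f2 := (withDensity_eq_iff_of_sigmaFinite m1 m2).1 e2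
  filter_upwards [e3] with x hx
  simp only [hf1, hf2] at hx
  rcases lt_trichotomy 0 (h x) with h3 | h3 | h3
  · rw [ENNReal.ofReal_of_nonpos (by linarith : -(h x) ≤ 0)] at hx
    exact absurd hx (by simp [h3])
  · exact h3.symm
  · rw [ENNReal.ofReal_of_nonpos h3.le] at hx
    have : (0 : ℝ) < -(h x) := by linarith
    exact absurd hx.symm (by simp [h3])

theorem ae_zero_of_fourier {μ : Measure ℝ} [IsFiniteMeasure μ] {h : ℝ → ℂ}
    (hh : Integrable h μ) (h0 : ∀ t : ℝ, ∫ x, chi t x * h x ∂μ = 0) : h =ᵐ[μ] 0 := by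
  have hc : ∀ t : ℝ, ∫ x, chi t x * (starRingEnd ℂ) (h x) ∂μ = 0 := by
    intro t
    have h1 := congrArg (starRingEnd ℂ) (h0 (-t))
    rw [map_zero, ← integral_conj] at h1
    rw [← h1]
    refine integral_congr_ae (Eventually.of_forall fun x => ?_)
    simp only [map_mul, conj_chi, neg_neg]
  have hb : ∀ t : ℝ, ∀ᵐ x ∂μ, ‖chi t x‖ ≤ 1 := fun t =>
    Eventually.of_forall fun x => (norm_chi t x).le
  have i1 : ∀ t : ℝ, Integrable (fun x => chi t x * h x) μ := fun t =>
    hh.bdd_mul (continuous_chi t).aestronglyMeasurable (hb t)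
  have hh' : Integrable (fun x => (starRingEnd ℂ) (h x)) μ :=
    (LinearIsometryEquiv.integrable_comp_iff Complex.conjLIE).2 hh
  have i2 : ∀ t : ℝ, Integrable (fun x => chi t x * (starRingEnd ℂ) (h x)) μ := fun t =>
    hh'.bdd_mul (continuous_chi t).aestronglyMeasurable (hb t)
  have hre : (fun x => (h x).re) =ᵐ[μ] 0 := by
    refine ae_zero_of_fourier_real hh.re fun t => ?_
    have h2 : ∀ x, chi t x * ((h x).re : ℂ)
        = (1 / 2) * (chi t x * h x + chi t x * (starRingEnd ℂ) (h x)) := by
      intro x
      rw [← mul_add, Complex.add_conj]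
      push_cast
      ring
    simp_rw [h2]
    rw [integral_const_mul, integral_add (i1 t) (i2 t), h0 t, hc t]
    simp
  have him : (fun x => (h x).im) =ᵐ[μ] 0 := by
    refine ae_zero_of_fourier_real hh.im fun t => ?_
    have h2 : ∀ x, chi t x * ((h x).im : ℂ)
        = (-(Complex.I) / 2) * (chi t x * h x - chi t x * (starRingEnd ℂ) (h x)) := by
      intro x
      rw [← mul_sub, Complex.sub_conj]
      push_cast
      linear_combination ((chi t x) * ((h x).im : ℂ)) * Complex.I_mul_I
    simp_rw [h2]
    rw [integral_const_mul, integral_sub (i1 t) (i2 t), h0 t, hc t]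
    simp
  filter_upwards [hre, him] with x h1 h2
  exact Complex.ext h1 h2

section vector
variable {E : Type*} [NormedAddCommGroup E] [InnerProductSpace ℂ E] [CompleteSpace E]

lemma memLp_wave (t : ℝ) (v : E) : MemLp (fun x => chi t x • v) 2 gam1 := by
  refine MemLp.of_bound ((continuous_chi t).smul continuous_const).aestronglyMeasurable ‖v‖
    (Eventually.of_forall fun x => ?_)
  rw [norm_smul, norm_chi, one_mul]

/-- the wave `x ↦ e^{itx} v`. -/
def wave (t : ℝ) (v : E) : Lp E 2 gam1 := (memLp_wave t v).toLp _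

lemma coeFn_wave (t : ℝ) (v : E) : wave t v =ᵐ[gam1] fun x => chi t x • v :=
  MemLp.coeFn_toLp _

lemma inner_wave (t t' : ℝ) (v v' : E) :
    ⟪wave t v, wave t' v'⟫_ℂ = Complex.exp (-(((t' - t) ^ 2 / 2 : ℝ) : ℂ)) * ⟪v, v'⟫_ℂ := by
  rw [L2.inner_def, ← integral_chi, ← integral_mul_const]
  refine integral_congr_ae ?_
  filter_upwards [coeFn_wave t v, coeFn_wave t' v'] with x h1 h2
  rw [h1, h2, inner_smul_left, inner_smul_right, conj_chi, ← mul_assoc]
  congr 1
  rw [sub_eq_add_neg, chi_add, mul_comm]

theorem wave_sep {f : Lp E 2 gam1} (h : ∀ (t : ℝ) (v : E), ⟪wave t v, f⟫_ℂ = 0) : f = 0 := by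
  have hv : ∀ v : E, (fun x => ⟪v, f x⟫_ℂ) =ᵐ[gam1] 0 := by
    intro v
    have hint : Integrable (fun x => ⟪v, f x⟫_ℂ) gam1 := by
      have h1 : Integrable (fun x => f x) gam1 := (Lp.memLp f).integrable (by norm_num)
      exact h1.const_inner v
    refine ae_zero_of_fourier hint fun t => ?_
    have h1 := h (-t) v
    rw [L2.inner_def] at h1
    rw [← h1]
    refine integral_congr_ae ?_
    filter_upwards [coeFn_wave (-t) v] with x h2
    rw [h2, inner_smul_left, conj_chi, neg_neg]
  have hz : (f : ℝ → E) =ᵐ[gam1] 0 := by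
    have hsm := (Lp.stronglyMeasurable f)
    refine ae_eq_zero_of_forall_dual_of_isSeparable ℂ hsm.isSeparable_range (fun c => ?_)
      (Eventually.of_forall fun x => Set.mem_range_self x)
    have hv' := hv ((InnerProductSpace.toDual ℂ E).symm c)
    filter_upwards [hv'] with x hx
    have : c (f x) = ⟪(InnerProductSpace.toDual ℂ E).symm c, f x⟫_ℂ := by
      rw [InnerProductSpace.toDual_symm_apply]
    rw [this]
    exact hx
  exact Lp.ext (hz.trans (Lp.coeFn_zero _ _ _).symm)

lemma wave_add (t : ℝ) (v w : E) : wave t (v + w) = wave t v + wave t w := by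
  apply Lp.ext
  filter_upwards [coeFn_wave t (v + w), coeFn_wave t v, coeFn_wave t w,
    Lp.coeFn_add (wave t v) (wave t w)] with x h1 h2 h3 h4
  rw [h1, h4, Pi.add_apply, h2, h3, smul_add]

lemma wave_smul (t : ℝ) (c : ℂ) (v : E) : wave t (c • v) = c • wave t v := by
  apply Lp.ext
  filter_upwards [coeFn_wave t (c • v), coeFn_wave t v, Lp.coeFn_smul c (wave t v)] with x h1 h2 h3
  rw [h1, h3, Pi.smul_apply, h2, smul_comm]

lemma norm_wave (t : ℝ) (v : E) : ‖wave t v‖ = ‖v‖ := by
  rw [@norm_eq_sqrt_re_inner ℂ, inner_wave, @norm_eq_sqrt_re_inner ℂ _ _ _ _ v]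
  simp

/-- the waves over a total family are total. -/
theorem wave_total {X : Type*} {c : X → E}
    (hc : (Submodule.span ℂ (Set.range c)).topologicalClosure = ⊤) :
    (Submodule.span ℂ (Set.range (fun p : ℝ × X => wave p.1 (c p.2)))).topologicalClosure = ⊤ := by
  rw [Submodule.topologicalClosure_eq_top_iff, Submodule.eq_bot_iff]
  intro f hf
  refine wave_sep fun t v => ?_
  have h1 : ∀ x : X, ⟪wave t (c x), f⟫_ℂ = 0 := fun x =>
    (Submodule.mem_orthogonal _ _).mp hf _ (Submodule.subset_span ⟨(t, x), rfl⟩)
  -- the set of `v` with zero inner product is a closed submodule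
  let W : Submodule ℂ E :=
    { carrier := {v | ⟪wave t v, f⟫_ℂ = 0}
      add_mem' := by
        intro a b ha hb
        show ⟪wave t (a + b), f⟫_ℂ = 0
        rw [wave_add, inner_add_left, ha, hb, add_zero]
      zero_mem' := by
        show ⟪wave t (0 : E), f⟫_ℂ = 0
        have : wave t (0 : E) = 0 := by
          have := wave_smul t 0 (0 : E)
          simpa using this
        rw [this, inner_zero_left]
      smul_mem' := by
        intro a b hb
        show ⟪wave t (a • b), f⟫_ℂ = 0
        rw [wave_smul, inner_smul_left, hb, mul_zero] }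
  have hW : IsClosed (W : Set E) := by
    have hcont : Continuous (fun v : E => wave t v) := by
      let L : E →ₗᵢ[ℂ] Lp E 2 gam1 :=
        { toFun := wave t
          map_add' := wave_add t
          map_smul' := wave_smul t
          norm_map' := norm_wave t }
      exact L.continuous
    exact isClosed_eq (hcont.inner continuous_const) continuous_const
  have h2 : Submodule.span ℂ (Set.range c) ≤ W := by
    rw [Submodule.span_le]
    rintro _ ⟨x, rfl⟩
    exact h1 x
  have h3 : (⊤ : Submodule ℂ E) ≤ W := by
    rw [← hc]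
    exact Submodule.topologicalClosure_minimal _ h2 hW
  exact h3 (Submodule.mem_top : v ∈ ⊤)

end vector

end Crest.Agent.R339.LF
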