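import Crest.Agent.R339.LabFun286A
import Crest.Agent.R339.SiteModel

/-!
R339: `L²(γ; Fock K₀)` embeds isometrically into `Fock K`, `K ∋ s ⟂ j(K₀)`, intertwining
multiplication by `e^{itx}` with `Wy (t s)` and `Wy f` (fibrewise) with `Wy (j f)`.
-/

set_option autoImplicit false
set_option linter.unusedSectionVars false

noncomputable section

namespace Crest.Agent.R339.LF

open MeasureTheory ProbabilityTheory Filter Topology
open scoped InnerProductSpace ENNReal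
open Crest.Agent.R339.Site

section mult
variable {E : Type*} [NormedAddCommGroup E] [InnerProductSpace ℂ E] [CompleteSpace E]

/-- multiplication by an essentially bounded function of the label. -/
def mulL (c : Lp ℂ ∞ gam1) : Lp E 2 gam1 →L[ℂ] Lp E 2 gam1 :=
  (ContinuousLinearMap.lsmul ℂ ℂ : ℂ →L[ℂ] E →L[ℂ] E).holderL gam1 ∞ 2 2 c

lemma coeFn_mulL (c : Lp ℂ ∞ gam1) (f : Lp E 2 gam1) :
    mulL c f =ᵐ[gam1] fun x => c x • f x :=
  ContinuousLinearMap.coeFn_holder (ContinuousLinearMap.lsmul ℂ ℂ : ℂ →L[ℂ] E →L[ℂ] E) c f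

/-- fibrewise action of a constant operator. -/
def lift (A : E →L[ℂ] E) : Lp E 2 gam1 →L[ℂ] Lp E 2 gam1 := A.compLpL 2 gam1

lemma coeFn_lift (A : E →L[ℂ] E) (f : Lp E 2 gam1) :
    lift A f =ᵐ[gam1] fun x => A (f x) :=
  A.coeFn_compLpL f

lemma lift_wave (A : E →L[ℂ] E) (t : ℝ) (v : E) : lift A (wave t v) = wave t (A v) := by
  apply Lp.ext
  filter_upwards [coeFn_lift A (wave t v), coeFn_wave t v, coeFn_wave t (A v)] with x h1 h2 h3
  rw [h1, h2, h3, map_smul]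

/-- a bounded measurable function as an element of `L^∞`. -/
def bmf (c : ℝ → ℂ) (hc : Measurable c) (C : ℝ) (hb : ∀ x, ‖c x‖ ≤ C) : Lp ℂ ∞ gam1 :=
  (memLp_top_of_bound hc.aestronglyMeasurable C (Eventually.of_forall hb)).toLp c

lemma coeFn_bmf (c : ℝ → ℂ) (hc : Measurable c) (C : ℝ) (hb : ∀ x, ‖c x‖ ≤ C) :
    bmf c hc C hb =ᵐ[gam1] c := MemLp.coeFn_toLp _

/-- the character as an element of `L^∞`. -/
def chiL (t : ℝ) : Lp ℂ ∞ gam1 :=
  bmf (chi t) (continuous_chi t).measurable 1 (fun x => (norm_chi t x).le)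

lemma coeFn_chiL (t : ℝ) : chiL t =ᵐ[gam1] chi t := coeFn_bmf _ _ _ _

lemma mulL_chiL_wave (s t : ℝ) (v : E) : mulL (chiL s) (wave t v) = wave (s + t) v := by
  apply Lp.ext
  filter_upwards [coeFn_mulL (chiL s) (wave t v), coeFn_wave t v, coeFn_wave (s + t) v,
    coeFn_chiL s] with x h1 h2 h3 h4
  rw [h1, h2, h3, h4, chi_add, smul_smul]

end mult

section embed
variable {K0 K : Type*} [NormedAddCommGroup K0] [InnerProductSpace ℂ K0]
  [NormedAddCommGroup K] [InnerProductSpace ℂ K]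
variable (j : K0 →ₗᵢ[ℂ] K) (s : K)

lemma gram_embed (hs : ‖s‖ = 1) (hsj : ∀ f, ⟪s, j f⟫_ℂ = 0) (p q : ℝ × K0) :
    ⟪wave p.1 (coh p.2 : Fock K0), wave q.1 (coh q.2 : Fock K0)⟫_ℂ
      = ⟪(coh (j p.2 + (p.1 : ℂ) • s) : Fock K), coh (j q.2 + (q.1 : ℂ) • s)⟫_ℂ := by
  have hjs : ∀ f, ⟪j f, s⟫_ℂ = 0 := fun f => by
    rw [← inner_conj_symm, hsj, map_zero]
  have hss : ⟪s, s⟫_ℂ = 1 := by
    rw [inner_self_eq_norm_sq_to_K, hs]; simp
  have hn : ∀ (f : K0) (t : ℝ), ‖j f + (t : ℂ) • s‖ ^ 2 = ‖f‖ ^ 2 + t ^ 2 := by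
    intro f t
    rw [@norm_add_sq ℂ, inner_smul_right, hjs, norm_smul, hs, j.norm_map]
    simp
  rw [inner_wave, inner_coh, inner_coh, hn, hn, ← Complex.exp_add]
  congr 1
  rw [inner_add_left, inner_add_right, inner_add_right, inner_smul_left, inner_smul_left,
    inner_smul_right, inner_smul_right, hjs, hsj, hss, j.inner_map_map]
  simp only [Complex.conj_ofReal]
  push_cast
  ring

/-- the embedding of `L²(γ; Fock K₀)` into `Fock K`. -/
def emb : Lp (Fock K0) 2 gam1 →L[ℂ] Fock K :=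
  isoOfGram (fun p : ℝ × K0 => wave p.1 (coh p.2 : Fock K0))
    (fun p : ℝ × K0 => (coh (j p.2 + (p.1 : ℂ) • s) : Fock K))

lemma waves_coh_total :
    (Submodule.span ℂ (Set.range
      (fun p : ℝ × K0 => wave p.1 (coh p.2 : Fock K0)))).topologicalClosure = ⊤ :=
  wave_total coh_total

lemma emb_wave (hs : ‖s‖ = 1) (hsj : ∀ f, ⟪s, j f⟫_ℂ = 0) (t : ℝ) (f : K0) :
    emb j s (wave t (coh f)) = coh (j f + (t : ℂ) • s) :=
  isoOfGram_apply waves_coh_total (gram_embed j s hs hsj) (t, f)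

lemma norm_emb (hs : ‖s‖ = 1) (hsj : ∀ f, ⟪s, j f⟫_ℂ = 0) (v : Lp (Fock K0) 2 gam1) :
    ‖emb j s v‖ = ‖v‖ :=
  norm_isoOfGram waves_coh_total (gram_embed j s hs hsj) v

lemma emb_vac (hs : ‖s‖ = 1) (hsj : ∀ f, ⟪s, j f⟫_ℂ = 0) :
    emb j s (wave 0 vac) = vac := by
  rw [vac, emb_wave j s hs hsj]
  simp [vac]

lemma emb_Wy (hs : ‖s‖ = 1) (hsj : ∀ f, ⟪s, j f⟫_ℂ = 0) (g : K0)
    (v : Lp (Fock K0) 2 gam1) :
    emb j s (lift (Wy g) v) = Wy (j g) (emb j s v) := by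
  have h : (emb j s).comp (lift (Wy g)) = (Wy (j g)).comp (emb j s) := by
    refine ext_total waves_coh_total fun p => ?_
    rw [ContinuousLinearMap.comp_apply, ContinuousLinearMap.comp_apply, lift_wave, Wy_coh,
      wave_smul, map_smul, emb_wave j s hs hsj, emb_wave j s hs hsj, Wy_coh, map_add,
      inner_add_right, inner_smul_right, j.inner_map_map]
    have : ⟪j g, s⟫_ℂ = 0 := by rw [← inner_conj_symm, hsj, map_zero]
    rw [this, mul_zero, add_zero, add_assoc]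
  exact congrArg (fun T : Lp (Fock K0) 2 gam1 →L[ℂ] Fock K => T v) h

lemma emb_chi (hs : ‖s‖ = 1) (hsj : ∀ f, ⟪s, j f⟫_ℂ = 0) (t : ℝ)
    (v : Lp (Fock K0) 2 gam1) :
    emb j s (mulL (chiL t) v) = Wy ((t : ℂ) • s) (emb j s v) := by
  have hss : ⟪s, s⟫_ℂ = 1 := by
    rw [inner_self_eq_norm_sq_to_K, hs]; simp
  have h : (emb j s).comp (mulL (chiL t)) = (Wy ((t : ℂ) • s)).comp (emb j s) := by
    refine ext_total waves_coh_total fun p => ?_
    rw [ContinuousLinearMap.comp_apply, ContinuousLinearMap.comp_apply, mulL_chiL_wave,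
      emb_wave j s hs hsj, emb_wave j s hs hsj, Wy_coh, inner_add_right, inner_smul_left,
      inner_smul_left, inner_smul_right, hsj, hss, Complex.conj_ofReal]
    have : (((t : ℂ) * 0 + (t : ℂ) * ((p.1 : ℂ) * 1)).im : ℝ) = 0 := by
      rw [mul_zero, zero_add, mul_one, ← Complex.ofReal_mul, Complex.ofReal_im]
    rw [this]
    simp only [Complex.ofReal_zero, mul_zero, neg_zero, Complex.exp_zero, one_smul]
    congr 1
    push_cast
    rw [add_smul]
    abel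
  exact congrArg (fun T : Lp (Fock K0) 2 gam1 →L[ℂ] Fock K => T v) h

end embed

end Crest.Agent.R339.LF
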