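import Crest.Agent.R339.LabRel286
import Crest.Agent.R339.Asm539C

/-!
R339: the read-out `Im ⟪y, ι (eVec U)⟫` of a labelled word equals the label moment
`Re ⟪|+⟩ ⊗ one s, eVec U⟫`.
-/

set_option autoImplicit false
set_option linter.unusedSectionVars false

noncomputable section

namespace Crest.Agent.R339.LF

open MeasureTheory ProbabilityTheory Filter Topology
open scoped InnerProductSpace ENNReal
open Crest.Agent.R339.Site Crest.Agent.R339.Lab Crest.MathPhysics.SpinGlass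

variable {K : Type*} [NormedAddCommGroup K] [InnerProductSpace ℂ K]

/-- `v ↦ |+⟩ ⊗ v` on the plain space -/
def plusP : Fock K →ₗᵢ[ℂ] Sp K where
  toFun v := WithLp.toLp 2 fun _ => (((1 : ℝ) / Real.sqrt 2 : ℝ) : ℂ) • v
  map_add' v w := by
    ext b : 1
    show (((1 : ℝ) / Real.sqrt 2 : ℝ) : ℂ) • (v + w) = _
    rw [smul_add]
    rfl
  map_smul' c v := by
    ext b : 1
    show (((1 : ℝ) / Real.sqrt 2 : ℝ) : ℂ) • (c • v) = _
    rw [smul_comm]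
    rfl
  norm_map' v := by
    show ‖(WithLp.toLp 2 fun _ => (((1 : ℝ) / Real.sqrt 2 : ℝ) : ℂ) • v : Sp K)‖ = ‖v‖
    have h := PiLp.norm_sq_eq_of_L2 (fun _ : Bool => Fock K)
      (WithLp.toLp 2 fun _ => (((1 : ℝ) / Real.sqrt 2 : ℝ) : ℂ) • v)
    have h2 : ‖(((1 : ℝ) / Real.sqrt 2 : ℝ) : ℂ) • v‖ ^ 2 = ‖v‖ ^ 2 / 2 := by
      rw [norm_smul, Complex.norm_real, Real.norm_eq_abs, mul_pow, sq_abs, div_pow,
        Real.sq_sqrt (by norm_num)]
      ring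
    simp only [Fintype.sum_bool, h2] at h
    rw [add_halves] at h
    exact (sq_eq_sq₀ (norm_nonneg _) (norm_nonneg _)).mp h

lemma plusP_apply (v : Fock K) (b : Bool) :
    (plusP v : Sp K) b = (((1 : ℝ) / Real.sqrt 2 : ℝ) : ℂ) • v := rfl

lemma plusP_vac : (plusP vac : Sp K) = Om := rfl

lemma Wl_plusP (g : K) (v : Fock K) : Wl g (plusP v : Sp K) = plusP (Wy g v) := by
  ext b : 1
  rw [Wl_apply, plusP_apply, plusP_apply, map_smul]

lemma Sop_eq (ι : Sp K →ₗᵢ[ℂ] K) (v : Sp K) : Sop ι v = plusP (one (ι v)) := rfl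

/-- the label translation vectors -/
def gt (s : K) (τ : ℝ) : K := (τ : ℂ) • (Complex.I • s)

lemma gt_neg (s : K) (τ : ℝ) : -gt s τ = gt s (-τ) := by
  rw [gt, gt, ← neg_smul]
  push_cast
  rfl

/-- `w` is the derivative datum of `U` under label translation. -/
def RD (s : K) (U : USp K) (w : Sp K) : Prop :=
  ∃ R : ℝ → (Sp K →L[ℂ] Sp K), R 0 = 1 ∧
    (∀ (τ : ℝ) (v : Sp K), (U : Sp K →L[ℂ] Sp K) (R τ v)
      = Wl (-gt s τ) ((U : Sp K →L[ℂ] Sp K) (Wl (gt s τ) v))) ∧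
    HasDerivAt (fun τ => R τ Om) ((-(2 * Complex.I)) • w) 0

lemma RD.start (s : K) : RD s 1 0 := by
  refine ⟨fun _ => 1, rfl, fun τ v => ?_, ?_⟩
  · show v = Wl (-gt s τ) (Wl (gt s τ) v)
    rw [Wl_neg_Wl]
  · rw [smul_zero]
    exact hasDerivAt_const _ _

lemma RD.comm {s : K} {U : USp K} {w : Sp K} (h : RD s U w) (G : USp K)
    (hG : ∀ (τ : ℝ) (v : Sp K), (G : Sp K →L[ℂ] Sp K) (Wl (gt s τ) v)
      = Wl (gt s τ) ((G : Sp K →L[ℂ] Sp K) v)) : RD s (G * U) w := by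
  obtain ⟨R, h0, h1, h2⟩ := h
  refine ⟨R, h0, fun τ v => ?_, h2⟩
  show (G : Sp K →L[ℂ] Sp K) ((U : Sp K →L[ℂ] Sp K) (R τ v)) = _
  rw [h1, gt_neg, hG]
  rfl

lemma costU_comm_gt {s f : K} (hf : ⟪s, f⟫_ℂ = 0) (γ τ : ℝ) (v : Sp K) :
    ((costU γ f : USp K) : Sp K →L[ℂ] Sp K) (Wl (gt s τ) v)
      = Wl (gt s τ) (((costU γ f : USp K) : Sp K →L[ℂ] Sp K) v) := by
  ext b : 1
  rw [costU_apply, Wl_apply, Wl_apply, costU_apply, ← mul_apply_eq_comp, Wy_comm, smul_apply,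
    mul_apply_eq_comp]
  have h : ⟪(((-(γ * spinSign b) : ℝ)) : ℂ) • f, gt s τ⟫_ℂ = 0 := by
    have h' : ⟪f, s⟫_ℂ = 0 := by rw [← inner_conj_symm, hf, map_zero]
    rw [gt, inner_smul_left, inner_smul_right, inner_smul_right, h']
    simp
  rw [h]
  simp

/-- the phase operator picked up by a label gate under translation -/
def Eph (α τ : ℝ) : Sp K →L[ℂ] Sp K :=
  ((Real.cos (2 * α * τ) : ℝ) : ℂ) • 1 - (Complex.I * ((Real.sin (2 * α * τ) : ℝ) : ℂ)) • Zop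

lemma Eph_apply (α τ : ℝ) (v : Sp K) (b : Bool) :
    Eph α τ v b = Complex.exp (-(Complex.I * ((2 * (α * spinSign b * τ) : ℝ) : ℂ))) • v b := by
  have h : Eph α τ v = ((Real.cos (2 * α * τ) : ℝ) : ℂ) • v
      - (Complex.I * ((Real.sin (2 * α * τ) : ℝ) : ℂ)) • Zop v := rfl
  rw [h, PiLp.sub_apply, PiLp.smul_apply, PiLp.smul_apply, Zop_apply, smul_smul, ← sub_smul]
  congr 1
  have e : -(Complex.I * ((2 * (α * spinSign b * τ) : ℝ) : ℂ))
      = ((-(2 * (α * spinSign b * τ)) : ℝ) : ℂ) * Complex.I := by push_cast; ring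
  rw [e, Complex.exp_mul_I, ← Complex.ofReal_cos, ← Complex.ofReal_sin, Real.cos_neg,
    Real.sin_neg]
  cases b
  · simp only [spinSign, Bool.false_eq_true, if_false]
    rw [show 2 * (α * 1 * τ) = 2 * α * τ by ring]
    push_cast
    ring
  · simp only [spinSign, if_true]
    rw [show 2 * (α * -1 * τ) = -(2 * α * τ) by ring, Real.cos_neg, Real.sin_neg]
    push_cast
    ring

lemma Eph_zero (α : ℝ) : (Eph α 0 : Sp K →L[ℂ] Sp K) = 1 := by
  refine ContinuousLinearMap.ext fun v => ?_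
  ext b : 1
  rw [Eph_apply]
  simp

lemma costU_Eph {s : K} (hs : ‖s‖ = 1) (α τ : ℝ) (v : Sp K) :
    ((costU (-α) s : USp K) : Sp K →L[ℂ] Sp K) (Eph α τ v)
      = Wl (-gt s τ) (((costU (-α) s : USp K) : Sp K →L[ℂ] Sp K) (Wl (gt s τ) v)) := by
  ext b : 1
  rw [costU_apply, Wl_apply, costU_apply, Wl_apply, Eph_apply, map_smul, ← mul_apply_eq_comp
    (Wy ((((-(-α * spinSign b) : ℝ)) : ℂ) • s)), Wy_comm, smul_apply, mul_apply_eq_comp, map_smul,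
    ← mul_apply_eq_comp (Wy (-gt s τ)), Wy_neg_mul]
  have h : ⟪(((-(-α * spinSign b) : ℝ)) : ℂ) • s, gt s τ⟫_ℂ
      = ((α * spinSign b * τ : ℝ) : ℂ) * Complex.I := by
    rw [gt, inner_smul_left, inner_smul_right, inner_smul_right, inner_self_eq_norm_sq_to_K, hs,
      Complex.conj_ofReal]
    push_cast
    ring
  rw [h]
  congr 2
  rw [Complex.im_ofReal_mul, Complex.I_im, mul_one]
  push_cast
  ring

lemma hasDerivAt_cosC (α : ℝ) : HasDerivAt (fun τ : ℝ => ((Real.cos (2 * α * τ) : ℝ) : ℂ)) 0 0 := by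
  have h1 : HasDerivAt (fun τ : ℝ => Real.cos (2 * α * τ)) (-Real.sin (2 * α * 0) * (2 * α)) 0 := by
    have := (hasDerivAt_id (0 : ℝ)).const_mul (2 * α)
    rw [mul_one] at this
    exact this.cos
  have h2 := h1.ofReal_comp
  simpa using h2

lemma hasDerivAt_sinC (α : ℝ) : HasDerivAt
    (fun τ : ℝ => Complex.I * ((Real.sin (2 * α * τ) : ℝ) : ℂ)) (Complex.I * ((2 * α : ℝ) : ℂ)) 0 := by
  have h1 : HasDerivAt (fun τ : ℝ => Real.sin (2 * α * τ)) (Real.cos (2 * α * 0) * (2 * α)) 0 := by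
    have := (hasDerivAt_id (0 : ℝ)).const_mul (2 * α)
    rw [mul_one] at this
    exact this.sin
  have h2 := h1.ofReal_comp.const_mul Complex.I
  simpa using h2

lemma RD.lab {s : K} (hs : ‖s‖ = 1) {U : USp K} {w : Sp K} (h : RD s U w) (α : ℝ) :
    RD s (costU (-α) s * U) (w + (α : ℂ) • eVec U) := by
  obtain ⟨R, h0, h1, h2⟩ := h
  refine ⟨fun τ => (star (U : Sp K →L[ℂ] Sp K) * Eph α τ * (U : Sp K →L[ℂ] Sp K)) * R τ,
    ?_, fun τ v => ?_, ?_⟩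
  · show (star (U : Sp K →L[ℂ] Sp K) * Eph α 0 * (U : Sp K →L[ℂ] Sp K)) * R 0 = 1
    rw [Eph_zero, h0, mul_one, mul_one, star_U_mul_self]
  · show ((costU (-α) s : USp K) : Sp K →L[ℂ] Sp K) ((U : Sp K →L[ℂ] Sp K)
      (star (U : Sp K →L[ℂ] Sp K) (Eph α τ ((U : Sp K →L[ℂ] Sp K) (R τ v)))))
      = Wl (-gt s τ) (((costU (-α) s : USp K) : Sp K →L[ℂ] Sp K) ((U : Sp K →L[ℂ] Sp K)
        (Wl (gt s τ) v)))
    rw [← mul_apply_eq_comp (U : Sp K →L[ℂ] Sp K), U_mul_star_self, one_apply_eq_self, h1,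
      costU_Eph hs, Wl_Wl_neg]
  · set e : Sp K →L[ℂ] Sp K := star (U : Sp K →L[ℂ] Sp K) * Zop * (U : Sp K →L[ℂ] Sp K) with he
    have heq : ∀ τ : ℝ, ((star (U : Sp K →L[ℂ] Sp K) * Eph α τ * (U : Sp K →L[ℂ] Sp K)) * R τ
        : Sp K →L[ℂ] Sp K) Om
        = ((Real.cos (2 * α * τ) : ℝ) : ℂ) • R τ Om
          - (Complex.I * ((Real.sin (2 * α * τ) : ℝ) : ℂ)) • e (R τ Om) := by
      intro τ
      show star (U : Sp K →L[ℂ] Sp K) (((Real.cos (2 * α * τ) : ℝ) : ℂ) •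
        ((U : Sp K →L[ℂ] Sp K) (R τ Om)) - (Complex.I * ((Real.sin (2 * α * τ) : ℝ) : ℂ)) •
          Zop ((U : Sp K →L[ℂ] Sp K) (R τ Om))) = _
      rw [map_sub, map_smul, map_smul, ← mul_apply_eq_comp (star (U : Sp K →L[ℂ] Sp K)),
        star_U_mul_self, one_apply_eq_self]
      rfl
    show HasDerivAt (fun τ : ℝ => ((star (U : Sp K →L[ℂ] Sp K) * Eph α τ
      * (U : Sp K →L[ℂ] Sp K)) * R τ : Sp K →L[ℂ] Sp K) Om) _ 0
    simp_rw [heq]
    have h3 : HasDerivAt (fun τ : ℝ => e (R τ (Om : Sp K))) (e ((-(2 * Complex.I)) • w)) 0 :=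
      ((e.restrictScalars ℝ).hasFDerivAt.comp_hasDerivAt (0 : ℝ) h2)
    have h4 := ((hasDerivAt_cosC α).smul h2).sub ((hasDerivAt_sinC α).smul h3)
    convert! h4 using 1
    rw [h0]
    show (-(2 * Complex.I)) • (w + (α : ℂ) • eVec U)
      = (((Real.cos (2 * α * 0) : ℝ) : ℂ) • (-(2 * Complex.I)) • w + (0 : ℂ) • Om)
        - ((Complex.I * ((Real.sin (2 * α * 0) : ℝ) : ℂ)) • e ((-(2 * Complex.I)) • w)
          + (Complex.I * ((2 * α : ℝ) : ℂ)) • eVec U)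
    rw [mul_zero, Real.cos_zero, Real.sin_zero, Complex.ofReal_one, Complex.ofReal_zero, mul_zero,
      zero_smul, zero_smul, one_smul, add_zero, zero_add, smul_add, smul_smul, sub_eq_add_neg,
      ← neg_smul]
    congr 2
    push_cast
    ring

/-- **The label moment.** -/
theorem RD.moment {s : K} {U : USp K} {w : Sp K} (h : RD s U w) :
    (⟪plusP (one s), eVec U⟫_ℂ).re = 2 * (⟪w, eVec U⟫_ℂ).im := by
  obtain ⟨R, h0, h1, h2⟩ := h
  set e : Sp K →L[ℂ] Sp K := star (U : Sp K →L[ℂ] Sp K) * Zop * (U : Sp K →L[ℂ] Sp K) with he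
  have heO : e Om = eVec U := rfl
  have hsym : ∀ v v' : Sp K, ⟪v, e v'⟫_ℂ = ⟪(U : Sp K →L[ℂ] Sp K) v,
      Zop ((U : Sp K →L[ℂ] Sp K) v')⟫_ℂ := by
    intro v v'
    show ⟪v, star (U : Sp K →L[ℂ] Sp K) (Zop ((U : Sp K →L[ℂ] Sp K) v'))⟫_ℂ = _
    rw [ContinuousLinearMap.star_eq_adjoint, ContinuousLinearMap.adjoint_inner_right]
  have hsym2 : ∀ v v' : Sp K, ⟪v, e v'⟫_ℂ = ⟪e v, v'⟫_ℂ := by
    intro v v'
    rw [hsym, ← inner_conj_symm (e v), hsym, inner_conj_symm, inner_Zop_left]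
  -- the two vectors
  have hx : HasDerivAt (fun τ : ℝ => Wl (gt s τ) (Om : Sp K)) (-plusP (one s)) 0 := by
    have e1 : ∀ τ : ℝ, Wl (gt s τ) (Om : Sp K) = plusP (coh ((τ : ℂ) • (Complex.I • s))) := by
      intro τ
      rw [← plusP_vac, Wl_plusP, Wy_vac, gt]
    simp_rw [e1]
    have h3 : HasDerivAt (fun t : ℝ => (plusP (coh ((t : ℂ) • (Complex.I • s))) : Sp K))
        (plusP (Complex.I • one (Complex.I • s))) 0 :=
      (((plusP (K := K)).toContinuousLinearMap.restrictScalars ℝ).hasFDerivAt.comp_hasDerivAt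
        (0 : ℝ) (hasDerivAt_coh (Complex.I • s)))
    convert! h3 using 1
    rw [map_smul, map_smul, map_smul, smul_smul, Complex.I_mul_I, neg_smul, one_smul]
  have hf : ∀ τ : ℝ, ⟪Wl (gt s τ) (Om : Sp K), e (Wl (gt s τ) Om)⟫_ℂ = ⟪R τ Om, e (R τ Om)⟫_ℂ := by
    intro τ
    rw [hsym, hsym, h1]
    rw [isSpin_Zop, inner_Wl_Wl]
  have hd1 : HasDerivAt (fun τ : ℝ => ⟪Wl (gt s τ) (Om : Sp K), e (Wl (gt s τ) Om)⟫_ℂ)
      (⟪(Om : Sp K), e (-plusP (one s))⟫_ℂ + ⟪-plusP (one s), e Om⟫_ℂ) 0 := by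
    have h3 : HasDerivAt (fun τ : ℝ => e (Wl (gt s τ) (Om : Sp K))) (e (-plusP (one s))) 0 :=
      ((e.restrictScalars ℝ).hasFDerivAt.comp_hasDerivAt (0 : ℝ) hx)
    have h4 := hx.inner ℂ h3
    have e0 : Wl (gt s 0) (Om : Sp K) = Om := by
      rw [gt, Complex.ofReal_zero, zero_smul, Wl_zero, one_apply_eq_self]
    rw [e0] at h4
    exact h4
  have hd2 : HasDerivAt (fun τ : ℝ => ⟪R τ (Om : Sp K), e (R τ Om)⟫_ℂ)
      (⟪(Om : Sp K), e ((-(2 * Complex.I)) • w)⟫_ℂ + ⟪(-(2 * Complex.I)) • w, e Om⟫_ℂ) 0 := by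
    have h3 : HasDerivAt (fun τ : ℝ => e (R τ (Om : Sp K))) (e ((-(2 * Complex.I)) • w)) 0 :=
      ((e.restrictScalars ℝ).hasFDerivAt.comp_hasDerivAt (0 : ℝ) h2)
    have h4 := h2.inner ℂ h3
    rw [h0, one_apply_eq_self] at h4
    exact h4
  simp_rw [hf] at hd1
  have key := hd1.unique hd2
  rw [hsym2, hsym2 Om, heO] at key
  have key2 := congrArg Complex.re key
  rw [Complex.add_re, Complex.add_re] at key2
  have c1 : (⟪eVec U, -plusP (one s)⟫_ℂ).re = (⟪-plusP (one s), eVec U⟫_ℂ).re := by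
    rw [← inner_conj_symm, Complex.conj_re]
  have c2 : (⟪eVec U, (-(2 * Complex.I)) • w⟫_ℂ).re = (⟪(-(2 * Complex.I)) • w, eVec U⟫_ℂ).re := by
    rw [← inner_conj_symm, Complex.conj_re]
  rw [c1, c2, inner_neg_left, inner_smul_left] at key2
  simp at key2
  linarith

/-! ### labelled words -/

theorem RD.runL {ι : Sp K →ₗᵢ[ℂ] K} {s : K} (hs : ‖s‖ = 1) (hsi : ∀ v, ⟪s, ι v⟫_ℂ = 0)
    (w : List Mark.Lg) : ∀ (p : USp K × K) (u : Sp K), RD s p.1 u → p.2 = ι ((2 : ℂ) • u) →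
      ∃ u', RD s (Mark.runL ι s w p).1 u' ∧ (Mark.runL ι s w p).2 = ι ((2 : ℂ) • u') := by
  induction w with
  | nil => intro p u h h'; exact ⟨u, h, h'⟩
  | cons g w ih =>
    intro p u h h'
    cases g with
    | C γ => exact ih _ u (h.comm _ fun τ v => costU_comm_gt (hsi _) γ τ v) h'
    | B β => exact ih _ u (h.comm _ fun τ v => isSpin_mixU β _ _) h'
    | L α =>
      refine ih _ (u + (α : ℂ) • eVec p.1) (h.lab hs α) ?_
      show p.2 + ((2 * α : ℝ) : ℂ) • ι (eVec p.1) = _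
      rw [h', smul_add, map_add, smul_smul, map_smul ι ((2 : ℂ) * α)]
      congr 2
      push_cast
      ring

/-- the read-out of a labelled state is its label moment -/
theorem readout_eq {ι : Sp K →ₗᵢ[ℂ] K} {s : K} (hs : ‖s‖ = 1) (hsi : ∀ v, ⟪s, ι v⟫_ℂ = 0)
    (α0 : ℝ) (w : List Mark.Lg) :
    (⟪(Mark.runL ι s w (costU (-α0) s, ((2 * α0 : ℝ) : ℂ) • ι (Zop Om))).2,
      ι (eVec (Mark.runL ι s w (costU (-α0) s, ((2 * α0 : ℝ) : ℂ) • ι (Zop Om))).1)⟫_ℂ).im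
    = (⟪plusP (one s),
      eVec (Mark.runL ι s w (costU (-α0) s, ((2 * α0 : ℝ) : ℂ) • ι (Zop Om))).1⟫_ℂ).re := by
  have h0 : RD s (costU (-α0) s) ((α0 : ℂ) • (Zop Om : Sp K)) := by
    have h1 := (RD.start s).lab hs α0
    have e1 : eVec (1 : USp K) = Zop Om := by
      show star (1 : Sp K →L[ℂ] Sp K) (Zop Om) = _
      rw [star_one]
      rfl
    rw [mul_one, zero_add, e1] at h1
    exact h1
  obtain ⟨u', h2, h3⟩ := RD.runL hs hsi w (costU (-α0) s, ((2 * α0 : ℝ) : ℂ) • ι (Zop Om)) _ h0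
    (by
      show ((2 * α0 : ℝ) : ℂ) • ι (Zop Om) = _
      rw [smul_smul, map_smul]
      congr 1
      push_cast
      ring)
  rw [h2.moment, h3, ι.inner_map_map, inner_smul_left]
  simp

end Crest.Agent.R339.LF
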