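import Crest.Agent.R339.LabILSys286
import Crest.Agent.R339.LabBridge286

/-!
R339: the labelled site space versus the plain site space: intertwining relations.
-/

set_option autoImplicit false
set_option linter.unusedSectionVars false

noncomputable section

namespace Crest.Agent.R339.LF

open MeasureTheory ProbabilityTheory Filter Topology
open scoped InnerProductSpace ENNReal
open Crest.Agent.R339.Site Crest.Agent.R339.Lab Crest.MathPhysics.SpinGlass

/-! ### the moves on the labelled space -/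
section moves
variable {K0 : Type*} [NormedAddCommGroup K0] [InnerProductSpace ℂ K0]

/-- the unitary group of the labelled site space -/
abbrev USL (K0 : Type*) [NormedAddCommGroup K0] [InnerProductSpace ℂ K0] : Type _ :=
  Li.UH (SL K0)

lemma star_mixm (β : ℝ) : star (mixm β) = mixm (-β) := by
  ext b b'
  rw [Matrix.star_apply]
  simp only [mixm, Matrix.of_apply, Real.cos_neg, Real.sin_neg]
  cases b <;> cases b' <;> simp [-Complex.ofReal_cos, -Complex.ofReal_sin]

lemma mixm_mul (β β' : ℝ) : mixm β * mixm β' = mixm (β + β') := by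
  have h1 : ((Real.cos (β + β') : ℝ) : ℂ) = (Real.cos β : ℂ) * (Real.cos β' : ℂ) -
    (Real.sin β : ℂ) * (Real.sin β' : ℂ) := by rw [Real.cos_add]; push_cast; ring
  have h2 : ((Real.sin (β + β') : ℝ) : ℂ) = (Real.sin β : ℂ) * (Real.cos β' : ℂ) +
    (Real.cos β : ℂ) * (Real.sin β' : ℂ) := by rw [Real.sin_add]; push_cast; ring
  ext b b'
  rw [Matrix.mul_apply]
  simp only [mixm, Matrix.of_apply, Fintype.sum_bool]
  rw [h1, h2]
  cases b <;> cases b' <;> simp [-Complex.ofReal_cos, -Complex.ofReal_sin]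
  · linear_combination ((Real.sin β : ℂ) * (Real.sin β' : ℂ)) * Complex.I_sq
  · ring
  · ring
  · linear_combination ((Real.sin β : ℂ) * (Real.sin β' : ℂ)) * Complex.I_sq

lemma mixm_zero : mixm 0 = 1 := by
  ext b b'
  cases b <;> cases b' <;> simp [mixm]

/-- the label gate `exp (i a x Z)` as a label-controlled matrix -/
def labg (a : ℝ) : ℝ → Matrix Bool Bool ℂ := fun x => Matrix.diagonal fun b => chi (a * spinSign b) x

lemma BMM_labg (a : ℝ) : BMM (labg a) := by
  intro b b'
  simp only [labg, Matrix.diagonal_apply]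
  by_cases h : b = b'
  · simp only [h, if_true]
    exact BM.chi _
  · simp only [h, if_false]
    exact BM.const 0

lemma chi_zero (x : ℝ) : chi 0 x = 1 := by simp [chi]

lemma labg_mul (a a' x : ℝ) : labg a x * labg a' x = labg (a + a') x := by
  rw [labg, labg, labg, Matrix.diagonal_mul_diagonal]
  congr 1
  funext b
  rw [← chi_add, add_mul]

lemma labg_zero (x : ℝ) : labg 0 x = 1 := by
  rw [labg, ← Matrix.diagonal_one]
  congr 1
  funext b
  rw [zero_mul, chi_zero]

lemma star_labg (a x : ℝ) : star (labg a x) = labg (-a) x := by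
  rw [labg, Matrix.star_eq_conjTranspose, Matrix.diagonal_conjTranspose, labg]
  congr 1
  funext b
  rw [Pi.star_apply, Complex.star_def, conj_chi, neg_mul]

/-- `exp (-i β X)` on the labelled space -/
def mixL (β : ℝ) : USL K0 := gU (fun _ => mixm β) (BMM.const _)
  (fun _ => by rw [star_mixm, mixm_mul, neg_add_cancel, mixm_zero])
  (fun _ => by rw [star_mixm, mixm_mul, add_neg_cancel, mixm_zero])

/-- `exp (i a x Z)` on the labelled space -/
def labL (a : ℝ) : USL K0 := gU (labg a) (BMM_labg a)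
  (fun x => by rw [star_labg, labg_mul, neg_add_cancel, labg_zero])
  (fun x => by rw [star_labg, labg_mul, add_neg_cancel, labg_zero])

lemma mixL_coe (β : ℝ) : ((mixL β : USL K0) : SL K0 →L[ℂ] SL K0) = spG (mixm β) := gS_const _

lemma labL_coe (a : ℝ) : ((labL a : USL K0) : SL K0 →L[ℂ] SL K0) = gS (labg a) := rfl

lemma labL_apply (a : ℝ) (v : SL K0) (b : Bool) :
    ((labL a : USL K0) : SL K0 →L[ℂ] SL K0) v b = mF (chi (a * spinSign b)) (v b) := by
  rw [labL_coe, gS_apply, Finset.sum_eq_single b]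
  · simp only [labg, Matrix.diagonal_apply_eq]
  · intro b' _ hb
    have : (fun x => labg a x b b') = fun _ => (0 : ℂ) := by
      funext x
      rw [labg, Matrix.diagonal_apply_ne _ hb.symm]
    rw [this]
    have h0 : (mF (fun _ => (0 : ℂ)) : LFo K0 →L[ℂ] LFo K0) = 0 := mF_zero
    rw [h0]
    rfl
  · simp

variable (io : SL K0 ≃ₗᵢ[ℂ] K0)

/-- `exp (-i γ Z φ(f))`, `f` an element of the labelled space -/
def costL (γ : ℝ) (f : SL K0) : USL K0 := (IL io).cst MeasurableSet.univ (((-γ : ℝ) : ℂ) • f)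

lemma IL_Z : (IL io).Z = ZS := by
  show spG Li.zM = spG zm
  congr 1
  ext b b'
  cases b <;> cases b' <;> simp [Li.zM, Li.dM, zm, spinSign]

lemma IL_X : (IL io).X = XS := by
  show spG Li.xM = spG xm
  congr 1

lemma Ep_apply (v : SL K0) (b : Bool) : (IL io).Ep v b = if b then 0 else v b := by
  show (spG (Li.dM 1 0) : SL K0 →L[ℂ] SL K0) v b = _
  rw [spG_apply]
  cases b <;> simp [Li.dM]

lemma Em_apply (v : SL K0) (b : Bool) : (IL io).Em v b = if b then v b else 0 := by
  show (spG (Li.dM 0 1) : SL K0 →L[ℂ] SL K0) v b = _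
  rw [spG_apply]
  cases b <;> simp [Li.dM]

lemma zW_apply (f : SL K0) (v : SL K0) (b : Bool) :
    (IL io).zW f v b = lift (Wy (((spinSign b : ℝ) : ℂ) • io f)) (v b) := by
  have h : (IL io).zW f v = (IL io).Ep ((IL io).W f v) + (IL io).Em ((IL io).W (-f) v) := rfl
  rw [h, PiLp.add_apply, Ep_apply, Em_apply]
  have hW : ∀ g : SL K0, ((IL io).W g v) b = lift (Wy (io g)) (v b) := fun g => by
    show (WS (io g) v) b = _
    rw [WS, dg_apply]
  rw [hW, hW, map_neg]
  cases b <;> simp [spinSign]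

lemma costL_coe (γ : ℝ) (f : SL K0) : ((costL io γ f : USL K0) : SL K0 →L[ℂ] SL K0)
    = (IL io).zW (((-γ : ℝ) : ℂ) • f) := by
  show (IL io).P Set.univᶜ + (IL io).P Set.univ * (IL io).zW (((-γ : ℝ) : ℂ) • f) = _
  rw [(IL io).P_univ, one_mul, Set.compl_univ, Li.ILSys.P_empty, zero_add]

lemma costL_apply (γ : ℝ) (f v : SL K0) (b : Bool) :
    ((costL io γ f : USL K0) : SL K0 →L[ℂ] SL K0) v b
      = lift (Wy (((-(γ * spinSign b) : ℝ) : ℂ) • io f)) (v b) := by
  rw [costL_coe, zW_apply, map_smul, smul_smul]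
  congr 3
  push_cast
  ring_nf

/-- the cost move -/
def mvC (γ : ℝ) (U : USL K0) : USL K0 := costL io γ ((IL io).eV U) * U
/-- the mixer move -/
def mvB (β : ℝ) (U : USL K0) : USL K0 := mixL β * U
/-- the label move -/
def mvL (a : ℝ) (U : USL K0) : USL K0 := labL a * U

end moves

/-! ### relation -/
section rel
variable {K0 K : Type*} [NormedAddCommGroup K0] [InnerProductSpace ℂ K0]
  [NormedAddCommGroup K] [InnerProductSpace ℂ K]

/-- `U'` extends `U`. -/
def Rel (D : BridgeData K0 K) (U : USL K0) (U' : USp K) : Prop :=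
  ∀ v, (U' : Sp K →L[ℂ] Sp K) (embS D.j D.s v) = embS D.j D.s ((U : SL K0 →L[ℂ] SL K0) v)

variable {D : BridgeData K0 K}

lemma Rel.one : Rel D 1 1 := fun _ => rfl

lemma Rel.mul {U V : USL K0} {U' V' : USp K} (h : Rel D U U') (h' : Rel D V V') :
    Rel D (U * V) (U' * V') := by
  intro v
  show (U' : Sp K →L[ℂ] Sp K) ((V' : Sp K →L[ℂ] Sp K) (embS D.j D.s v)) = _
  rw [h' v, h]
  rfl

lemma Rel.star_apply {U : USL K0} {U' : USp K} (h : Rel D U U') (v : SL K0) :
    star (U' : Sp K →L[ℂ] Sp K) (embS D.j D.s v)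
      = embS D.j D.s (star (U : SL K0 →L[ℂ] SL K0) v) := by
  have h1 := h (star (U : SL K0 →L[ℂ] SL K0) v)
  have h2 : (U : SL K0 →L[ℂ] SL K0) (star (U : SL K0 →L[ℂ] SL K0) v) = v := by
    rw [← mul_apply_eq_comp, (Unitary.mem_iff.mp U.2).2]
    rfl
  rw [h2] at h1
  rw [← h1, ← mul_apply_eq_comp, star_U_mul_self]
  rfl

lemma Rel.eVec {U : USL K0} {U' : USp K} (h : Rel D U U') :
    Site.eVec U' = embS D.j D.s ((IL D.io).eV U) := by
  show star (U' : Sp K →L[ℂ] Sp K) (Zop ((U' : Sp K →L[ℂ] Sp K) Om)) = _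
  rw [← embS_OmS D.j D.s D.hs D.hsj, h, ← embS_ZS, h.star_apply, Li.ILSys.eV, IL_Z]
  rfl

lemma Rel.ip_eVec {U : USL K0} {U' : USp K} (h : Rel D U U') :
    D.ip (Site.eVec U') = D.j (D.io ((IL D.io).eV U)) := by
  rw [h.eVec, D.comm]

lemma Rel.mix (D : BridgeData K0 K) (β : ℝ) : Rel D (mixL β) (mixU β) := by
  intro v
  rw [mixL_coe, embS_spG]
  ext b : 1
  rw [mixU_apply, spM_apply, Fintype.sum_bool]
  cases b <;> simp [mixm, -Complex.ofReal_cos, -Complex.ofReal_sin, sub_eq_add_neg, add_comm]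

lemma Rel.lab (D : BridgeData K0 K) (a : ℝ) : Rel D (labL a) (costU (-a) D.s) := by
  intro v
  ext b : 1
  rw [costU_apply, embS_apply, embS_apply, labL_apply, mF_chi_eq, emb_chi D.j D.s D.hs D.hsj]
  congr 3
  push_cast
  ring

lemma Rel.cost (D : BridgeData K0 K) (γ : ℝ) (f : SL K0) :
    Rel D (costL D.io γ f) (costU γ (D.j (D.io f))) := by
  intro v
  ext b : 1
  rw [costU_apply, embS_apply, embS_apply, costL_apply, emb_Wy D.j D.s D.hs D.hsj, map_smul]

lemma Rel.mvB {U : USL K0} {U' : USp K} (h : Rel D U U') (β : ℝ) :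
    Rel D (mvB β U) (moveB β U') := (Rel.mix D β).mul h

lemma Rel.mvL {U : USL K0} {U' : USp K} (h : Rel D U U') (a : ℝ) :
    Rel D (mvL a U) (costU (-a) D.s * U') := (Rel.lab D a).mul h

lemma Rel.mvC {U : USL K0} {U' : USp K} (h : Rel D U U') (γ : ℝ) :
    Rel D (mvC D.io γ U) (moveC D.ip γ U') := by
  have h1 := (Rel.cost D γ ((IL D.io).eV U)).mul h
  rw [← h.ip_eVec] at h1
  exact h1

/-- one-particle vectors under the embedding -/
lemma emb_one (j : K0 →ₗᵢ[ℂ] K) (s : K) (hs : ‖s‖ = 1) (hsj : ∀ f, ⟪s, j f⟫_ℂ = 0) (f : K0) :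
    emb j s (wave 0 (one f)) = one (j f) := by
  let L : Fock K0 →ₗᵢ[ℂ] LFo K0 :=
    { toFun := wave 0
      map_add' := wave_add 0
      map_smul' := wave_smul 0
      norm_map' := norm_wave 0 }
  have h1 : HasDerivAt (fun t : ℝ => ((emb j s).comp L.toContinuousLinearMap)
      (coh ((t : ℂ) • f))) (((emb j s).comp L.toContinuousLinearMap) (Complex.I • one f)) 0 :=
    ((((emb j s).comp L.toContinuousLinearMap).restrictScalars ℝ).hasFDerivAt.comp_hasDerivAt
      (0 : ℝ) (hasDerivAt_coh f))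
  have h2 : ∀ t : ℝ, ((emb j s).comp L.toContinuousLinearMap) (coh ((t : ℂ) • f))
      = coh ((t : ℂ) • j f) := by
    intro t
    show emb j s (wave 0 (coh ((t : ℂ) • f))) = _
    rw [emb_wave j s hs hsj, map_smul]
    simp
  simp_rw [h2] at h1
  have h3 := h1.unique (hasDerivAt_coh (j f))
  rw [map_smul] at h3
  have h4 := smul_right_injective (Fock K) Complex.I_ne_zero h3
  exact h4

lemma Sop_embS (D : BridgeData K0 K) (v : SL K0) :
    Sop D.ip (embS D.j D.s v) = embS D.j D.s (oneS D.io.toLinearIsometry v) := by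
  ext b : 1
  rw [embS_apply, oneS_apply, plusL_apply, map_smul]
  show (((1 : ℝ) / Real.sqrt 2 : ℝ) : ℂ) • one (D.ip (embS D.j D.s v)) = _
  rw [D.comm]
  congr 1
  exact (emb_one D.j D.s D.hs D.hsj _).symm

lemma Rel.energy {U : USL K0} {U' : USp K} (h : Rel D U U') :
    Site.energy D.ip U' = (IL D.io).energy U := by
  rw [Site.energy, h.eVec, Sop_embS, Li.ILSys.energy]
  have h1 := (embI D.j D.s D.hs D.hsj).inner_map_map ((IL D.io).eV U)
    (oneS D.io.toLinearIsometry ((IL D.io).eV U))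
  rw [embI_apply, embI_apply] at h1
  rw [h1]
  rfl

end rel

end Crest.Agent.R339.LF
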