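import Crest.Agent.R339.LabFun286B

/-!
R339: the algebra of label multiplications and fibrewise operators on `Lp E 2 gam1`,
and `2 × 2` operator matrices over a general Hilbert space.
-/

set_option autoImplicit false
set_option linter.unusedSectionVars false

noncomputable section

namespace Crest.Agent.R339.LF

open MeasureTheory ProbabilityTheory Filter Topology
open scoped InnerProductSpace ENNReal

section mult
variable {E : Type*} [NormedAddCommGroup E] [InnerProductSpace ℂ E] [CompleteSpace E]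

/-- bounded measurable functions of the label -/
def BM (c : ℝ → ℂ) : Prop := Measurable c ∧ ∃ C : ℝ, ∀ x, ‖c x‖ ≤ C

lemma BM.const (z : ℂ) : BM (fun _ => z) := ⟨measurable_const, ‖z‖, fun _ => le_rfl⟩

lemma BM.chi (t : ℝ) : BM (chi t) := ⟨(continuous_chi t).measurable, 1, fun x => (norm_chi t x).le⟩

lemma BM.mul {c c' : ℝ → ℂ} (h : BM c) (h' : BM c') : BM (fun x => c x * c' x) := by
  obtain ⟨hm, C, hC⟩ := h
  obtain ⟨hm', C', hC'⟩ := h'
  refine ⟨hm.mul hm', C * C', fun x => ?_⟩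
  rw [norm_mul]
  exact mul_le_mul (hC x) (hC' x) (norm_nonneg _) ((norm_nonneg _).trans (hC x))

lemma BM.add {c c' : ℝ → ℂ} (h : BM c) (h' : BM c') : BM (fun x => c x + c' x) := by
  obtain ⟨hm, C, hC⟩ := h
  obtain ⟨hm', C', hC'⟩ := h'
  exact ⟨hm.add hm', C + C', fun x => (norm_add_le _ _).trans (add_le_add (hC x) (hC' x))⟩

lemma BM.sub {c c' : ℝ → ℂ} (h : BM c) (h' : BM c') : BM (fun x => c x - c' x) := by
  obtain ⟨hm, C, hC⟩ := h
  obtain ⟨hm', C', hC'⟩ := h'
  exact ⟨hm.sub hm', C + C', fun x => (norm_sub_le _ _).trans (add_le_add (hC x) (hC' x))⟩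

lemma BM.conj {c : ℝ → ℂ} (h : BM c) : BM (fun x => (starRingEnd ℂ) (c x)) := by
  obtain ⟨hm, C, hC⟩ := h
  exact ⟨Complex.continuous_conj.measurable.comp hm, C, fun x => by rw [RCLike.norm_conj]; exact hC x⟩

lemma BM.sum {ι : Type*} (s : Finset ι) {c : ι → ℝ → ℂ} (h : ∀ i, BM (c i)) :
    BM (fun x => ∑ i ∈ s, c i x) := by
  classical
  induction s using Finset.induction_on with
  | empty => simpa using BM.const 0
  | insert i s hi ih =>
    simp_rw [Finset.sum_insert hi]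
    exact (h i).add ih

lemma BM.indicator {A : Set ℝ} (hA : MeasurableSet A) : BM (A.indicator (fun _ => (1 : ℂ))) := by
  refine ⟨measurable_const.indicator hA, 1, fun x => ?_⟩
  by_cases hx : x ∈ A <;> simp [hx]

open Classical in
/-- multiplication by a bounded measurable function of the label (zero for other functions). -/
def mF (c : ℝ → ℂ) : Lp E 2 gam1 →L[ℂ] Lp E 2 gam1 :=
  if h : BM c then mulL (bmf c h.1 h.2.choose h.2.choose_spec) else 0

lemma coeFn_mF {c : ℝ → ℂ} (h : BM c) (f : Lp E 2 gam1) :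
    mF c f =ᵐ[gam1] fun x => c x • f x := by
  rw [mF, dif_pos h]
  filter_upwards [coeFn_mulL (bmf c h.1 h.2.choose h.2.choose_spec) f,
    coeFn_bmf c h.1 h.2.choose h.2.choose_spec] with x h1 h2
  rw [h1, h2]

lemma mF_mul {c c' : ℝ → ℂ} (h : BM c) (h' : BM c') :
    (mF (fun x => c x * c' x) : Lp E 2 gam1 →L[ℂ] Lp E 2 gam1) = mF c * mF c' := by
  refine ContinuousLinearMap.ext fun f => Lp.ext ?_
  show _ =ᵐ[gam1] mF c (mF c' f)
  filter_upwards [coeFn_mF (h.mul h') f, coeFn_mF h (mF c' f), coeFn_mF h' f] with x h1 h2 h3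
  rw [h1, h2, h3, smul_smul]

lemma mF_add {c c' : ℝ → ℂ} (h : BM c) (h' : BM c') :
    (mF (fun x => c x + c' x) : Lp E 2 gam1 →L[ℂ] Lp E 2 gam1) = mF c + mF c' := by
  refine ContinuousLinearMap.ext fun f => Lp.ext ?_
  show _ =ᵐ[gam1] ((mF c f + mF c' f : Lp E 2 gam1) : ℝ → E)
  filter_upwards [coeFn_mF (h.add h') f, coeFn_mF h f, coeFn_mF h' f,
    Lp.coeFn_add (mF c f) (mF c' f)] with x h1 h2 h3 h4
  rw [h1, h4, Pi.add_apply, h2, h3, add_smul]

lemma mF_sub {c c' : ℝ → ℂ} (h : BM c) (h' : BM c') :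
    (mF (fun x => c x - c' x) : Lp E 2 gam1 →L[ℂ] Lp E 2 gam1) = mF c - mF c' := by
  refine ContinuousLinearMap.ext fun f => Lp.ext ?_
  show _ =ᵐ[gam1] ((mF c f - mF c' f : Lp E 2 gam1) : ℝ → E)
  filter_upwards [coeFn_mF (h.sub h') f, coeFn_mF h f, coeFn_mF h' f,
    Lp.coeFn_sub (mF c f) (mF c' f)] with x h1 h2 h3 h4
  rw [h1, h4, Pi.sub_apply, h2, h3, sub_smul]

lemma mF_const (z : ℂ) : (mF (fun _ => z) : Lp E 2 gam1 →L[ℂ] Lp E 2 gam1) = z • 1 := by
  refine ContinuousLinearMap.ext fun f => Lp.ext ?_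
  show _ =ᵐ[gam1] ((z • f : Lp E 2 gam1) : ℝ → E)
  filter_upwards [coeFn_mF (BM.const z) f, Lp.coeFn_smul z f] with x h1 h2
  rw [h1, h2, Pi.smul_apply]

lemma mF_one : (mF (fun _ => 1) : Lp E 2 gam1 →L[ℂ] Lp E 2 gam1) = 1 := by
  rw [mF_const, one_smul]

lemma mF_zero : (mF (fun _ => 0) : Lp E 2 gam1 →L[ℂ] Lp E 2 gam1) = 0 := by
  rw [mF_const, zero_smul]

lemma mF_const_mul (z : ℂ) {c : ℝ → ℂ} (h : BM c) :
    (mF (fun x => z * c x) : Lp E 2 gam1 →L[ℂ] Lp E 2 gam1) = z • mF c := by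
  rw [mF_mul (BM.const z) h, mF_const, smul_mul_assoc, one_mul]

lemma mF_comm {c c' : ℝ → ℂ} (h : BM c) (h' : BM c') :
    (mF c : Lp E 2 gam1 →L[ℂ] Lp E 2 gam1) * mF c' = mF c' * mF c := by
  rw [← mF_mul h h', ← mF_mul h' h]
  congr 1
  funext x
  ring

lemma star_mF {c : ℝ → ℂ} (h : BM c) :
    star (mF c : Lp E 2 gam1 →L[ℂ] Lp E 2 gam1) = mF (fun x => (starRingEnd ℂ) (c x)) := by
  rw [ContinuousLinearMap.star_eq_adjoint, eq_comm, ContinuousLinearMap.eq_adjoint_iff]
  intro f g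
  rw [L2.inner_def, L2.inner_def]
  refine integral_congr_ae ?_
  filter_upwards [coeFn_mF h.conj f, coeFn_mF h g] with x h1 h2
  rw [h1, h2, inner_smul_left, inner_smul_right, Complex.conj_conj]

/-- dominated convergence for label multiplications -/
lemma tendsto_mF {ι : Type*} {l : Filter ι} [l.IsCountablyGenerated] {c : ι → ℝ → ℂ}
    {c0 : ℝ → ℂ} (h : ∀ i, BM (c i)) (h0 : BM c0) (C : ℝ) (hC : ∀ i x, ‖c i x‖ ≤ C)
    (hlim : ∀ᵐ x ∂gam1, Tendsto (fun i => c i x) l (𝓝 (c0 x))) (f : Lp E 2 gam1) :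
    Tendsto (fun i => mF (c i) f) l (𝓝 (mF c0 f)) := by
  rw [tendsto_iff_norm_sub_tendsto_zero]
  have h1 : ∀ i, ‖mF (c i) f - mF c0 f‖ ^ 2 = ∫ x, ‖c i x - c0 x‖ ^ 2 * ‖f x‖ ^ 2 ∂gam1 := by
    intro i
    have h2 : mF (c i) f - mF c0 f = mF (fun x => c i x - c0 x) f := by
      rw [mF_sub (h i) h0]; rfl
    rw [h2, @norm_sq_eq_re_inner ℂ, L2.inner_def]
    have h3 : (∫ a, ⟪(mF (fun x => c i x - c0 x) f : Lp E 2 gam1) a,
        (mF (fun x => c i x - c0 x) f : Lp E 2 gam1) a⟫_ℂ ∂gam1)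
        = ((∫ x, ‖c i x - c0 x‖ ^ 2 * ‖f x‖ ^ 2 ∂gam1 : ℝ) : ℂ) := by
      rw [← integral_complex_ofReal]
      refine integral_congr_ae ?_
      filter_upwards [coeFn_mF ((h i).sub h0) f] with x hx
      rw [hx, inner_self_eq_norm_sq_to_K, norm_smul, ← mul_pow]
      push_cast
      rfl
    rw [h3]
    simp
  have hf2 : Integrable (fun x => ‖f x‖ ^ 2) gam1 := by
    have := (Lp.memLp f).integrable_norm_pow (by norm_num)
    simpa using this
  obtain ⟨hm0, C0, hC0⟩ := h0
  have h4 : Tendsto (fun i => ∫ x, ‖c i x - c0 x‖ ^ 2 * ‖f x‖ ^ 2 ∂gam1) l (𝓝 (∫ _x, (0 : ℝ) ∂gam1)) := by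
    refine tendsto_integral_filter_of_dominated_convergence
      (fun x => (C + C0) ^ 2 * ‖f x‖ ^ 2) ?_ ?_ (hf2.const_mul _) ?_
    · refine Eventually.of_forall fun i => ?_
      exact ((((h i).1.sub hm0).norm.pow_const 2).aestronglyMeasurable).mul
        hf2.aestronglyMeasurable
    · refine Eventually.of_forall fun i => Eventually.of_forall fun x => ?_
      rw [Real.norm_of_nonneg (by positivity)]
      refine mul_le_mul_of_nonneg_right ?_ (by positivity)
      refine pow_le_pow_left₀ (norm_nonneg _) ?_ 2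
      exact (norm_sub_le _ _).trans (add_le_add (hC i x) (hC0 x))
    · filter_upwards [hlim] with x hx
      have h5 : Tendsto (fun i => ‖c i x - c0 x‖ ^ 2 * ‖f x‖ ^ 2) l
          (𝓝 (‖c0 x - c0 x‖ ^ 2 * ‖f x‖ ^ 2)) :=
        (((hx.sub_const _).norm).pow 2).mul_const _
      simpa using h5
  rw [integral_zero] at h4
  have h6 : Tendsto (fun i => ‖mF (c i) f - mF c0 f‖ ^ 2) l (𝓝 0) := by
    simp_rw [h1]
    exact h4
  have h7 := h6.sqrt
  rw [Real.sqrt_zero] at h7
  exact h7.congr fun i => Real.sqrt_sq (norm_nonneg _)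

/-! ### fibrewise operators -/

lemma lift_mul (A B : E →L[ℂ] E) : lift (A * B) = lift A * lift B := by
  refine ContinuousLinearMap.ext fun f => Lp.ext ?_
  show _ =ᵐ[gam1] lift A (lift B f)
  filter_upwards [coeFn_lift (A * B) f, coeFn_lift A (lift B f), coeFn_lift B f] with x h1 h2 h3
  rw [h1, h2, h3]
  rfl

lemma lift_one : lift (1 : E →L[ℂ] E) = 1 := by
  refine ContinuousLinearMap.ext fun f => Lp.ext ?_
  filter_upwards [coeFn_lift (1 : E →L[ℂ] E) f] with x h1
  rw [h1]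
  rfl

lemma lift_smul (z : ℂ) (A : E →L[ℂ] E) : lift (z • A) = z • lift A := by
  refine ContinuousLinearMap.ext fun f => Lp.ext ?_
  show _ =ᵐ[gam1] ((z • lift A f : Lp E 2 gam1) : ℝ → E)
  filter_upwards [coeFn_lift (z • A) f, coeFn_lift A f, Lp.coeFn_smul z (lift A f)] with x h1 h2 h3
  rw [h1, h3, Pi.smul_apply, h2]
  rfl

lemma lift_add (A B : E →L[ℂ] E) : lift (A + B) = lift A + lift B := by
  refine ContinuousLinearMap.ext fun f => Lp.ext ?_
  show _ =ᵐ[gam1] ((lift A f + lift B f : Lp E 2 gam1) : ℝ → E)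
  filter_upwards [coeFn_lift (A + B) f, coeFn_lift A f, coeFn_lift B f,
    Lp.coeFn_add (lift A f) (lift B f)] with x h1 h2 h3 h4
  rw [h1, h4, Pi.add_apply, h2, h3]
  rfl

lemma star_lift (A : E →L[ℂ] E) : star (lift A) = lift (star A) := by
  rw [ContinuousLinearMap.star_eq_adjoint, eq_comm, ContinuousLinearMap.eq_adjoint_iff]
  intro f g
  rw [L2.inner_def, L2.inner_def]
  refine integral_congr_ae ?_
  filter_upwards [coeFn_lift (star A) f, coeFn_lift A g] with x h1 h2
  rw [h1, h2, ContinuousLinearMap.star_eq_adjoint, ContinuousLinearMap.adjoint_inner_left]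

lemma lift_mF_comm (A : E →L[ℂ] E) {c : ℝ → ℂ} (h : BM c) :
    lift A * (mF c : Lp E 2 gam1 →L[ℂ] Lp E 2 gam1) = mF c * lift A := by
  refine ContinuousLinearMap.ext fun f => Lp.ext ?_
  show (lift A (mF c f) : Lp E 2 gam1) =ᵐ[gam1] mF c (lift A f)
  filter_upwards [coeFn_lift A (mF c f), coeFn_mF h f, coeFn_mF h (lift A f),
    coeFn_lift A f] with x h1 h2 h3 h4
  rw [h1, h2, h3, h4, map_smul]

lemma mF_chi_wave (s t : ℝ) (v : E) : mF (chi s) (wave t v) = wave (s + t) v := by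
  apply Lp.ext
  filter_upwards [coeFn_mF (BM.chi s) (wave t v), coeFn_wave t v, coeFn_wave (s + t) v]
    with x h1 h2 h3
  rw [h1, h2, h3, chi_add, smul_smul]

lemma mF_chi_eq (t : ℝ) : (mF (chi t) : Lp E 2 gam1 →L[ℂ] Lp E 2 gam1) = mulL (chiL t) := by
  refine ContinuousLinearMap.ext fun f => Lp.ext ?_
  filter_upwards [coeFn_mF (BM.chi t) f, coeFn_mulL (chiL t) f, coeFn_chiL t] with x h1 h2 h3
  rw [h1, h2, h3]

/-- indicator multiples of constants over a total family are total. -/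
theorem indicator_total {X : Type*} {c : X → E}
    (hc : (Submodule.span ℂ (Set.range c)).topologicalClosure = ⊤) :
    (Submodule.span ℂ {v : Lp E 2 gam1 | ∃ (A : Set ℝ) (x : X), MeasurableSet A ∧
      v = mF (A.indicator fun _ => 1) (wave 0 (c x))}).topologicalClosure = ⊤ := by
  rw [Submodule.topologicalClosure_eq_top_iff, Submodule.eq_bot_iff]
  intro f hf
  -- all bounded measurable multiples are orthogonal to `f`
  have h1 : ∀ (x : X) (A : Set ℝ), MeasurableSet A →
      ∫ y in A, ⟪c x, f y⟫_ℂ ∂gam1 = 0 := by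
    intro x A hA
    have h2 := (Submodule.mem_orthogonal _ _).mp hf _ (Submodule.subset_span ⟨A, x, hA, rfl⟩)
    rw [L2.inner_def] at h2
    rw [← integral_indicator hA, ← h2]
    refine integral_congr_ae ?_
    filter_upwards [coeFn_mF (BM.indicator hA) (wave 0 (c x)), coeFn_wave 0 (c x)] with y h3 h4
    rw [h3, h4]
    by_cases hy : y ∈ A
    · simp [hy, chi]
    · simp [hy]
  have h2 : ∀ x : X, (fun y => ⟪c x, f y⟫_ℂ) =ᵐ[gam1] 0 := by
    intro x
    have hint : Integrable (fun y => ⟪c x, f y⟫_ℂ) gam1 :=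
      ((Lp.memLp f).integrable (by norm_num)).const_inner (c x)
    exact Integrable.ae_eq_zero_of_forall_setIntegral_eq_zero hint fun A hA _ => h1 x A hA
  refine wave_sep fun t v => ?_
  let W : Submodule ℂ E :=
    { carrier := {v | ⟪wave t v, f⟫_ℂ = 0}
      add_mem' := by
        intro a b ha hb
        show ⟪wave t (a + b), f⟫_ℂ = 0
        rw [wave_add, inner_add_left, ha, hb, add_zero]
      zero_mem' := by
        show ⟪wave t (0 : E), f⟫_ℂ = 0
        have : wave t (0 : E) = 0 := by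
          have := wave_smul t 0 (0 : E)
          simpa using this
        rw [this, inner_zero_left]
      smul_mem' := by
        intro a b hb
        show ⟪wave t (a • b), f⟫_ℂ = 0
        rw [wave_smul, inner_smul_left, hb, mul_zero] }
  have hW : IsClosed (W : Set E) := by
    have hcont : Continuous (fun v : E => wave t v) := by
      let L : E →ₗᵢ[ℂ] Lp E 2 gam1 :=
        { toFun := wave t
          map_add' := wave_add t
          map_smul' := wave_smul t
          norm_map' := norm_wave t }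
      exact L.continuous
    exact isClosed_eq (hcont.inner continuous_const) continuous_const
  have h3 : Submodule.span ℂ (Set.range c) ≤ W := by
    rw [Submodule.span_le]
    rintro _ ⟨x, rfl⟩
    show ⟪wave t (c x), f⟫_ℂ = 0
    rw [L2.inner_def]
    rw [integral_eq_zero_of_ae]
    filter_upwards [coeFn_wave t (c x), h2 x] with y h4 h5
    rw [h4, inner_smul_left]
    simp only [Pi.zero_apply] at h5
    simp [h5]
  have h4 : (⊤ : Submodule ℂ E) ≤ W := by
    rw [← hc]
    exact Submodule.topologicalClosure_minimal _ h3 hW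
  exact h4 (Submodule.mem_top : v ∈ ⊤)

end mult

end Crest.Agent.R339.LF
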