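import Crest.Agent.R339.LabSp286A

/-!
R339: the labelled site space `SL K₀ = ℂ² ⊗ L²(γ; Fock K₀)` and its elementary operators.
-/

set_option autoImplicit false
set_option linter.unusedSectionVars false

noncomputable section

namespace Crest.Agent.R339.LF

open MeasureTheory ProbabilityTheory Filter Topology
open scoped InnerProductSpace ENNReal
open Crest.Agent.R339.Site Crest.MathPhysics.SpinGlass

/-! ### `2 × 2` operator matrices -/
section matrices

variable {F : Type*} [NormedAddCommGroup F] [InnerProductSpace ℂ F] [CompleteSpace F]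

/-- `ℂ² ⊗ F` -/
abbrev C2 (F : Type*) [NormedAddCommGroup F] : Type _ := PiLp 2 (fun _ : Bool => F)

/-- A `2 × 2` matrix of operators on `F` acting on `C2 F`. -/
def opG (M : Matrix Bool Bool (F →L[ℂ] F)) : C2 F →L[ℂ] C2 F :=
  ((PiLp.continuousLinearEquiv 2 ℂ (fun _ : Bool => F)).symm :
    (Bool → F) →L[ℂ] C2 F) ∘L
    (ContinuousLinearMap.pi fun b => ∑ b', M b b' ∘L (ContinuousLinearMap.proj b')) ∘L
    ((PiLp.continuousLinearEquiv 2 ℂ (fun _ : Bool => F)) : C2 F →L[ℂ] (Bool → F))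

@[simp] lemma opG_apply (M : Matrix Bool Bool (F →L[ℂ] F)) (v : C2 F) (b : Bool) :
    opG M v b = ∑ b', M b b' (v b') := by
  simp [opG]

lemma opG_mul (M N : Matrix Bool Bool (F →L[ℂ] F)) : opG (M * N) = opG M * opG N := by
  refine ContinuousLinearMap.ext fun v => ?_
  ext b
  rw [mul_apply_eq_comp, opG_apply, opG_apply]
  simp only [opG_apply, Matrix.mul_apply, map_sum, sum_apply, mul_apply_eq_comp]
  rw [Finset.sum_comm]

lemma opG_one : opG (1 : Matrix Bool Bool (F →L[ℂ] F)) = 1 := by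
  refine ContinuousLinearMap.ext fun v => ?_
  ext b
  rw [opG_apply, Finset.sum_eq_single b]
  · simp
  · intro b' _ hb
    simp [Matrix.one_apply_ne hb.symm]
  · simp

lemma opG_zero : opG (0 : Matrix Bool Bool (F →L[ℂ] F)) = 0 := by
  refine ContinuousLinearMap.ext fun v => ?_
  ext b
  simp

lemma opG_add (M N : Matrix Bool Bool (F →L[ℂ] F)) : opG (M + N) = opG M + opG N := by
  refine ContinuousLinearMap.ext fun v => ?_
  ext b
  simp [Finset.sum_add_distrib]

lemma opG_smul (c : ℂ) (M : Matrix Bool Bool (F →L[ℂ] F)) : opG (c • M) = c • opG M := by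
  refine ContinuousLinearMap.ext fun v => ?_
  ext b
  simp

lemma opG_star (M : Matrix Bool Bool (F →L[ℂ] F)) : star (opG M) = opG (star M) := by
  rw [ContinuousLinearMap.star_eq_adjoint, eq_comm, ContinuousLinearMap.eq_adjoint_iff]
  intro v w
  rw [PiLp.inner_apply, PiLp.inner_apply]
  simp only [opG_apply, sum_inner, inner_sum]
  rw [Finset.sum_comm]
  refine Finset.sum_congr rfl fun b _ => Finset.sum_congr rfl fun b' _ => ?_
  rw [Matrix.star_apply, ContinuousLinearMap.star_eq_adjoint, ContinuousLinearMap.adjoint_inner_left]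

/-- an operator of `F` acting on both components -/
def dg (A : F →L[ℂ] F) : C2 F →L[ℂ] C2 F := opG (Matrix.diagonal fun _ => A)

@[simp] lemma dg_apply (A : F →L[ℂ] F) (v : C2 F) (b : Bool) : dg A v b = A (v b) := by
  rw [dg, opG_apply, Finset.sum_eq_single b]
  · simp
  · intro b' _ hb
    simp [Matrix.diagonal_apply_ne _ hb.symm]
  · simp

lemma dg_mul (A B : F →L[ℂ] F) : dg (A * B) = dg A * dg B := by
  refine ContinuousLinearMap.ext fun v => ?_
  ext b
  rw [mul_apply_eq_comp, dg_apply, dg_apply, dg_apply]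
  rfl

lemma dg_one : dg (1 : F →L[ℂ] F) = 1 := by
  refine ContinuousLinearMap.ext fun v => ?_
  ext b
  rw [dg_apply]
  rfl

lemma dg_zero : dg (0 : F →L[ℂ] F) = 0 := by
  refine ContinuousLinearMap.ext fun v => ?_
  ext b
  rw [dg_apply]
  rfl

lemma dg_add (A B : F →L[ℂ] F) : dg (A + B) = dg A + dg B := by
  refine ContinuousLinearMap.ext fun v => ?_
  ext b
  simp

lemma dg_smul (c : ℂ) (A : F →L[ℂ] F) : dg (c • A) = c • dg A := by
  refine ContinuousLinearMap.ext fun v => ?_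
  ext b
  simp

lemma dg_star (A : F →L[ℂ] F) : star (dg A) = dg (star A) := by
  rw [dg, opG_star, dg]
  congr 1
  rw [Matrix.star_eq_conjTranspose, Matrix.diagonal_conjTranspose]
  rfl

/-- a scalar `2 × 2` matrix acting on the spin -/
def spG (m : Matrix Bool Bool ℂ) : C2 F →L[ℂ] C2 F := opG (m.map (fun z => z • (1 : F →L[ℂ] F)))

@[simp] lemma spG_apply (m : Matrix Bool Bool ℂ) (v : C2 F) (b : Bool) :
    spG m v b = ∑ b', m b b' • v b' := by
  rw [spG, opG_apply]
  simp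

lemma spG_mul (m n : Matrix Bool Bool ℂ) : (spG (m * n) : C2 F →L[ℂ] C2 F) = spG m * spG n := by
  refine ContinuousLinearMap.ext fun v => ?_
  ext b
  rw [mul_apply_eq_comp, spG_apply, spG_apply]
  simp only [spG_apply, Matrix.mul_apply, Finset.smul_sum, Finset.sum_smul, smul_smul]
  rw [Finset.sum_comm]

lemma spG_one : (spG 1 : C2 F →L[ℂ] C2 F) = 1 := by
  refine ContinuousLinearMap.ext fun v => ?_
  ext b
  rw [spG_apply, Finset.sum_eq_single b]
  · simp
  · intro b' _ hb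
    simp [Matrix.one_apply_ne hb.symm]
  · simp

lemma spG_add (m n : Matrix Bool Bool ℂ) : (spG (m + n) : C2 F →L[ℂ] C2 F) = spG m + spG n := by
  refine ContinuousLinearMap.ext fun v => ?_
  ext b
  simp [Finset.sum_add_distrib, add_smul]

lemma spG_smul (c : ℂ) (m : Matrix Bool Bool ℂ) :
    (spG (c • m) : C2 F →L[ℂ] C2 F) = c • spG m := by
  refine ContinuousLinearMap.ext fun v => ?_
  ext b
  simp [smul_smul, mul_assoc]

lemma spG_star (m : Matrix Bool Bool ℂ) : star (spG m : C2 F →L[ℂ] C2 F) = spG (star m) := by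
  rw [spG, opG_star, spG]
  congr 1
  ext b b' : 1
  simp [Matrix.star_apply]

/-- spin matrices commute with everything acting on both components -/
lemma spG_dg_comm (m : Matrix Bool Bool ℂ) (A : F →L[ℂ] F) : spG m * dg A = dg A * spG m := by
  refine ContinuousLinearMap.ext fun v => ?_
  ext b
  rw [mul_apply_eq_comp, mul_apply_eq_comp, spG_apply, dg_apply, spG_apply, map_sum]
  simp

/-- inner product with a vector of the form `(a_b • w)_b`. -/
lemma C2_inner (v w : C2 F) : ⟪v, w⟫_ℂ = ∑ b, ⟪v b, w b⟫_ℂ := PiLp.inner_apply v w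

end matrices

/-! ### the labelled site space -/
section site

variable (K0 : Type*) [NormedAddCommGroup K0] [InnerProductSpace ℂ K0]

/-- label-valued Fock space -/
abbrev LFo : Type _ := Lp (Fock K0) 2 gam1

/-- the labelled site space -/
abbrev SL : Type _ := C2 (LFo K0)

variable {K0}

/-- Pauli matrices -/
def zm : Matrix Bool Bool ℂ := Matrix.diagonal fun b => ((spinSign b : ℝ) : ℂ)
def xm : Matrix Bool Bool ℂ := Matrix.of fun b b' => if b = b' then 0 else 1
def mixm (β : ℝ) : Matrix Bool Bool ℂ := Matrix.of fun b b' =>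
  if b = b' then ((Real.cos β : ℝ) : ℂ) else -(Complex.I * ((Real.sin β : ℝ) : ℂ))

lemma zm_mul_zm : zm * zm = 1 := by
  rw [zm, Matrix.diagonal_mul_diagonal, ← Matrix.diagonal_one]
  congr 1
  funext b
  rw [← Complex.ofReal_mul, spinSign_sq]
  simp

lemma xm_mul_xm : xm * xm = 1 := by
  ext b b'
  cases b <;> cases b' <;> simp [xm, Matrix.mul_apply]

lemma zm_mul_xm : zm * xm = -(xm * zm) := by
  ext b b'
  cases b <;> cases b' <;> simp [xm, zm, spinSign, Matrix.mul_apply, Matrix.diagonal]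

lemma star_zm : star zm = zm := by
  rw [zm, Matrix.star_eq_conjTranspose, Matrix.diagonal_conjTranspose]
  congr 1
  funext b
  simp

lemma star_xm : star xm = xm := by
  ext b b'
  cases b <;> cases b' <;> simp [xm, Matrix.star_apply]

/-- `Z` -/
def ZS : SL K0 →L[ℂ] SL K0 := spG zm
/-- `X` -/
def XS : SL K0 →L[ℂ] SL K0 := spG xm
/-- fibrewise Weyl operator -/
def WS (f : K0) : SL K0 →L[ℂ] SL K0 := dg (lift (Wy f))
/-- multiplication by the indicator of a set of labels -/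
def PS (A : Set ℝ) : SL K0 →L[ℂ] SL K0 := dg (mF (A.indicator fun _ => 1))
/-- the base vector `|+⟩ ⊗ 1 ⊗ vac` -/
def OmS : SL K0 := WithLp.toLp 2 fun _ => (((1 : ℝ) / Real.sqrt 2 : ℝ) : ℂ) • wave 0 vac

lemma star_ZS : star (ZS : SL K0 →L[ℂ] SL K0) = ZS := by rw [ZS, spG_star, star_zm]
lemma star_XS : star (XS : SL K0 →L[ℂ] SL K0) = XS := by rw [XS, spG_star, star_xm]
lemma ZS_mul_ZS : (ZS : SL K0 →L[ℂ] SL K0) * ZS = 1 := by rw [ZS, ← spG_mul, zm_mul_zm, spG_one]
lemma XS_mul_XS : (XS : SL K0 →L[ℂ] SL K0) * XS = 1 := by rw [XS, ← spG_mul, xm_mul_xm, spG_one]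
lemma ZS_mul_XS : (ZS : SL K0 →L[ℂ] SL K0) * XS = -(XS * ZS) := by
  have hn : ∀ m : Matrix Bool Bool ℂ, (spG (-m) : SL K0 →L[ℂ] SL K0) = -spG m := by
    intro m
    refine ContinuousLinearMap.ext fun v => ?_
    ext b : 1
    rw [spG_apply, ContinuousLinearMap.neg_apply, PiLp.neg_apply, spG_apply,
      ← Finset.sum_neg_distrib]
    refine Finset.sum_congr rfl fun b' _ => ?_
    rw [Matrix.neg_apply, neg_smul]
  rw [ZS, XS, ← spG_mul, ← spG_mul, zm_mul_xm, hn]

lemma XS_OmS : XS (OmS : SL K0) = OmS := by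
  ext b : 1
  rw [XS, spG_apply]
  cases b <;> simp [xm, OmS]

lemma norm_OmS : ‖(OmS : SL K0)‖ = 1 := by
  have h := PiLp.norm_sq_eq_of_L2 (fun _ : Bool => LFo K0) OmS
  have h2 : ∀ b : Bool, ‖(OmS : SL K0) b‖ ^ 2 = 1 / 2 := by
    intro b
    show ‖(((1 : ℝ) / Real.sqrt 2 : ℝ) : ℂ) • (wave 0 vac : LFo K0)‖ ^ 2 = 1 / 2
    rw [norm_smul, norm_wave, norm_vac, mul_one, Complex.norm_real, Real.norm_eq_abs, sq_abs,
      div_pow, Real.sq_sqrt (by norm_num)]
    norm_num
  simp only [h2, Fintype.sum_bool] at h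
  have h3 : ‖(OmS : SL K0)‖ ^ 2 = 1 := by rw [h]; norm_num
  exact (pow_eq_one_iff_of_nonneg (norm_nonneg _) two_ne_zero).mp h3

lemma indicator_mul_indicator (A B : Set ℝ) :
    (fun x => A.indicator (fun _ => (1 : ℂ)) x * B.indicator (fun _ => (1 : ℂ)) x)
      = (A ∩ B).indicator (fun _ => 1) := by
  funext x
  by_cases hA : x ∈ A <;> by_cases hB : x ∈ B <;> simp [hA, hB]

lemma PS_mul_PS {A B : Set ℝ} (hA : MeasurableSet A) (hB : MeasurableSet B) :
    (PS A : SL K0 →L[ℂ] SL K0) * PS B = PS (A ∩ B) := by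
  rw [PS, PS, PS, ← dg_mul, ← mF_mul (BM.indicator hA) (BM.indicator hB),
    indicator_mul_indicator]

lemma PS_univ : (PS Set.univ : SL K0 →L[ℂ] SL K0) = 1 := by
  rw [PS, Set.indicator_univ, mF_one, dg_one]

lemma PS_empty : (PS ∅ : SL K0 →L[ℂ] SL K0) = 0 := by
  rw [PS, Set.indicator_empty]
  have : (mF (fun _ => (0 : ℂ)) : LFo K0 →L[ℂ] LFo K0) = 0 := mF_zero
  rw [this, dg_zero]

lemma PS_union {A B : Set ℝ} (hA : MeasurableSet A) (hB : MeasurableSet B) (h : Disjoint A B) :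
    (PS (A ∪ B) : SL K0 →L[ℂ] SL K0) = PS A + PS B := by
  rw [PS, PS, PS, ← dg_add, ← mF_add (BM.indicator hA) (BM.indicator hB)]
  congr 2
  rw [Set.indicator_union_of_disjoint h]

lemma star_PS {A : Set ℝ} (hA : MeasurableSet A) : star (PS A : SL K0 →L[ℂ] SL K0) = PS A := by
  rw [PS, dg_star, star_mF (BM.indicator hA)]
  congr 2
  funext x
  by_cases hx : x ∈ A <;> simp [hx]

lemma WS_mul (f g : K0) : (WS f : SL K0 →L[ℂ] SL K0) * WS g =
    Complex.exp (-(Complex.I * ((⟪f, g⟫_ℂ).im : ℂ))) • WS (f + g) := by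
  rw [WS, WS, WS, ← dg_mul, ← lift_mul, Wy_mul, lift_smul, dg_smul]

lemma WS_zero : (WS (0 : K0) : SL K0 →L[ℂ] SL K0) = 1 := by
  rw [WS, Wy_zero, lift_one, dg_one]

lemma star_WS (f : K0) : star (WS f : SL K0 →L[ℂ] SL K0) = WS (-f) := by
  rw [WS, dg_star, star_lift, star_Wy, WS]

lemma WS_PS_comm (f : K0) {A : Set ℝ} (hA : MeasurableSet A) :
    (WS f : SL K0 →L[ℂ] SL K0) * PS A = PS A * WS f := by
  rw [WS, PS, ← dg_mul, ← dg_mul, lift_mF_comm _ (BM.indicator hA)]

lemma ZS_WS_comm (f : K0) : (ZS : SL K0 →L[ℂ] SL K0) * WS f = WS f * ZS := spG_dg_comm _ _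
lemma XS_WS_comm (f : K0) : (XS : SL K0 →L[ℂ] SL K0) * WS f = WS f * XS := spG_dg_comm _ _
lemma ZS_PS_comm (A : Set ℝ) : (ZS : SL K0 →L[ℂ] SL K0) * PS A = PS A * ZS := spG_dg_comm _ _
lemma XS_PS_comm (A : Set ℝ) : (XS : SL K0 →L[ℂ] SL K0) * PS A = PS A * XS := spG_dg_comm _ _

lemma norm_lift_apply_of_isometry {E : Type*} [NormedAddCommGroup E] [InnerProductSpace ℂ E]
    [CompleteSpace E] (A : E →L[ℂ] E) (hA : ∀ v, ‖A v‖ = ‖v‖) (f : Lp E 2 gam1) :
    ‖lift A f‖ = ‖f‖ := by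
  rw [Lp.norm_def, Lp.norm_def]
  congr 1
  refine eLpNorm_congr_norm_ae ?_
  filter_upwards [coeFn_lift A f] with x hx
  rw [hx, hA]

lemma norm_WS_apply (f : K0) (v : SL K0) : ‖WS f v‖ = ‖v‖ := by
  have h1 := PiLp.norm_sq_eq_of_L2 (fun _ : Bool => LFo K0) (WS f v)
  have h2 := PiLp.norm_sq_eq_of_L2 (fun _ : Bool => LFo K0) v
  have h3 : ∀ b : Bool, ‖(WS f v) b‖ = ‖v b‖ := by
    intro b
    rw [WS, dg_apply, norm_lift_apply_of_isometry _ (norm_Wy_apply f)]
  simp only [h3] at h1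
  rw [← h2] at h1
  exact (sq_eq_sq₀ (norm_nonneg _) (norm_nonneg _)).mp h1

/-- strong continuity of `f ↦ WS f v`. -/
lemma continuous_WS_apply (v : SL K0) : Continuous fun f : K0 => WS f v := by
  have hcomp : ∀ w : LFo K0, Continuous fun f : K0 => lift (Wy f) w := by
    intro w
    rw [continuous_iff_continuousAt]
    intro f0
    -- closed subspace argument on the total family of waves
    have hd := denseRange_lc (waves_coh_total (K0 := K0))
    rw [ContinuousAt, Metric.tendsto_nhds]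
    intro ε hε
    obtain ⟨x, hx⟩ := hd.exists_dist_lt w (show (0 : ℝ) < ε / 3 by positivity)
    have hc : Continuous fun f : K0 => lift (Wy f)
        (Finsupp.linearCombination ℂ (fun p : ℝ × K0 => wave p.1 (coh p.2 : Fock K0)) x) := by
      simp_rw [Finsupp.linearCombination_apply, Finsupp.sum, map_sum, map_smul, lift_wave]
      refine continuous_finsetSum _ fun p _ => ?_
      let L : Fock K0 →ₗᵢ[ℂ] LFo K0 :=
        { toFun := wave p.1
          map_add' := wave_add p.1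
          map_smul' := wave_smul p.1
          norm_map' := norm_wave p.1 }
      have h5 : Continuous fun f : K0 => L (Wy f (coh p.2)) :=
        L.continuous.comp (continuous_Wy_apply (coh p.2))
      exact h5.const_smul (x p)
    have h2 := Metric.tendsto_nhds.1 (hc.tendsto f0) (ε / 3) (by positivity)
    filter_upwards [h2] with g hg
    have hn : ∀ (g : K0) (u : LFo K0), ‖lift (Wy g) u‖ = ‖u‖ := fun g u =>
      norm_lift_apply_of_isometry _ (norm_Wy_apply g) u
    have h3 : dist (lift (Wy g) w) (lift (Wy g)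
        (Finsupp.linearCombination ℂ (fun p : ℝ × K0 => wave p.1 (coh p.2 : Fock K0)) x)) < ε / 3 := by
      rw [dist_eq_norm, ← map_sub, hn, ← dist_eq_norm]
      exact hx
    have h4 : dist (lift (Wy f0)
        (Finsupp.linearCombination ℂ (fun p : ℝ × K0 => wave p.1 (coh p.2 : Fock K0)) x))
        (lift (Wy f0) w) < ε / 3 := by
      rw [dist_eq_norm, ← map_sub, hn, ← dist_eq_norm, dist_comm]
      exact hx
    calc dist (lift (Wy g) w) (lift (Wy f0) w) ≤ _ := dist_triangle4 _ _ _ _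
      _ < ε / 3 + ε / 3 + ε / 3 := add_lt_add (add_lt_add h3 hg) h4
      _ = ε := by ring
  have h : (fun f : K0 => WS f v) = fun f => WithLp.toLp 2 (fun b => lift (Wy f) (v b)) := by
    funext f
    ext b : 1
    rw [WS, dg_apply]
  rw [h]
  refine (PiLp.continuous_toLp 2 (fun _ : Bool => LFo K0)).comp ?_
  exact continuous_pi fun b => hcomp (v b)

lemma mF_indicator_wave_inner {A : Set ℝ} (hA : MeasurableSet A) (v w : Fock K0) :
    ⟪wave 0 v, mF (A.indicator fun _ => 1) (wave 0 w)⟫_ℂ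
      = ((gam1.real A : ℝ) : ℂ) * ⟪v, w⟫_ℂ := by
  rw [L2.inner_def]
  have h : (fun x => ⟪(wave 0 v : LFo K0) x, (mF (A.indicator fun _ => 1) (wave 0 w) : LFo K0) x⟫_ℂ)
      =ᵐ[gam1] A.indicator (fun _ => ⟪v, w⟫_ℂ) := by
    filter_upwards [coeFn_mF (BM.indicator hA) (wave 0 w), coeFn_wave 0 w, coeFn_wave 0 v]
      with x h1 h2 h3
    rw [h1, h2, h3]
    by_cases hx : x ∈ A
    · simp [hx, chi]
    · simp [hx]
  rw [integral_congr_ae h, integral_indicator hA, setIntegral_const]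
  simp

lemma inner_OmS_PS_WS {A : Set ℝ} (hA : MeasurableSet A) (f : K0) :
    ⟪(OmS : SL K0), PS A (WS f OmS)⟫_ℂ
      = ((gam1.real A : ℝ) : ℂ) * Complex.exp (-((‖f‖ ^ 2 / 2 : ℝ) : ℂ)) := by
  rw [C2_inner]
  have hc : (starRingEnd ℂ) (((1 : ℝ) / Real.sqrt 2 : ℝ) : ℂ) * ((((1 : ℝ) / Real.sqrt 2 : ℝ)) : ℂ)
      = 1 / 2 := by
    rw [Complex.conj_ofReal, ← Complex.ofReal_mul]
    have : (1 : ℝ) / Real.sqrt 2 * (1 / Real.sqrt 2) = 1 / 2 := by
      rw [div_mul_div_comm, one_mul, Real.mul_self_sqrt (by norm_num)]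
    rw [this]
    push_cast
    ring
  have h : ∀ b : Bool, ⟪(OmS : SL K0) b, (PS A (WS f OmS) : SL K0) b⟫_ℂ
      = (1 / 2) * (((gam1.real A : ℝ) : ℂ) * Complex.exp (-((‖f‖ ^ 2 / 2 : ℝ) : ℂ))) := by
    intro b
    have h1 : (OmS : SL K0) b = ((((1 : ℝ) / Real.sqrt 2 : ℝ)) : ℂ) • wave 0 vac := rfl
    rw [PS, dg_apply, WS, dg_apply, h1, map_smul, map_smul, lift_wave, inner_smul_left,
      inner_smul_right, mF_indicator_wave_inner hA, inner_vac_Wy, ← mul_assoc, hc]
  rw [Fintype.sum_bool, h, h]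
  ring

end site

end Crest.Agent.R339.LF
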