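import Crest.Agent.R339.LabId286

/-!
R339: the vector `ξ = x Ω` of the labelled site space, its image under the embedding, overlaps with
label-controlled spin matrices, and the parity of the label.
-/

set_option autoImplicit false
set_option linter.unusedSectionVars false

noncomputable section

namespace Crest.Agent.R339.LF

open MeasureTheory ProbabilityTheory Filter Topology
open scoped InnerProductSpace ENNReal
open Crest.Agent.R339.Site Crest.Agent.R339.Lab Crest.MathPhysics.SpinGlass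

section xw
variable {E : Type*} [NormedAddCommGroup E] [InnerProductSpace ℂ E] [CompleteSpace E]

lemma memLp_id_gam1 (n : ℕ) : MemLp (id : ℝ → ℝ) n gam1 :=
  memLp_id_gaussianReal' _ (by simp)

lemma memLp_xw (v : E) : MemLp (fun x : ℝ => (x : ℂ) • v) 2 gam1 := by
  refine MemLp.of_le_mul (c := ‖v‖) (g := (id : ℝ → ℝ)) (by exact_mod_cast memLp_id_gam1 2) ?_ ?_
  · exact (Complex.continuous_ofReal.smul continuous_const).aestronglyMeasurable
  · refine Eventually.of_forall fun x => ?_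
    rw [norm_smul, Complex.norm_real, mul_comm]
    rfl

/-- `x ↦ x • v` -/
def xw (v : E) : Lp E 2 gam1 := (memLp_xw v).toLp _

lemma coeFn_xw (v : E) : xw v =ᵐ[gam1] fun x => (x : ℂ) • v := MemLp.coeFn_toLp _

lemma memLp_sq : MemLp (fun x : ℝ => x ^ 2) 2 gam1 := by
  rw [memLp_two_iff_integrable_sq (by fun_prop)]
  have h := (memLp_id_gam1 4).integrable_norm_pow (by norm_num)
  refine h.congr (Eventually.of_forall fun x => ?_)
  simp only [id, Real.norm_eq_abs]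
  rw [← pow_mul]
  have : |x| ^ 4 = (|x| ^ 2) ^ 2 := by ring
  rw [this, sq_abs]
  ring

lemma norm_chi_sub_le (t x : ℝ) :
    ‖chi t x - 1 - ((t * x : ℝ) : ℂ) * Complex.I‖ ≤ 3 * (t ^ 2 * x ^ 2) := by
  have hn : ‖((t * x : ℝ) : ℂ) * Complex.I‖ = |t * x| := by
    rw [norm_mul, Complex.norm_I, mul_one, Complex.norm_real, Real.norm_eq_abs]
  have hsq : t ^ 2 * x ^ 2 = |t * x| ^ 2 := by rw [sq_abs]; ring
  rw [hsq]
  by_cases h : |t * x| ≤ 1
  · have h1 := Complex.norm_exp_sub_one_sub_id_le (x := ((t * x : ℝ) : ℂ) * Complex.I)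
      (by rw [hn]; exact h)
    rw [hn] at h1
    refine h1.trans ?_
    nlinarith [sq_nonneg |t * x|]
  · push Not at h
    calc ‖chi t x - 1 - ((t * x : ℝ) : ℂ) * Complex.I‖
        ≤ ‖chi t x - 1‖ + ‖((t * x : ℝ) : ℂ) * Complex.I‖ := norm_sub_le _ _
      _ ≤ (‖chi t x‖ + ‖(1 : ℂ)‖) + |t * x| := by
          rw [hn]
          exact add_le_add (norm_sub_le _ _) le_rfl
      _ = 2 + |t * x| := by rw [norm_chi, norm_one]; norm_num
      _ ≤ 3 * |t * x| ^ 2 := by nlinarith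

lemma norm_wave_sub_le (v : E) (t : ℝ) :
    ‖wave t v - wave 0 v - (t : ℂ) • (Complex.I • xw v)‖
      ≤ (3 * t ^ 2 * ‖v‖) * ‖memLp_sq.toLp _‖ := by
  refine Lp.norm_le_mul_norm_of_ae_le_mul ?_
  filter_upwards [Lp.coeFn_sub (wave t v - wave 0 v) ((t : ℂ) • (Complex.I • xw v)),
    Lp.coeFn_sub (wave t v) (wave 0 v), Lp.coeFn_smul (t : ℂ) (Complex.I • xw v),
    Lp.coeFn_smul Complex.I (xw v), coeFn_wave t v, coeFn_wave 0 v, coeFn_xw v,
    MemLp.coeFn_toLp memLp_sq] with x h1 h2 h3 h4 h5 h6 h7 h8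
  rw [h1, Pi.sub_apply, h2, Pi.sub_apply, h3, Pi.smul_apply, h4, Pi.smul_apply, h5, h6, h7, h8,
    smul_smul, smul_smul, ← sub_smul, ← sub_smul, norm_smul, chi_zero]
  have h9 : chi t x - 1 - (t : ℂ) * Complex.I * (x : ℂ)
      = chi t x - 1 - ((t * x : ℝ) : ℂ) * Complex.I := by
    push_cast
    ring
  rw [h9]
  have h10 := norm_chi_sub_le t x
  rw [Real.norm_eq_abs, abs_of_nonneg (sq_nonneg x)]
  nlinarith [norm_nonneg v, mul_le_mul_of_nonneg_right h10 (norm_nonneg v)]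

lemma hasDerivAt_wave (v : E) :
    HasDerivAt (fun t : ℝ => wave t v) (Complex.I • xw v) 0 := by
  rw [hasDerivAt_iff_isLittleO_nhds_zero]
  have h1 : (fun h : ℝ => wave (0 + h) v - wave 0 v - h • (Complex.I • xw v))
      =O[𝓝 0] fun h : ℝ => h ^ 2 := by
    refine Asymptotics.IsBigO.of_bound (3 * ‖v‖ * ‖memLp_sq.toLp _‖) (Eventually.of_forall fun h => ?_)
    have h2 := norm_wave_sub_le v h
    rw [zero_add, Real.norm_eq_abs, abs_of_nonneg (sq_nonneg h)]
    have h3 : (h : ℝ) • (Complex.I • xw v : Lp E 2 gam1) = (h : ℂ) • (Complex.I • xw v) :=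
      (Complex.coe_smul h _).symm
    rw [h3]
    refine h2.trans (le_of_eq ?_)
    ring
  exact h1.trans_isLittleO (Asymptotics.isLittleO_pow_id one_lt_two)

end xw

section xi
variable {K0 K : Type*} [NormedAddCommGroup K0] [InnerProductSpace ℂ K0]
  [NormedAddCommGroup K] [InnerProductSpace ℂ K]

/-- `ξ = x Ω` -/
def xiS : SL K0 := WithLp.toLp 2 fun _ => (((1 : ℝ) / Real.sqrt 2 : ℝ) : ℂ) • xw vac

lemma xiS_apply (b : Bool) :
    (xiS : SL K0) b = (((1 : ℝ) / Real.sqrt 2 : ℝ) : ℂ) • xw vac := rfl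

lemma emb_xw (j : K0 →ₗᵢ[ℂ] K) (s : K) (hs : ‖s‖ = 1) (hsj : ∀ f, ⟪s, j f⟫_ℂ = 0) :
    emb j s (xw vac) = one s := by
  have h1 : HasDerivAt (fun t : ℝ => emb j s (wave t vac)) (emb j s (Complex.I • xw vac)) 0 :=
    (((emb j s).restrictScalars ℝ).hasFDerivAt.comp_hasDerivAt (0 : ℝ) (hasDerivAt_wave vac))
  have h2 : ∀ t : ℝ, emb j s (wave t vac) = coh ((t : ℂ) • s) := by
    intro t
    rw [vac, emb_wave j s hs hsj, map_zero, zero_add]
  simp_rw [h2] at h1
  have h3 := h1.unique (hasDerivAt_coh s)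
  rw [map_smul] at h3
  exact smul_right_injective (Fock K) Complex.I_ne_zero h3

lemma embS_xiS (j : K0 →ₗᵢ[ℂ] K) (s : K) (hs : ‖s‖ = 1) (hsj : ∀ f, ⟪s, j f⟫_ℂ = 0) :
    embS j s (xiS : SL K0) = plusP (one s) := by
  ext b : 1
  rw [embS_apply, xiS_apply, map_smul, emb_xw j s hs hsj, plusP_apply]

/-- the label moment on the labelled space -/
def mS (io : SL K0 ≃ₗᵢ[ℂ] K0) (U : USL K0) : ℝ := (⟪(xiS : SL K0), (IL io).eV U⟫_ℂ).re

lemma Rel.mS {D : BridgeData K0 K} {U : USL K0} {U' : USp K} (h : Rel D U U') :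
    (⟪plusP (Site.one D.s), Site.eVec U'⟫_ℂ).re = LF.mS D.io U := by
  rw [h.eVec, ← embS_xiS D.j D.s D.hs D.hsj]
  have h1 := (embI D.j D.s D.hs D.hsj).inner_map_map (xiS : SL K0) ((IL D.io).eV U)
  rw [embI_apply, embI_apply] at h1
  rw [h1, LF.mS]

/-! ### labelled words on the labelled space -/

/-- action of a letter on the labelled space -/
def appS (io : SL K0 ≃ₗᵢ[ℂ] K0) : Mark.Lg → USL K0 → USL K0
  | .C γ, U => mvC io γ U
  | .B β, U => mvB β U
  | .L a, U => mvL a U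

/-- action of a word on the labelled space (first letter first) -/
def runS (io : SL K0 ≃ₗᵢ[ℂ] K0) : List Mark.Lg → USL K0 → USL K0
  | [], U => U
  | g :: w, U => runS io w (appS io g U)

/-- admissible words: the label moment does not vanish after a mixer and at a label gate -/
def admS (io : SL K0 ≃ₗᵢ[ℂ] K0) : List Mark.Lg → USL K0 → Prop
  | [], _ => True
  | .C γ :: w, U => admS io w (mvC io γ U)
  | .B β :: w, U => mS io (mvB β U) ≠ 0 ∧ admS io w (mvB β U)
  | .L a :: w, U => mS io U ≠ 0 ∧ admS io w (mvL a U)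

lemma rel_adm {D : BridgeData K0 K} (w : List Mark.Lg) : ∀ (U : USL K0) (p : USp K × K) (u : Sp K),
    Rel D U p.1 → RD D.s p.1 u → p.2 = D.ip ((2 : ℂ) • u) → admS D.io w U →
      Mark.admL D.ip D.s w p ∧ Rel D (runS D.io w U) (Mark.runL D.ip D.s w p).1 := by
  induction w with
  | nil => intro U p u h _ _ _; exact ⟨trivial, h⟩
  | cons g w ih =>
    intro U p u h hR hp hadm
    have hread : ∀ (U1 : USL K0) (V : USp K) (u' : Sp K), Rel D U1 V → RD D.s V u' →
        (⟪D.ip ((2 : ℂ) • u'), D.ip (eVec V)⟫_ℂ).im = mS D.io U1 := by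
      intro U1 V u' h1 h2
      rw [← h1.mS, h2.moment, D.ip.inner_map_map, inner_smul_left]
      simp
    cases g with
    | C γ =>
      have hR' : RD D.s (moveC D.ip γ p.1) u :=
        hR.comm _ fun τ v => costU_comm_gt (D.hsi _) γ τ v
      obtain ⟨h1, h2⟩ := ih (mvC D.io γ U) (moveC D.ip γ p.1, p.2) u (h.mvC γ) hR' hp hadm
      exact ⟨⟨trivial, h1⟩, h2⟩
    | B β =>
      have hR' : RD D.s (moveB β p.1) u := hR.comm _ fun τ v => isSpin_mixU β _ _
      obtain ⟨h1, h2⟩ := ih (mvB β U) (moveB β p.1, p.2) u (h.mvB β) hR' hp hadm.2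
      refine ⟨⟨?_, h1⟩, h2⟩
      show (⟪p.2, D.ip (eVec (moveB β p.1))⟫_ℂ).im ≠ 0
      rw [hp, hread _ _ _ (h.mvB β) hR']
      exact hadm.1
    | L α =>
      have hR' : RD D.s (costU (-α) D.s * p.1) (u + (α : ℂ) • eVec p.1) := hR.lab D.hs α
      have hp' : p.2 + ((2 * α : ℝ) : ℂ) • D.ip (eVec p.1)
          = D.ip ((2 : ℂ) • (u + (α : ℂ) • eVec p.1)) := by
        rw [hp, smul_add, map_add, smul_smul, map_smul D.ip ((2 : ℂ) * α)]
        congr 2
        push_cast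
        ring
      obtain ⟨h1, h2⟩ := ih (mvL α U) (costU (-α) D.s * p.1,
        p.2 + ((2 * α : ℝ) : ℂ) • D.ip (eVec p.1)) _ (h.mvL α) hR' hp' hadm.2
      refine ⟨⟨?_, h1⟩, h2⟩
      show (⟪p.2, D.ip (eVec p.1)⟫_ℂ).im ≠ 0
      rw [hp, hread _ _ _ h hR]
      exact hadm.1

/-- **The bound for labelled words on the labelled space.** -/
theorem SL_le (D : BridgeData K0 K) {α0 : ℝ} {hα : α0 ≠ 0} {ε : ℕ → ℝ} {hε : ∀ n, 0 < ε n}
    (hε0 : Tendsto ε atTop (𝓝 0)) (hLam : Mark.LamStmt D.ip D.hs D.hsi hα hε) {c : ℝ}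
    (hc : ∀ (j : Sp K →ₗᵢ[ℂ] K) (angles : List (ℝ × ℝ)), energy j (wordU j angles) ≤ c)
    (w : List Mark.Lg) (hw : admS D.io w (labL α0)) :
    (IL D.io).energy (runS D.io w (labL α0)) ≤ c := by
  have h0 : RD D.s (costU (-α0) D.s) ((α0 : ℂ) • (Zop Om : Sp K)) := by
    have h1 := (RD.start D.s).lab D.hs α0
    have e1 : eVec (1 : USp K) = Zop Om := by
      show star (1 : Sp K →L[ℂ] Sp K) (Zop Om) = _
      rw [star_one]
      rfl
    rw [mul_one, zero_add, e1] at h1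
    exact h1
  have hp : ((2 * α0 : ℝ) : ℂ) • D.ip (Zop Om) = D.ip ((2 : ℂ) • ((α0 : ℂ) • (Zop Om : Sp K))) := by
    rw [smul_smul, map_smul]
    congr 1
    push_cast
    ring
  obtain ⟨h1, h2⟩ := rel_adm w (labL α0) (costU (-α0) D.s, ((2 * α0 : ℝ) : ℂ) • D.ip (Zop Om)) _
    (Rel.lab D α0) h0 hp hw
  rw [← h2.energy]
  exact Mark.labelled_le hε0 hLam hc w h1

end xi

end Crest.Agent.R339.LF
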