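import Crest.Agent.R339.Li728C
import Crest.Agent.R339.MF569A

/-!
# R339, block LI: label functions `T = Σ c_k sin φ(u_k)` and their gates (helper728)
-/

set_option autoImplicit false
set_option linter.unusedSectionVars false
set_option linter.style.haveILetI false
set_option linter.unusedVariables false
set_option linter.unusedSimpArgs false

noncomputable section

open scoped ComplexConjugate InnerProductSpace Topology
open Filter MeasureTheory

namespace Crest.Agent.R339.Li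

open Crest.Agent.R339.MF

variable {Λ H : Type*} [MeasurableSpace Λ] [NormedAddCommGroup H] [InnerProductSpace ℂ H]
  [CompleteSpace H]

namespace ILSys

variable {I : ILSys Λ H} {S : Set Λ} {L : Set H} {c : ℝ}

lemma X_Y : I.X * I.Y = Complex.I • I.Z := by
  rw [Y, mul_smul_comm, ← mul_assoc]
  have : I.X * I.Z = -(I.Z * I.X) := by rw [Z_X, neg_neg]
  rw [this, neg_mul, mul_assoc, X_mul_X, mul_one, smul_neg, neg_smul, neg_neg]

lemma Y_X : I.Y * I.X = -(Complex.I • I.Z) := by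
  rw [Y, smul_mul_assoc, mul_assoc, X_mul_X, mul_one, neg_smul]

lemma mx_Y_mx (β : ℝ) : I.mx β * I.Y * I.mx (-β) =
    (Real.cos (2 * β) : ℂ) • I.Y + (Real.sin (2 * β) : ℂ) • I.Z := by
  have h1 : ((Real.cos (2 * β) : ℝ) : ℂ) = (Real.cos β : ℂ) ^ 2 - (Real.sin β : ℂ) ^ 2 := by
    rw [Real.cos_two_mul']; push_cast; ring
  have h2 : ((Real.sin (2 * β) : ℝ) : ℂ) = 2 * (Real.sin β : ℂ) * (Real.cos β : ℂ) := by
    rw [Real.sin_two_mul]; push_cast; ring
  have h3 : I.X * I.Y * I.X = -I.Y := by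
    rw [mul_assoc, Y_X, mul_neg, mul_smul_comm, Y]
    have : I.X * I.Z = -(I.Z * I.X) := by rw [Z_X, neg_neg]
    rw [this]; module
  have h4 : I.Z * I.X = Complex.I • I.Y := by
    rw [Y, smul_smul, mul_neg, Complex.I_mul_I, neg_neg, one_smul]
  rw [mx, mx, h1, h2, Real.cos_neg, Real.sin_neg]
  simp only [sub_mul, mul_sub, smul_mul_assoc, mul_smul_comm, one_mul, mul_one, X_Y, Y_X, h4]
  have hI : Complex.I ^ 2 = -1 := Complex.I_sq
  have hI3 : Complex.I ^ 3 = -Complex.I := by rw [pow_succ, hI]; ring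
  have hI4 : Complex.I ^ 4 = 1 := by
    rw [show (4 : ℕ) = 2 * 2 from rfl, pow_mul, hI]; norm_num
  push_cast
  simp only [smul_sub, smul_neg, smul_smul]
  match_scalars
  · linear_combination (-(Complex.sin (β : ℂ)) ^ 2) * hI4
  · linear_combination (-2 * Complex.sin (β : ℂ) * Complex.cos (β : ℂ)) * hI

/-- **function gates**: `i P_A Z sin φ(f)` -/
theorem Zs_mem_LG (hL : RealSet L) {A : Set Λ} (hA : I.Cl A) (hS : A ⊆ S) {f : H}
    (hf : f ∈ Submodule.span ℝ L) : Complex.I • (I.P A * (I.Z * I.sW f)) ∈ I.LG S L c := by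
  haveI := I.nontriv
  have hm := I.Cl_meas A hA
  have h := Trot.conj_mem_lieOf (S := I.GP S L c) (Ys_mem_LG (c := c) hL hA hS hf)
    (rot_mem_GP (c := c) (L := L) hA hS (Real.pi / 4))
    (rot_mem_GP (c := c) (L := L) hA hS (-(Real.pi / 4))) (rotO_mul_neg hm (Real.pi / 4))
    (by have := rotO_mul_neg (I := I) hm (-(Real.pi / 4)); rwa [neg_neg] at this)
  have e : I.rotO A (Real.pi / 4) * (Complex.I • (I.P A * (I.Y * I.sW f))) *
      I.rotO A (-(Real.pi / 4)) = Complex.I • (I.P A * (I.Z * I.sW f)) := by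
    have hc : Commute (I.sW f) (I.mx (-(Real.pi / 4))) :=
      ((Commute.one_right _).smul_right _).sub_right ((X_sW f).symm.smul_right _)
    have h2 : I.mx (Real.pi / 4) * (I.Y * I.sW f) * I.mx (-(Real.pi / 4)) = I.Z * I.sW f := by
      rw [← mul_assoc, mul_assoc _ (I.sW f), hc.eq, ← mul_assoc, mx_Y_mx]
      have e1 : 2 * (Real.pi / 4) = Real.pi / 2 := by ring
      rw [e1, Real.cos_pi_div_two, Real.sin_pi_div_two]
      simp
    rw [mul_smul_comm, smul_mul_assoc, rotO_eq, rotO_eq,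
      blk_conj hm (fun B hB => P_mx hB _) (fun B hB => (P_Y hB).mul_right (P_sW hB f)), h2]
  rwa [e] at h

/-! ### Label functions -/

/-- `Σ_k c_k sin φ(u_k)` -/
def fT (I : ILSys Λ H) {n : ℕ} (a : Fin n → ℝ) (u : Fin n → H) : H →L[ℂ] H :=
  ∑ k, (a k : ℂ) • I.sW (u k)

lemma star_sW (f : H) : star (I.sW f) = I.sW f := by
  rw [sW, star_smul, star_sub, I.W_star, I.W_star, neg_neg]
  simp only [star_neg, RCLike.star_def, map_div₀, Complex.conj_I, map_ofNat]
  module

variable {n : ℕ} {a : Fin n → ℝ} {u : Fin n → H}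

lemma commute_fT {B : H →L[ℂ] H} (h : ∀ k, Commute B (I.sW (u k))) : Commute B (I.fT a u) :=
  Commute.sum_right _ _ _ fun k _ => (h k).smul_right _

lemma star_fT : star (I.fT a u) = I.fT a u := by
  rw [fT, star_sum]
  refine Finset.sum_congr rfl fun k _ => ?_
  rw [star_smul, star_sW]
  simp

lemma P_fT {A : Set Λ} (hA : MeasurableSet A) : Commute (I.P A) (I.fT a u) :=
  commute_fT fun k => P_sW hA _

lemma PC_fT : PC I (I.fT a u) := fun B hB => P_fT hB

lemma sg_sW (m : Matrix Bool Bool ℂ) (f : H) : Commute (I.sg m) (I.sW f) :=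
  ((I.sg_W _ _).sub_right (I.sg_W _ _)).smul_right _

lemma sg_fT (m : Matrix Bool Bool ℂ) : Commute (I.sg m) (I.fT a u) :=
  commute_fT fun k => sg_sW _ _

lemma Z_fT : Commute I.Z (I.fT a u) := sg_fT _

/-- `i P_A Z T` -/
theorem ZT_mem_LG (hL : RealSet L) {A : Set Λ} (hA : I.Cl A) (hS : A ⊆ S)
    (hu : ∀ k, u k ∈ Submodule.span ℝ L) :
    Complex.I • (I.P A * (I.Z * I.fT a u)) ∈ I.LG S L c := by
  haveI := I.nontriv
  have e : Complex.I • (I.P A * (I.Z * I.fT a u)) =
      ∑ k, (a k) • (Complex.I • (I.P A * (I.Z * I.sW (u k)))) := by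
    rw [fT, Finset.mul_sum, Finset.mul_sum, Finset.smul_sum]
    refine Finset.sum_congr rfl fun k _ => ?_
    rw [mul_smul_comm, mul_smul_comm, ← Complex.coe_smul, smul_comm]
  rw [e]
  refine Finset.sum_induction _ (· ∈ I.LG S L c)
    (fun x y hx hy => Trot.add_mem_lieOf (isClosed_GP S L c) hx hy) ?_ ?_
  · intro t; rw [smul_zero, NormedSpace.exp_zero]; exact one_mem _
  · intro k _
    exact Trot.smul_mem_lieOf (Zs_mem_LG hL hA hS (hu k)) _

/-- `i P_A Y T` -/
theorem YT_mem_LG (hL : RealSet L) {A : Set Λ} (hA : I.Cl A) (hS : A ⊆ S)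
    (hu : ∀ k, u k ∈ Submodule.span ℝ L) :
    Complex.I • (I.P A * (I.Y * I.fT a u)) ∈ I.LG S L c := by
  haveI := I.nontriv
  have e : Complex.I • (I.P A * (I.Y * I.fT a u)) =
      ∑ k, (a k) • (Complex.I • (I.P A * (I.Y * I.sW (u k)))) := by
    rw [fT, Finset.mul_sum, Finset.mul_sum, Finset.smul_sum]
    refine Finset.sum_congr rfl fun k _ => ?_
    rw [mul_smul_comm, mul_smul_comm, ← Complex.coe_smul, smul_comm]
  rw [e]
  refine Finset.sum_induction _ (· ∈ I.LG S L c)
    (fun x y hx hy => Trot.add_mem_lieOf (isClosed_GP S L c) hx hy) ?_ ?_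
  · intro t; rw [smul_zero, NormedSpace.exp_zero]; exact one_mem _
  · intro k _
    exact Trot.smul_mem_lieOf (Ys_mem_LG hL hA hS (hu k)) _

/-- exponential of a block generator -/
lemma exp_blk {A : Set Λ} (hA : MeasurableSet A) {B : H →L[ℂ] H} (hB : PC I B) (t : ℝ) :
    NormedSpace.exp (t • (I.P A * B)) = I.blk A (NormedSpace.exp (t • B)) := by
  haveI := I.nontriv
  letI : NormedAlgebra ℚ (H →L[ℂ] H) := NormedAlgebra.restrictScalars ℚ ℂ (H →L[ℂ] H)
  have hc : ∀ t : ℝ, PC I (NormedSpace.exp (t • B)) := fun t C hC =>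
    ((hB C hC).smul_right t).exp_right
  refine exp_eq_of_group (G := fun t : ℝ => I.blk A (NormedSpace.exp (t • B))) ?_ ?_ ?_ t
  · simp only [zero_smul, NormedSpace.exp_zero]; exact blk_one hA
  · intro s t
    rw [blk_mul_blk hA (hc s), add_smul, NormedSpace.exp_add_of_commute
      (((Commute.refl B).smul_left s).smul_right t)]
  · have h1 := (hasDerivAt_exp_smul_const (𝕂 := ℝ) B 0)
    rw [zero_smul, NormedSpace.exp_zero, one_mul] at h1
    have h2 := (h1.const_mul (I.P A)).const_add (I.P Aᶜ)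
    exact h2

end ILSys

end Crest.Agent.R339.Li
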