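import Crest.Agent.R339.Li728D
import Crest.Agent.R339.Li728F

/-!
# R339, block LI: `D`-invariance of `Good`, the level step (helper728)
-/

set_option autoImplicit false
set_option linter.unusedSectionVars false
set_option linter.style.haveILetI false
set_option linter.unusedVariables false
set_option linter.unusedSimpArgs false

noncomputable section

open scoped ComplexConjugate InnerProductSpace Topology
open Filter MeasureTheory

namespace Crest.Agent.R339.Li

open Crest.Agent.R339.MF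

variable {Λ H : Type*} [MeasurableSpace Λ] [NormedAddCommGroup H] [InnerProductSpace ℂ H]
  [CompleteSpace H]

namespace ILSys

variable {I : ILSys Λ H} {S M Mn : Set Λ} {L : Set H} {c : ℝ}

/-! ### Labels -/

/-- admissible label sets: `S` allowed region, `Mn` main part, `L` labels -/
structure Lab (I : ILSys Λ H) (S Mn : Set Λ) (L : Set H) : Prop where
  real : RealSet L
  re : ∀ K : H →L[ℂ] H, star K = K → PC I K → (∀ l ∈ L, ∀ t : ℝ, Commute (I.W ((t : ℂ) • l)) K) →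
    ∀ l ∈ L, ∀ B, MeasurableSet B → B ⊆ S → (⟪l, I.P B (K I.Om)⟫_ℂ).im = 0
  bath : ∀ l ∈ L, ∀ B, MeasurableSet B → B ⊆ S → Disjoint B Mn → I.P B l = 0

lemma inner_P {A : Set Λ} (hA : MeasurableSet A) (x y : H) :
    ⟪I.P A x, y⟫_ℂ = ⟪x, I.P A y⟫_ℂ := by
  rw [← ContinuousLinearMap.adjoint_inner_right, ← ContinuousLinearMap.star_eq_adjoint,
    I.P_star A hA]

lemma im_zero_of_selfAdj {K : H →L[ℂ] H} (hK : star K = K) (x : H) : (⟪x, K x⟫_ℂ).im = 0 := by
  have h1 : ⟪K x, x⟫_ℂ = ⟪x, K x⟫_ℂ := by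
    rw [← ContinuousLinearMap.adjoint_inner_right, ← ContinuousLinearMap.star_eq_adjoint, hK]
  have h2 : (starRingEnd ℂ) ⟪x, K x⟫_ℂ = ⟪x, K x⟫_ℂ := by rw [inner_conj_symm, h1]
  exact Complex.conj_eq_iff_im.mp h2

lemma im_symm {x y : H} (h : (⟪x, y⟫_ℂ).im = 0) : (⟪y, x⟫_ℂ).im = 0 := by
  rw [← inner_conj_symm, Complex.conj_im, h, neg_zero]

lemma Lab.init {l0 : H} (hS : MeasurableSet S) (h : I.P S l0 = 0) : Lab I S Mn {l0} where
  real := by
    intro x hx y hy
    rw [Set.mem_singleton_iff.mp hx, Set.mem_singleton_iff.mp hy]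
    exact inner_self_im (𝕜 := ℂ) _
  re := by
    rintro K hK hP hW l rfl B hB hBS
    have h1 : I.P B (K I.Om) = I.P S (I.P B (K I.Om)) := by
      rw [← mul_apply_eq_comp (I.P S), ← I.P_inter S B hS hB,
        Set.inter_eq_self_of_subset_right hBS]
    rw [h1, ← inner_P hS, h, inner_zero_left]
    rfl
  bath := by
    rintro l rfl B hB hBS _
    have h1 : I.P B l = I.P B (I.P S l) := by
      rw [← mul_apply_eq_comp (I.P B), ← I.P_inter B S hB hS,
        Set.inter_eq_self_of_subset_left hBS]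
    rw [h1, h, map_zero]

lemma Lab.mono {S' : Set Λ} (h : Lab I S Mn L) (hS : S' ⊆ S) : Lab I S' Mn L where
  real := h.real
  re := fun K hK hP hW l hl B hB hBS => h.re K hK hP hW l hl B hB (hBS.trans hS)
  bath := fun l hl B hB hBS hd => h.bath l hl B hB (hBS.trans hS) hd

/-- operators commuting with the Weyl operators of the labels commute with those of the span -/
lemma commute_W_span (hL : RealSet L) {K : H →L[ℂ] H}
    (hW : ∀ l ∈ L, ∀ t : ℝ, Commute (I.W ((t : ℂ) • l)) K) {f : H}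
    (hf : f ∈ Submodule.span ℝ L) : Commute (I.W f) K := by
  have key : ∀ a : ℝ, Commute (I.W (a • f)) K := by
    induction hf using Submodule.span_induction with
    | mem x hx =>
      intro a
      have := hW x hx a
      rwa [Complex.coe_smul] at this
    | zero => intro a; rw [smul_zero, I.W_zero]; exact Commute.one_left _
    | add x y hx hy ihx ihy =>
      intro a
      have him : (⟪a • x, a • y⟫_ℂ).im = 0 :=
        hL.span (Submodule.smul_mem _ _ hx) (Submodule.smul_mem _ _ hy)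
      have e : I.W (a • (x + y)) = I.W (a • x) * I.W (a • y) := by
        rw [I.W_mul, him, smul_add]; simp
      rw [e]
      exact (ihx a).mul_left (ihy a)
    | smul b x _ ih => intro a; rw [smul_smul]; exact ih _
  simpa using key 1

lemma commute_sW_span (hL : RealSet L) {K : H →L[ℂ] H}
    (hW : ∀ l ∈ L, ∀ t : ℝ, Commute (I.W ((t : ℂ) • l)) K) {f : H}
    (hf : f ∈ Submodule.span ℝ L) : Commute (I.sW f) K :=
  ((commute_W_span hL hW hf).sub_left
    (commute_W_span hL hW (Submodule.neg_mem _ hf))).smul_left _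

lemma W_comm {f g : H} (h : (⟪f, g⟫_ℂ).im = 0) : Commute (I.W f) (I.W g) := by
  show I.W f * I.W g = I.W g * I.W f
  rw [I.W_mul, I.W_mul, h, im_symm h, add_comm]

variable {n : ℕ} {a : Fin n → ℝ} {u : Fin n → H}

lemma fT_comm_K (hL : RealSet L) (hu : ∀ k, u k ∈ Submodule.span ℝ L) {K : H →L[ℂ] H}
    (hW : ∀ l ∈ L, ∀ t : ℝ, Commute (I.W ((t : ℂ) • l)) K) : Commute K (I.fT a u) :=
  commute_fT fun k => (commute_sW_span hL hW (hu k)).symm

lemma W_fT (hL : RealSet L) (hu : ∀ k, u k ∈ Submodule.span ℝ L) {f : H}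
    (hf : ∀ l ∈ L, (⟪f, l⟫_ℂ).im = 0) : Commute (I.W f) (I.fT a u) := by
  have hf' : ∀ g ∈ Submodule.span ℝ L, (⟪f, g⟫_ℂ).im = 0 := by
    intro g hg
    induction hg using Submodule.span_induction with
    | mem y hy => exact hf y hy
    | zero => simp
    | add y z _ _ hy hz => rw [inner_add_right, Complex.add_im, hy, hz, add_zero]
    | smul a y _ hy =>
      rw [← Complex.coe_smul, inner_smul_right, Complex.im_ofReal_mul, hy, mul_zero]
  refine commute_fT fun k => ?_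
  exact ((W_comm (hf' _ (hu k))).sub_right
    (W_comm (hf' _ (Submodule.neg_mem _ (hu k))))).smul_right _

lemma W_label_fT (hL : RealSet L) (hu : ∀ k, u k ∈ Submodule.span ℝ L) {l : H} (hl : l ∈ L)
    (t : ℝ) : Commute (I.W ((t : ℂ) • l)) (I.fT a u) := by
  refine W_fT hL hu fun l' hl' => ?_
  rw [inner_smul_left, Complex.conj_ofReal, Complex.im_ofReal_mul, hL l hl l' hl', mul_zero]

lemma Lab.insert (h : Lab I S Mn L) (hMn : MeasurableSet Mn) (hMS : Mn ⊆ S)
    (hu : ∀ k, u k ∈ Submodule.span ℝ L) (b : ℝ) :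
    Lab I S Mn (insert ((b : ℂ) • I.P Mn (I.fT a u I.Om)) L) := by
  set T := I.fT a u with hT
  have hTs : star T = T := star_fT
  -- the basic reality statement for the new label
  have key : ∀ K : H →L[ℂ] H, star K = K → PC I K →
      (∀ l ∈ L, ∀ t : ℝ, Commute (I.W ((t : ℂ) • l)) K) →
      ∀ B, MeasurableSet B → (⟪(b : ℂ) • I.P Mn (T I.Om), I.P B (K I.Om)⟫_ℂ).im = 0 := by
    intro K hK hP hW B hB
    have hc : Commute K T := fT_comm_K h.real hu hW
    have e1 : ⟪(b : ℂ) • I.P Mn (T I.Om), I.P B (K I.Om)⟫_ℂ =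
        (b : ℂ) * ⟪I.Om, (T * (I.P Mn * I.P B * K)) I.Om⟫_ℂ := by
      rw [inner_smul_left, Complex.conj_ofReal, inner_P hMn]
      congr 1
      rw [← hTs, ContinuousLinearMap.star_eq_adjoint, ContinuousLinearMap.adjoint_inner_left,
        ← ContinuousLinearMap.star_eq_adjoint, hTs]
      rfl
    rw [e1, Complex.im_ofReal_mul, im_zero_of_selfAdj, mul_zero]
    rw [star_mul, star_mul, star_mul, hTs, hK, I.P_star _ hMn, I.P_star _ hB]
    have c1 : Commute T (I.P Mn) := (P_fT hMn).symm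
    have c2 : Commute T (I.P B) := (P_fT hB).symm
    rw [(P_comm hB hMn).eq, ((hP Mn hMn).mul_left (hP B hB)).symm.eq,
      ((c1.mul_right c2).mul_right hc.symm).eq]
  refine ⟨?_, ?_, ?_⟩
  · -- real
    have h1 : ∀ l ∈ L, (⟪(b : ℂ) • I.P Mn (T I.Om), l⟫_ℂ).im = 0 := by
      intro l hl
      apply im_symm
      rw [inner_smul_right, Complex.im_ofReal_mul,
        h.re T hTs PC_fT (fun l' hl' t => W_label_fT h.real hu hl' t) l hl Mn hMn hMS, mul_zero]
    intro x hx y hy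
    rcases Set.mem_insert_iff.mp hx with rfl | hx'
    · rcases Set.mem_insert_iff.mp hy with rfl | hy'
      · exact inner_self_im (𝕜 := ℂ) _
      · exact h1 y hy'
    · rcases Set.mem_insert_iff.mp hy with rfl | hy'
      · exact im_symm (h1 x hx')
      · exact h.real x hx' y hy'
  · intro K hK hP hW l hl B hB hBS
    have hW' : ∀ l ∈ L, ∀ t : ℝ, Commute (I.W ((t : ℂ) • l)) K := fun l hl t =>
      hW l (Set.mem_insert_of_mem _ hl) t
    rcases Set.mem_insert_iff.mp hl with rfl | hl'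
    · exact key K hK hP hW' B hB
    · exact h.re K hK hP hW' l hl' B hB hBS
  · intro l hl B hB hBS hd
    rcases Set.mem_insert_iff.mp hl with rfl | hl'
    · rw [map_smul, ← mul_apply_eq_comp (I.P B), P_disj hB hMn hd]
      simp
    · exact h.bath l hl' B hB hBS hd

/-! ### The domain -/

/-- commutation with class projections and label Weyl operators -/
structure Dom (I : ILSys Λ H) (L : Set H) (U : UH H) : Prop where
  P : PC I (U : H →L[ℂ] H)
  W : ∀ l ∈ L, ∀ t : ℝ, Commute (I.W ((t : ℂ) • l)) (U : H →L[ℂ] H)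

lemma commute_star_U {B : H →L[ℂ] H} {U : UH H} (h : Commute B (U : H →L[ℂ] H)) :
    Commute B (star (U : H →L[ℂ] H)) := by
  show B * star (U : H →L[ℂ] H) = star (U : H →L[ℂ] H) * B
  calc B * star (U : H →L[ℂ] H)
      = star (U : H →L[ℂ] H) * U * (B * star (U : H →L[ℂ] H)) := by
        rw [star_U_mul_self, one_mul]
    _ = star (U : H →L[ℂ] H) * (B * U) * star (U : H →L[ℂ] H) := by
        rw [h.eq]; simp only [mul_assoc]
    _ = _ := by rw [mul_assoc, mul_assoc, U_mul_star_self, mul_one]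

lemma Dom.one : Dom I L 1 := ⟨PC.one, fun _ _ _ => Commute.one_right _⟩

/-- fields of admissible states are symplectically orthogonal to the labels -/
lemma Dom.im_eA (hlab : Lab I S Mn L) {U : UH H} (hU : Dom I L U) {B : Set Λ}
    (hB : MeasurableSet B) (hBS : B ⊆ S) {l : H} (hl : l ∈ L) : (⟪I.eA B U, l⟫_ℂ).im = 0 := by
  apply im_symm
  have h := hlab.re (star (U : H →L[ℂ] H) * I.Z * U) (by
      rw [star_mul, star_mul, star_star, star_Z, mul_assoc])
    ((hU.P.star.mul (fun B hB => P_Z hB)).mul hU.P)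
    (fun l hl t => ((commute_star_U (hU.W l hl t)).mul_right (Z_W _).symm).mul_right (hU.W l hl t))
    l hl B hB hBS
  exact h

lemma W_cst {A : Set Λ} (hA : MeasurableSet A) {f g : H} (h : (⟪g, f⟫_ℂ).im = 0) :
    Commute (I.W g) (I.cst hA f : H →L[ℂ] H) := by
  have h1 : Commute (I.W g) (I.W f) := W_comm h
  have h2 : Commute (I.W g) (I.W (-f)) := W_comm (by rw [inner_neg_right, Complex.neg_im, h, neg_zero])
  exact ((I.P_W _ g hA.compl).symm).add_right (((I.P_W _ g hA).symm).mul_right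
    (((Ep_W _).symm.mul_right h1).add_right ((Em_W _).symm.mul_right h2)))

lemma W_rot {A : Set Λ} (hA : MeasurableSet A) (g : H) (β : ℝ) :
    Commute (I.W g) (I.rot hA β : H →L[ℂ] H) :=
  ((I.P_W _ g hA.compl).symm).add_right (((I.P_W _ g hA).symm).mul_right
    (((Commute.one_right _).smul_right _).sub_right ((X_W g).symm.smul_right _)))

lemma PC_cst {A : Set Λ} (hA : MeasurableSet A) (f : H) : PC I (I.cst hA f : H →L[ℂ] H) :=
  PC.blk hA (PC.zW f)

lemma PC_rot {A : Set Λ} (hA : MeasurableSet A) (β : ℝ) : PC I (I.rot hA β : H →L[ℂ] H) :=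
  PC.blk hA (fun B hB => P_mx hB β)

lemma Dom.cst {U : UH H} (hU : Dom I L U) {A : Set Λ} (hA : MeasurableSet A) {f : H}
    (hf : ∀ l ∈ L, (⟪f, l⟫_ℂ).im = 0) : Dom I L (I.cst hA f * U) where
  P := (PC_cst hA f).mul hU.P
  W := fun l hl t => (W_cst hA (by
    rw [inner_smul_left, Complex.conj_ofReal, Complex.im_ofReal_mul, im_symm (hf l hl),
      mul_zero])).mul_right (hU.W l hl t)

lemma Dom.rot {U : UH H} (hU : Dom I L U) {A : Set Λ} (hA : MeasurableSet A) (β : ℝ) :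
    Dom I L (I.rot hA β * U) where
  P := (PC_rot hA β).mul hU.P
  W := fun l hl t => (W_rot hA _ β).mul_right (hU.W l hl t)

lemma im_smul_left {t : ℝ} {x y : H} (h : (⟪x, y⟫_ℂ).im = 0) : (⟪(t : ℂ) • x, y⟫_ℂ).im = 0 := by
  rw [inner_smul_left, Complex.conj_ofReal, Complex.im_ofReal_mul, h, mul_zero]

lemma Dom.cpl (hlab : Lab I S Mn L) {U : UH H} (hU : Dom I L U) {A B : Set Λ}
    (hA : MeasurableSet A) (hB : MeasurableSet B) (hAS : A ⊆ S) (hBS : B ⊆ S) (g : ℝ) :
    Dom I L (I.cpl hA hB g U) :=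
  (hU.cst hB fun _ hl => im_smul_left (hU.im_eA hlab hA hAS hl)).cst hA fun _ hl =>
    im_smul_left (hU.im_eA hlab hB hBS hl)

lemma Dom.step (hlab : Lab I S Mn L) {U U' : UH H} (hU : Dom I L U) (hs : I.Step S L U U') :
    Dom I L U' := by
  cases hs with
  | rot hA hS β U => exact hU.rot _ β
  | cpl hA hB hAS hBS hd g U => exact hU.cpl hlab _ _ hAS hBS g
  | lab hA hS hl a U => exact hU.cst _ fun l' hl' => im_smul_left (hlab.real _ hl _ hl')

/-! ### Label-controlled rotations -/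

lemma exp_ZT {T : H →L[ℂ] H} (h1 : Commute I.Ep T) (h2 : Commute I.Em T) (s : ℝ) :
    NormedSpace.exp (s • (Complex.I • (I.Z * T))) =
      I.Ep * NormedSpace.exp (s • (Complex.I • T)) + I.Em * NormedSpace.exp ((-s) • (Complex.I • T)) := by
  haveI := I.nontriv
  letI : NormedAlgebra ℚ (H →L[ℂ] H) := NormedAlgebra.restrictScalars ℚ ℂ (H →L[ℂ] H)
  have hp : ∀ s : ℝ, Commute I.Ep (NormedSpace.exp (s • (Complex.I • T))) := fun s =>
    ((h1.smul_right _).smul_right s).exp_right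
  have hm : ∀ s : ℝ, Commute I.Em (NormedSpace.exp (s • (Complex.I • T))) := fun s =>
    ((h2.smul_right _).smul_right s).exp_right
  refine exp_eq_of_group (G := fun s : ℝ => I.Ep * NormedSpace.exp (s • (Complex.I • T)) +
    I.Em * NormedSpace.exp ((-s) • (Complex.I • T))) ?_ ?_ ?_ s
  · simp only [neg_zero, zero_smul, NormedSpace.exp_zero, mul_one]; exact Ep_add_Em
  · intro s t
    rw [E_mul (hp s) (hm _) (hm s) (hp _), neg_add, add_smul, add_smul,
      NormedSpace.exp_add_of_commute (((Commute.refl _).smul_left s).smul_right t),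
      NormedSpace.exp_add_of_commute (((Commute.refl _).smul_left (-s)).smul_right (-t))]
  · have e1 := (hasDerivAt_exp_smul_const (𝕂 := ℝ) (Complex.I • T) 0)
    have e2 : HasDerivAt (fun s : ℝ => NormedSpace.exp ((-s) • (Complex.I • T)))
        (-(Complex.I • T)) 0 := by
      have h := e1
      rw [← neg_zero] at h
      have h' := h.scomp (0 : ℝ) (hasDerivAt_neg (0 : ℝ))
      simp only [neg_zero, zero_smul, NormedSpace.exp_zero, one_mul, neg_smul, one_smul] at h'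
      refine h'.congr_of_eventuallyEq (Eventually.of_forall fun s => ?_)
      simp [Function.comp]
    rw [zero_smul, NormedSpace.exp_zero, one_mul] at e1
    refine ((e1.const_mul I.Ep).add (e2.const_mul I.Em)).congr_deriv ?_
    rw [Z_eq, sub_mul, smul_sub, mul_smul_comm, mul_neg, mul_smul_comm, sub_eq_add_neg]

/-- `exp (i s P_B Z T)` -/
def cr (I : ILSys Λ H) (B : Set Λ) (T : H →L[ℂ] H) (s : ℝ) : H →L[ℂ] H :=
  NormedSpace.exp (s • (Complex.I • (I.P B * (I.Z * T))))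

lemma commute_cr {B : Set Λ} {T K : H →L[ℂ] H} {s : ℝ} (h1 : Commute K (I.P B))
    (h2 : Commute K I.Z) (h3 : Commute K T) : Commute K (I.cr B T s) :=
  commute_exp (((h1.mul_right (h2.mul_right h3)).smul_right _).smul_right _)

lemma cr_mem_GP (hL : RealSet L) {B : Set Λ} (hB : I.Cl B) (hS : B ⊆ S)
    (hu : ∀ k, u k ∈ Submodule.span ℝ L) (s : ℝ) : I.cr B (I.fT a u) s ∈ I.GP S L c :=
  ZT_mem_LG hL hB hS hu s

lemma cr_mul_neg (B : Set Λ) (T : H →L[ℂ] H) (s : ℝ) : I.cr B T s * I.cr B T (-s) = 1 := by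
  letI : NormedAlgebra ℚ (H →L[ℂ] H) := NormedAlgebra.restrictScalars ℚ ℂ (H →L[ℂ] H)
  rw [cr, cr, ← NormedSpace.exp_add_of_commute (((Commute.refl _).smul_left s).smul_right (-s)),
    ← add_smul, add_neg_cancel, zero_smul, NormedSpace.exp_zero]

/-- properties of the singular node operator -/
structure DProp (I : ILSys Λ H) (Mn : Set Λ) (L : Set H) (T : H →L[ℂ] H) (D : UH H) : Prop where
  P : PC I (D : H →L[ℂ] H)
  sg : ∀ m, Commute (I.sg m) (D : H →L[ℂ] H)
  comm : Commute T (D : H →L[ℂ] H)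
  cj : ∃ τ : H → ℝ, (∀ f, τ (-f) = -τ f) ∧ ∀ f, (∀ l ∈ L, (⟪f, l⟫_ℂ).im = 0) →
    star (D : H →L[ℂ] H) * I.W f * (D : H →L[ℂ] H) =
      I.W f * I.blk Mn (NormedSpace.exp (τ f • (Complex.I • T)))

lemma eV_of_Z {G : UH H} (h : Commute I.Z (G : H →L[ℂ] H)) (U : UH H) :
    I.eV (G * U) = I.eV U := by
  show (star ((G : H →L[ℂ] H) * (U : H →L[ℂ] H)) * (I.Z * ((G : H →L[ℂ] H) * U))) I.Om
    = (star (U : H →L[ℂ] H) * (I.Z * U)) I.Om
  rw [star_mul, ← mul_assoc I.Z, h.eq, mul_assoc (star (U : H →L[ℂ] H)), mul_assoc (G : H →L[ℂ] H),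
    ← mul_assoc (star (G : H →L[ℂ] H)), star_U_mul_self, one_mul]

lemma eA_of_Z {G : UH H} (h : Commute I.Z (G : H →L[ℂ] H)) (A : Set Λ) (U : UH H) :
    I.eA A (G * U) = I.eA A U := by rw [eA, eA, eV_of_Z h]

lemma P_blk_inter {A : Set Λ} (hA : MeasurableSet A) (hMn : MeasurableSet Mn) (X : H →L[ℂ] H) :
    I.P A * I.blk (A ∩ Mn) X = I.P A * I.blk Mn X := by
  have hDA : MeasurableSet (A ∩ Mn) := hA.inter hMn
  have p3 : I.P A * I.P (A ∩ Mn)ᶜ = I.P A * I.P Mnᶜ := by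
    rw [← I.P_inter _ _ hA hDA.compl, ← I.P_inter _ _ hA hMn.compl]
    congr 1; ext x
    simp only [Set.mem_inter_iff, Set.mem_compl_iff]; tauto
  have p4 : I.P A * I.P (A ∩ Mn) = I.P A * I.P Mn := by
    rw [← I.P_inter _ _ hA hDA, ← I.P_inter _ _ hA hMn]
    congr 1; ext x
    simp only [Set.mem_inter_iff]; tauto
  rw [blk, blk, mul_add, mul_add, p3, ← mul_assoc, p4, mul_assoc]

lemma Pc_blk_inter {A : Set Λ} (hA : MeasurableSet A) (hMn : MeasurableSet Mn) (X : H →L[ℂ] H) :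
    I.P Aᶜ * I.blk (A ∩ Mn) X = I.P Aᶜ := by
  have hDA : MeasurableSet (A ∩ Mn) := hA.inter hMn
  have p1 : I.P Aᶜ * I.P (A ∩ Mn)ᶜ = I.P Aᶜ := by
    rw [← I.P_inter _ _ hA.compl hDA.compl]
    congr 1; ext x
    simp only [Set.mem_inter_iff, Set.mem_compl_iff]; tauto
  have p2 : I.P Aᶜ * I.P (A ∩ Mn) = 0 :=
    P_disj hA.compl hDA (disjoint_compl_left.mono_right Set.inter_subset_left)
  rw [blk, mul_add, p1, ← mul_assoc, p2, zero_mul, add_zero]

lemma blk_E (hMn : MeasurableSet Mn) (x y : H →L[ℂ] H) :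
    I.blk Mn (I.Ep * x + I.Em * y) = I.Ep * I.blk Mn x + I.Em * I.blk Mn y := by
  have e : I.Ep * I.P Mnᶜ + I.Em * I.P Mnᶜ = I.P Mnᶜ := by rw [← add_mul, Ep_add_Em, one_mul]
  have e1 : I.P Mn * (I.Ep * x) = I.Ep * (I.P Mn * x) := by
    rw [← mul_assoc, (P_Ep hMn).eq, mul_assoc]
  have e2 : I.P Mn * (I.Em * y) = I.Em * (I.P Mn * y) := by
    rw [← mul_assoc, (P_Em hMn).eq, mul_assoc]
  rw [blk, blk, blk, mul_add, mul_add, mul_add, e1, e2]
  nth_rewrite 1 [← e]
  abel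

lemma cr_eq {B : Set Λ} (hB : MeasurableSet B) (s : ℝ) :
    I.cr B (I.fT a u) s = I.blk B (I.Ep * NormedSpace.exp (s • (Complex.I • I.fT a u)) +
      I.Em * NormedSpace.exp ((-s) • (Complex.I • I.fT a u))) := by
  rw [cr, ← mul_smul_comm, exp_blk hB (fun B hB => ((P_Z hB).mul_right (P_fT hB)).smul_right _),
    exp_ZT (sg_fT _) (sg_fT _)]

lemma conj_cst_aux (D : UH H) (hP : PC I (D : H →L[ℂ] H)) {A : Set Λ} (hA : MeasurableSet A)
    (X : H →L[ℂ] H) : star (D : H →L[ℂ] H) * I.blk A X * (D : H →L[ℂ] H) =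
      I.blk A (star (D : H →L[ℂ] H) * X * (D : H →L[ℂ] H)) := by
  have hPD : ∀ B, MeasurableSet B → Commute (I.P B) (star (D : H →L[ℂ] H)) := fun B hB =>
    commute_star_U (hP B hB)
  rw [blk, blk, mul_add, add_mul, ← (hPD _ hA.compl).eq, mul_assoc (I.P Aᶜ), star_U_mul_self,
    mul_one, ← mul_assoc (star (D : H →L[ℂ] H)) (I.P A), ← (hPD _ hA).eq]
  simp only [mul_assoc]

lemma conj_zW_aux (D : UH H) (hs : ∀ m, Commute (I.sg m) (D : H →L[ℂ] H)) (f : H) :
    star (D : H →L[ℂ] H) * I.zW f * (D : H →L[ℂ] H) =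
      I.Ep * (star (D : H →L[ℂ] H) * I.W f * (D : H →L[ℂ] H)) +
      I.Em * (star (D : H →L[ℂ] H) * I.W (-f) * (D : H →L[ℂ] H)) := by
  have hEpD : Commute I.Ep (star (D : H →L[ℂ] H)) := commute_star_U (hs _)
  have hEmD : Commute I.Em (star (D : H →L[ℂ] H)) := commute_star_U (hs _)
  rw [zW, mul_add, add_mul, ← mul_assoc (star (D : H →L[ℂ] H)) I.Ep, ← hEpD.eq,
    ← mul_assoc (star (D : H →L[ℂ] H)) I.Em, ← hEmD.eq]
  simp only [mul_assoc]

/-- moving `D` through a gate -/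
lemma DProp.cj_cst {D : UH H} (hMn : MeasurableSet Mn) (hD : DProp I Mn L (I.fT a u) D)
    {A : Set Λ} (hA : MeasurableSet A) {f : H} (hf : ∀ l ∈ L, (⟪f, l⟫_ℂ).im = 0) :
    ∃ s : ℝ, star (D : H →L[ℂ] H) * I.cst hA f * (D : H →L[ℂ] H) =
      I.cst hA f * I.cr (A ∩ Mn) (I.fT a u) s := by
  obtain ⟨τ, hτ, hc⟩ := hD.cj
  refine ⟨τ f, ?_⟩
  have hfm : ∀ l ∈ L, (⟪-f, l⟫_ℂ).im = 0 := fun l hl => by
    rw [inner_neg_left, Complex.neg_im, hf l hl, neg_zero]
  have c2 := hc (-f) hfm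
  rw [hτ] at c2
  have hDA : MeasurableSet (A ∩ Mn) := hA.inter hMn
  show star (D : H →L[ℂ] H) * I.blk A (I.zW f) * (D : H →L[ℂ] H) =
    I.blk A (I.zW f) * I.cr (A ∩ Mn) (I.fT a u) (τ f)
  rw [conj_cst_aux D hD.P hA, conj_zW_aux D hD.sg, hc f hf, c2, cr_eq hDA]
  set X := NormedSpace.exp (τ f • (Complex.I • I.fT a u))
  set X' := NormedSpace.exp ((-τ f) • (Complex.I • I.fT a u))
  have rhs : ∀ Y : H →L[ℂ] H, I.blk A (I.zW f) * I.blk (A ∩ Mn) Y =
      I.blk A (I.zW f * I.blk Mn Y) := by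
    intro Y
    show (I.P Aᶜ + I.P A * I.zW f) * I.blk (A ∩ Mn) Y = I.P Aᶜ + I.P A * (I.zW f * I.blk Mn Y)
    rw [add_mul, Pc_blk_inter hA hMn, (P_zW hA f).eq, mul_assoc, P_blk_inter hA hMn,
      ← mul_assoc (I.zW f), ← (P_zW hA f).eq, mul_assoc (I.P A)]
  rw [rhs, blk_E hMn, zW, E_mul (Ep_W _) (Em_W _) (Em_W _) (Ep_W _)]

end ILSys

end Crest.Agent.R339.Li
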