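import Crest.Agent.R339.Li728L
import Crest.Agent.R339.Gad233C

/-!
# R339, block LI: glue between helper233's `DGate` and the level step (helper728)
-/

set_option autoImplicit false
set_option linter.unusedSectionVars false

noncomputable section

open scoped ComplexConjugate InnerProductSpace Topology
open Filter MeasureTheory

namespace Crest.Agent.R339.Li

open Crest.Agent.R339.MF

variable {Λ H : Type*} [MeasurableSpace Λ] [NormedAddCommGroup H] [InnerProductSpace ℂ H]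
  [CompleteSpace H]

namespace ILSys

variable {I : ILSys Λ H} {S M Mn : Set Λ} {L : Set H} {c : ℝ}
variable {n : ℕ} {a : Fin n → ℝ} {u : Fin n → H}

/-- 233's gate satisfies `DProp` -/
theorem DProp.of_DGate (hL : RealSet L) (hu : ∀ k, u k ∈ Submodule.span ℝ L)
    (hMn : MeasurableSet Mn) {e : H} (hT : Gad.TH I (I.fT a u) e) {κ : ℝ} {D : UH H}
    (h : Gad.DGate I Mn (I.fT a u) κ e D) : DProp I Mn L (I.fT a u) D where
  P := h.PC
  sg := h.sg
  comm := h.comm _ (Commute.refl _) (P_fT hMn).symm fun t => (hT.W t).symm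
  cj := by
    refine ⟨fun f => -(2 * κ * (⟪f, e⟫_ℂ).im), fun f => ?_, fun f hf => ?_⟩
    · show -(2 * κ * (⟪-f, e⟫_ℂ).im) = -(-(2 * κ * (⟪f, e⟫_ℂ).im))
      rw [inner_neg_left, Complex.neg_im]; ring
    · rw [h.W f (W_fT hL hu hf)]
      congr 3
      rw [← Complex.coe_smul, smul_smul]
      congr 1
      push_cast
      ring

/-- the gadget theorem with 233's `DGate` -/
def GadgetD (I : ILSys Λ H) (c : ℝ) : Prop :=
  ∀ (S Mn M A : Set Λ) (L : Set H) (hA : I.Cl A), Lab I S Mn L → I.Cl Mn → Mn ⊆ S → I.Cl M →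
    M ⊆ S → Disjoint M Mn → 0 < I.μ.real M → A ⊆ S → Disjoint A M →
    ∀ U : UH H, Dom I L U → (U : H →L[ℂ] H) * I.P M = I.P M →
      (∀ f, I.P M f = f → Commute (I.W f) (U : H →L[ℂ] H)) →
      ∀ (n : ℕ) (a : Fin n → ℝ) (u : Fin n → H), (∀ k, u k ∈ Submodule.span ℝ L) → ∀ κ : ℝ,
        ∃ D : UH H, Gad.DGate I Mn (I.fT a u) κ (I.eA A U) D ∧
          (I.Good S L c U → I.Good S L c
            (D * (I.cst (I.Cl_meas A hA) ((κ : ℂ) • I.P Mn (I.fT a u I.Om)) * U)))

lemma TH_of_dom (hlab : Lab I S Mn L) {U : UH H} (hU : Dom I L U) {A : Set Λ}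
    (hA : MeasurableSet A) (hAS : A ⊆ S) (hu : ∀ k, u k ∈ Submodule.span ℝ L) :
    Gad.TH I (I.fT a u) (I.eA A U) := by
  refine ⟨star_fT, PC_fT, fun m => sg_fT m, fun t => ?_⟩
  have h := W_fT (I := I) (a := a) hlab.real hu (f := (t : ℂ) • I.eA A U)
    (fun l hl => im_smul_left (hU.im_eA hlab hA hAS hl))
  rwa [Complex.coe_smul] at h

theorem GadgetD.gadget (h : GadgetD I c) : Gadget I c := by
  intro S Mn M A L hA hlab hMn hMnS hM hMS hd hpos hAS hAM U hU h1 h2 n a u hu κ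
  obtain ⟨D, hD, hG⟩ := h S Mn M A L hA hlab hMn hMnS hM hMS hd hpos hAS hAM U hU h1 h2 n a u hu κ
  exact ⟨D, DProp.of_DGate hlab.real hu (I.Cl_meas _ hMn)
    (TH_of_dom hlab hU (I.Cl_meas _ hA) hAS hu) hD, hG⟩

end ILSys

end Crest.Agent.R339.Li
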