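import Crest.Agent.R339.Lim286Def

/-!
R339 part (C1): peeling one site + Tannery in the averaged path functional (general `μ`, `γ`).
-/

set_option autoImplicit false
set_option linter.unusedSectionVars false

namespace Crest.Agent.R339.Lim

open Crest.MathPhysics.SpinGlass MeasureTheory Filter Topology
open scoped BigOperators

section general
variable {P : Type*} [Fintype P] [DecidableEq P]

lemma ss_self (b : Bool) : spinSign b * spinSign b = 1 := by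
  cases b <;> simp [spinSign]

lemma abs_ss (b : Bool) : |spinSign b| = 1 := by
  cases b <;> simp [spinSign]

lemma Kf_symm (γ : P → ℝ) (a b : P → Bool) : Kf γ a b = Kf γ b a := by
  unfold Kf
  refine Finset.sum_congr rfl fun τ _ => ?_
  ring

lemma Kf_self {γ : P → ℝ} (hγ : ∑ τ, γ τ = 0) (a : P → Bool) : Kf γ a a = 0 := by
  unfold Kf
  simp [ss_self, hγ]

variable (μ : (P → Bool) → ℂ) (γ : P → ℝ)

lemma FF_add (n N : ℕ) (Ψ Φ : (Fin N → P → Bool) → ℂ) :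
    FF μ γ n N (fun a => Ψ a + Φ a) = FF μ γ n N Ψ + FF μ γ n N Φ := by
  unfold FF
  rw [← Finset.sum_add_distrib]
  refine Finset.sum_congr rfl fun a _ => ?_
  ring

lemma FF_const_mul (n N : ℕ) (c : ℂ) (Ψ : (Fin N → P → Bool) → ℂ) :
    FF μ γ n N (fun a => c * Ψ a) = c * FF μ γ n N Ψ := by
  unfold FF
  rw [Finset.mul_sum]
  refine Finset.sum_congr rfl fun a _ => ?_
  ring

lemma FF_sum {ι : Type*} (s : Finset ι) (n N : ℕ) (Ψ : ι → (Fin N → P → Bool) → ℂ) :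
    FF μ γ n N (fun a => ∑ i ∈ s, Ψ i a) = ∑ i ∈ s, FF μ γ n N (Ψ i) := by
  unfold FF
  rw [Finset.sum_comm]
  refine Finset.sum_congr rfl fun a _ => ?_
  rw [Finset.mul_sum]

lemma Q_perm (n : ℕ) {N : ℕ} (e : Equiv.Perm (Fin N)) (a : Fin N → P → Bool) (τ τ' : P) :
    Q n (a ∘ e) τ τ' = Q n a τ τ' := by
  unfold Q
  congr 1
  exact Equiv.sum_comp e (fun j => spinSign (a j τ) * spinSign (a j τ'))

lemma Qp_perm (n : ℕ) {N : ℕ} (e : Equiv.Perm (Fin N)) (l : List (P × P))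
    (a : Fin N → P → Bool) : Qp n l (a ∘ e) = Qp n l a := by
  unfold Qp
  simp only [Q_perm]

lemma wt_perm (n : ℕ) {N : ℕ} (e : Equiv.Perm (Fin N)) (a : Fin N → P → Bool) :
    wt γ n (a ∘ e) = wt γ n a := by
  unfold wt
  congr 2
  have h : ∀ i, ∑ j, (Kf γ ((a ∘ e) i) ((a ∘ e) j)) ^ 2 = ∑ j, (Kf γ (a (e i)) (a j)) ^ 2 :=
    fun i => Equiv.sum_comp e (fun j => (Kf γ (a (e i)) (a j)) ^ 2)
  rw [Finset.sum_congr rfl fun i _ => h i]
  exact Equiv.sum_comp e (fun i => ∑ j, (Kf γ (a i) (a j)) ^ 2)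

lemma FF_perm (n : ℕ) {N : ℕ} (e : Equiv.Perm (Fin N)) (Ψ : (Fin N → P → Bool) → ℂ) :
    FF μ γ n N (fun a => Ψ (a ∘ e)) = FF μ γ n N Ψ := by
  unfold FF
  rw [← Equiv.sum_comp (Equiv.arrowCongr e.symm (Equiv.refl (P → Bool)))
    (fun a => (∏ j, μ (a j)) * (wt γ n a : ℂ) * Ψ a)]
  refine Finset.sum_congr rfl fun a _ => ?_
  have h1 : (Equiv.arrowCongr e.symm (Equiv.refl (P → Bool))) a = a ∘ e := by
    funext j
    simp [Equiv.arrowCongr]
  rw [h1, wt_perm]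
  congr 2
  exact (Equiv.prod_comp e (fun j => μ (a j))).symm

lemma Q_cons (n : ℕ) {N : ℕ} (a0 : P → Bool) (a : Fin N → P → Bool) (τ τ' : P) :
    Q n (Fin.cons a0 a : Fin (N + 1) → P → Bool) τ τ'
      = Q n a τ τ' + (1 / (n : ℝ)) * (spinSign (a0 τ) * spinSign (a0 τ')) := by
  unfold Q
  rw [Fin.sum_univ_succ]
  simp only [Fin.cons_zero, Fin.cons_succ]
  ring

lemma wt_cons {γ : P → ℝ} (hγ : ∑ τ, γ τ = 0) (n : ℕ) {N : ℕ} (a0 : P → Bool)
    (a : Fin N → P → Bool) :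
    wt γ n (Fin.cons a0 a : Fin (N + 1) → P → Bool)
      = Real.exp (∑ q : P × P, (-(1 / 2) * (γ q.1 * γ q.2
          * (spinSign (a0 q.1) * spinSign (a0 q.2)))) * Q n a q.1 q.2) * wt γ n a := by
  unfold wt
  rw [← Real.exp_add]
  congr 1
  have e1 : ∑ i, ∑ j, (Kf γ ((Fin.cons a0 a : Fin (N + 1) → P → Bool) i)
      ((Fin.cons a0 a : Fin (N + 1) → P → Bool) j)) ^ 2
      = 2 * ∑ j, (Kf γ a0 (a j)) ^ 2 + ∑ i, ∑ j, (Kf γ (a i) (a j)) ^ 2 := by
    rw [Fin.sum_univ_succ]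
    simp only [Fin.sum_univ_succ, Fin.cons_zero, Fin.cons_succ, Finset.sum_add_distrib]
    rw [Kf_self hγ]
    have : ∑ x, (Kf γ (a x) a0) ^ 2 = ∑ j, (Kf γ a0 (a j)) ^ 2 :=
      Finset.sum_congr rfl fun x _ => by rw [Kf_symm]
    rw [this]
    ring
  have e2 : ∑ q : P × P, (-(1 / 2) * (γ q.1 * γ q.2
          * (spinSign (a0 q.1) * spinSign (a0 q.2)))) * Q n a q.1 q.2
      = -(1 / 2) * (1 / (n : ℝ)) * ∑ j, (Kf γ a0 (a j)) ^ 2 := by
    unfold Q Kf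
    have h3 : ∀ j : Fin N, (∑ τ, γ τ * (spinSign (a0 τ) * spinSign (a j τ))) ^ 2
        = ∑ q : P × P, (γ q.1 * γ q.2 * (spinSign (a0 q.1) * spinSign (a0 q.2)))
            * (spinSign (a j q.1) * spinSign (a j q.2)) := by
      intro j
      rw [sq, Finset.sum_mul_sum, Fintype.sum_prod_type]
      refine Finset.sum_congr rfl fun x _ => Finset.sum_congr rfl fun y _ => ?_
      ring
    simp_rw [h3]
    rw [Finset.sum_comm, Finset.mul_sum]
    refine Finset.sum_congr rfl fun q _ => ?_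
    simp_rw [← Finset.mul_sum]
    ring
  rw [e1, e2]
  ring

/-- the exponent produced by peeling a site with path `a0`. -/
noncomputable def cof (γ : P → ℝ) (a0 : P → Bool) (q : P × P) : ℝ :=
  -(1 / 2) * (γ q.1 * γ q.2 * (spinSign (a0 q.1) * spinSign (a0 q.2)))

/-- linear form in the overlaps -/
noncomputable def Xf (cc : P × P → ℝ) (n : ℕ) {N : ℕ} (a : Fin N → P → Bool) : ℂ :=
  ∑ q : P × P, (cc q : ℂ) * ((Q n a q.1 q.2 : ℝ) : ℂ)

lemma FF_succ {γ : P → ℝ} (hγ : ∑ τ, γ τ = 0) (n N : ℕ)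
    (Ψ : (Fin (N + 1) → P → Bool) → ℂ) :
    FF μ γ n (N + 1) Ψ
      = ∑ a0, μ a0 * FF μ γ n N
          (fun a => Complex.exp (Xf (cof γ a0) n a) * Ψ (Fin.cons a0 a)) := by
  unfold FF
  rw [← Equiv.sum_comp (Fin.consEquiv (fun _ : Fin (N + 1) => (P → Bool)))
    (fun a => (∏ j, μ (a j)) * (wt γ n a : ℂ) * Ψ a), Fintype.sum_prod_type]
  refine Finset.sum_congr rfl fun a0 _ => ?_
  rw [Finset.mul_sum]
  refine Finset.sum_congr rfl fun a _ => ?_
  have h1 : (Fin.consEquiv (fun _ : Fin (N + 1) => (P → Bool))) (a0, a)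
      = (Fin.cons a0 a : Fin (N + 1) → P → Bool) := rfl
  rw [h1, wt_cons hγ, Fin.prod_univ_succ]
  simp only [Fin.cons_zero, Fin.cons_succ]
  have h2 : ((Real.exp (∑ q : P × P, (-(1 / 2) * (γ q.1 * γ q.2
          * (spinSign (a0 q.1) * spinSign (a0 q.2)))) * Q n a q.1 q.2) * wt γ n a : ℝ) : ℂ)
      = Complex.exp (Xf (cof γ a0) n a) * (wt γ n a : ℂ) := by
    unfold Xf cof
    push_cast
    rfl
  rw [h2]
  ring

lemma Qp_nil (n : ℕ) {N : ℕ} (a : Fin N → P → Bool) : Qp n [] a = 1 := by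
  simp [Qp]

lemma Qp_cons (n : ℕ) {N : ℕ} (q : P × P) (l : List (P × P)) (a : Fin N → P → Bool) :
    Qp n (q :: l) a = ((Q n a q.1 q.2 : ℝ) : ℂ) * Qp n l a := by
  simp [Qp]

lemma Qp_append (n : ℕ) {N : ℕ} (k l : List (P × P)) (a : Fin N → P → Bool) :
    Qp n (k ++ l) a = Qp n k a * Qp n l a := by
  simp [Qp]

/-- the shifted product coming from the peeled site. -/
noncomputable def Qs (a0 : P → Bool) (n : ℕ) {N : ℕ} (l : List (P × P))
    (a : Fin N → P → Bool) : ℂ :=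
  (l.map (fun q => ((Q n a q.1 q.2 : ℝ) : ℂ)
    + (1 / (n : ℂ)) * ((spinSign (a0 q.1) * spinSign (a0 q.2) : ℝ) : ℂ))).prod

lemma Qs_nil (a0 : P → Bool) (n : ℕ) {N : ℕ} (a : Fin N → P → Bool) : Qs a0 n [] a = 1 := by
  simp [Qs]

lemma Qs_cons (a0 : P → Bool) (n : ℕ) {N : ℕ} (q : P × P) (l : List (P × P))
    (a : Fin N → P → Bool) :
    Qs a0 n (q :: l) a = (((Q n a q.1 q.2 : ℝ) : ℂ)
      + (1 / (n : ℂ)) * ((spinSign (a0 q.1) * spinSign (a0 q.2) : ℝ) : ℂ)) * Qs a0 n l a := by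
  simp [Qs]

lemma Qp_Fcons (n : ℕ) {N : ℕ} (l : List (P × P)) (a0 : P → Bool) (a : Fin N → P → Bool) :
    Qp n l (Fin.cons a0 a : Fin (N + 1) → P → Bool) = Qs a0 n l a := by
  unfold Qp Qs
  congr 1
  refine List.map_congr_left fun q _ => ?_
  rw [Q_cons]
  push_cast
  ring

/-- PEEL: one overlap factor is replaced by one peeled site. -/
lemma FF_Qp_peel {γ : P → ℝ} (hγ : ∑ τ, γ τ = 0) (n N : ℕ) (q : P × P) (l : List (P × P)) :
    FF μ γ n (N + 1) (Qp n (q :: l))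
      = (((N : ℂ) + 1) / (n : ℂ)) * ∑ a0, (μ a0 * ((spinSign (a0 q.1) * spinSign (a0 q.2) : ℝ) : ℂ))
          * FF μ γ n N (fun a => Complex.exp (Xf (cof γ a0) n a) * Qs a0 n l a) := by
  have h1 : ∀ j : Fin (N + 1),
      FF μ γ n (N + 1) (fun a => ((spinSign (a j q.1) * spinSign (a j q.2) : ℝ) : ℂ) * Qp n l a)
      = FF μ γ n (N + 1)
          (fun a => ((spinSign (a 0 q.1) * spinSign (a 0 q.2) : ℝ) : ℂ) * Qp n l a) := by
    intro j
    rw [← FF_perm μ γ n (Equiv.swap 0 j)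
      (fun a => ((spinSign (a j q.1) * spinSign (a j q.2) : ℝ) : ℂ) * Qp n l a)]
    congr 1
    funext a
    rw [Qp_perm]
    simp
  have h2 : (fun a : Fin (N + 1) → P → Bool => Qp n (q :: l) a)
      = fun a => (1 / (n : ℂ)) * ∑ j : Fin (N + 1),
          ((spinSign (a j q.1) * spinSign (a j q.2) : ℝ) : ℂ) * Qp n l a := by
    funext a
    rw [Qp_cons, ← Finset.sum_mul]
    unfold Q
    push_cast
    ring
  have h3 : FF μ γ n (N + 1) (Qp n (q :: l)) = FF μ γ n (N + 1) (fun a => Qp n (q :: l) a) := rfl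
  rw [h3, h2, FF_const_mul, FF_sum, Finset.sum_congr rfl (fun j _ => h1 j), Finset.sum_const,
    Finset.card_univ, Fintype.card_fin, FF_succ μ hγ]
  rw [nsmul_eq_mul]
  have h4 : ∀ a0 : P → Bool, μ a0 * FF μ γ n N (fun a => Complex.exp (Xf (cof γ a0) n a)
        * (((spinSign ((Fin.cons a0 a : Fin (N + 1) → P → Bool) 0 q.1)
            * spinSign ((Fin.cons a0 a : Fin (N + 1) → P → Bool) 0 q.2) : ℝ) : ℂ)
          * Qp n l (Fin.cons a0 a : Fin (N + 1) → P → Bool)))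
      = (μ a0 * ((spinSign (a0 q.1) * spinSign (a0 q.2) : ℝ) : ℂ))
          * FF μ γ n N (fun a => Complex.exp (Xf (cof γ a0) n a) * Qs a0 n l a) := by
    intro a0
    rw [mul_assoc, ← FF_const_mul μ γ n N ((spinSign (a0 q.1) * spinSign (a0 q.2) : ℝ) : ℂ)]
    congr 2
    funext a
    rw [Qp_Fcons, Fin.cons_zero]
    ring
  rw [Finset.sum_congr rfl fun a0 _ => h4 a0]
  push_cast
  ring

end general

end Crest.Agent.R339.Lim
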