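import Crest.Agent.R339.Lim286Gen

/-!
R339 part (C1): Tannery in the power series of the peeled exponential.
-/

set_option autoImplicit false
set_option linter.unusedSectionVars false

namespace Crest.Agent.R339.Lim

open Crest.MathPhysics.SpinGlass MeasureTheory Filter Topology
open scoped BigOperators

section general
variable {P : Type*} [Fintype P] [DecidableEq P]
variable (μ : (P → Bool) → ℂ) (γ : P → ℝ)

/-- uniform bound hypothesis -/
def BddQ : Prop := ∀ (n N : ℕ), N ≤ n → ∀ l : List (P × P), ‖FF μ γ n N (Qp n l)‖ ≤ 1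

/-- sum of the absolute values of the coefficients -/
noncomputable def cn (cc : P × P → ℝ) : ℝ := ∑ q, |cc q|

lemma cn_nonneg (cc : P × P → ℝ) : 0 ≤ cn cc := Finset.sum_nonneg fun _ _ => abs_nonneg _

lemma FF_pow_succ (cc : P × P → ℝ) (n N r : ℕ) (l : List (P × P)) :
    FF μ γ n N (fun a => Xf cc n a ^ (r + 1) * Qp n l a)
      = ∑ q : P × P, (cc q : ℂ) * FF μ γ n N (fun a => Xf cc n a ^ r * Qp n (q :: l) a) := by
  simp_rw [← FF_const_mul]
  rw [← FF_sum]
  congr 1
  funext a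
  simp_rw [Qp_cons]
  rw [pow_succ]
  conv_lhs => rw [Xf]
  rw [Finset.mul_sum, Finset.sum_mul]
  refine Finset.sum_congr rfl fun q _ => ?_
  rw [← Xf]
  ring

lemma FF_pow_bound (hB : BddQ μ γ) (cc : P × P → ℝ) {n N : ℕ} (hN : N ≤ n) (r : ℕ) :
    ∀ l : List (P × P), ‖FF μ γ n N (fun a => Xf cc n a ^ r * Qp n l a)‖ ≤ cn cc ^ r := by
  induction r with
  | zero =>
    intro l
    simpa using hB n N hN l
  | succ r ih =>
    intro l
    rw [FF_pow_succ, pow_succ']
    refine (norm_sum_le _ _).trans ?_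
    unfold cn
    rw [Finset.sum_mul]
    refine Finset.sum_le_sum fun q _ => ?_
    rw [norm_mul]
    have h1 : ‖(cc q : ℂ)‖ = |cc q| := by simp
    rw [h1]
    exact mul_le_mul_of_nonneg_left (ih (q :: l)) (abs_nonneg _)

lemma FF_exp_hasSum (cc : P × P → ℝ) (n N : ℕ) (Ψ : (Fin N → P → Bool) → ℂ) :
    HasSum (fun r : ℕ => ((r.factorial : ℂ))⁻¹ * FF μ γ n N (fun a => Xf cc n a ^ r * Ψ a))
      (FF μ γ n N (fun a => Complex.exp (Xf cc n a) * Ψ a)) := by
  have h0 : ∀ a : Fin N → P → Bool,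
      HasSum (fun r : ℕ => (∏ j, μ (a j)) * (wt γ n a : ℂ)
        * (((r.factorial : ℂ))⁻¹ * (Xf cc n a ^ r * Ψ a)))
      ((∏ j, μ (a j)) * (wt γ n a : ℂ) * (Complex.exp (Xf cc n a) * Ψ a)) := by
    intro a
    refine HasSum.mul_left _ ?_
    have h1 : HasSum (fun r : ℕ => ((r.factorial : ℂ))⁻¹ * Xf cc n a ^ r)
        (Complex.exp (Xf cc n a)) := by
      have := NormedSpace.exp_series_hasSum_exp' (𝕂 := ℂ) (Xf cc n a)
      rw [← Complex.exp_eq_exp_ℂ] at this
      simpa [smul_eq_mul] using this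
    have h2 := h1.mul_right (Ψ a)
    simpa [mul_assoc] using h2
  have h3 := hasSum_sum (s := (Finset.univ : Finset (Fin N → P → Bool))) (fun a _ => h0 a)
  have h4 : (fun r : ℕ => ((r.factorial : ℂ))⁻¹ * FF μ γ n N (fun a => Xf cc n a ^ r * Ψ a))
      = fun r : ℕ => ∑ a, (∏ j, μ (a j)) * (wt γ n a : ℂ)
        * (((r.factorial : ℂ))⁻¹ * (Xf cc n a ^ r * Ψ a)) := by
    funext r
    unfold FF
    rw [Finset.mul_sum]
    refine Finset.sum_congr rfl fun a _ => ?_
    ring
  rw [h4]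
  exact h3

lemma FF_exp_bound (hB : BddQ μ γ) (cc : P × P → ℝ) {n N : ℕ} (hN : N ≤ n)
    (l : List (P × P)) :
    ‖FF μ γ n N (fun a => Complex.exp (Xf cc n a) * Qp n l a)‖ ≤ Real.exp (cn cc) := by
  have h1 := FF_exp_hasSum μ γ cc n N (Qp n l)
  have h2 : HasSum (fun r : ℕ => ((r.factorial : ℝ))⁻¹ * cn cc ^ r) (Real.exp (cn cc)) := by
    have := NormedSpace.exp_series_hasSum_exp' (𝕂 := ℝ) (cn cc)
    rw [← Real.exp_eq_exp_ℝ] at this
    simpa [smul_eq_mul] using this
  rw [← h1.tsum_eq, ← h2.tsum_eq]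
  refine tsum_of_norm_bounded h2.summable.hasSum fun r => ?_
  rw [norm_mul]
  have h3 : ‖((r.factorial : ℂ))⁻¹‖ = ((r.factorial : ℝ))⁻¹ := by
    rw [norm_inv]; simp
  rw [h3]
  exact mul_le_mul_of_nonneg_left (FF_pow_bound μ γ hB cc hN r l) (by positivity)

/-- convergence of the powers of the linear form. -/
lemma conv_pow (cc : P × P → ℝ) (low : P × P → Prop) (hcc : ∀ q, ¬ low q → cc q = 0)
    (G : P × P → ℂ) (B : ℂ) (t : List (P × P)) (c : ℕ)
    (H : ∀ k : List (P × P), (∀ q ∈ k, low q) →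
      Tendsto (fun N => FF μ γ (N + c) N (Qp (N + c) (k ++ t))) atTop
        (𝓝 ((k.map G).prod * B))) (r : ℕ) :
    ∀ k : List (P × P), (∀ q ∈ k, low q) →
      Tendsto (fun N => FF μ γ (N + c) N (fun a => Xf cc (N + c) a ^ r * Qp (N + c) (k ++ t) a))
        atTop (𝓝 ((∑ q, (cc q : ℂ) * G q) ^ r * ((k.map G).prod * B))) := by
  induction r with
  | zero =>
    intro k hk
    simpa using H k hk
  | succ r ih =>
    intro k hk
    have h1 : (fun N => FF μ γ (N + c) N
        (fun a => Xf cc (N + c) a ^ (r + 1) * Qp (N + c) (k ++ t) a))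
        = fun N => ∑ q : P × P, (cc q : ℂ) * FF μ γ (N + c) N
          (fun a => Xf cc (N + c) a ^ r * Qp (N + c) ((q :: k) ++ t) a) := by
      funext N
      rw [FF_pow_succ]
      rfl
    rw [h1]
    have h2 : (∑ q, (cc q : ℂ) * G q) ^ (r + 1) * ((k.map G).prod * B)
        = ∑ q, (cc q : ℂ) * ((∑ q, (cc q : ℂ) * G q) ^ r * (((q :: k).map G).prod * B)) := by
      rw [pow_succ', Finset.sum_mul, Finset.sum_mul]
      refine Finset.sum_congr rfl fun q _ => ?_
      rw [List.map_cons, List.prod_cons]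
      ring
    rw [h2]
    refine tendsto_finset_sum _ fun q _ => ?_
    by_cases hq : low q
    · refine Tendsto.const_mul _ (ih (q :: k) ?_)
      intro q' hq'
      rcases List.mem_cons.1 hq' with rfl | h
      · exact hq
      · exact hk q' h
    · rw [hcc q hq]
      simp

lemma conv_exp (hB : BddQ μ γ) (cc : P × P → ℝ) (low : P × P → Prop)
    (hcc : ∀ q, ¬ low q → cc q = 0)
    (G : P × P → ℂ) (B : ℂ) (t : List (P × P)) (c : ℕ)
    (H : ∀ k : List (P × P), (∀ q ∈ k, low q) →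
      Tendsto (fun N => FF μ γ (N + c) N (Qp (N + c) (k ++ t))) atTop
        (𝓝 ((k.map G).prod * B)))
    (k : List (P × P)) (hk : ∀ q ∈ k, low q) :
    Tendsto (fun N => FF μ γ (N + c) N
        (fun a => Complex.exp (Xf cc (N + c) a) * Qp (N + c) (k ++ t) a))
      atTop (𝓝 (Complex.exp (∑ q, (cc q : ℂ) * G q) * ((k.map G).prod * B))) := by
  have h1 : ∀ N : ℕ, FF μ γ (N + c) N
        (fun a => Complex.exp (Xf cc (N + c) a) * Qp (N + c) (k ++ t) a)
      = ∑' r : ℕ, ((r.factorial : ℂ))⁻¹ * FF μ γ (N + c) N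
          (fun a => Xf cc (N + c) a ^ r * Qp (N + c) (k ++ t) a) :=
    fun N => (FF_exp_hasSum μ γ cc (N + c) N (Qp (N + c) (k ++ t))).tsum_eq.symm
  have h2 : Complex.exp (∑ q, (cc q : ℂ) * G q) * ((k.map G).prod * B)
      = ∑' r : ℕ, ((r.factorial : ℂ))⁻¹
          * ((∑ q, (cc q : ℂ) * G q) ^ r * ((k.map G).prod * B)) := by
    have := NormedSpace.exp_series_hasSum_exp' (𝕂 := ℂ) (∑ q, (cc q : ℂ) * G q)
    rw [← Complex.exp_eq_exp_ℂ] at this
    have h3 := (this.mul_right ((k.map G).prod * B)).tsum_eq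
    rw [← h3]
    simp [smul_eq_mul, mul_assoc]
  simp_rw [h1]
  rw [h2]
  have h4 : Summable (fun r : ℕ => ((r.factorial : ℝ))⁻¹ * cn cc ^ r) := by
    have := NormedSpace.exp_series_hasSum_exp' (𝕂 := ℝ) (cn cc)
    have h5 := this.summable
    simpa [smul_eq_mul] using h5
  refine tendsto_tsum_of_dominated_convergence h4 ?_ ?_
  · intro r
    exact Tendsto.const_mul _ (conv_pow μ γ cc low hcc G B t c H r k hk)
  · refine Eventually.of_forall fun N r => ?_
    rw [norm_mul]
    have h3 : ‖((r.factorial : ℂ))⁻¹‖ = ((r.factorial : ℝ))⁻¹ := by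
      rw [norm_inv]; simp
    rw [h3]
    exact mul_le_mul_of_nonneg_left (FF_pow_bound μ γ hB cc (Nat.le_add_right N c) r _)
      (by positivity)

lemma tendsto_one_div_nat_add (c : ℕ) :
    Tendsto (fun N : ℕ => (1 / ((N + c : ℕ) : ℂ))) atTop (𝓝 0) := by
  have h1 : Tendsto (fun N : ℕ => (1 / ((N : ℕ) : ℂ))) atTop (𝓝 0) := by
    rw [tendsto_zero_iff_norm_tendsto_zero]
    simpa using tendsto_inv_atTop_nhds_zero_nat (𝕜 := ℝ)
  exact h1.comp (tendsto_add_atTop_nat c)

/-- replacing the shifted product by the product costs `O(1/n)`. -/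
lemma shift_diff (hB : BddQ μ γ) (cc : P × P → ℝ) (a0 : P → Bool) (c : ℕ)
    (l : List (P × P)) : ∀ k : List (P × P),
    Tendsto (fun N => FF μ γ (N + c) N
        (fun a => Complex.exp (Xf cc (N + c) a) * (Qp (N + c) k a * Qs a0 (N + c) l a))
      - FF μ γ (N + c) N
        (fun a => Complex.exp (Xf cc (N + c) a) * Qp (N + c) (k ++ l) a))
      atTop (𝓝 0) := by
  induction l with
  | nil =>
    intro k
    simp [Qs_nil]
  | cons q l ih =>
    intro k
    set e : ℂ := ((spinSign (a0 q.1) * spinSign (a0 q.2) : ℝ) : ℂ) with he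
    have h1 : ∀ N : ℕ, FF μ γ (N + c) N
        (fun a => Complex.exp (Xf cc (N + c) a) * (Qp (N + c) k a * Qs a0 (N + c) (q :: l) a))
        = FF μ γ (N + c) N
          (fun a => Complex.exp (Xf cc (N + c) a)
            * (Qp (N + c) (k ++ [q]) a * Qs a0 (N + c) l a))
        + ((1 / ((N + c : ℕ) : ℂ)) * e) * FF μ γ (N + c) N
          (fun a => Complex.exp (Xf cc (N + c) a) * (Qp (N + c) k a * Qs a0 (N + c) l a)) := by
      intro N
      rw [← FF_const_mul, ← FF_add]
      congr 1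
      funext a
      rw [Qs_cons, Qp_append, Qp_cons, Qp_nil]
      ring
    have h2 : ∀ N : ℕ, FF μ γ (N + c) N
        (fun a => Complex.exp (Xf cc (N + c) a) * Qp (N + c) (k ++ q :: l) a)
        = FF μ γ (N + c) N
        (fun a => Complex.exp (Xf cc (N + c) a) * Qp (N + c) ((k ++ [q]) ++ l) a) := by
      intro N
      rw [List.append_assoc]
      rfl
    simp_rw [h1, h2]
    have h3 := ih (k ++ [q])
    have h4 := ih k
    -- boundedness of the unshifted functional
    have h5 : Tendsto (fun N => ((1 / ((N + c : ℕ) : ℂ)) * e) * FF μ γ (N + c) N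
          (fun a => Complex.exp (Xf cc (N + c) a) * (Qp (N + c) k a * Qs a0 (N + c) l a)))
        atTop (𝓝 0) := by
      have h6 : Tendsto (fun N : ℕ => ((1 / ((N + c : ℕ) : ℂ)) * e)) atTop (𝓝 0) := by
        have := (tendsto_one_div_nat_add c).mul_const e
        simpa using this
      have h7 : IsBoundedUnder (· ≤ ·) atTop (norm ∘ (fun N => FF μ γ (N + c) N
          (fun a => Complex.exp (Xf cc (N + c) a) * Qp (N + c) (k ++ l) a))) := by
        refine ⟨Real.exp (cn cc), ?_⟩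
        rw [eventually_map]
        exact Eventually.of_forall fun N =>
          FF_exp_bound μ γ hB cc (Nat.le_add_right N c) (k ++ l)
      have h8 : Tendsto (fun N : ℕ => ((1 / ((N + c : ℕ) : ℂ)) * e) * FF μ γ (N + c) N
          (fun a => Complex.exp (Xf cc (N + c) a) * Qp (N + c) (k ++ l) a)) atTop (𝓝 0) :=
        h6.zero_mul_isBoundedUnder_le h7
      have h9 := (h6.mul h4).add h8
      have h10 : (fun N : ℕ => ((1 / ((N + c : ℕ) : ℂ)) * e) * FF μ γ (N + c) N
          (fun a => Complex.exp (Xf cc (N + c) a) * (Qp (N + c) k a * Qs a0 (N + c) l a)))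
          = fun N : ℕ => ((1 / ((N + c : ℕ) : ℂ)) * e) * (FF μ γ (N + c) N
        (fun a => Complex.exp (Xf cc (N + c) a) * (Qp (N + c) k a * Qs a0 (N + c) l a))
      - FF μ γ (N + c) N
        (fun a => Complex.exp (Xf cc (N + c) a) * Qp (N + c) (k ++ l) a))
        + ((1 / ((N + c : ℕ) : ℂ)) * e) * FF μ γ (N + c) N
          (fun a => Complex.exp (Xf cc (N + c) a) * Qp (N + c) (k ++ l) a) := by
        funext N
        ring
      rw [h10]
      simpa using h9
    have h6 := h3.add h5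
    rw [add_zero] at h6
    refine h6.congr fun N => ?_
    ring

/-- the fixed point map at one slice pair -/
noncomputable def Gnext (G : P × P → ℂ) (q : P × P) : ℂ :=
  ∑ a0 : P → Bool, (μ a0 * ((spinSign (a0 q.1) * spinSign (a0 q.2) : ℝ) : ℂ))
    * Complex.exp (∑ q' : P × P, ((cof γ a0 q' : ℝ) : ℂ) * G q')

lemma tendsto_ratio (c : ℕ) :
    Tendsto (fun N : ℕ => (((N : ℂ) + 1) / ((N + (c + 1) : ℕ) : ℂ))) atTop (𝓝 1) := by
  have h1 : Tendsto (fun N : ℕ => (1 : ℂ) - (c : ℂ) * (1 / ((N + (c + 1) : ℕ) : ℂ))) atTop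
      (𝓝 1) := by
    have := (tendsto_one_div_nat_add (c + 1)).const_mul (c : ℂ)
    have h2 := this.const_sub (1 : ℂ)
    simpa using h2
  refine h1.congr fun N => ?_
  have h3 : ((N + (c + 1) : ℕ) : ℂ) ≠ 0 := by
    exact_mod_cast (by omega : N + (c + 1) ≠ 0)
  field_simp
  push_cast
  ring

/-- MAIN general step: convergence for `low` lists implies convergence for all lists. -/
theorem conv_general (hγ : ∑ τ, γ τ = 0) (hB : BddQ μ γ)
    (low : P × P → Prop) (hlow : ∀ q : P × P, γ q.1 ≠ 0 → γ q.2 ≠ 0 → low q)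
    (G : P × P → ℂ)
    (H : ∀ k : List (P × P), (∀ q ∈ k, low q) → ∀ c : ℕ,
      Tendsto (fun N => FF μ γ (N + c) N (Qp (N + c) k)) atTop (𝓝 ((k.map G).prod)))
    (t : List (P × P)) :
    ∀ k : List (P × P), (∀ q ∈ k, low q) → ∀ c : ℕ,
      Tendsto (fun N => FF μ γ (N + c) N (Qp (N + c) (k ++ t))) atTop
        (𝓝 ((k.map G).prod * (t.map (Gnext μ γ G)).prod)) := by
  induction t with
  | nil =>
    intro k hk c
    simpa using H k hk c
  | cons q t ih =>
    intro k hk c
    rw [← tendsto_add_atTop_iff_nat 1]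
    have e1 : ∀ N : ℕ, FF μ γ (N + 1 + c) (N + 1) (Qp (N + 1 + c) (k ++ q :: t))
        = (((N : ℂ) + 1) / ((N + (c + 1) : ℕ) : ℂ)) * ∑ a0,
          (μ a0 * ((spinSign (a0 q.1) * spinSign (a0 q.2) : ℝ) : ℂ))
          * FF μ γ (N + (c + 1)) N (fun a => Complex.exp (Xf (cof γ a0) (N + (c + 1)) a)
              * Qs a0 (N + (c + 1)) (k ++ t) a) := by
      intro N
      have h1 : N + 1 + c = N + (c + 1) := by omega
      rw [h1]
      have h2 : (Qp (N + (c + 1)) (k ++ q :: t) : (Fin (N + 1) → P → Bool) → ℂ)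
          = Qp (N + (c + 1)) (q :: (k ++ t)) := by
        funext a
        rw [Qp_append, Qp_cons, Qp_cons, Qp_append]
        ring
      rw [h2, FF_Qp_peel μ hγ]
    simp_rw [e1]
    have e2 : ∀ a0 : P → Bool, Tendsto (fun N => FF μ γ (N + (c + 1)) N
        (fun a => Complex.exp (Xf (cof γ a0) (N + (c + 1)) a)
              * Qs a0 (N + (c + 1)) (k ++ t) a)) atTop
        (𝓝 (Complex.exp (∑ q', ((cof γ a0 q' : ℝ) : ℂ) * G q')
          * ((k.map G).prod * (t.map (Gnext μ γ G)).prod))) := by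
      intro a0
      have hcc : ∀ q', ¬ low q' → cof γ a0 q' = 0 := by
        intro q' hq'
        by_cases h1 : γ q'.1 = 0
        · simp [cof, h1]
        · by_cases h2 : γ q'.2 = 0
          · simp [cof, h2]
          · exact absurd (hlow q' h1 h2) hq'
      have h1 := conv_exp μ γ hB (cof γ a0) low hcc G ((t.map (Gnext μ γ G)).prod) t (c + 1)
        (fun k' hk' => ih k' hk' (c + 1)) k hk
      have h2 := shift_diff μ γ hB (cof γ a0) a0 (c + 1) (k ++ t) []
      have h3 := h2.add h1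
      rw [zero_add] at h3
      refine h3.congr fun N => ?_
      simp [Qp_nil]
    have e3 : Tendsto (fun N : ℕ => ∑ a0,
          (μ a0 * ((spinSign (a0 q.1) * spinSign (a0 q.2) : ℝ) : ℂ))
          * FF μ γ (N + (c + 1)) N (fun a => Complex.exp (Xf (cof γ a0) (N + (c + 1)) a)
              * Qs a0 (N + (c + 1)) (k ++ t) a)) atTop
        (𝓝 (∑ a0, (μ a0 * ((spinSign (a0 q.1) * spinSign (a0 q.2) : ℝ) : ℂ))
          * (Complex.exp (∑ q', ((cof γ a0 q' : ℝ) : ℂ) * G q')
          * ((k.map G).prod * (t.map (Gnext μ γ G)).prod)))) :=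
      tendsto_finset_sum _ fun a0 _ => Tendsto.const_mul _ (e2 a0)
    have e4 := (tendsto_ratio c).mul e3
    rw [one_mul] at e4
    have e5 : (∑ a0, (μ a0 * ((spinSign (a0 q.1) * spinSign (a0 q.2) : ℝ) : ℂ))
          * (Complex.exp (∑ q', ((cof γ a0 q' : ℝ) : ℂ) * G q')
          * ((k.map G).prod * (t.map (Gnext μ γ G)).prod)))
        = (k.map G).prod * ((q :: t).map (Gnext μ γ G)).prod := by
      rw [List.map_cons, List.prod_cons]
      have : Gnext μ γ G q = ∑ a0 : P → Bool,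
          (μ a0 * ((spinSign (a0 q.1) * spinSign (a0 q.2) : ℝ) : ℂ))
            * Complex.exp (∑ q' : P × P, ((cof γ a0 q' : ℝ) : ℂ) * G q') := rfl
      rw [this, Finset.sum_mul, Finset.mul_sum]
      refine Finset.sum_congr rfl fun a0 _ => ?_
      ring
    rw [e5] at e4
    exact e4

end general

end Crest.Agent.R339.Lim
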