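import Crest.Agent.R339.FEIL716d
import Crest.Agent.R339.Li728D

/-!
# Row 339, part (C), block LI: the level induction and the choice of the baths

Input: the level step (one label is added, one bath is used up).  Output: from
`Good S {l0} c 1` the bound `μ(S)^{3/2} * value ≤ c` for every trigonometric scheme.
-/

set_option autoImplicit false
set_option linter.unusedSectionVars false

noncomputable section

open scoped ComplexConjugate InnerProductSpace Topology
open Filter MeasureTheory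
open Crest.Agent.R339.Li

namespace Crest.Agent.R339.LvI

open Crest.Agent.R339.Trig (gl TP TrigScheme)
open Crest.Agent.R339.FE (lc lc_add lc_neg lc_zero RealGram)
open Crest.Agent.R339.FEIL

variable {Λ H : Type*} [MeasurableSpace Λ] [NormedAddCommGroup H] [InnerProductSpace ℂ H]
  [CompleteSpace H]

/-! ### Existence of baths -/

theorem exists_many_cells (I : ILSys Λ H) {S : Set Λ} (hS : I.Cl S) (hpos : 0 < I.μ.real S)
    (m : ℕ) {ε : ℝ} (hε : 0 < ε) :
    ∃ M : Fin m → Set Λ, (∀ i, I.Cl (M i)) ∧ (∀ i, M i ⊆ S) ∧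
      (Pairwise fun i j => Disjoint (M i) (M j)) ∧ (∀ i, 0 < I.μ.real (M i)) ∧
      ∑ i, I.μ.real (M i) ≤ ε := by
  classical
  obtain ⟨C, hC⟩ := I.Cl_div
  have hSm := I.Cl_meas S hS
  have hCpos : 0 < C := by
    obtain ⟨N, _, _, hcov, hle⟩ := hC 1 one_pos
    have h1 : (⋃ r < 1, N r) = N 0 := by
      ext x; simp
    rw [h1] at hcov
    have := hle 0
    rw [hcov] at this
    simp at this
    linarith
  obtain ⟨R, hR⟩ := exists_nat_gt (max (m * C / I.μ.real S) (m * C / ε))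
  have hR0 : 0 < R := by
    have h0 : (0 : ℝ) ≤ m * C / ε := by positivity
    have : (0 : ℝ) < R := lt_of_le_of_lt (h0.trans (le_max_right _ _)) hR
    exact_mod_cast this
  have hRR : (0 : ℝ) < R := by exact_mod_cast hR0
  obtain ⟨N, hN, hdis, hcov, hle⟩ := hC R hR0
  have hNm : ∀ r, MeasurableSet (N r) := fun r => I.Cl_meas _ (hN r)
  have hsum : I.μ.real S = ∑ r ∈ Finset.range R, I.μ.real (S ∩ N r) := by
    have h1 : S = ⋃ r ∈ Finset.range R, S ∩ N r := by
      ext x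
      simp only [Finset.mem_range, Set.mem_iUnion, Set.mem_inter_iff, exists_and_left, exists_prop]
      constructor
      · intro hx
        have : x ∈ ⋃ r < R, N r := by rw [hcov]; trivial
        simpa [hx] using this
      · intro h
        exact h.1
    conv_lhs => rw [h1]
    rw [measureReal_biUnion_finset]
    · intro i _ j _ hij
      exact (hdis hij).mono Set.inter_subset_right Set.inter_subset_right
    · intro r _; exact hSm.inter (hNm r)
  set s : Finset ℕ := (Finset.range R).filter fun r => 0 < I.μ.real (S ∩ N r) with hs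
  have hcell : ∀ r, I.μ.real (S ∩ N r) ≤ C / R := fun r =>
    (measureReal_mono Set.inter_subset_right).trans (hle r)
  have hsum2 : I.μ.real S ≤ s.card * (C / R) := by
    rw [hsum, ← Finset.sum_filter_add_sum_filter_not (Finset.range R)
      (fun r => 0 < I.μ.real (S ∩ N r))]
    have h2 : ∑ r ∈ (Finset.range R).filter (fun r => ¬ 0 < I.μ.real (S ∩ N r)),
        I.μ.real (S ∩ N r) ≤ 0 := by
      refine Finset.sum_nonpos fun r hr => ?_
      exact not_lt.mp (Finset.mem_filter.mp hr).2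
    have h3 : ∑ r ∈ s, I.μ.real (S ∩ N r) ≤ s.card • (C / R) :=
      Finset.sum_le_card_nsmul _ _ _ fun r _ => hcell r
    rw [nsmul_eq_mul] at h3
    linarith
  have hcard : m ≤ s.card := by
    have h4 : m * C / I.μ.real S < R := lt_of_le_of_lt (le_max_left _ _) hR
    rw [div_lt_iff₀ hpos] at h4
    have h5 : I.μ.real S * R ≤ s.card * C := by
      have := mul_le_mul_of_nonneg_right hsum2 hRR.le
      rwa [mul_assoc, div_mul_cancel₀ _ hRR.ne'] at this
    have h6 : (m : ℝ) * C < s.card * C := by nlinarith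
    have h7 : (m : ℝ) < s.card := lt_of_mul_lt_mul_right h6 hCpos.le
    exact_mod_cast h7.le
  obtain ⟨t, hts, htc⟩ := Finset.exists_subset_card_eq hcard
  set e := t.orderEmbOfFin htc with he
  have hes : ∀ i, e i ∈ s := fun i => hts (Finset.orderEmbOfFin_mem t htc i)
  refine ⟨fun i => S ∩ N (e i), fun i => I.Cl_inter _ _ hS (hN _), fun i => Set.inter_subset_left,
    ?_, ?_, ?_⟩
  · intro i j hij
    exact (hdis (fun h => hij (e.injective h))).mono Set.inter_subset_right Set.inter_subset_right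
  · intro i
    exact (Finset.mem_filter.mp (hes i)).2
  · have h1 : ∑ i : Fin m, I.μ.real (S ∩ N (e i)) ≤ ∑ _i : Fin m, C / R :=
      Finset.sum_le_sum fun i _ => hcell _
    have h2 : m * C / ε < R := lt_of_le_of_lt (le_max_right _ _) hR
    rw [div_lt_iff₀ hε] at h2
    have h3 : (m : ℝ) * (C / R) ≤ ε := by
      rw [← mul_div_assoc, div_le_iff₀ hRR]
      linarith
    simp only [Finset.sum_const, Finset.card_univ, Fintype.card_fin, nsmul_eq_mul] at h1
    exact h1.trans h3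

/-! ### The level step as an interface -/

/-- the level step -/
structure LevelStep (I : ILSys Λ H) (c : ℝ) (Lab : Set Λ → Set Λ → Set H → Prop) : Prop where
  real : ∀ {S Mn : Set Λ} {L : Set H}, Lab S Mn L → ILSys.RealSet L
  init : ∀ {S Mn : Set Λ} {l0 : H}, MeasurableSet S → MeasurableSet Mn → Mn ⊆ S →
    I.P S l0 = 0 → Lab S Mn {l0}
  mono : ∀ {S S' Mn : Set Λ} {L : Set H}, Lab S Mn L → MeasurableSet S' → S' ⊆ S → Lab S' Mn L
  insert : ∀ {S Mn : Set Λ} {L : Set H} {n : ℕ} {a : Fin n → ℝ} {u : Fin n → H} (b : ℝ),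
    Lab S Mn L → MeasurableSet Mn → Mn ⊆ S → (∀ k, u k ∈ Submodule.span ℝ L) →
    Lab S Mn (Insert.insert ((b : ℂ) • I.P Mn (I.fT a u I.Om)) L)
  level : ∀ {S Mn M : Set Λ} {L : Set H} {n : ℕ} {a : Fin n → ℝ} {u : Fin n → H} (b : ℝ),
    Lab S Mn L → I.Cl S → I.Cl M → M ⊆ S → I.Cl Mn → Mn ⊆ S → Disjoint M Mn →
    0 < I.μ.real M → (∀ k, u k ∈ Submodule.span ℝ L) → I.Good S L c 1 →
    I.Good (S \ M) (Insert.insert ((b : ℂ) • I.P Mn (I.fT a u I.Om)) L) c 1

lemma Cl_diff {I : ILSys Λ H} {A B : Set Λ} (hA : I.Cl A) (hB : I.Cl B) : I.Cl (A \ B) := by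
  rw [Set.sdiff_eq]; exact I.Cl_inter _ _ hA (I.Cl_compl _ hB)

/-- the region left after `j` baths -/
def reg {m : ℕ} (S : Set Λ) (M : Fin m → Set Λ) (j : ℕ) : Set Λ :=
  S \ ⋃ (i : Fin m) (_ : (i : ℕ) < j), M i

lemma reg_zero {m : ℕ} (S : Set Λ) (M : Fin m → Set Λ) : reg S M 0 = S := by
  simp [reg]

lemma reg_succ {m : ℕ} (S : Set Λ) (M : Fin m → Set Λ) (j : Fin m) :
    reg S M (j + 1) = reg S M j \ M j := by
  unfold reg
  ext x
  simp only [Set.mem_sdiff, Set.mem_iUnion, exists_prop, not_exists, not_and]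
  constructor
  · rintro ⟨hx, h⟩
    exact ⟨⟨hx, fun i hi => h i (by omega)⟩, h j (by omega)⟩
  · rintro ⟨⟨hx, h⟩, hj⟩
    refine ⟨hx, fun i hi => ?_⟩
    rcases Nat.lt_succ_iff_lt_or_eq.mp hi with h1 | h1
    · exact h i h1
    · have : i = j := Fin.ext h1
      rw [this]; exact hj

lemma reg_top_subset {m : ℕ} (S : Set Λ) (M : Fin m → Set Λ) (j : ℕ) :
    reg S M m ⊆ reg S M j := by
  unfold reg
  refine Set.sdiff_subset_sdiff_right ?_
  refine Set.iUnion_subset fun i => Set.iUnion_subset fun _ => ?_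
  exact Set.subset_iUnion₂_of_subset i i.2 subset_rfl

lemma reg_subset {m : ℕ} (S : Set Λ) (M : Fin m → Set Λ) (j : ℕ) : reg S M j ⊆ S :=
  Set.sdiff_subset

lemma Cl_reg {I : ILSys Λ H} {m : ℕ} {S : Set Λ} (hS : I.Cl S) {M : Fin m → Set Λ}
    (hM : ∀ i, I.Cl (M i)) (j : ℕ) (hj : j ≤ m) : I.Cl (reg S M j) := by
  induction j with
  | zero => rw [reg_zero]; exact hS
  | succ j ih =>
    have := reg_succ S M ⟨j, hj⟩
    simp only at this
    rw [this]
    exact Cl_diff (ih (by omega)) (hM _)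

/-- the labels after `j` steps -/
def labs {m : ℕ} (l : Fin (m + 1) → H) (j : ℕ) : Set H := {x | ∃ i : Fin (m + 1), (i : ℕ) ≤ j ∧ l i = x}

lemma labs_zero {m : ℕ} (l : Fin (m + 1) → H) : labs l 0 = {l 0} := by
  ext x
  simp only [labs, nonpos_iff_eq_zero, Set.mem_ofPred_eq, Set.mem_singleton_iff]
  constructor
  · rintro ⟨i, hi, rfl⟩
    have : i = 0 := Fin.ext hi
    rw [this]
  · rintro rfl
    exact ⟨0, rfl, rfl⟩

lemma labs_succ {m : ℕ} (l : Fin (m + 1) → H) (j : Fin m) :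
    labs l (j + 1) = Insert.insert (l j.succ) (labs l j) := by
  ext x
  simp only [labs, Set.mem_ofPred_eq, Set.mem_insert_iff]
  constructor
  · rintro ⟨i, hi, rfl⟩
    rcases Nat.le_succ_iff.mp hi with h1 | h1
    · exact Or.inr ⟨i, h1, rfl⟩
    · left
      have : i = j.succ := Fin.ext (by simpa using h1)
      rw [this]
  · rintro (rfl | ⟨i, hi, rfl⟩)
    · exact ⟨j.succ, by simp, rfl⟩
    · exact ⟨i, by omega, rfl⟩

lemma mem_labs {m : ℕ} (l : Fin (m + 1) → H) (i : Fin (m + 1)) : l i ∈ labs l m :=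
  ⟨i, Nat.lt_succ_iff.mp i.2, rfl⟩

lemma lc_mem_span {m : ℕ} (l : Fin (m + 1) → H) (a : Fin (m + 1) → ℝ) (j : ℕ)
    (ha : ∀ i : Fin (m + 1), j < (i : ℕ) → a i = 0) : lc l a ∈ Submodule.span ℝ (labs l j) := by
  unfold lc
  refine Submodule.sum_mem _ fun i _ => ?_
  by_cases hi : (i : ℕ) ≤ j
  · rw [Complex.coe_smul]
    exact Submodule.smul_mem _ _ (Submodule.subset_span ⟨i, hi, rfl⟩)
  · rw [ha i (not_le.mp hi), Complex.ofReal_zero, zero_smul]
    exact Submodule.zero_mem _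

/-- **the level induction** -/
theorem level_induction {I : ILSys Λ H} {c : ℝ} {Lab : Set Λ → Set Λ → Set H → Prop}
    (hst : LevelStep I c Lab) {m : ℕ} (T : TrigScheme m) {S : Set Λ} (hS : I.Cl S)
    {M : Fin m → Set Λ} (hM : ∀ i, I.Cl (M i)) (hMS : ∀ i, M i ⊆ S)
    (hdis : Pairwise fun i j => Disjoint (M i) (M j)) (hMpos : ∀ i, 0 < I.μ.real (M i))
    {l : Fin (m + 1) → H} (hl : LabelsIL T I (reg S M m) l) (h0 : I.P S (l 0) = 0)
    (hgood : I.Good S {l 0} c 1) (j : ℕ) (hj : j ≤ m) :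
    Lab (reg S M j) (reg S M m) (labs l j) ∧ I.Good (reg S M j) (labs l j) c 1 := by
  have hMnCl : I.Cl (reg S M m) := Cl_reg hS hM m le_rfl
  have hMn := I.Cl_meas _ hMnCl
  induction j with
  | zero =>
    rw [reg_zero, labs_zero]
    exact ⟨hst.init (I.Cl_meas _ hS) hMn (reg_subset _ _ _) h0, hgood⟩
  | succ j ih =>
    obtain ⟨ih1, ih2⟩ := ih (by omega)
    set jj : Fin m := ⟨j, hj⟩ with hjj
    have e1 : reg S M (j + 1) = reg S M j \ M jj := reg_succ S M jj
    have e2 : labs l (j + 1) = Insert.insert (l jj.succ) (labs l j) := labs_succ l jj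
    have e3 : l jj.succ = (((Real.sqrt (I.μ.real (reg S M m)))⁻¹ : ℝ) : ℂ) •
        I.P (reg S M m) (I.fT (T.T jj).c (fun k => lc l ((T.T jj).a k)) I.Om) := by
      rw [hl.succ jj, fldI_eq]; rfl
    have hu : ∀ k, lc l ((T.T jj).a k) ∈ Submodule.span ℝ (labs l j) := by
      intro k
      refine lc_mem_span l _ j fun i hi => ?_
      exact T.causal jj k i (by rw [Fin.lt_def, Fin.val_castSucc]; exact hi)
    have hMj : M jj ⊆ reg S M j := by
      intro x hx
      refine ⟨hMS _ hx, ?_⟩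
      simp only [Set.mem_iUnion, exists_prop, not_exists, not_and]
      intro i hi hxi
      have hne : i ≠ jj := by
        intro h; rw [h] at hi; simp [hjj] at hi
      exact (Set.disjoint_left.mp (hdis hne)) hxi hx
    have hdj : Disjoint (M jj) (reg S M m) := by
      rw [Set.disjoint_left]
      intro x hx hx2
      refine hx2.2 ?_
      simp only [Set.mem_iUnion, exists_prop]
      exact ⟨jj, jj.2, hx⟩
    have hClj : I.Cl (reg S M j) := Cl_reg hS hM j (by omega)
    have hClj' : I.Cl (reg S M (j + 1)) := Cl_reg hS hM (j + 1) hj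
    refine ⟨?_, ?_⟩
    · rw [e2, e3]
      refine hst.mono (hst.insert _ ih1 hMn (reg_top_subset _ _ _) hu) (I.Cl_meas _ hClj') ?_
      rw [e1]; exact Set.sdiff_subset
    · rw [e1, e2, e3]
      exact hst.level _ ih1 hClj (hM jj) hMj hMnCl (reg_top_subset _ _ _) hdj (hMpos jj) hu ih2

/-- the bound with fixed baths -/
theorem bound_of_baths {I : ILSys Λ H} {c : ℝ} {Lab : Set Λ → Set Λ → Set H → Prop}
    (hst : LevelStep I c Lab) {m : ℕ} (T : TrigScheme m) {S : Set Λ} (hS : I.Cl S)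
    {M : Fin m → Set Λ} (hM : ∀ i, I.Cl (M i)) (hMS : ∀ i, M i ⊆ S)
    (hdis : Pairwise fun i j => Disjoint (M i) (M j)) (hMpos : ∀ i, 0 < I.μ.real (M i))
    (hpos : 0 < I.μ.real (reg S M m)) {l0 : H} (hn : ‖l0‖ = 1) (h0 : I.P S l0 = 0)
    (hZ : (⟪I.Z I.Om, l0⟫_ℂ).re = 0) (hgood : I.Good S {l0} c 1) :
    I.μ.real (reg S M m) * Real.sqrt (I.μ.real (reg S M m)) * T.value ≤ c := by
  have hSm := I.Cl_meas _ hS
  have hACl := Cl_reg hS hM m le_rfl
  have hA := I.Cl_meas _ hACl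
  have hAS : reg S M m ⊆ S := reg_subset _ _ _
  have hPA : I.P (reg S M m) l0 = 0 := by
    have : I.P (reg S M m) = I.P (reg S M m) * I.P S := by
      rw [← I.P_inter _ _ hA hSm, Set.inter_eq_left.mpr hAS]
    rw [this, mul_apply_eq_comp]
    show I.P (reg S M m) (I.P S l0) = 0
    rw [h0, map_zero]
  have horth : ∀ v, ⟪l0, I.P (reg S M m) v⟫_ℂ = 0 := by
    intro v
    rw [← inner_P_left hA, hPA, inner_zero_left]
  obtain ⟨l, hl0, hl⟩ := exists_labelsIL T I (reg S M m) hn horth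
  obtain ⟨h1, h2⟩ := level_induction hst T hS hM hMS hdis hMpos hl (by rw [hl0]; exact h0)
    (by rw [hl0]; exact hgood) m le_rfl
  refine final_step (L := labs l m) hACl subset_rfl hpos hl (fun i => mem_labs l i) (hst.real h1)
    ?_ h2
  rw [hl0, inner_P_left hA.compl]
  have h3 : I.P (reg S M m)ᶜ l0 = l0 := by
    have := ILSys.P_compl_add (I := I) hA
    have h4 : I.P (reg S M m)ᶜ l0 + I.P (reg S M m) l0 = l0 := by
      have h5 := congrArg (fun B : H →L[ℂ] H => B l0) this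
      simpa using h5
    rwa [hPA, add_zero] at h4
  rw [h3]; exact hZ

/-- **LI**: the final bound -/
theorem bound {I : ILSys Λ H} {c : ℝ} {Lab : Set Λ → Set Λ → Set H → Prop}
    (hst : LevelStep I c Lab) {m : ℕ} (T : TrigScheme m) {S : Set Λ} (hS : I.Cl S)
    (hpos : 0 < I.μ.real S) {l0 : H} (hn : ‖l0‖ = 1) (h0 : I.P S l0 = 0)
    (hZ : (⟪I.Z I.Om, l0⟫_ℂ).re = 0) (hgood : I.Good S {l0} c 1) :
    I.μ.real S * Real.sqrt (I.μ.real S) * T.value ≤ c := by
  have hSm := I.Cl_meas _ hS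
  have key : ∀ ε : ℝ, 0 < ε → ε < I.μ.real S → ∃ p : ℝ, I.μ.real S - ε ≤ p ∧ p ≤ I.μ.real S ∧
      p * Real.sqrt p * T.value ≤ c := by
    intro ε hε hεS
    obtain ⟨M, hM, hMS, hdis, hMpos, hMsum⟩ := exists_many_cells I hS hpos m hε
    have hsub : reg S M m = S \ ⋃ i, M i := by
      unfold reg
      congr 1
      ext x
      simp only [Set.mem_iUnion, exists_prop]
      exact ⟨fun ⟨i, _, h⟩ => ⟨i, h⟩, fun ⟨i, h⟩ => ⟨i, i.2, h⟩⟩
    have hmeas : I.μ.real S - ε ≤ I.μ.real (reg S M m) := by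
      have h1 : I.μ.real (⋃ i, M i) ≤ ∑ i, I.μ.real (M i) := measureReal_iUnion_fintype_le _
      have h2 : I.μ.real S ≤ I.μ.real (S \ ⋃ i, M i) + I.μ.real (⋃ i, M i) := by
        have := measureReal_union_le (μ := I.μ) (S \ ⋃ i, M i) (⋃ i, M i)
        refine le_trans (measureReal_mono ?_) this
        rw [Set.sdiff_union_self]
        exact Set.subset_union_left
      rw [hsub]
      linarith
    refine ⟨I.μ.real (reg S M m), hmeas, measureReal_mono (reg_subset _ _ _), ?_⟩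
    exact bound_of_baths hst T hS hM hMS hdis hMpos (by linarith) hn h0 hZ hgood
  choose! p hp1 hp2 hp3 using key
  have hlim : Tendsto p (𝓝[>] 0) (𝓝 (I.μ.real S)) := by
    have hl1 : Tendsto (fun ε : ℝ => I.μ.real S - ε) (𝓝[>] 0) (𝓝 (I.μ.real S)) := by
      have : Tendsto (fun ε : ℝ => I.μ.real S - ε) (𝓝 0) (𝓝 (I.μ.real S - 0)) :=
        tendsto_const_nhds.sub tendsto_id
      rw [sub_zero] at this
      exact this.mono_left nhdsWithin_le_nhds
    have hev : ∀ᶠ ε : ℝ in 𝓝[>] 0, 0 < ε ∧ ε < I.μ.real S := by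
      have := Ioo_mem_nhdsGT hpos
      filter_upwards [this] with ε hε
      exact hε
    refine tendsto_of_tendsto_of_tendsto_of_le_of_le' hl1 tendsto_const_nhds ?_ ?_
    · filter_upwards [hev] with ε hε using hp1 ε hε.1 hε.2
    · filter_upwards [hev] with ε hε using hp2 ε hε.1 hε.2
  have hfin : Tendsto (fun ε => p ε * Real.sqrt (p ε) * T.value) (𝓝[>] 0)
      (𝓝 (I.μ.real S * Real.sqrt (I.μ.real S) * T.value)) :=
    (hlim.mul ((Real.continuous_sqrt.tendsto _).comp hlim)).mul_const _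
  refine le_of_tendsto hfin ?_
  have := Ioo_mem_nhdsGT hpos
  filter_upwards [this] with ε hε using hp3 ε hε.1 hε.2

/-- the limit of small antennas -/
theorem value_le_of_forall {v c : ℝ} (h : ∀ δ : ℝ, 0 < δ → δ < 1 →
    ∃ p : ℝ, 1 - δ ≤ p ∧ p ≤ 1 ∧ p * Real.sqrt p * v ≤ c) : v ≤ c := by
  choose! p hp1 hp2 hp3 using h
  have hlim : Tendsto p (𝓝[>] 0) (𝓝 1) := by
    have hl1 : Tendsto (fun ε : ℝ => 1 - ε) (𝓝[>] 0) (𝓝 1) := by
      have : Tendsto (fun ε : ℝ => 1 - ε) (𝓝 0) (𝓝 (1 - 0)) := tendsto_const_nhds.sub tendsto_id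
      rw [sub_zero] at this
      exact this.mono_left nhdsWithin_le_nhds
    have hev := Ioo_mem_nhdsGT (show (0 : ℝ) < 1 by norm_num)
    refine tendsto_of_tendsto_of_tendsto_of_le_of_le' hl1 tendsto_const_nhds ?_ ?_
    · filter_upwards [hev] with ε hε using hp1 ε hε.1 hε.2
    · filter_upwards [hev] with ε hε using hp2 ε hε.1 hε.2
  have hfin : Tendsto (fun ε => p ε * Real.sqrt (p ε) * v) (𝓝[>] 0) (𝓝 (1 * Real.sqrt 1 * v)) :=
    (hlim.mul ((Real.continuous_sqrt.tendsto _).comp hlim)).mul_const _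
  rw [Real.sqrt_one, one_mul, one_mul] at hfin
  refine le_of_tendsto hfin ?_
  have := Ioo_mem_nhdsGT (show (0 : ℝ) < 1 by norm_num)
  filter_upwards [this] with ε hε using hp3 ε hε.1 hε.2

end Crest.Agent.R339.LvI
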