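import Crest.Agent.R339.MF569A
import Crest.Agent.R339.Li728C

/-!
# R339, block LI (G1): joint moves of a node word and its two partner classes (helper569)
-/

set_option autoImplicit false
set_option linter.style.haveILetI false
set_option linter.unusedSectionVars false

noncomputable section

open scoped ComplexConjugate InnerProductSpace Topology
open Filter MeasureTheory NormedSpace

namespace Crest.Agent.R339.MF

open Crest.Agent.R339.Li Crest.Agent.R339.Li.ILSys Crest.Agent.R339.Trot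

variable {Λ H : Type*} [MeasurableSpace Λ] [NormedAddCommGroup H] [InnerProductSpace ℂ H]
  [CompleteSpace H]

/-- kick vector `P_N U* c U Om` -/
def kv (I : ILSys Λ H) (N : Set Λ) (U : UH H) (c : H →L[ℂ] H) : H :=
  I.P N (star (U : H →L[ℂ] H) (c ((U : H →L[ℂ] H) I.Om)))

variable {I : ILSys Λ H}

lemma kv_add (N : Set Λ) (U : UH H) (c c' : H →L[ℂ] H) :
    kv I N U (c + c') = kv I N U c + kv I N U c' := by
  simp [kv]

lemma kv_smul (N : Set Λ) (U : UH H) (a : ℂ) (c : H →L[ℂ] H) :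
    kv I N U (a • c) = a • kv I N U c := by
  simp [kv]

lemma kv_rsmul (N : Set Λ) (U : UH H) (a : ℝ) (c : H →L[ℂ] H) :
    kv I N U (a • c) = (a : ℂ) • kv I N U c := by
  rw [← kv_smul]; rfl

lemma kv_zero (N : Set Λ) (U : UH H) : kv I N U 0 = 0 := by simp [kv]

lemma kv_Z (N : Set Λ) (U : UH H) : kv I N U I.Z = I.eA N U := rfl

lemma tendsto_kv (N : Set Λ) (U : UH H) {α : Type*} {l : Filter α} {c : α → H →L[ℂ] H}
    {c₀ : H →L[ℂ] H} (hc : Tendsto c l (𝓝 c₀)) :
    Tendsto (fun i => kv I N U (c i)) l (𝓝 (kv I N U c₀)) := by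
  have h1 : Tendsto (fun i => (c i) ((U : H →L[ℂ] H) I.Om)) l
      (𝓝 (c₀ ((U : H →L[ℂ] H) I.Om))) :=
    ((ContinuousLinearMap.apply ℂ H ((U : H →L[ℂ] H) I.Om)).continuous.tendsto _).comp hc
  exact ((I.P N).continuous.tendsto _).comp
    (((star (U : H →L[ℂ] H)).continuous.tendsto _).comp h1)

/-- the kick vector only depends on the block of `U` on `N` -/
lemma kv_congr {N : Set Λ} (hN : MeasurableSet N) {U V g : UH H} (hU : PC I (U : H →L[ℂ] H))
    (hV : PC I (V : H →L[ℂ] H)) (hg : PC I (g : H →L[ℂ] H)) {c : H →L[ℂ] H} (hc : PC I c)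
    (h : I.P N * (V : H →L[ℂ] H) = I.P N * ((g : H →L[ℂ] H) * U)) :
    kv I N V c = kv I N U (star (g : H →L[ℂ] H) * (c * (g : H →L[ℂ] H))) := by
  have hs : star (V : H →L[ℂ] H) * I.P N = star (U : H →L[ℂ] H) * (star (g : H →L[ℂ] H) * I.P N) := by
    have := congrArg Star.star h
    rw [star_mul, star_mul, star_mul, I.P_star N hN] at this
    rw [this]
    rw [mul_assoc]
  have e1 : I.P N * (star (V : H →L[ℂ] H) * (c * V))
      = (star (V : H →L[ℂ] H) * I.P N) * (c * (I.P N * V)) := by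
    calc I.P N * (star (V : H →L[ℂ] H) * (c * V))
        = (I.P N * I.P N) * (star (V : H →L[ℂ] H) * (c * V)) := by rw [P_sq hN]
      _ = I.P N * ((I.P N * star (V : H →L[ℂ] H)) * (c * V)) := by simp only [mul_assoc]
      _ = I.P N * ((star (V : H →L[ℂ] H) * I.P N) * (c * V)) := by rw [(hV.star N hN).eq]
      _ = (I.P N * star (V : H →L[ℂ] H)) * ((I.P N * c) * V) := by simp only [mul_assoc]
      _ = (star (V : H →L[ℂ] H) * I.P N) * ((c * I.P N) * V) := by
          rw [(hV.star N hN).eq, (hc N hN).eq]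
      _ = _ := by simp only [mul_assoc]
  have e2 : I.P N * (star (U : H →L[ℂ] H) * ((star (g : H →L[ℂ] H) * (c * g)) * U))
      = (star (U : H →L[ℂ] H) * (star (g : H →L[ℂ] H) * I.P N)) * (c * (I.P N * (g * U))) := by
    calc I.P N * (star (U : H →L[ℂ] H) * ((star (g : H →L[ℂ] H) * (c * g)) * U))
        = (I.P N * I.P N) * (star (U : H →L[ℂ] H) * ((star (g : H →L[ℂ] H) * (c * g)) * U)) := by
          rw [P_sq hN]
      _ = I.P N * ((I.P N * star (U : H →L[ℂ] H)) * ((star (g : H →L[ℂ] H) * (c * g)) * U)) := by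
          simp only [mul_assoc]
      _ = I.P N * ((star (U : H →L[ℂ] H) * I.P N) * ((star (g : H →L[ℂ] H) * (c * g)) * U)) := by
          rw [(hU.star N hN).eq]
      _ = (I.P N * star (U : H →L[ℂ] H)) * ((I.P N * star (g : H →L[ℂ] H)) * (c * (g * U))) := by
          simp only [mul_assoc]
      _ = (star (U : H →L[ℂ] H) * I.P N) * ((star (g : H →L[ℂ] H) * I.P N) * (c * (g * U))) := by
          rw [(hU.star N hN).eq, (hg.star N hN).eq]
      _ = star (U : H →L[ℂ] H) * ((I.P N * star (g : H →L[ℂ] H)) * ((I.P N * c) * (g * U))) := by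
          simp only [mul_assoc]
      _ = star (U : H →L[ℂ] H) * ((star (g : H →L[ℂ] H) * I.P N) * ((c * I.P N) * (g * U))) := by
          rw [(hg.star N hN).eq, (hc N hN).eq]
      _ = _ := by simp only [mul_assoc]
  have e : I.P N * (star (V : H →L[ℂ] H) * (c * V))
      = I.P N * (star (U : H →L[ℂ] H) * ((star (g : H →L[ℂ] H) * (c * g)) * U)) := by
    rw [e1, e2, hs, h]
  exact congrArg (fun T : H →L[ℂ] H => T I.Om) e

section Monoid

variable {N A M : Set Λ} (hN : MeasurableSet N) (hA : MeasurableSet A) (hM : MeasurableSet M)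

/-- the joint move of the node word `g` with partner cocycles `m i = g * c i` -/
def jm (g : UH H) (hg : PC I (g : H →L[ℂ] H)) (m : Fin 2 → (H →L[ℂ] H)) (U : UH H) : UH H :=
  nd I hN g hg * (I.cst hA (kv I N U (star (g : H →L[ℂ] H) * m 0)) *
    (I.cst hM (kv I N U (star (g : H →L[ℂ] H) * m 1)) * U))

/-- `P_N` sees only the node part -/
lemma P_nd (hN : MeasurableSet N) (g : H →L[ℂ] H) : I.P N * I.blk N g = I.P N * g := by
  rw [ILSys.blk, mul_add, ← mul_assoc, P_sq hN, P_disj hN hN.compl disjoint_compl_right, zero_add]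

lemma P_blk_disj (hN : MeasurableSet N) (hA : MeasurableSet A) (hd : Disjoint N A) (b : H →L[ℂ] H) : I.P N * I.blk A b = I.P N := by
  have e : I.P Aᶜ = 1 - I.P A := by rw [← P_compl_add (I := I) hA]; abel
  rw [ILSys.blk, mul_add, ← mul_assoc, P_disj hN hA hd, zero_mul, add_zero, e, mul_sub, mul_one,
    P_disj hN hA hd, sub_zero]

lemma PC_jm {g : UH H} (hg : PC I (g : H →L[ℂ] H)) (m : Fin 2 → (H →L[ℂ] H)) {U : UH H}
    (hU : PC I (U : H →L[ℂ] H)) : PC I ((jm hN hA hM g hg m U : UH H) : H →L[ℂ] H) :=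
  (PC.blk hN hg).mul ((PC.blk hA (PC.zW _)).mul ((PC.blk hM (PC.zW _)).mul hU))

lemma P_jm {g : UH H} (hg : PC I (g : H →L[ℂ] H)) (m : Fin 2 → (H →L[ℂ] H)) {U : UH H}
    (hNA : Disjoint N A) (hNM : Disjoint N M) :
    I.P N * ((jm hN hA hM g hg m U : UH H) : H →L[ℂ] H) = I.P N * ((g : H →L[ℂ] H) * U) := by
  show I.P N * (I.blk N (g : H →L[ℂ] H) * (I.blk A (I.zW _) * (I.blk M (I.zW _) * U))) = _
  rw [← mul_assoc, P_nd hN, (hg N hN).eq, mul_assoc, ← mul_assoc (I.P N), P_blk_disj hN hA hNA,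
    ← mul_assoc (I.P N), P_blk_disj hN hM hNM, ← mul_assoc, ← (hg N hN).eq, mul_assoc]

/-- `e_A` is not changed by a block gate commuting with `Z` on `A` or outside `A` -/
lemma eA_mul_of_comm {B : Set Λ} (hB : MeasurableSet B) {T U : UH H}
    (hU : PC I (U : H →L[ℂ] H))
    (h : I.P B * (star (T : H →L[ℂ] H) * (I.Z * (T : H →L[ℂ] H))) = I.P B * I.Z) :
    I.eA B (T * U) = I.eA B U := by
  have e : I.P B * (star ((T : H →L[ℂ] H) * (U : H →L[ℂ] H)) * (I.Z * ((T : H →L[ℂ] H) * U)))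
      = I.P B * (star (U : H →L[ℂ] H) * (I.Z * U)) := by
    rw [star_mul]
    calc I.P B * (star (U : H →L[ℂ] H) * star (T : H →L[ℂ] H) * (I.Z * ((T : H →L[ℂ] H) * U)))
        = (I.P B * star (U : H →L[ℂ] H)) *
            ((star (T : H →L[ℂ] H) * (I.Z * (T : H →L[ℂ] H))) * U) := by simp only [mul_assoc]
      _ = star (U : H →L[ℂ] H) * ((I.P B * (star (T : H →L[ℂ] H) * (I.Z * (T : H →L[ℂ] H)))) * U) := by
          rw [(hU.star B hB).eq]; simp only [mul_assoc]
      _ = (star (U : H →L[ℂ] H) * I.P B) * (I.Z * U) := by rw [h]; simp only [mul_assoc]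
      _ = _ := by rw [← (hU.star B hB).eq]; simp only [mul_assoc]
  exact congrArg (fun T : H →L[ℂ] H => T I.Om) e

/-- operators which commute with `Z` on `B` (in block form) do not change `e_B` -/
lemma eA_blk_self {B : Set Λ} (hB : MeasurableSet B) {b : UH H} (hb : PC I (b : H →L[ℂ] H))
    (hz : Commute I.Z (b : H →L[ℂ] H)) {U : UH H} (hU : PC I (U : H →L[ℂ] H)) (D : Set Λ)
    (hD : MeasurableSet D) : I.eA B (nd I hD b hb * U) = I.eA B U := by
  refine eA_mul_of_comm hB hU ?_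
  have hz' : Commute I.Z (I.blk D (b : H →L[ℂ] H)) :=
    (P_Z hD.compl).symm.add_right ((P_Z hD).symm.mul_right hz)
  have hu : star ((nd I hD b hb : UH H) : H →L[ℂ] H) * ((nd I hD b hb : UH H) : H →L[ℂ] H) = 1 :=
    star_U_mul_self _
  calc I.P B * (star ((nd I hD b hb : UH H) : H →L[ℂ] H) * (I.Z * ((nd I hD b hb : UH H) : H →L[ℂ] H)))
      = I.P B * (star ((nd I hD b hb : UH H) : H →L[ℂ] H) * (((nd I hD b hb : UH H) : H →L[ℂ] H) * I.Z)) := by
        have : I.Z * ((nd I hD b hb : UH H) : H →L[ℂ] H) = ((nd I hD b hb : UH H) : H →L[ℂ] H) * I.Z :=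
          hz'.eq
        rw [this]
    _ = _ := by rw [← mul_assoc (star _), hu, one_mul]

/-- configurations with prescribed partner fields -/
structure Dom (I : ILSys Λ H) (A M : Set Λ) (h q : H) (U : UH H) : Prop where
  pc : PC I (U : H →L[ℂ] H)
  fA : I.eA A U = h
  fM : I.eA M U = q

lemma Z_zW (f : H) : Commute I.Z (I.zW f) :=
  ((show Commute I.Z I.Ep by
      show I.Z * I.Ep = I.Ep * I.Z
      rw [ILSys.Z, ILSys.Ep, ← map_mul, ← map_mul, zM, dM_mul, dM_mul]; norm_num).mul_right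
      (Z_W _)).add_right
  ((show Commute I.Z I.Em by
      show I.Z * I.Em = I.Em * I.Z
      rw [ILSys.Z, ILSys.Em, ← map_mul, ← map_mul, zM, dM_mul, dM_mul]; norm_num).mul_right (Z_W _))

/-- `zW f` as a unitary -/
def zU (I : ILSys Λ H) (f : H) : UH H :=
  ⟨I.zW f, by rw [Unitary.mem_iff, star_zW]; exact ⟨zW_neg_mul f, zW_mul_neg f⟩⟩

lemma PC_zU (f : H) : PC I ((zU I f : UH H) : H →L[ℂ] H) := PC.zW f

lemma cst_eq_nd {D : Set Λ} (hD : MeasurableSet D) (f : H) : I.cst hD f = nd I hD (zU I f) (PC_zU f) :=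
  rfl

lemma eA_cst {B D : Set Λ} (hB : MeasurableSet B) (hD : MeasurableSet D) (f : H) {U : UH H}
    (hU : PC I (U : H →L[ℂ] H)) : I.eA B (I.cst hD f * U) = I.eA B U := by
  rw [cst_eq_nd]
  exact eA_blk_self hB (PC_zU f) (Z_zW f) hU D hD

lemma eA_nd_disj {B D : Set Λ} (hB : MeasurableSet B) (hD : MeasurableSet D) (hd : Disjoint B D)
    {b : UH H} (hb : PC I (b : H →L[ℂ] H)) {U : UH H} (hU : PC I (U : H →L[ℂ] H)) :
    I.eA B (nd I hD b hb * U) = I.eA B U := by
  refine eA_mul_of_comm hB hU ?_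
  have h1 : I.P B * ((nd I hD b hb : UH H) : H →L[ℂ] H) = I.P B := P_blk_disj hB hD hd _
  have h2 : I.P B * star ((nd I hD b hb : UH H) : H →L[ℂ] H) = I.P B := by
    have e := congrArg Star.star h1
    rw [star_mul, I.P_star B hB] at e
    have e3 : I.P B * star ((nd I hD b hb : UH H) : H →L[ℂ] H)
        = star ((nd I hD b hb : UH H) : H →L[ℂ] H) * I.P B := ((PC.blk hD hb).star B hB).eq
    rw [e3]; exact e
  rw [← mul_assoc, h2, ← mul_assoc, (P_Z hB).eq, mul_assoc, h1]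

lemma Dom.cst {h q : H} {U : UH H} (hU : Dom I A M h q U) (hA : MeasurableSet A)
    (hM : MeasurableSet M) {D : Set Λ} (hD : MeasurableSet D) (f : H) :
    Dom I A M h q (I.cst hD f * U) :=
  ⟨(PC.blk hD (PC.zW f)).mul hU.pc, by rw [eA_cst hA hD f hU.pc]; exact hU.fA,
    by rw [eA_cst hM hD f hU.pc]; exact hU.fM⟩

lemma Dom.nd {h q : H} {U : UH H} (hU : Dom I A M h q U) (hA : MeasurableSet A)
    (hM : MeasurableSet M) {D : Set Λ} (hD : MeasurableSet D) (hAD : Disjoint A D)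
    (hMD : Disjoint M D) {b : UH H} (hb : PC I (b : H →L[ℂ] H)) :
    Dom I A M h q (nd I hD b hb * U) :=
  ⟨(PC.blk hD hb).mul hU.pc, by rw [eA_nd_disj hA hD hAD hb hU.pc]; exact hU.fA,
    by rw [eA_nd_disj hM hD hMD hb hU.pc]; exact hU.fM⟩

lemma Dom_jm {h q : H} {U : UH H} (hU : Dom I A M h q U) (hNA : Disjoint N A) (hNM : Disjoint N M)
    {g : UH H} (hg : PC I (g : H →L[ℂ] H)) (m : Fin 2 → (H →L[ℂ] H)) :
    Dom I A M h q (jm hN hA hM g hg m U) :=
  ((hU.cst hA hM hM _).cst hA hM hA _).nd hA hM hN hNA.symm hNM.symm hg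

lemma grp_aux {G : Type*} [Monoid G] {n n' nn a a' aa m m' mm θa θm U : G}
    (c1 : n' * m = m * n') (c2 : n' * a = a * n') (c3 : a' * m = m * a') (p1 : a * a' = θa * aa)
    (p2 : m * m' = θm * mm) (p0 : n * n' = nn) (d1 : nn * θa = θa * nn) (d2 : nn * θm = θm * nn)
    (d3 : aa * θm = θm * aa) :
    n * (a * (m * (n' * (a' * (m' * U))))) = θa * (θm * (nn * (aa * (mm * U)))) := by
  calc n * (a * (m * (n' * (a' * (m' * U)))))
      = n * (a * ((m * n') * (a' * (m' * U)))) := by simp only [mul_assoc]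
    _ = n * ((a * n') * ((m * a') * (m' * U))) := by rw [← c1]; simp only [mul_assoc]
    _ = (n * n') * ((a * a') * ((m * m') * U)) := by rw [← c2, ← c3]; simp only [mul_assoc]
    _ = (nn * θa) * ((aa * θm) * (mm * U)) := by rw [p0, p1, p2]; simp only [mul_assoc]
    _ = θa * ((nn * θm) * (aa * (mm * U))) := by rw [d1, d3]; simp only [mul_assoc]
    _ = _ := by rw [d2]; simp only [mul_assoc]

/-- composition law of joint moves, up to class phases -/
lemma jm_jm (hNA : Disjoint N A) (hNM : Disjoint N M) (hAM : Disjoint A M)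
    {g g' : UH H} (hg : PC I (g : H →L[ℂ] H)) (hg' : PC I (g' : H →L[ℂ] H))
    {m m' m'' : Fin 2 → (H →L[ℂ] H)} (hm : ∀ i, PC I (m i))
    (hm'' : ∀ i, m'' i = g * m' i + m i * g')
    (hgg : PC I ((g * g' : UH H) : H →L[ℂ] H)) {U : UH H} (hU : PC I (U : H →L[ℂ] H)) :
    ∃ θ θ' : ℝ, jm hN hA hM g hg m (jm hN hA hM g' hg' m' U) =
      phc (I := I) hA θ * (phc (I := I) hM θ' * jm hN hA hM (g * g') hgg m'' U) := by
  set U1 := jm hN hA hM g' hg' m' U with hU1
  have hkv : ∀ i, kv I N U1 (star (g : H →L[ℂ] H) * m i) =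
      kv I N U (star (g' : H →L[ℂ] H) * ((star (g : H →L[ℂ] H) * m i) * (g' : H →L[ℂ] H))) :=
    fun i => kv_congr hN hU (PC_jm hN hA hM hg' m' hU) hg' (hg.star.mul (hm i))
      (P_jm hN hA hM hg' m' hNA hNM)
  have hsum : ∀ i, kv I N U1 (star (g : H →L[ℂ] H) * m i) +
      kv I N U (star (g' : H →L[ℂ] H) * m' i) =
      kv I N U (star ((g * g' : UH H) : H →L[ℂ] H) * m'' i) := by
    intro i
    rw [hkv, ← kv_add, hm'']
    congr 1
    show _ = star ((g : H →L[ℂ] H) * (g' : H →L[ℂ] H)) * _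
    rw [star_mul, mul_add]
    have e1 : star (g' : H →L[ℂ] H) * star (g : H →L[ℂ] H) * ((g : H →L[ℂ] H) * m' i)
        = star (g' : H →L[ℂ] H) * m' i := by
      rw [mul_assoc, ← mul_assoc (star (g : H →L[ℂ] H)), star_U_mul_self, one_mul]
    rw [e1]
    simp only [mul_assoc]
    rw [add_comm]
  obtain ⟨θ, p1⟩ : ∃ θ : ℝ, I.cst hA (kv I N U1 (star (g : H →L[ℂ] H) * m 0)) *
      I.cst hA (kv I N U (star (g' : H →L[ℂ] H) * m' 0)) = phc (I := I) hA θ *
      I.cst hA (kv I N U (star ((g * g' : UH H) : H →L[ℂ] H) * m'' 0)) :=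
    ⟨_, by rw [cst_mul_cst, hsum]⟩
  obtain ⟨θ', p2⟩ : ∃ θ : ℝ, I.cst hM (kv I N U1 (star (g : H →L[ℂ] H) * m 1)) *
      I.cst hM (kv I N U (star (g' : H →L[ℂ] H) * m' 1)) = phc (I := I) hM θ *
      I.cst hM (kv I N U (star ((g * g' : UH H) : H →L[ℂ] H) * m'' 1)) :=
    ⟨_, by rw [cst_mul_cst, hsum]⟩
  refine ⟨θ, θ', ?_⟩
  exact grp_aux (nd_comm_cst hN hM hNM g' hg' _) (nd_comm_cst hN hA hNA g' hg' _)
    (cst_comm_cst (I := I) hA hM hAM _ _) p1 p2 (nd_mul_nd hN g g' hg hg' hgg)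
    (uh_ext (blk_comm hN hA hNA hgg (PC_ph I θ)).eq)
    (uh_ext (blk_comm hN hM hNM hgg (PC_ph I θ')).eq)
    (uh_ext (blk_comm hA hM hAM (PC.zW _) (PC_ph I θ')).eq)

/-! ### The closed monoid of joint moves -/

variable {S : Set Λ} {L : Set H} {c : ℝ}

/-- the data of an available node word -/
def Av (I : ILSys Λ H) {N A M : Set Λ} (hN : MeasurableSet N) (hA : MeasurableSet A)
    (hM : MeasurableSet M) (S : Set Λ) (L : Set H) (c : ℝ) (h q : H) (x : Bl H) : Prop :=
  ∃ (g : UH H) (hg : PC I (g : H →L[ℂ] H)), x.fst = g ∧ (∀ i, PC I (x.snd i)) ∧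
    ∀ U, Dom I A M h q U → I.Good S L c U → I.Good S L c (jm hN hA hM g hg x.snd U)

lemma kv_zero_op (N : Set Λ) (U : UH H) (T : H →L[ℂ] H) : kv I N U (T * 0) = 0 := by
  rw [mul_zero, kv_zero]

lemma cst_zero' {D : Set Λ} (hD : MeasurableSet D) : I.cst hD 0 = 1 :=
  uh_ext (by show I.blk D (I.zW 0) = 1; rw [zW_zero, blk_one hD])

lemma Av_one (h q : H) : Av I hN hA hM S L c h q 1 := by
  refine ⟨1, PC.one, rfl, fun i => ?_, fun U _ hU => ?_⟩
  · show PC I (0 : H →L[ℂ] H)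
    exact fun B _ => Commute.zero_right _
  · have : jm (I := I) hN hA hM (1 : UH H) (PC.one (I := I)) ((1 : Bl H).snd) U = U := by
      show nd I hN 1 (PC.one (I := I)) * (I.cst hA (kv I N U (star ((1 : UH H) : H →L[ℂ] H) * 0)) *
        (I.cst hM (kv I N U (star ((1 : UH H) : H →L[ℂ] H) * 0)) * U)) = U
      rw [kv_zero_op, cst_zero', cst_zero', one_mul, one_mul]
      have h1 : nd I hN 1 (PC.one (I := I)) = 1 := uh_ext (blk_one hN)
      rw [h1, one_mul]
    rw [this]; exact hU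

lemma Av_mul (hNA : Disjoint N A) (hNM : Disjoint N M) (hAM : Disjoint A M) {h q : H}
    {x y : Bl H} (hx : Av I hN hA hM S L c h q x) (hy : Av I hN hA hM S L c h q y) :
    Av I hN hA hM S L c h q (x * y) := by
  obtain ⟨g, hg, e, hm, hG⟩ := hx
  obtain ⟨g', hg', e', hm', hG'⟩ := hy
  have hgg : PC I ((g * g' : UH H) : H →L[ℂ] H) := hg.mul hg'
  have hs : ∀ i, (x * y).snd i = g * y.snd i + x.snd i * g' := by
    intro i
    rw [TrivSqZeroExt.snd_mul, e, e']
    rfl
  refine ⟨g * g', hgg, by rw [TrivSqZeroExt.fst_mul, e, e']; rfl, fun i => ?_, fun U hD hU => ?_⟩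
  · rw [hs]
    exact (hg.mul (hm' i)).add ((hm i).mul hg')
  · obtain ⟨θ, θ', e2⟩ := jm_jm hN hA hM hNA hNM hAM hg hg' hm hs hgg hD.pc
    have h1 := hG _ (Dom_jm hN hA hM hD hNA hNM hg' y.snd) (hG' U hD hU)
    rw [e2] at h1
    exact (Cen_phc hM θ').good ((Cen_phc hA θ).good h1)

lemma Av_closed {h q : H} : IsClosed {x : Bl H | Av I hN hA hM S L c h q x} := by
  rw [← isSeqClosed_iff_isClosed]
  intro x x₀ hx hlim
  have hf : Tendsto (fun n => (x n).fst) atTop (𝓝 x₀.fst) :=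
    (TrivSqZeroExt.continuous_fst.tendsto _).comp hlim
  have hs : Tendsto (fun n => (x n).snd) atTop (𝓝 x₀.snd) :=
    (TrivSqZeroExt.continuous_snd.tendsto _).comp hlim
  have hs' : ∀ i, Tendsto (fun n => (x n).snd i) atTop (𝓝 (x₀.snd i)) := fun i =>
    ((continuous_apply i).tendsto _).comp hs
  choose g hg e hm hG using hx
  have hfg : Tendsto (fun n => ((g n : UH H) : H →L[ℂ] H)) atTop (𝓝 x₀.fst) :=
    hf.congr fun n => e n
  have hu : x₀.fst ∈ unitary (H →L[ℂ] H) := by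
    rw [Unitary.mem_iff]
    constructor
    · refine tendsto_nhds_unique (((continuous_star.tendsto _).comp hfg).mul hfg) ?_
      refine tendsto_const_nhds.congr fun n => ?_
      exact (star_U_mul_self (g n)).symm
    · refine tendsto_nhds_unique (hfg.mul ((continuous_star.tendsto _).comp hfg)) ?_
      refine tendsto_const_nhds.congr fun n => ?_
      exact (U_mul_star_self (g n)).symm
  have hpc : ∀ {T : ℕ → H →L[ℂ] H} {T₀ : H →L[ℂ] H}, Tendsto T atTop (𝓝 T₀) →
      (∀ n, PC I (T n)) → PC I T₀ := by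
    intro T T₀ hT hp B hB
    exact tendsto_nhds_unique (tendsto_const_nhds.mul hT)
      ((hT.mul tendsto_const_nhds).congr fun n => ((hp n B hB).eq).symm)
  have hgp : PC I x₀.fst := hpc hfg hg
  refine ⟨⟨x₀.fst, hu⟩, hgp, rfl, fun i => hpc (hs' i) fun n => hm n i, fun U hD hU => ?_⟩
  have hkv : ∀ i, Tendsto (fun n => kv I N U (star ((g n : UH H) : H →L[ℂ] H) * (x n).snd i)) atTop
      (𝓝 (kv I N U (star x₀.fst * x₀.snd i))) := fun i =>
    tendsto_kv N U (((continuous_star.tendsto _).comp hfg).mul (hs' i))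
  have h1 : STends (fun n => nd I hN (g n) (hg n)) atTop (nd I hN ⟨x₀.fst, hu⟩ hgp) := by
    apply STends.of_norm
    exact tendsto_const_nhds.add (tendsto_const_nhds.mul hfg)
  have h2 : STends (fun n => jm hN hA hM (g n) (hg n) (x n).snd U) atTop
      (jm hN hA hM ⟨x₀.fst, hu⟩ hgp x₀.snd U) :=
    h1.mul ((STends_cst hA (hkv 0)).mul ((STends_cst hM (hkv 1)).mul (STends.const U)))
  exact Good.of_tendsto (Eventually.of_forall fun n => hG n U hD hU) h2

/-- the closed monoid of available node words -/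
def AvM (I : ILSys Λ H) {N A M : Set Λ} (hN : MeasurableSet N) (hA : MeasurableSet A)
    (hM : MeasurableSet M) (hNA : Disjoint N A) (hNM : Disjoint N M) (hAM : Disjoint A M)
    (S : Set Λ) (L : Set H) (c : ℝ) (h q : H) : Submonoid (Bl H) where
  carrier := {x | Av I hN hA hM S L c h q x}
  one_mem' := Av_one hN hA hM h q
  mul_mem' := fun hx hy => Av_mul hN hA hM hNA hNM hAM hx hy

end Monoid

end Crest.Agent.R339.MF
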