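import Crest.Agent.R339.MF569B

/-!
# R339, block LI (G1): mean-field function gates, generators and final theorem (helper569)
-/

set_option autoImplicit false
set_option linter.style.haveILetI false
set_option linter.unusedSectionVars false

noncomputable section

open scoped ComplexConjugate InnerProductSpace Topology
open Filter MeasureTheory NormedSpace

namespace Crest.Agent.R339.MF

open Crest.Agent.R339.Li Crest.Agent.R339.Li.ILSys Crest.Agent.R339.Trot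

variable {Λ H : Type*} [MeasurableSpace Λ] [NormedAddCommGroup H] [InnerProductSpace ℂ H]
  [CompleteSpace H] {I : ILSys Λ H}

variable {N A M : Set Λ} (hN : MeasurableSet N) (hA : MeasurableSet A) (hM : MeasurableSet M)
  (hNA : Disjoint N A) (hNM : Disjoint N M) (hAM : Disjoint A M) {S : Set Λ} {L : Set H} {c : ℝ}

/-- block element of the field `f = a h + b q + l` with coefficients `w = (a, b)` -/
def VV (I : ILSys Λ H) (w : Fin 2 → ℝ) (f : H) : Bl H :=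
  TrivSqZeroExt.inl (I.zW f) + TrivSqZeroExt.inr (fun i => (w i : ℂ) • (I.Z * I.zW f))

@[simp] lemma VV_fst (w : Fin 2 → ℝ) (f : H) : (VV I w f).fst = I.zW f := by simp [VV]
@[simp] lemma VV_snd (w : Fin 2 → ℝ) (f : H) (i : Fin 2) :
    (VV I w f).snd i = (w i : ℂ) • (I.Z * I.zW f) := by
  rw [VV, TrivSqZeroExt.snd_add, TrivSqZeroExt.snd_inl, TrivSqZeroExt.snd_inr, zero_add]

lemma VV_zero : VV I 0 0 = 1 := by
  apply TrivSqZeroExt.ext
  · rw [VV_fst, zW_zero]; rfl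
  · funext i
    rw [VV_snd]
    simp

lemma bl_mul_snd (x y : Bl H) (i : Fin 2) :
    (x * y).snd i = x.fst * y.snd i + x.snd i * y.fst := by
  rw [TrivSqZeroExt.snd_mul]; rfl

lemma VV_mul (w w' : Fin 2 → ℝ) {f f' : H} (hr : (⟪f, f'⟫_ℂ).im = 0) :
    VV I w f * VV I w' f' = VV I (w + w') (f + f') := by
  apply TrivSqZeroExt.ext
  · rw [TrivSqZeroExt.fst_mul, VV_fst, VV_fst, VV_fst, zW_mul_of_im hr]
  · funext i
    rw [bl_mul_snd, VV_fst, VV_fst, VV_snd, VV_snd, VV_snd, mul_smul_comm, smul_mul_assoc,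
      ← mul_assoc, ← (Z_zW (I := I) f).eq, mul_assoc, zW_mul_of_im hr, ← add_smul,
      Pi.add_apply, add_comm (w i)]
    push_cast
    rfl

/-- `-i X` -/
def Xg (I : ILSys Λ H) : Bl H := TrivSqZeroExt.inl ((-Complex.I) • I.X)

lemma Xg_fst : (Xg I).fst = (-Complex.I) • I.X := rfl
lemma Xg_snd : (Xg I).snd = 0 := rfl

lemma Xg_VV (w : Fin 2 → ℝ) (f : H) : Xg I * VV I w f = VV I (-w) (-f) * Xg I := by
  apply TrivSqZeroExt.ext
  · rw [TrivSqZeroExt.fst_mul, TrivSqZeroExt.fst_mul, VV_fst, VV_fst, Xg_fst, smul_mul_assoc,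
      X_zW, mul_smul_comm]
  · funext i
    rw [bl_mul_snd, bl_mul_snd, VV_fst, VV_fst, VV_snd, VV_snd, Xg_fst, Xg_snd]
    simp only [Pi.zero_apply, zero_mul, mul_zero, add_zero, zero_add, Pi.neg_apply]
    rw [mul_smul_comm, smul_mul_assoc, smul_mul_assoc, mul_smul_comm, ← mul_assoc,
      show I.X * I.Z = -(I.Z * I.X) by rw [Z_X, neg_neg], neg_mul, mul_assoc, X_zW, ← mul_assoc]
    push_cast
    module

/-- the generator `(i Y sin φ(f), (a Y cos φ(f), b Y cos φ(f)))` -/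
def Yg (I : ILSys Λ H) (w : Fin 2 → ℝ) (f : H) : Bl H :=
  TrivSqZeroExt.inl (Complex.I • (I.Y * I.sW f)) +
    TrivSqZeroExt.inr (fun i => (w i : ℂ) • (I.Y * I.cW f))

/-- the generator `(i Z sin φ(f), (a Z cos φ(f), b Z cos φ(f)))` -/
def Zg (I : ILSys Λ H) (w : Fin 2 → ℝ) (f : H) : Bl H :=
  TrivSqZeroExt.inl (Complex.I • (I.Z * I.sW f)) +
    TrivSqZeroExt.inr (fun i => (w i : ℂ) • (I.Z * I.cW f))

@[simp] lemma Yg_fst (w : Fin 2 → ℝ) (f : H) : (Yg I w f).fst = Complex.I • (I.Y * I.sW f) := by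
  simp [Yg]
@[simp] lemma Yg_snd (w : Fin 2 → ℝ) (f : H) (i : Fin 2) :
    (Yg I w f).snd i = (w i : ℂ) • (I.Y * I.cW f) := by
  rw [Yg, TrivSqZeroExt.snd_add, TrivSqZeroExt.snd_inl, TrivSqZeroExt.snd_inr, zero_add]
@[simp] lemma Zg_fst (w : Fin 2 → ℝ) (f : H) : (Zg I w f).fst = Complex.I • (I.Z * I.sW f) := by
  simp [Zg]
@[simp] lemma Zg_snd (w : Fin 2 → ℝ) (f : H) (i : Fin 2) :
    (Zg I w f).snd i = (w i : ℂ) • (I.Z * I.cW f) := by
  rw [Zg, TrivSqZeroExt.snd_add, TrivSqZeroExt.snd_inl, TrivSqZeroExt.snd_inr, zero_add]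

lemma Z_Y_X : I.Z * I.X = Complex.I • I.Y := by
  rw [ILSys.Y, smul_smul, mul_neg, Complex.I_mul_I, neg_neg, one_smul]

lemma zW_sub (f : H) : I.zW f - I.zW (-f) = (2 * Complex.I) • (I.Z * I.sW f) := by
  rw [zW_eq, zW_eq, cW_neg, sW_neg, mul_neg]; module

lemma zW_add (f : H) : I.zW f + I.zW (-f) = (2 : ℂ) • I.cW f := by
  rw [zW_eq, zW_eq, cW_neg, sW_neg, mul_neg]; module

/-- `(V(f) - V(-f)) X' = 2 Yg` -/
lemma VV_sub_Xg (w : Fin 2 → ℝ) (f : H) :
    VV I w f * Xg I - VV I (-w) (-f) * Xg I = (2 : ℝ) • Yg I w f := by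
  apply TrivSqZeroExt.ext
  · rw [TrivSqZeroExt.fst_sub, TrivSqZeroExt.fst_mul, TrivSqZeroExt.fst_mul,
      TrivSqZeroExt.fst_smul, VV_fst, VV_fst, Xg_fst, Yg_fst, ← sub_mul, zW_sub, smul_mul_assoc,
      mul_smul_comm, mul_assoc, ← (X_sW f).eq, ← mul_assoc, Z_Y_X, smul_mul_assoc, smul_smul,
      smul_smul, ← Complex.coe_smul, smul_smul]
    congr 1
    push_cast
    linear_combination (2 * Complex.I) * (-Complex.I_sq)
  · funext i
    rw [TrivSqZeroExt.snd_sub, Pi.sub_apply, bl_mul_snd, bl_mul_snd, TrivSqZeroExt.snd_smul,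
      Pi.smul_apply, VV_fst, VV_fst, VV_snd, VV_snd, Xg_fst, Xg_snd, Yg_snd]
    simp only [Pi.zero_apply, mul_zero, zero_add, Pi.neg_apply]
    have e : (w i : ℂ) • (I.Z * I.zW f) * (-Complex.I) • I.X -
        ((-(w i) : ℝ) : ℂ) • (I.Z * I.zW (-f)) * (-Complex.I) • I.X =
        ((w i : ℂ) * (-Complex.I)) • (I.Z * (I.zW f + I.zW (-f)) * I.X) := by
      simp only [smul_mul_assoc, mul_smul_comm, smul_smul, mul_add, add_mul]
      push_cast
      module
    rw [e, zW_add, mul_smul_comm, smul_mul_assoc, mul_assoc, ← (X_cW f).eq, ← mul_assoc, Z_Y_X,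
      smul_mul_assoc, smul_smul, smul_smul, ← Complex.coe_smul, smul_smul]
    congr 1
    push_cast
    linear_combination (2 * (w i : ℂ)) * (-Complex.I_sq)

lemma X_Y_Z : I.X * I.Y = Complex.I • I.Z := by
  rw [ILSys.Y, mul_smul_comm, ← mul_assoc, show I.X * I.Z = -(I.Z * I.X) by rw [Z_X, neg_neg],
    neg_mul, mul_assoc, X_mul_X, mul_one, smul_neg, neg_smul, neg_neg]

lemma Y_X_Z : I.Y * I.X = -(Complex.I • I.Z) := by
  rw [ILSys.Y, smul_mul_assoc, mul_assoc, X_mul_X, mul_one, neg_smul]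

/-- `[X', Yg] = 2 Zg` -/
lemma Xg_Yg (w : Fin 2 → ℝ) (f : H) :
    Xg I * Yg I w f - Yg I w f * Xg I = (2 : ℝ) • Zg I w f := by
  apply TrivSqZeroExt.ext
  · rw [TrivSqZeroExt.fst_sub, TrivSqZeroExt.fst_mul, TrivSqZeroExt.fst_mul,
      TrivSqZeroExt.fst_smul, Xg_fst, Yg_fst, Zg_fst]
    rw [smul_mul_smul_comm, smul_mul_smul_comm, ← mul_assoc, X_Y_Z, mul_assoc, ← (X_sW f).eq,
      ← mul_assoc, Y_X_Z, ← Complex.coe_smul]
    simp only [neg_mul, smul_mul_assoc, smul_neg, smul_smul]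
    match_scalars
    push_cast
    linear_combination (-2 * Complex.I) * Complex.I_sq
  · funext i
    rw [TrivSqZeroExt.snd_sub, Pi.sub_apply, bl_mul_snd, bl_mul_snd, TrivSqZeroExt.snd_smul,
      Pi.smul_apply, Xg_fst, Xg_snd, Yg_snd, Zg_snd]
    simp only [Pi.zero_apply, mul_zero, zero_mul, zero_add, add_zero]
    rw [smul_mul_smul_comm, smul_mul_smul_comm, ← mul_assoc, X_Y_Z, mul_assoc, ← (X_cW f).eq,
      ← mul_assoc, Y_X_Z, ← Complex.coe_smul]
    simp only [neg_mul, smul_mul_assoc, smul_neg, smul_smul]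
    match_scalars
    push_cast
    linear_combination (-2 * (w i : ℂ)) * Complex.I_sq

/-! ### Membership -/

section Mem

variable {c₀ : ℝ} {h q : H}

lemma star_zW_mul_Z (f : H) (a : ℂ) :
    star (I.zW f) * (a • (I.Z * I.zW f)) = a • I.Z := by
  rw [mul_smul_comm, (Z_zW (I := I) f).eq, ← mul_assoc, star_zW, zW_neg_mul, one_mul]

lemma VV_h_mem (hNc : I.Cl N) (hAc : I.Cl A) (hM : MeasurableSet M) (hNS : N ⊆ S) (hAS : A ⊆ S)
    (hNA : Disjoint N A) (a : ℝ) :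
    Av I (I.Cl_meas _ hNc) (I.Cl_meas _ hAc) hM S L c₀ h q (VV I ![a, 0] ((a : ℂ) • h)) := by
  refine ⟨zU I ((a : ℂ) • h), PC_zU _, VV_fst _ _, fun i => ?_, fun U hD hU => ?_⟩
  · rw [VV_snd]
    exact ((show PC I I.Z from fun B hB => P_Z hB).mul (PC.zW _)).smul _
  · have e : jm (I.Cl_meas _ hNc) (I.Cl_meas _ hAc) hM (zU I ((a : ℂ) • h)) (PC_zU _)
        (VV I ![a, 0] ((a : ℂ) • h)).snd U = I.cpl (I.Cl_meas _ hNc) (I.Cl_meas _ hAc) a U := by
      have e1 : star ((zU I ((a : ℂ) • h) : UH H) : H →L[ℂ] H) *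
          (VV I ![a, 0] ((a : ℂ) • h)).snd 0 = (a : ℂ) • I.Z := by
        rw [VV_snd]
        exact star_zW_mul_Z _ _
      have e2 : star ((zU I ((a : ℂ) • h) : UH H) : H →L[ℂ] H) *
          (VV I ![a, 0] ((a : ℂ) • h)).snd 1 = 0 := by
        rw [VV_snd]
        simp
      rw [jm, e1, e2, kv_zero, cst_zero', one_mul, kv_smul, kv_Z, ILSys.cpl, hD.fA]
      rfl
    rw [e]
    exact hU.cpl hNc hAc hNS hAS hNA a

lemma VV_q_mem (hNc : I.Cl N) (hA : MeasurableSet A) (hMc : I.Cl M) (hNS : N ⊆ S) (hMS : M ⊆ S)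
    (hNM : Disjoint N M) (b : ℝ) :
    Av I (I.Cl_meas _ hNc) hA (I.Cl_meas _ hMc) S L c₀ h q (VV I ![0, b] ((b : ℂ) • q)) := by
  refine ⟨zU I ((b : ℂ) • q), PC_zU _, VV_fst _ _, fun i => ?_, fun U hD hU => ?_⟩
  · rw [VV_snd]
    exact ((show PC I I.Z from fun B hB => P_Z hB).mul (PC.zW _)).smul _
  · have e : jm (I.Cl_meas _ hNc) hA (I.Cl_meas _ hMc) (zU I ((b : ℂ) • q)) (PC_zU _)
        (VV I ![0, b] ((b : ℂ) • q)).snd U = I.cpl (I.Cl_meas _ hNc) (I.Cl_meas _ hMc) b U := by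
      have e1 : star ((zU I ((b : ℂ) • q) : UH H) : H →L[ℂ] H) *
          (VV I ![0, b] ((b : ℂ) • q)).snd 1 = (b : ℂ) • I.Z := by
        rw [VV_snd]
        exact star_zW_mul_Z _ _
      have e2 : star ((zU I ((b : ℂ) • q) : UH H) : H →L[ℂ] H) *
          (VV I ![0, b] ((b : ℂ) • q)).snd 0 = 0 := by
        rw [VV_snd]
        simp
      rw [jm, e1, e2, kv_zero, cst_zero', one_mul, kv_smul, kv_Z, ILSys.cpl, hD.fM]
      rfl
    rw [e]
    exact hU.cpl hNc hMc hNS hMS hNM b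

lemma VV_l_mem (hL : RealSet L) (hNc : I.Cl N) (hA : MeasurableSet A) (hM : MeasurableSet M)
    (hNS : N ⊆ S) {l : H} (hl : l ∈ Submodule.span ℝ L) :
    Av I (I.Cl_meas _ hNc) hA hM S L c₀ h q (VV I 0 l) := by
  refine ⟨zU I l, PC_zU _, VV_fst _ _, fun i => ?_, fun U hD hU => ?_⟩
  · rw [VV_snd]
    exact ((show PC I I.Z from fun B hB => P_Z hB).mul (PC.zW _)).smul _
  · have e : jm (I.Cl_meas _ hNc) hA hM (zU I l) (PC_zU _) (VV I 0 l).snd U
        = I.cst (I.Cl_meas _ hNc) l * U := by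
      have e1 : ∀ i, star ((zU I l : UH H) : H →L[ℂ] H) * (VV I 0 l).snd i = 0 := by
        intro i
        rw [VV_snd]
        simp
      rw [jm, e1, e1, kv_zero, cst_zero', cst_zero', one_mul, one_mul]
      rfl
    rw [e]
    exact GP.good (G := I.cst (I.Cl_meas _ hNc) l) (cst_mem_GP (c := c₀) hL hNc hNS hl) hU

lemma Xg_exp_mem (hNc : I.Cl N) (hA : MeasurableSet A) (hM : MeasurableSet M) (hNS : N ⊆ S)
    (t : ℝ) : Av I (I.Cl_meas _ hNc) hA hM S L c₀ h q (exp (t • Xg I)) := by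
  have hsq : ((-Complex.I) • I.X) * ((-Complex.I) • I.X) = (-1 : H →L[ℂ] H) := by
    rw [smul_mul_smul_comm, X_mul_X, neg_mul_neg, Complex.I_mul_I, neg_one_smul]
  have h1 : exp (t • ((-Complex.I) • I.X)) = I.mx t := by
    rw [exp_smul_of_sq_neg_one hsq, ILSys.mx, ← Complex.coe_smul, ← Complex.coe_smul, smul_smul]
    rw [mul_neg, neg_smul, ← sub_eq_add_neg, mul_comm (Complex.I)]
  have h2 : exp (t • Xg I) = TrivSqZeroExt.inl (I.mx t) := by
    rw [exp_bl]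
    · have e1 : (t • Xg I).fst = t • ((-Complex.I) • I.X) := rfl
      have e2 : (t • Xg I).snd = 0 := by
        rw [TrivSqZeroExt.snd_smul, Xg_snd, smul_zero]
      rw [e1, h1, e2]
      have e3 : (fun i : Fin 2 => I.mx t * (0 : Fin 2 → (H →L[ℂ] H)) i) = 0 := by
        funext i
        simp
      rw [e3, TrivSqZeroExt.inr_zero, add_zero]
    · intro i
      have e2 : (t • Xg I).snd = 0 := by
        rw [TrivSqZeroExt.snd_smul, Xg_snd, smul_zero]
      rw [e2]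
      exact Commute.zero_right _
  rw [h2]
  have hu : I.mx t ∈ unitary (H →L[ℂ] H) := by
    rw [Unitary.mem_iff, star_mx, mx_mul, mx_mul]
    simp [mx_zero]
  refine ⟨⟨I.mx t, hu⟩, fun B hB => P_mx hB t, rfl, fun i => ?_, fun U hD hU => ?_⟩
  · show PC I (0 : H →L[ℂ] H)
    exact fun B _ => Commute.zero_right _
  · have e : jm (I.Cl_meas _ hNc) hA hM ⟨I.mx t, hu⟩ (fun B hB => P_mx hB t)
        (TrivSqZeroExt.inl (I.mx t) : Bl H).snd U = I.rot (I.Cl_meas _ hNc) t * U := by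
      show nd I _ _ _ * (I.cst hA (kv I N U (_ * 0)) * (I.cst hM (kv I N U (_ * 0)) * U)) = _
      rw [kv_zero_op, cst_zero', cst_zero', one_mul, one_mul]
      rfl
    rw [e]
    exact hU.rot hNc hNS t

end Mem

end Crest.Agent.R339.MF
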