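import Crest.Agent.R339.MF569C

/-!
# R339, block LI (G1): mean-field function gates, final theorem `mft` (helper569)
-/

set_option autoImplicit false
set_option linter.style.haveILetI false
set_option linter.unusedSectionVars false

noncomputable section

open scoped ComplexConjugate InnerProductSpace Topology
open Filter MeasureTheory NormedSpace

namespace Crest.Agent.R339.MF

open Crest.Agent.R339.Li Crest.Agent.R339.Li.ILSys Crest.Agent.R339.Trot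

variable {Λ H : Type*} [MeasurableSpace Λ] [NormedAddCommGroup H] [InnerProductSpace ℂ H]
  [CompleteSpace H] {I : ILSys Λ H}

variable {N A M : Set Λ} {S : Set Λ} {L : Set H} {c₀ : ℝ} {h q : H}

/-- the fields `w₀ h + w₁ q + l`, `l` in the real span of the labels -/
def Dr (L : Set H) (h q : H) (w : Fin 2 → ℝ) (f : H) : Prop :=
  ∃ l ∈ Submodule.span ℝ L, f = (w 0 : ℂ) • h + (w 1 : ℂ) • q + l

omit [CompleteSpace H] in
lemma Dr.neg {w : Fin 2 → ℝ} {f : H} (hf : Dr L h q w f) : Dr L h q (-w) (-f) := by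
  obtain ⟨l, hl, rfl⟩ := hf
  refine ⟨-l, Submodule.neg_mem _ hl, ?_⟩
  simp only [Pi.neg_apply]
  push_cast
  module

omit [CompleteSpace H] in
lemma Dr.smul {w : Fin 2 → ℝ} {f : H} (hf : Dr L h q w f) (r : ℝ) : Dr L h q (r • w) (r • f) := by
  obtain ⟨l, hl, rfl⟩ := hf
  refine ⟨r • l, Submodule.smul_mem _ _ hl, ?_⟩
  simp only [Pi.smul_apply, smul_eq_mul]
  rw [← Complex.coe_smul, ← Complex.coe_smul]
  push_cast
  module

/-- all fields are real -/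
structure Rl (L : Set H) (h q : H) : Prop where
  real : RealSet L
  hq : (⟪h, q⟫_ℂ).im = 0
  lh : ∀ l ∈ L, (⟪l, h⟫_ℂ).im = 0
  lq : ∀ l ∈ L, (⟪l, q⟫_ℂ).im = 0

lemma Rl.all (hr : Rl L h q) : RealSet (insert h (insert q L)) := by
  have sw : ∀ x y : H, (⟪x, y⟫_ℂ).im = 0 → (⟪y, x⟫_ℂ).im = 0 := by
    intro x y hxy
    rw [← inner_conj_symm, Complex.conj_im, hxy, neg_zero]
  have self : ∀ x : H, (⟪x, x⟫_ℂ).im = 0 := fun x => by
    simpa using inner_self_im (𝕜 := ℂ) x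
  intro x hx y hy
  rcases hx with rfl | rfl | hx <;> rcases hy with rfl | rfl | hy
  · exact self _
  · exact hr.hq
  · exact sw _ _ (hr.lh _ hy)
  · exact sw _ _ hr.hq
  · exact self _
  · exact sw _ _ (hr.lq _ hy)
  · exact hr.lh _ hx
  · exact hr.lq _ hx
  · exact hr.real _ hx _ hy

lemma Dr.mem_span {w : Fin 2 → ℝ} {f : H} (hf : Dr L h q w f) :
    f ∈ Submodule.span ℝ (insert h (insert q L)) := by
  obtain ⟨l, hl, rfl⟩ := hf
  rw [Complex.coe_smul, Complex.coe_smul]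
  refine Submodule.add_mem _ (Submodule.add_mem _ (Submodule.smul_mem _ _ ?_)
    (Submodule.smul_mem _ _ ?_)) ?_
  · exact Submodule.subset_span (Set.mem_insert _ _)
  · exact Submodule.subset_span (Set.mem_insert_of_mem _ (Set.mem_insert _ _))
  · exact Submodule.span_mono ((Set.subset_insert _ _).trans (Set.subset_insert _ _)) hl

lemma Dr.im (hr : Rl L h q) {w w' : Fin 2 → ℝ} {f f' : H} (hf : Dr L h q w f)
    (hf' : Dr L h q w' f') : (⟪f, f'⟫_ℂ).im = 0 :=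
  hr.all.span hf.mem_span hf'.mem_span

section Main

variable (hN : I.Cl N) (hA : I.Cl A) (hM : I.Cl M) (hNS : N ⊆ S) (hAS : A ⊆ S) (hMS : M ⊆ S)
  (hNA : Disjoint N A) (hNM : Disjoint N M) (hAM : Disjoint A M) (hr : Rl L h q)

include hNS hAS hMS hr in
lemma VV_mem {w : Fin 2 → ℝ} {f : H} (hf : Dr L h q w f) :
    VV I w f ∈ AvM I (I.Cl_meas _ hN) (I.Cl_meas _ hA) (I.Cl_meas _ hM) hNA hNM hAM S L c₀ h q := by
  obtain ⟨l, hl, rfl⟩ := hf
  have d1 : Dr L h q ![w 0, 0] ((w 0 : ℂ) • h) := ⟨0, Submodule.zero_mem _, by simp⟩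
  have d2 : Dr L h q ![0, w 1] ((w 1 : ℂ) • q) := ⟨0, Submodule.zero_mem _, by simp⟩
  have d12 : Dr L h q ![w 0, w 1] ((w 0 : ℂ) • h + (w 1 : ℂ) • q) :=
    ⟨0, Submodule.zero_mem _, by simp⟩
  have d3 : Dr L h q 0 l := ⟨l, hl, by simp⟩
  have e1 : VV I ![w 0, 0] ((w 0 : ℂ) • h) * VV I ![0, w 1] ((w 1 : ℂ) • q) =
      VV I ![w 0, w 1] ((w 0 : ℂ) • h + (w 1 : ℂ) • q) := by
    rw [VV_mul _ _ (d1.im hr d2)]
    congr 1
    funext i
    fin_cases i <;> simp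
  have e2 : VV I ![w 0, w 1] ((w 0 : ℂ) • h + (w 1 : ℂ) • q) * VV I 0 l =
      VV I w ((w 0 : ℂ) • h + (w 1 : ℂ) • q + l) := by
    rw [VV_mul _ _ (d12.im hr d3)]
    congr 1
    funext i
    fin_cases i <;> simp
  rw [← e2, ← e1]
  exact mul_mem (mul_mem (VV_h_mem hN hA (I.Cl_meas _ hM) hNS hAS hNA _)
    (VV_q_mem hN (I.Cl_meas _ hA) hM hNS hMS hNM _)) (VV_l_mem hr.real hN _ _ hNS hl)

lemma isClosed_AvM : IsClosed ((AvM I (I.Cl_meas _ hN) (I.Cl_meas _ hA) (I.Cl_meas _ hM)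
    hNA hNM hAM S L c₀ h q : Submonoid (Bl H)) : Set (Bl H)) :=
  Av_closed (I.Cl_meas _ hN) (I.Cl_meas _ hA) (I.Cl_meas _ hM)

include hNS hAS hMS hr in
lemma VX_mem {w : Fin 2 → ℝ} {f : H} (hf : Dr L h q w f) :
    VV I w f * Xg I ∈ lieOf (AvM I (I.Cl_meas _ hN) (I.Cl_meas _ hA) (I.Cl_meas _ hM)
      hNA hNM hAM S L c₀ h q) := by
  haveI := I.nontriv
  have hd := hf.smul (1 / 2)
  have m1 := VV_mem (c₀ := c₀) hN hA hM hNS hAS hMS hNA hNM hAM hr hd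
  have m2 := VV_mem (c₀ := c₀) hN hA hM hNS hAS hMS hNA hNM hAM hr hd.neg
  have hX : Xg I ∈ lieOf (AvM I (I.Cl_meas _ hN) (I.Cl_meas _ hA) (I.Cl_meas _ hM)
      hNA hNM hAM S L c₀ h q) := fun t =>
    Xg_exp_mem hN (I.Cl_meas _ hA) (I.Cl_meas _ hM) hNS t
  have huv : VV I ((1 / 2 : ℝ) • w) ((1 / 2 : ℝ) • f) *
      VV I (-((1 / 2 : ℝ) • w)) (-((1 / 2 : ℝ) • f)) = 1 := by
    rw [VV_mul _ _ (hd.im hr hd.neg), add_neg_cancel, add_neg_cancel, VV_zero]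
  have hvu : VV I (-((1 / 2 : ℝ) • w)) (-((1 / 2 : ℝ) • f)) *
      VV I ((1 / 2 : ℝ) • w) ((1 / 2 : ℝ) • f) = 1 := by
    rw [VV_mul _ _ (hd.neg.im hr hd), neg_add_cancel, neg_add_cancel, VV_zero]
  have key := conj_mem_lieOf hX m1 m2 huv hvu
  have e : VV I ((1 / 2 : ℝ) • w) ((1 / 2 : ℝ) • f) * Xg I *
      VV I (-((1 / 2 : ℝ) • w)) (-((1 / 2 : ℝ) • f)) = VV I w f * Xg I := by
    rw [mul_assoc, Xg_VV, neg_neg, neg_neg, ← mul_assoc, VV_mul _ _ (hd.im hr hd), ← add_smul,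
      ← add_smul]
    norm_num
  rwa [e] at key

include hNS hAS hMS hr in
lemma Yg_mem {w : Fin 2 → ℝ} {f : H} (hf : Dr L h q w f) :
    Yg I w f ∈ lieOf (AvM I (I.Cl_meas _ hN) (I.Cl_meas _ hA) (I.Cl_meas _ hM)
      hNA hNM hAM S L c₀ h q) := by
  haveI := I.nontriv
  have h1 := VX_mem (c₀ := c₀) hN hA hM hNS hAS hMS hNA hNM hAM hr hf
  have h2 := VX_mem (c₀ := c₀) hN hA hM hNS hAS hMS hNA hNM hAM hr hf.neg
  have h3 := smul_mem_lieOf (add_mem_lieOf (isClosed_AvM hN hA hM hNA hNM hAM) h1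
    (neg_mem_lieOf h2)) (1 / 2 : ℝ)
  rw [← sub_eq_add_neg, VV_sub_Xg, smul_smul] at h3
  norm_num at h3
  exact h3

include hNS hAS hMS hr in
lemma Zg_mem {w : Fin 2 → ℝ} {f : H} (hf : Dr L h q w f) :
    Zg I w f ∈ lieOf (AvM I (I.Cl_meas _ hN) (I.Cl_meas _ hA) (I.Cl_meas _ hM)
      hNA hNM hAM S L c₀ h q) := by
  haveI := I.nontriv
  have hX : Xg I ∈ lieOf (AvM I (I.Cl_meas _ hN) (I.Cl_meas _ hA) (I.Cl_meas _ hM)
      hNA hNM hAM S L c₀ h q) := fun t =>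
    Xg_exp_mem hN (I.Cl_meas _ hA) (I.Cl_meas _ hM) hNS t
  have h1 := Yg_mem (c₀ := c₀) hN hA hM hNS hAS hMS hNA hNM hAM hr hf
  have h3 := smul_mem_lieOf (bracket_mem_lieOf (isClosed_AvM hN hA hM hNA hNM hAM) hX h1)
    (1 / 2 : ℝ)
  rw [Xg_Yg, smul_smul] at h3
  norm_num at h3
  exact h3

include hNS hAS hMS hNA hNM hAM hr in
/-- **Mean-field function gate**, abstract partner fields. -/
theorem mft_aux {κ : Type*} [Fintype κ] (c : κ → ℝ) (w : κ → Fin 2 → ℝ) (f : κ → H)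
    (hf : ∀ k, Dr L h q (w k) (f k)) (t : ℝ) (g : UH H) (hg : PC I (g : H →L[ℂ] H))
    (hgE : (g : H →L[ℂ] H) = exp ((Complex.I * (t : ℂ)) • (I.Z * ∑ k, (c k : ℂ) • I.sW (f k))))
    {U : UH H} (hU : Dom I A M h q U) (hG : I.Good S L c₀ U) :
    I.Good S L c₀ (nd I (I.Cl_meas _ hN) g hg *
      (I.cst (I.Cl_meas _ hA) ((t : ℂ) •
        kv I N U (I.Z * ∑ k, ((c k * w k 0 : ℝ) : ℂ) • I.cW (f k))) *
      (I.cst (I.Cl_meas _ hM) ((t : ℂ) •
        kv I N U (I.Z * ∑ k, ((c k * w k 1 : ℝ) : ℂ) • I.cW (f k))) * U))) := by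
  haveI := I.nontriv
  set X : Bl H := ∑ k, c k • Zg I (w k) (f k) with hX
  have hmem : X ∈ lieOf (AvM I (I.Cl_meas _ hN) (I.Cl_meas _ hA) (I.Cl_meas _ hM)
      hNA hNM hAM S L c₀ h q) :=
    sum_mem_lieOf (isClosed_AvM hN hA hM hNA hNM hAM) _ _ fun k _ =>
      smul_mem_lieOf (Zg_mem hN hA hM hNS hAS hMS hNA hNM hAM hr (hf k)) _
  have hx : Av I (I.Cl_meas _ hN) (I.Cl_meas _ hA) (I.Cl_meas _ hM) S L c₀ h q (exp (t • X)) :=
    hmem t
  have hfst : X.fst = Complex.I • (I.Z * ∑ k, (c k : ℂ) • I.sW (f k)) := by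
    rw [hX, TrivSqZeroExt.fst_sum, Finset.mul_sum, Finset.smul_sum]
    refine Finset.sum_congr rfl fun k _ => ?_
    rw [TrivSqZeroExt.fst_smul, Zg_fst, ← Complex.coe_smul, mul_smul_comm, smul_comm]
  have hsnd : ∀ i, X.snd i = I.Z * ∑ k, ((c k * w k i : ℝ) : ℂ) • I.cW (f k) := by
    intro i
    rw [hX, TrivSqZeroExt.snd_sum, Finset.sum_apply, Finset.mul_sum]
    refine Finset.sum_congr rfl fun k _ => ?_
    rw [TrivSqZeroExt.snd_smul, Pi.smul_apply, Zg_snd, ← Complex.coe_smul, smul_smul,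
      mul_smul_comm]
    push_cast
    rfl
  have hcomm : ∀ j k, Commute (I.sW (f j)) (I.cW (f k)) := by
    intro j k
    have hW : ∀ x y : H, (⟪x, y⟫_ℂ).im = 0 → Commute (I.W x) (I.W y) := by
      intro x y hxy
      have hyx : (⟪y, x⟫_ℂ).im = 0 := by rw [← inner_conj_symm, Complex.conj_im, hxy, neg_zero]
      show I.W x * I.W y = I.W y * I.W x
      rw [I.W_mul, I.W_mul, hxy, hyx, add_comm]
    have h1 := (hf j).im hr (hf k)
    have h2 : (⟪f j, -f k⟫_ℂ).im = 0 := by rw [inner_neg_right, Complex.neg_im, h1, neg_zero]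
    have h3 : (⟪-f j, f k⟫_ℂ).im = 0 := by rw [inner_neg_left, Complex.neg_im, h1, neg_zero]
    have h4 : (⟪-f j, -f k⟫_ℂ).im = 0 := by rw [inner_neg_neg, h1]
    exact (((hW _ _ h1).sub_left (hW _ _ h3)).smul_left _).add_right
      (((hW _ _ h2).sub_left (hW _ _ h4)).smul_left _) |>.smul_right _
  have hcx : ∀ i, Commute X.fst (X.snd i) := by
    intro i
    rw [hfst, hsnd]
    refine Commute.smul_left ?_ _
    have hz : Commute I.Z (∑ k, (c k : ℂ) • I.sW (f k)) :=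
      Commute.sum_right _ _ _ fun k _ => (Z_sW _).smul_right _
    have hz' : Commute I.Z (∑ k, ((c k * w k i : ℝ) : ℂ) • I.cW (f k)) :=
      Commute.sum_right _ _ _ fun k _ => (Z_cW _).smul_right _
    have hs : Commute (∑ k, (c k : ℂ) • I.sW (f k)) (∑ k, ((c k * w k i : ℝ) : ℂ) • I.cW (f k)) :=
      Commute.sum_left _ _ _ fun j _ => Commute.sum_right _ _ _ fun k _ =>
        ((hcomm j k).smul_left _).smul_right _
    exact ((Commute.refl _).mul_left hz.symm).mul_right (hz'.mul_left hs)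
  have hexp : exp (t • X) = TrivSqZeroExt.inl (exp (t • X.fst)) +
      TrivSqZeroExt.inr (fun i => exp (t • X.fst) * (t • X.snd i)) := by
    rw [exp_bl]
    · rfl
    · intro i
      exact ((hcx i).smul_left t).smul_right t
  have hgX : exp (t • X.fst) = (g : H →L[ℂ] H) := by
    rw [hgE, hfst, ← Complex.coe_smul, smul_smul, mul_comm]
  rw [hgX] at hexp
  have hefst : (exp (t • X)).fst = (g : H →L[ℂ] H) := by rw [hexp]; simp
  have hesnd : ∀ i, (exp (t • X)).snd i = (g : H →L[ℂ] H) * (t • X.snd i) := by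
    intro i
    rw [hexp, TrivSqZeroExt.snd_add, TrivSqZeroExt.snd_inl, TrivSqZeroExt.snd_inr, zero_add]
  obtain ⟨g', hg', e, hm, hgood⟩ := hx
  have hgg : g' = g := uh_ext (e.symm.trans hefst)
  subst hgg
  have h1 := hgood U hU hG
  have hk : ∀ i, kv I N U (star (g' : H →L[ℂ] H) * (exp (t • X)).snd i) =
      (t : ℂ) • kv I N U (I.Z * ∑ k, ((c k * w k i : ℝ) : ℂ) • I.cW (f k)) := by
    intro i
    rw [hesnd, ← mul_assoc, star_U_mul_self, one_mul, kv_rsmul, hsnd]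
  rw [jm, hk, hk] at h1
  exact h1

include hNS hAS hMS hNA hNM hAM in
/-- **(G1) Mean-field function gate.**  `h = e_A(U)`, `q = e_M(U)`, fields
`f k = a k • h + b k • q + l k`; node `exp (i t Z Σ c_k sin φ(f k))`, kicks of the partners
`zW (t P_N U* Z (Σ c_k a_k cos φ(f k)) U Om)` (on `A`) and the same with `b` (on `M`). -/
theorem mft {κ : Type*} [Fintype κ] {U : UH H} (hU : PC I (U : H →L[ℂ] H))
    (hr : Rl L (I.eA A U) (I.eA M U)) (c a b : κ → ℝ) (l : κ → H)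
    (hl : ∀ k, l k ∈ Submodule.span ℝ L) (t : ℝ) (g : UH H) (hg : PC I (g : H →L[ℂ] H))
    (hgE : (g : H →L[ℂ] H) = exp ((Complex.I * (t : ℂ)) • (I.Z * ∑ k, (c k : ℂ) •
      I.sW ((a k : ℂ) • I.eA A U + (b k : ℂ) • I.eA M U + l k))))
    (hG : I.Good S L c₀ U) :
    I.Good S L c₀ (nd I (I.Cl_meas _ hN) g hg *
      (I.cst (I.Cl_meas _ hA) ((t : ℂ) • kv I N U (I.Z * ∑ k, ((c k * a k : ℝ) : ℂ) •
        I.cW ((a k : ℂ) • I.eA A U + (b k : ℂ) • I.eA M U + l k))) *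
      (I.cst (I.Cl_meas _ hM) ((t : ℂ) • kv I N U (I.Z * ∑ k, ((c k * b k : ℝ) : ℂ) •
        I.cW ((a k : ℂ) • I.eA A U + (b k : ℂ) • I.eA M U + l k))) * U))) :=
  mft_aux hN hA hM hNS hAS hMS hNA hNM hAM hr c (fun k => ![a k, b k]) _
    (fun k => ⟨l k, hl k, rfl⟩) t g hg hgE ⟨hU, rfl, rfl⟩ hG

end Main

end Crest.Agent.R339.MF
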