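import Crest.Agent.R339.Kahane

/-!
# Row 339, part (C)/(K): Gaussian laws with a given covariance matrix

`gl Q` is the centred Gaussian law on `ι → ℝ` with covariance matrix `Q` (for `Q` positive
semidefinite).  We prove: the characteristic function, dependence only on the relevant block of
`Q`, continuity in `Q` (with test functions of linear growth which converge continuously), and
the Gaussian integration by parts formula.
-/

set_option autoImplicit false
set_option linter.unusedSectionVars false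

namespace Crest.Agent.R339.Trig

open MeasureTheory ProbabilityTheory Filter Topology Matrix
open Crest.Agent.R339.Guerra (G lin dual)
open scoped MatrixOrder Matrix.Norms.L2Operator

noncomputable section

variable {ι : Type*} [Fintype ι] [DecidableEq ι]

/-- the square root of a positive semidefinite matrix -/
def rt (Q : Matrix ι ι ℝ) : ι → ι → ℝ := fun i j => (CFC.sqrt Q : Matrix ι ι ℝ) i j

/-- the centred Gaussian law with covariance matrix `Q` -/
def gl (Q : Matrix ι ι ℝ) : Measure (ι → ℝ) := (G ι).map (lin (rt Q))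

theorem integral_gl (Q : Matrix ι ι ℝ) {E : Type*} [NormedAddCommGroup E] [NormedSpace ℝ E]
    {f : (ι → ℝ) → E} (hf : StronglyMeasurable f) :
    ∫ x, f x ∂gl Q = ∫ g, f (lin (rt Q) g) ∂G ι := by
  unfold gl
  rw [integral_map (Guerra.continuous_lin _).measurable.aemeasurable hf.aestronglyMeasurable]

instance (Q : Matrix ι ι ℝ) : IsProbabilityMeasure (gl Q) :=
  Measure.isProbabilityMeasure_map (Guerra.continuous_lin _).measurable.aemeasurable

theorem integrable_norm_G : Integrable (fun g : ι → ℝ => ‖g‖) (G ι) := by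
  have h : Integrable (fun g : ι → ℝ => ∑ j, |g j|) (G ι) :=
    integrable_finsetSum _ fun j _ => (Guerra.integrable_coord j).abs
  refine h.mono' (by fun_prop) (Eventually.of_forall fun g => ?_)
  rw [norm_norm]
  rw [pi_norm_le_iff_of_nonneg (by positivity)]
  intro i
  exact Finset.single_le_sum (f := fun j => |g j|) (fun b _ => abs_nonneg _) (Finset.mem_univ i)

theorem norm_lin_le' (A : ι → ι → ℝ) (g : ι → ℝ) :
    ‖lin A g‖ ≤ (∑ a, ∑ j, |A a j|) * (Fintype.card ι * ‖g‖) := by
  refine (Guerra.norm_lin_le A g).trans ?_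
  refine mul_le_mul_of_nonneg_left ?_ (by positivity)
  calc ∑ j, |g j| ≤ ∑ _j : ι, ‖g‖ := Finset.sum_le_sum fun j _ => norm_le_pi_norm g j
    _ = _ := by simp

/-- functions of linear growth are integrable -/
theorem integrable_gl (Q : Matrix ι ι ℝ) {f : (ι → ℝ) → ℝ} (hf : StronglyMeasurable f) {C : ℝ}
    (hC : ∀ x, |f x| ≤ C * (1 + ‖x‖)) : Integrable f (gl Q) := by
  unfold gl
  rw [integrable_map_measure hf.aestronglyMeasurable
    (Guerra.continuous_lin _).measurable.aemeasurable]
  have hC0 : 0 ≤ C := by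
    have := hC 0
    simp only [norm_zero, add_zero, mul_one] at this
    exact (abs_nonneg _).trans this
  have h : Integrable (fun g : ι → ℝ =>
      C * (1 + (∑ a, ∑ j, |rt Q a j|) * (Fintype.card ι * ‖g‖))) (G ι) := by
    refine Integrable.const_mul ?_ _
    refine (integrable_const _).add ?_
    exact (integrable_norm_G.const_mul _).const_mul _
  refine h.mono' (hf.comp_measurable (Guerra.continuous_lin _).measurable).aestronglyMeasurable
    (Eventually.of_forall fun g => ?_)
  refine (hC _).trans ?_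
  have := norm_lin_le' (rt Q) g
  gcongr

theorem integrable_gl_bdd (Q : Matrix ι ι ℝ) {f : (ι → ℝ) → ℝ} (hf : StronglyMeasurable f) {C : ℝ}
    (hC : ∀ x, |f x| ≤ C) : Integrable f (gl Q) :=
  (integrable_const C).mono' hf.aestronglyMeasurable (Eventually.of_forall hC)

/-- the square root is symmetric -/
theorem rt_symm (Q : Matrix ι ι ℝ) (i j : ι) : rt Q i j = rt Q j i := by
  have h := (CFC.sqrt_nonneg Q).isSelfAdjoint
  have h2 : star (CFC.sqrt Q) = CFC.sqrt Q := h
  have := congrFun (congrFun h2 j) i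
  rw [Matrix.star_apply] at this
  simpa [rt] using this

theorem sum_rt {Q : Matrix ι ι ℝ} (hQ : Q.PosSemidef) (i j : ι) :
    ∑ k, rt Q i k * rt Q j k = Q i j := by
  have h : (CFC.sqrt Q : Matrix ι ι ℝ) * CFC.sqrt Q = Q := CFC.sqrt_mul_sqrt_self _ hQ.nonneg
  conv_rhs => rw [← h]
  rw [Matrix.mul_apply]
  refine Finset.sum_congr rfl fun k _ => ?_
  rw [rt_symm Q j k]; rfl

/-- the characteristic function of `gl Q` -/
theorem charFun_gl {Q : Matrix ι ι ℝ} (hQ : Q.PosSemidef) (a : ι → ℝ) :
    ∫ x, Complex.exp (((∑ i, a i * x i : ℝ) : ℂ) * Complex.I) ∂gl Q =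
      Complex.exp (((-(∑ i, ∑ j, a i * Q i j * a j) / 2 : ℝ) : ℂ)) := by
  rw [integral_gl Q (Continuous.stronglyMeasurable (by fun_prop))]
  set b : ι → ℝ := fun k => ∑ i, a i * rt Q i k with hb
  have h1 : ∀ g : ι → ℝ, ∑ i, a i * lin (rt Q) g i = ∑ k, b k * g k := by
    intro g
    simp only [lin, hb, Finset.sum_mul, Finset.mul_sum]
    rw [Finset.sum_comm]
    refine Finset.sum_congr rfl fun k _ => Finset.sum_congr rfl fun i _ => by ring
  have h2 : ∀ g : ι → ℝ, Complex.exp (((∑ i, a i * lin (rt Q) g i : ℝ) : ℂ) * Complex.I) =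
      ∏ k, Complex.exp (((b k * g k : ℝ) : ℂ) * Complex.I) := by
    intro g
    rw [h1, Complex.ofReal_sum, Finset.sum_mul, Complex.exp_sum]
  simp_rw [h2]
  rw [integral_fintype_prod_eq_prod (f := fun k (x : ℝ) =>
    Complex.exp (((b k * x : ℝ) : ℂ) * Complex.I))]
  have h3 : ∀ k, ∫ x : ℝ, Complex.exp (((b k * x : ℝ) : ℂ) * Complex.I) ∂gaussianReal 0 1 =
      Complex.exp (((-(b k)^2/2 : ℝ) : ℂ)) := by
    intro k
    have := charFun_gaussianReal (μ := 0) (v := 1) (b k)
    rw [charFun_apply_real] at this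
    simp only [Complex.ofReal_mul]
    rw [this]
    congr 1
    push_cast
    ring
  simp_rw [h3]
  rw [← Complex.exp_sum, ← Complex.ofReal_sum]
  congr 2
  have h4 : ∑ k, b k ^ 2 = ∑ i, ∑ j, a i * Q i j * a j := by
    simp only [hb, sq, Finset.sum_mul_sum]
    rw [Finset.sum_comm]
    refine Finset.sum_congr rfl fun i _ => ?_
    rw [Finset.sum_comm]
    refine Finset.sum_congr rfl fun j _ => ?_
    rw [← sum_rt hQ i j, Finset.mul_sum, Finset.sum_mul]
    refine Finset.sum_congr rfl fun k _ => by ring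
  rw [← h4, neg_div, Finset.sum_div, ← Finset.sum_neg_distrib]
  refine Finset.sum_congr rfl fun k _ => by ring

theorem measurable_cexp (a : ι → ℝ) : StronglyMeasurable (fun x : ι → ℝ =>
    Complex.exp (((∑ i, a i * x i : ℝ) : ℂ) * Complex.I)) :=
  Continuous.stronglyMeasurable (by fun_prop)

theorem integrable_cexp (a : ι → ℝ) (μ : Measure (ι → ℝ)) [IsProbabilityMeasure μ] :
    Integrable (fun x : ι → ℝ =>
      Complex.exp (((∑ i, a i * x i : ℝ) : ℂ) * Complex.I)) μ := by
  refine (integrable_const (1 : ℝ)).mono' (measurable_cexp a).aestronglyMeasurable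
    (Eventually.of_forall fun x => ?_)
  rw [Complex.norm_exp_ofReal_mul_I]

theorem integral_cos_gl {Q : Matrix ι ι ℝ} (hQ : Q.PosSemidef) (a : ι → ℝ) :
    ∫ x, Real.cos (∑ i, a i * x i) ∂gl Q = Real.exp (-(∑ i, ∑ j, a i * Q i j * a j) / 2) := by
  have h := congrArg Complex.re (charFun_gl hQ a)
  rw [← Complex.ofReal_exp, Complex.ofReal_re] at h
  rw [← h]
  have h2 := integral_re (integrable_cexp a (gl Q))
  simp only [RCLike.re_eq_complex_re] at h2
  rw [← h2]
  refine integral_congr_ae (Eventually.of_forall fun x => ?_)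
  simp only [Complex.exp_ofReal_mul_I_re]

theorem integral_sin_gl {Q : Matrix ι ι ℝ} (hQ : Q.PosSemidef) (a : ι → ℝ) :
    ∫ x, Real.sin (∑ i, a i * x i) ∂gl Q = 0 := by
  have h := congrArg Complex.im (charFun_gl hQ a)
  rw [← Complex.ofReal_exp, Complex.ofReal_im] at h
  rw [← h]
  have h2 := integral_im (integrable_cexp a (gl Q))
  simp only [RCLike.im_eq_complex_im] at h2
  rw [← h2]
  refine integral_congr_ae (Eventually.of_forall fun x => ?_)
  simp only [Complex.exp_ofReal_mul_I_im]

/-- a probability measure is determined by its characteristic function -/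
theorem eq_of_charFun {μ ν : Measure (ι → ℝ)} [IsProbabilityMeasure μ] [IsProbabilityMeasure ν]
    (h : ∀ a : ι → ℝ, ∫ x, Complex.exp (((∑ i, a i * x i : ℝ) : ℂ) * Complex.I) ∂μ =
      ∫ x, Complex.exp (((∑ i, a i * x i : ℝ) : ℂ) * Complex.I) ∂ν) : μ = ν := by
  refine Measure.ext_of_charFunDual ?_
  ext L
  rw [charFunDual_apply, charFunDual_apply]
  obtain ⟨a, hL⟩ : ∃ a : ι → ℝ, ∀ x : ι → ℝ, L x = ∑ i, a i * x i := by
    refine ⟨fun i => L (Pi.single i 1), fun x => ?_⟩
    have hx : x = ∑ i, x i • (Pi.single i (1 : ℝ) : ι → ℝ) := by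
      funext j
      rw [Finset.sum_apply, Finset.sum_eq_single j]
      · simp
      · intro b _ hb
        simp [Pi.single_eq_of_ne (Ne.symm hb)]
      · intro h; exact absurd (Finset.mem_univ j) h
    calc L x = L (∑ i, x i • (Pi.single i (1 : ℝ) : ι → ℝ)) := by rw [← hx]
      _ = _ := by
        rw [map_sum]
        refine Finset.sum_congr rfl fun i _ => ?_
        rw [map_smul, smul_eq_mul, mul_comm]
  simp_rw [hL]
  exact h a

/-- continuous convergence of a sequence of functions -/
def CC {E F : Type*} [TopologicalSpace E] [TopologicalSpace F] (f : ℕ → E → F) (f0 : E → F) :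
    Prop := ∀ (xn : ℕ → E) (x : E), Tendsto xn atTop (𝓝 x) →
      Tendsto (fun n => f n (xn n)) atTop (𝓝 (f0 x))

theorem continuousOn_rt : ContinuousOn (fun Q : Matrix ι ι ℝ => (CFC.sqrt Q : Matrix ι ι ℝ))
    {Q | Q.PosSemidef} := by
  have h := CFC.continuousOn_sqrt (A := Matrix ι ι ℝ)
  refine h.mono ?_
  intro Q hQ
  exact hQ.nonneg

theorem tendsto_rt {Qn : ℕ → Matrix ι ι ℝ} {Q : Matrix ι ι ℝ} (hn : ∀ n, (Qn n).PosSemidef)
    (hQ : Q.PosSemidef) (h : ∀ i j, Tendsto (fun n => Qn n i j) atTop (𝓝 (Q i j))) (i j : ι) :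
    Tendsto (fun n => rt (Qn n) i j) atTop (𝓝 (rt Q i j)) := by
  have h1 : Tendsto Qn atTop (𝓝 Q) := tendsto_pi_nhds.2 fun i => tendsto_pi_nhds.2 fun j => h i j
  have h2 := (continuousOn_rt (ι := ι) Q hQ).tendsto
  have h3 : Tendsto Qn atTop (𝓝[{Q | Q.PosSemidef}] Q) :=
    tendsto_nhdsWithin_iff.2 ⟨h1, Eventually.of_forall hn⟩
  have h4 := h2.comp h3
  exact tendsto_pi_nhds.1 (tendsto_pi_nhds.1 h4 i) j

/-- **Continuity of Gaussian expectations in the covariance and the integrand.** -/
theorem tendsto_integral_gl {Qn : ℕ → Matrix ι ι ℝ} {Q : Matrix ι ι ℝ}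
    (hn : ∀ n, (Qn n).PosSemidef) (hQ : Q.PosSemidef)
    (h : ∀ i j, Tendsto (fun n => Qn n i j) atTop (𝓝 (Q i j)))
    {f : ℕ → (ι → ℝ) → ℝ} {f0 : (ι → ℝ) → ℝ} (hf : ∀ n, StronglyMeasurable (f n))
    (hf0 : StronglyMeasurable f0) {C : ℝ} (hC : ∀ n x, |f n x| ≤ C * (1 + ‖x‖))
    (hcc : CC f f0) :
    Tendsto (fun n => ∫ x, f n x ∂gl (Qn n)) atTop (𝓝 (∫ x, f0 x ∂gl Q)) := by
  have hrt := tendsto_rt hn hQ h
  rw [integral_gl Q hf0]
  have e : (fun n => ∫ x, f n x ∂gl (Qn n)) =
      fun n => ∫ g, f n (lin (rt (Qn n)) g) ∂G ι := by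
    funext n; rw [integral_gl (Qn n) (hf n)]
  rw [e]
  have hC0 : 0 ≤ C := by
    have := hC 0 0
    simp only [norm_zero, add_zero, mul_one] at this
    exact (abs_nonneg _).trans this
  -- bound of the entries
  obtain ⟨B, hB⟩ : ∃ B : ℝ, ∀ n, ∑ a, ∑ j, |rt (Qn n) a j| ≤ B := by
    have ht : Tendsto (fun n => ∑ a, ∑ j, |rt (Qn n) a j|) atTop
        (𝓝 (∑ a, ∑ j, |rt Q a j|)) :=
      tendsto_finsetSum _ fun a _ => tendsto_finsetSum _ fun j _ => (hrt a j).abs
    obtain ⟨B, hB⟩ := ht.bddAbove_range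
    exact ⟨B, fun n => hB ⟨n, rfl⟩⟩
  have hB0 : 0 ≤ B := le_trans (by positivity) (hB 0)
  refine tendsto_integral_of_dominated_convergence
    (fun g => C * (1 + B * (Fintype.card ι * ‖g‖))) (fun n => ?_) ?_ (fun n => ?_) ?_
  · exact ((hf n).comp_measurable (Guerra.continuous_lin _).measurable).aestronglyMeasurable
  · refine Integrable.const_mul ?_ _
    refine (integrable_const _).add ?_
    exact (integrable_norm_G.const_mul _).const_mul _
  · refine Eventually.of_forall fun g => ?_
    refine (hC _ _).trans ?_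
    have h1 := norm_lin_le' (rt (Qn n)) g
    have h2 := mul_le_mul_of_nonneg_right (hB n)
      (show 0 ≤ (Fintype.card ι : ℝ) * ‖g‖ by positivity)
    have h3 := h1.trans h2
    gcongr
  · refine Eventually.of_forall fun g => ?_
    refine hcc _ _ ?_
    rw [tendsto_pi_nhds]
    intro i
    exact tendsto_finsetSum _ fun j _ => (hrt i j).mul_const _

/-- expectations of functions of a block only depend on the block of the covariance -/
theorem integral_gl_congr {Q Q' : Matrix ι ι ℝ} (hQ : Q.PosSemidef) (hQ' : Q'.PosSemidef)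
    {s : Set ι} (h : ∀ i ∈ s, ∀ j ∈ s, Q i j = Q' i j) {f : (ι → ℝ) → ℝ}
    (hf : StronglyMeasurable f) (hd : DependsOn f s) :
    ∫ x, f x ∂gl Q = ∫ x, f x ∂gl Q' := by
  classical
  let P : (ι → ℝ) → (ι → ℝ) := fun x i => if i ∈ s then x i else 0
  have hP : Measurable P := by
    refine measurable_pi_lambda _ fun i => ?_
    by_cases hi : i ∈ s
    · simp only [P, if_pos hi]; exact measurable_pi_apply i
    · simp only [P, if_neg hi]; exact measurable_const
  have hfP : ∀ x, f x = f (P x) := fun x => hd fun i hi => by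
    simp only [P, if_pos hi]
  have key : (gl Q).map P = (gl Q').map P := by
    have i1 : IsProbabilityMeasure ((gl Q).map P) :=
      Measure.isProbabilityMeasure_map hP.aemeasurable
    have i2 : IsProbabilityMeasure ((gl Q').map P) :=
      Measure.isProbabilityMeasure_map hP.aemeasurable
    refine eq_of_charFun fun a => ?_
    rw [integral_map hP.aemeasurable (measurable_cexp a).aestronglyMeasurable,
      integral_map hP.aemeasurable (measurable_cexp a).aestronglyMeasurable]
    have e : ∀ x, ∑ i, a i * P x i = ∑ i, (P a i) * x i := by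
      intro x
      refine Finset.sum_congr rfl fun i _ => ?_
      by_cases hi : i ∈ s
      · simp only [P, if_pos hi]
      · simp only [P, if_neg hi, mul_zero, zero_mul]
    simp_rw [e]
    rw [charFun_gl hQ, charFun_gl hQ']
    congr 4
    refine Finset.sum_congr rfl fun i _ => Finset.sum_congr rfl fun j _ => ?_
    by_cases hi : i ∈ s
    · by_cases hj : j ∈ s
      · rw [h i hi j hj]
      · simp only [P, if_neg hj, mul_zero]
    · simp only [P, if_neg hi, zero_mul]
  calc ∫ x, f x ∂gl Q = ∫ x, f (P x) ∂gl Q := by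
        refine integral_congr_ae (Eventually.of_forall fun x => ?_)
        exact hfP x
    _ = ∫ x, f x ∂(gl Q).map P := (integral_map hP.aemeasurable hf.aestronglyMeasurable).symm
    _ = ∫ x, f x ∂(gl Q').map P := by rw [key]
    _ = ∫ x, f (P x) ∂gl Q' := integral_map hP.aemeasurable hf.aestronglyMeasurable
    _ = ∫ x, f x ∂gl Q' := by
        refine integral_congr_ae (Eventually.of_forall fun x => ?_)
        exact (hfP x).symm

/-- **Gaussian integration by parts**: `E[x_i f] = ∑_j Q_ij E[∂_j f]` for bounded `f` with bounded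
partial derivatives -/
theorem ibp_gl {Q : Matrix ι ι ℝ} (hQ : Q.PosSemidef) {f : (ι → ℝ) → ℝ}
    {p : ι → (ι → ℝ) → ℝ} {C : ℝ} (hf : ∀ x, HasFDerivAt f (dual fun j => p j x) x)
    (hp : ∀ j, Continuous (p j)) (hC : ∀ x, |f x| ≤ C) (hCp : ∀ j x, |p j x| ≤ C) (i : ι) :
    ∫ x, x i * f x ∂gl Q = ∑ j, Q i j * ∫ x, p j x ∂gl Q := by
  have hfc : Continuous f := continuous_iff_continuousAt.2 fun x => (hf x).continuousAt
  rw [integral_gl Q (Continuous.stronglyMeasurable (by fun_prop))]
  have h1 : ∀ k, ∫ g, g k * f (lin (rt Q) g) ∂G ι =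
      ∑ j, rt Q j k * ∫ x, p j x ∂gl Q := by
    intro k
    have hd : ∀ g : ι → ℝ, HasDerivAt (fun t => f (lin (rt Q) (Function.update g k t)))
        (∑ j, p j (lin (rt Q) g) * rt Q j k) (g k) := by
      intro g
      have h2 := Guerra.hasDerivAt_lin_update (rt Q) g k (g k)
      have h3 := hf (lin (rt Q) (Function.update g k (g k)))
      have h4 := h3.comp_hasDerivAt (g k) h2
      rw [Function.update_eq_self, Guerra.dual_apply] at h4
      exact h4
    have h5 := Guerra.steinG (ι := ι) k (f := fun g => f (lin (rt Q) g))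
      (f' := fun g => ∑ j, p j (lin (rt Q) g) * rt Q j k)
      (hfc.comp (Guerra.continuous_lin _))
      ((continuous_finsetSum _ fun j _ => ((hp j).comp (Guerra.continuous_lin _)).mul
        continuous_const).measurable) hd (C := C) (C' := ∑ j, C * |rt Q j k|)
      (fun g => hC _) (fun g => by
        refine (Finset.abs_sum_le_sum_abs _ _).trans (Finset.sum_le_sum fun j _ => ?_)
        rw [abs_mul]
        exact mul_le_mul_of_nonneg_right (hCp _ _) (abs_nonneg _))
    rw [h5]
    rw [integral_finsetSum]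
    · refine Finset.sum_congr rfl fun j _ => ?_
      rw [integral_mul_const, mul_comm, integral_gl Q (hp j).stronglyMeasurable]
    · intro j _
      refine Integrable.mul_const ?_ _
      exact (integrable_const C).mono'
        ((hp j).comp (Guerra.continuous_lin _)).aestronglyMeasurable
        (Eventually.of_forall fun g => hCp _ _)
  have h6 : ∀ g : ι → ℝ, lin (rt Q) g i * f (lin (rt Q) g) =
      ∑ k, rt Q i k * (g k * f (lin (rt Q) g)) := by
    intro g
    simp only [lin]
    rw [Finset.sum_mul]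
    refine Finset.sum_congr rfl fun k _ => by ring
  simp_rw [h6]
  rw [integral_finsetSum]
  · simp_rw [integral_const_mul, h1, Finset.mul_sum]
    rw [Finset.sum_comm]
    refine Finset.sum_congr rfl fun j _ => ?_
    rw [← sum_rt hQ i j, Finset.sum_mul]
    refine Finset.sum_congr rfl fun k _ => by ring
  · intro k _
    refine Integrable.const_mul ?_ _
    refine ((Guerra.integrable_coord k).abs.const_mul C).mono' ?_
      (Eventually.of_forall fun g => ?_)
    · exact ((continuous_apply k).mul (hfc.comp (Guerra.continuous_lin _))).aestronglyMeasurable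
    · rw [Real.norm_eq_abs, abs_mul, mul_comm]
      exact mul_le_mul_of_nonneg_right (hC _) (abs_nonneg _)

end

end Crest.Agent.R339.Trig
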