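import Crest.Agent.R339.Trig716a

/-!
# Row 339, part (C)/(K): the state-evolution recursion

A scheme with `m` messages is a family `F i : (Fin (m+1) → ℝ) → ℝ`, `i < m`, where `F i` depends
only on the labels `0, …, i`.  The label `0` is a standard Gaussian, independent of the others; the
label `i+1` is the field of the message `F i`.  So the covariance `Q` is the fixed point of
`step F`.
-/

set_option autoImplicit false
set_option linter.unusedSectionVars false

namespace Crest.Agent.R339.Trig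

open MeasureTheory ProbabilityTheory Filter Topology Matrix
open Crest.Agent.R339.Guerra (G lin dual)

noncomputable section

variable {m : ℕ}

/-- one step of state evolution -/
def step (F : Fin m → (Fin (m + 1) → ℝ) → ℝ) (Q : Matrix (Fin (m + 1)) (Fin (m + 1)) ℝ) :
    Matrix (Fin (m + 1)) (Fin (m + 1)) ℝ :=
  Matrix.of fun i j => Fin.cases (Fin.cases 1 (fun _ => 0) j)
    (fun i' => Fin.cases 0 (fun j' => ∫ x, F i' x * F j' x ∂gl Q) j) i

@[simp] theorem step_zero_zero (F : Fin m → (Fin (m + 1) → ℝ) → ℝ)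
    (Q : Matrix (Fin (m + 1)) (Fin (m + 1)) ℝ) : step F Q 0 0 = 1 := rfl

@[simp] theorem step_zero_succ (F : Fin m → (Fin (m + 1) → ℝ) → ℝ)
    (Q : Matrix (Fin (m + 1)) (Fin (m + 1)) ℝ) (j : Fin m) : step F Q 0 j.succ = 0 := rfl

@[simp] theorem step_succ_zero (F : Fin m → (Fin (m + 1) → ℝ) → ℝ)
    (Q : Matrix (Fin (m + 1)) (Fin (m + 1)) ℝ) (j : Fin m) : step F Q j.succ 0 = 0 := rfl

@[simp] theorem step_succ_succ (F : Fin m → (Fin (m + 1) → ℝ) → ℝ)
    (Q : Matrix (Fin (m + 1)) (Fin (m + 1)) ℝ) (i j : Fin m) :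
    step F Q i.succ j.succ = ∫ x, F i x * F j x ∂gl Q := rfl

/-- the conditions on the messages: measurable, bounded by `C`, causal -/
structure Adm (F : Fin m → (Fin (m + 1) → ℝ) → ℝ) (C : ℝ) : Prop where
  meas : ∀ i, StronglyMeasurable (F i)
  bdd : ∀ i x, |F i x| ≤ C
  causal : ∀ i, DependsOn (F i) {j | j ≤ i.castSucc}

theorem Adm.nonneg {F : Fin m → (Fin (m + 1) → ℝ) → ℝ} {C : ℝ} (h : Adm F C) (i : Fin m) :
    0 ≤ C := (abs_nonneg _).trans (h.bdd i 0)

theorem Adm.int {F : Fin m → (Fin (m + 1) → ℝ) → ℝ} {C : ℝ} (h : Adm F C)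
    (Q : Matrix (Fin (m + 1)) (Fin (m + 1)) ℝ) (i j : Fin m) :
    Integrable (fun x => F i x * F j x) (gl Q) := by
  refine integrable_gl_bdd Q ((h.meas i).mul (h.meas j)) (C := C * C) fun x => ?_
  rw [abs_mul]
  exact mul_le_mul (h.bdd i x) (h.bdd j x) (abs_nonneg _) (h.nonneg i)

theorem step_posSemidef {F : Fin m → (Fin (m + 1) → ℝ) → ℝ} {C : ℝ} (h : Adm F C)
    (Q : Matrix (Fin (m + 1)) (Fin (m + 1)) ℝ) : (step F Q).PosSemidef := by
  refine Matrix.PosSemidef.of_dotProduct_mulVec_nonneg ?_ fun v => ?_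
  · ext i j
    rw [Matrix.conjTranspose_apply]
    simp only [star_trivial]
    refine Fin.cases ?_ (fun i' => ?_) i
    · refine Fin.cases ?_ (fun j' => ?_) j
      · rfl
      · simp
    · refine Fin.cases ?_ (fun j' => ?_) j
      · simp
      · simp only [step_succ_succ]
        simp_rw [mul_comm]
  · have e : star v ⬝ᵥ (step F Q) *ᵥ v =
        v 0 * v 0 + ∫ x, (∑ i : Fin m, v i.succ * F i x) ^ 2 ∂gl Q := by
      have h1 : ∀ x, (∑ i : Fin m, v i.succ * F i x) ^ 2 =
          ∑ i : Fin m, ∑ j : Fin m, v i.succ * v j.succ * (F i x * F j x) := by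
        intro x
        rw [sq, Finset.sum_mul_sum]
        refine Finset.sum_congr rfl fun i _ => Finset.sum_congr rfl fun j _ => by ring
      simp_rw [h1]
      rw [integral_finsetSum _ fun i _ => integrable_finsetSum _ fun j _ =>
        (h.int Q i j).const_mul _]
      simp_rw [integral_finsetSum _ fun j _ => (h.int Q _ j).const_mul _, integral_const_mul]
      simp only [dotProduct, mulVec, star_trivial, Fin.sum_univ_succ, step_zero_zero,
        step_zero_succ, step_succ_zero, step_succ_succ]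
      simp [Finset.mul_sum]
      refine Finset.sum_congr rfl fun i _ => Finset.sum_congr rfl fun j _ => by ring
    rw [e]
    have : 0 ≤ ∫ x, (∑ i : Fin m, v i.succ * F i x) ^ 2 ∂gl Q :=
      integral_nonneg fun x => sq_nonneg _
    nlinarith [mul_self_nonneg (v 0)]

/-- the covariance matrix of the labels -/
def cov (F : Fin m → (Fin (m + 1) → ℝ) → ℝ) : Matrix (Fin (m + 1)) (Fin (m + 1)) ℝ :=
  (step F)^[m + 1] 1

theorem iterate_posSemidef {F : Fin m → (Fin (m + 1) → ℝ) → ℝ} {C : ℝ} (h : Adm F C)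
    {Q : Matrix (Fin (m + 1)) (Fin (m + 1)) ℝ} (hQ : Q.PosSemidef) (k : ℕ) :
    ((step F)^[k] Q).PosSemidef := by
  cases k with
  | zero => exact hQ
  | succ k =>
    rw [Function.iterate_succ_apply']
    exact step_posSemidef h _

theorem cov_posSemidef {F : Fin m → (Fin (m + 1) → ℝ) → ℝ} {C : ℝ} (h : Adm F C) :
    (cov F).PosSemidef := iterate_posSemidef h Matrix.PosSemidef.one _

/-- the first `k` rows and columns of the `k`-th iterate do not depend on the start -/
theorem iterate_agree {F : Fin m → (Fin (m + 1) → ℝ) → ℝ} {C : ℝ} (h : Adm F C)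
    {Q Q' : Matrix (Fin (m + 1)) (Fin (m + 1)) ℝ} (hQ : Q.PosSemidef) (hQ' : Q'.PosSemidef)
    (k : ℕ) : ∀ i j : Fin (m + 1), (i : ℕ) < k → (j : ℕ) < k →
      (step F)^[k] Q i j = (step F)^[k] Q' i j := by
  induction k with
  | zero => intro i j hi _; exact absurd hi (Nat.not_lt_zero _)
  | succ k ih =>
    intro i j hi hj
    rw [Function.iterate_succ_apply', Function.iterate_succ_apply']
    revert hi hj
    refine Fin.cases ?_ (fun i' => ?_) i
    · refine Fin.cases ?_ (fun j' => ?_) j
      · intro _ _; rfl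
      · intro _ _; rfl
    · refine Fin.cases ?_ (fun j' => ?_) j
      · intro _ _; rfl
      · intro hi hj
        rw [step_succ_succ, step_succ_succ]
        refine integral_gl_congr (iterate_posSemidef h hQ k) (iterate_posSemidef h hQ' k)
          (s := {l | (l : ℕ) < k}) (fun a ha b hb => ih a b ha hb)
          ((h.meas i').mul (h.meas j')) ?_
        intro x y hxy
        have e1 : F i' x = F i' y := h.causal i' fun l hl => hxy l (by
          simp only [Set.mem_ofPred_eq, Fin.le_def, Fin.val_castSucc] at hl ⊢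
          simp only [Fin.val_succ] at hi
          omega)
        have e2 : F j' x = F j' y := h.causal j' fun l hl => hxy l (by
          simp only [Set.mem_ofPred_eq, Fin.le_def, Fin.val_castSucc] at hl ⊢
          simp only [Fin.val_succ] at hj
          omega)
        simp only [e1, e2]

theorem iterate_eq {F : Fin m → (Fin (m + 1) → ℝ) → ℝ} {C : ℝ} (h : Adm F C)
    {Q Q' : Matrix (Fin (m + 1)) (Fin (m + 1)) ℝ} (hQ : Q.PosSemidef) (hQ' : Q'.PosSemidef) :
    (step F)^[m + 1] Q = (step F)^[m + 1] Q' := by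
  ext i j
  exact iterate_agree h hQ hQ' (m + 1) i j i.2 j.2

/-- `cov F` is a fixed point of the recursion -/
theorem step_cov {F : Fin m → (Fin (m + 1) → ℝ) → ℝ} {C : ℝ} (h : Adm F C) :
    step F (cov F) = cov F := by
  unfold cov
  rw [← Function.iterate_succ_apply' (step F), Function.iterate_succ_apply]
  exact iterate_eq h (step_posSemidef h _) Matrix.PosSemidef.one

/-- `cov F` is the only fixed point of the recursion -/
theorem eq_cov {F : Fin m → (Fin (m + 1) → ℝ) → ℝ} {C : ℝ} (h : Adm F C)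
    {Q : Matrix (Fin (m + 1)) (Fin (m + 1)) ℝ} (hQ : step F Q = Q) : Q = cov F := by
  have h1 : (step F)^[m + 1] Q = Q := Function.iterate_fixed hQ _
  rw [← h1]
  refine iterate_eq h ?_ Matrix.PosSemidef.one
  rw [← hQ]
  exact step_posSemidef h _

theorem tendsto_step {F : ℕ → Fin m → (Fin (m + 1) → ℝ) → ℝ} {F0 : Fin m → (Fin (m + 1) → ℝ) → ℝ}
    {C : ℝ} (h : ∀ n, Adm (F n) C) (h0 : Adm F0 C) (hcc : ∀ i, CC (fun n => F n i) (F0 i))
    {Qn : ℕ → Matrix (Fin (m + 1)) (Fin (m + 1)) ℝ} {Q : Matrix (Fin (m + 1)) (Fin (m + 1)) ℝ}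
    (hn : ∀ n, (Qn n).PosSemidef) (hQ : Q.PosSemidef)
    (hQn : ∀ i j, Tendsto (fun n => Qn n i j) atTop (𝓝 (Q i j))) (i j : Fin (m + 1)) :
    Tendsto (fun n => step (F n) (Qn n) i j) atTop (𝓝 (step F0 Q i j)) := by
  refine Fin.cases ?_ (fun i' => ?_) i
  · refine Fin.cases ?_ (fun j' => ?_) j
    · exact tendsto_const_nhds
    · exact tendsto_const_nhds
  · refine Fin.cases ?_ (fun j' => ?_) j
    · exact tendsto_const_nhds
    · simp only [step_succ_succ]
      refine tendsto_integral_gl hn hQ hQn (C := C * C)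
        (fun n => ((h n).meas i').mul ((h n).meas j')) ((h0.meas i').mul (h0.meas j'))
        (fun n x => ?_) (fun xn x hx => (hcc i' xn x hx).mul (hcc j' xn x hx))
      have hC0 := h0.nonneg i'
      rw [abs_mul]
      calc |F n i' x| * |F n j' x| ≤ C * C :=
            mul_le_mul ((h n).bdd i' x) ((h n).bdd j' x) (abs_nonneg _) hC0
        _ ≤ C * C * (1 + ‖x‖) := by
            have : 0 ≤ C * C * ‖x‖ := by positivity
            nlinarith

/-- the covariance matrix depends continuously on the messages -/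
theorem tendsto_cov {F : ℕ → Fin m → (Fin (m + 1) → ℝ) → ℝ} {F0 : Fin m → (Fin (m + 1) → ℝ) → ℝ}
    {C : ℝ} (h : ∀ n, Adm (F n) C) (h0 : Adm F0 C) (hcc : ∀ i, CC (fun n => F n i) (F0 i))
    (i j : Fin (m + 1)) :
    Tendsto (fun n => cov (F n) i j) atTop (𝓝 (cov F0 i j)) := by
  unfold cov
  have key : ∀ k : ℕ, ∀ i j : Fin (m + 1),
      Tendsto (fun n => (step (F n))^[k] 1 i j) atTop (𝓝 ((step F0)^[k] 1 i j)) := by
    intro k
    induction k with
    | zero => intro i j; exact tendsto_const_nhds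
    | succ k ih =>
      intro i j
      simp_rw [Function.iterate_succ_apply']
      exact tendsto_step h h0 hcc (fun n => iterate_posSemidef (h n) Matrix.PosSemidef.one k)
        (iterate_posSemidef h0 Matrix.PosSemidef.one k) ih i j
  exact key (m + 1) i j

end

end Crest.Agent.R339.Trig
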