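import Crest.Agent.R339.Trig716b

/-!
# Row 339, part (C)/(K): odd trigonometric polynomials

`TP ι` is the type of explicit odd real trigonometric polynomials
`x ↦ ∑ k, c k * sin (∑ i, a k i * x i)`.  Every bounded continuous odd function is the limit, in
the sense of continuous convergence (`CC`), of a uniformly bounded sequence of them.
-/

set_option autoImplicit false
set_option linter.unusedSectionVars false

namespace Crest.Agent.R339.Trig

open MeasureTheory ProbabilityTheory Filter Topology Matrix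
open Crest.Agent.R339.Guerra (G lin dual)

noncomputable section

/-- odd real trigonometric polynomials, as data -/
structure TP (ι : Type*) where
  /-- number of terms -/
  N : ℕ
  /-- coefficients -/
  c : Fin N → ℝ
  /-- frequencies -/
  a : Fin N → ι → ℝ

variable {ι : Type*} [Fintype ι]

/-- the function -/
def TP.ev (T : TP ι) (x : ι → ℝ) : ℝ := ∑ k, T.c k * Real.sin (∑ i, T.a k i * x i)

/-- the partial derivatives -/
def TP.d (T : TP ι) (j : ι) (x : ι → ℝ) : ℝ :=
  ∑ k, T.c k * T.a k j * Real.cos (∑ i, T.a k i * x i)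

theorem TP.continuous_ev (T : TP ι) : Continuous T.ev := by
  unfold TP.ev; fun_prop

theorem TP.continuous_d (T : TP ι) (j : ι) : Continuous (T.d j) := by
  unfold TP.d; fun_prop

theorem TP.ev_neg (T : TP ι) (x : ι → ℝ) : T.ev (-x) = - T.ev x := by
  unfold TP.ev
  rw [← Finset.sum_neg_distrib]
  refine Finset.sum_congr rfl fun k _ => ?_
  have : ∑ i, T.a k i * (-x) i = - ∑ i, T.a k i * x i := by
    rw [← Finset.sum_neg_distrib]
    exact Finset.sum_congr rfl fun i _ => by simp
  rw [this, Real.sin_neg]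
  ring

theorem TP.abs_ev_le (T : TP ι) (x : ι → ℝ) : |T.ev x| ≤ ∑ k, |T.c k| := by
  unfold TP.ev
  refine (Finset.abs_sum_le_sum_abs _ _).trans (Finset.sum_le_sum fun k _ => ?_)
  rw [abs_mul]
  exact mul_le_of_le_one_right (abs_nonneg _) (Real.abs_sin_le_one _)

theorem TP.abs_d_le (T : TP ι) (j : ι) (x : ι → ℝ) : |T.d j x| ≤ ∑ k, |T.c k * T.a k j| := by
  unfold TP.d
  refine (Finset.abs_sum_le_sum_abs _ _).trans (Finset.sum_le_sum fun k _ => ?_)
  rw [abs_mul]
  exact mul_le_of_le_one_right (abs_nonneg _) (Real.abs_cos_le_one _)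

theorem hasFDerivAt_linear (a : ι → ℝ) (x : ι → ℝ) :
    HasFDerivAt (fun x : ι → ℝ => ∑ i, a i * x i) (dual a) x := by
  have h := (dual a).hasFDerivAt (x := x)
  refine h.congr_of_eventuallyEq (Eventually.of_forall fun y => ?_)
  simp

theorem TP.hasFDerivAt (T : TP ι) (x : ι → ℝ) :
    HasFDerivAt T.ev (dual fun j => T.d j x) x := by
  have h : HasFDerivAt T.ev (∑ k, T.c k • (Real.cos (∑ i, T.a k i * x i) • dual (T.a k))) x := by
    unfold TP.ev
    refine HasFDerivAt.fun_sum fun k _ => ?_
    exact ((hasFDerivAt_linear (T.a k) x).sin).const_mul (T.c k)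
  refine h.congr_fderiv ?_
  ext v
  simp only [_root_.sum_apply, _root_.smul_apply, Guerra.dual_apply,
    smul_eq_mul, TP.d, Finset.sum_mul, Finset.mul_sum]
  rw [Finset.sum_comm]
  refine Finset.sum_congr rfl fun j _ => Finset.sum_congr rfl fun k _ => by ring

theorem TP.hasFDerivAt_sin (T : TP ι) (x : ι → ℝ) :
    HasFDerivAt (fun x => Real.sin (T.ev x)) (dual fun j => Real.cos (T.ev x) * T.d j x) x := by
  refine (T.hasFDerivAt x).sin.congr_fderiv ?_
  ext v
  simp only [_root_.smul_apply, Guerra.dual_apply, smul_eq_mul, Finset.mul_sum]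
  refine Finset.sum_congr rfl fun j _ => by ring

/-- restriction of the frequencies to a set of coordinates -/
def TP.res (T : TP ι) (s : ι → Prop) [DecidablePred s] : TP ι where
  N := T.N
  c := T.c
  a := fun k i => if s i then T.a k i else 0

theorem TP.res_ev (T : TP ι) (s : ι → Prop) [DecidablePred s] (x : ι → ℝ) :
    (T.res s).ev x = T.ev (fun i => if s i then x i else 0) := by
  unfold TP.ev TP.res
  refine Finset.sum_congr rfl fun k _ => ?_
  have h : ∑ i, (if s i then T.a k i else 0) * x i =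
      ∑ i, T.a k i * (if s i then x i else 0) :=
    Finset.sum_congr rfl fun i _ => by by_cases h : s i <;> simp [h]
  simp only [h]

/-! ### Complex exponential sums -/

/-- the character with frequency `a` -/
def ex (a : ι → ℝ) : (ι → ℝ) → ℂ := fun x => Complex.exp (((∑ i, a i * x i : ℝ) : ℂ) * Complex.I)

theorem ex_mul (a b : ι → ℝ) : ex a * ex b = ex (a + b) := by
  funext x
  have e : ∑ i, (a + b) i * x i = ∑ i, a i * x i + ∑ i, b i * x i := by
    rw [← Finset.sum_add_distrib]
    exact Finset.sum_congr rfl fun i _ => by rw [Pi.add_apply, add_mul]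
  rw [Pi.mul_apply]
  unfold ex
  rw [e, Complex.ofReal_add, add_mul, Complex.exp_add]

/-- finite linear combinations of characters -/
def ES (ι : Type*) [Fintype ι] : Submodule ℂ ((ι → ℝ) → ℂ) := Submodule.span ℂ (Set.range ex)

theorem ex_mem (a : ι → ℝ) : ex a ∈ ES ι := Submodule.subset_span ⟨a, rfl⟩

theorem ES_mul {f g : (ι → ℝ) → ℂ} (hf : f ∈ ES ι) (hg : g ∈ ES ι) : f * g ∈ ES ι := by
  unfold ES at hf
  induction hf using Submodule.span_induction with
  | mem x h =>
    obtain ⟨a, rfl⟩ := h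
    unfold ES at hg
    induction hg using Submodule.span_induction with
    | mem y h =>
      obtain ⟨b, rfl⟩ := h
      rw [ex_mul]; exact ex_mem _
    | zero => rw [mul_zero]; exact (ES ι).zero_mem
    | add y z _ _ hy hz => rw [mul_add]; exact (ES ι).add_mem hy hz
    | smul c y _ hy => rw [mul_smul_comm]; exact (ES ι).smul_mem _ hy
  | zero => rw [zero_mul]; exact (ES ι).zero_mem
  | add y z _ _ hy hz => rw [add_mul]; exact (ES ι).add_mem hy hz
  | smul c y _ hy => rw [smul_mul_assoc]; exact (ES ι).smul_mem _ hy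

theorem ES_const (c : ℂ) : (fun _ => c : (ι → ℝ) → ℂ) ∈ ES ι := by
  have h : (fun _ => c : (ι → ℝ) → ℂ) = c • ex (0 : ι → ℝ) := by
    funext x
    simp [ex]
  rw [h]
  exact (ES ι).smul_mem _ (ex_mem _)

theorem ES_sin [DecidableEq ι] (i : ι) (r : ℝ) :
    (fun x : ι → ℝ => ((Real.sin (x i / r) : ℝ) : ℂ)) ∈ ES ι := by
  have h : (fun x : ι → ℝ => ((Real.sin (x i / r) : ℝ) : ℂ)) =
      (Complex.I / 2) • ex (Pi.single i (-1 / r)) + (-Complex.I / 2) • ex (Pi.single i (1 / r)) := by
    funext x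
    have e : ∀ t : ℝ, ∑ j, (Pi.single i t : ι → ℝ) j * x j = t * x i := by
      intro t
      rw [Finset.sum_eq_single i]
      · simp
      · intro b _ hb; simp [Pi.single_eq_of_ne hb]
      · intro h; exact absurd (Finset.mem_univ i) h
    simp only [Pi.add_apply, Pi.smul_apply, ex, e, smul_eq_mul]
    rw [Complex.ofReal_sin, Complex.sin]
    have e1 : ((-1 / r * x i : ℝ) : ℂ) * Complex.I = -((x i / r : ℝ) : ℂ) * Complex.I := by
      push_cast; ring
    have e2 : ((1 / r * x i : ℝ) : ℂ) * Complex.I = ((x i / r : ℝ) : ℂ) * Complex.I := by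
      push_cast; ring
    rw [e1, e2]
    ring
  rw [h]
  exact (ES ι).add_mem ((ES ι).smul_mem _ (ex_mem _)) ((ES ι).smul_mem _ (ex_mem _))

/-- the odd part of a real exponential sum is in `TP` -/
theorem exists_TP_of_ES {f : (ι → ℝ) → ℝ} (hf : (fun x => ((f x : ℝ) : ℂ)) ∈ ES ι) :
    ∃ T : TP ι, ∀ x, T.ev x = (f x - f (-x)) / 2 := by
  classical
  obtain ⟨l, hl⟩ := (Finsupp.mem_span_range_iff_exists_finsupp.1 hf)
  have hl' : ∀ x, ((f x : ℝ) : ℂ) = ∑ a ∈ l.support, l a * ex a x := by
    intro x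
    have := congrFun hl x
    rw [← this]
    rw [Finsupp.sum, Finset.sum_apply]
    rfl
  let e := l.support.equivFin
  refine ⟨⟨l.support.card, fun k => - (l (e.symm k).1).im, fun k => (e.symm k).1⟩, fun x => ?_⟩
  have h1 : (((f x - f (-x)) / 2 : ℝ) : ℂ) =
      ∑ a ∈ l.support, l a * (Complex.I * ((Real.sin (∑ i, a i * x i) : ℝ) : ℂ)) := by
    push_cast
    rw [hl' x, hl' (-x), ← Finset.sum_sub_distrib, Finset.sum_div]
    refine Finset.sum_congr rfl fun a _ => ?_
    have e1 : ∑ i, a i * (-x) i = - ∑ i, a i * x i := by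
      rw [← Finset.sum_neg_distrib]
      exact Finset.sum_congr rfl fun i _ => by simp
    simp only [ex, e1]
    set t := ∑ i, a i * x i with ht
    have e2 : Complex.I * ((Real.sin t : ℝ) : ℂ) = (Complex.exp ((t : ℂ) * Complex.I) -
        Complex.exp (((-t : ℝ) : ℂ) * Complex.I)) / 2 := by
      rw [Complex.ofReal_sin, Complex.sin]
      push_cast
      have := Complex.I_sq
      linear_combination (-(Complex.exp (-(t:ℂ) * Complex.I) - Complex.exp ((t:ℂ) * Complex.I)) / 2
        * -1) * this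
    have e3 : ((Real.sin t : ℝ) : ℂ) = Complex.sin (t : ℂ) := Complex.ofReal_sin t
    have e4 : (∑ i, (a i : ℂ) * (x i : ℂ)) = (t : ℂ) := by rw [ht]; push_cast; rfl
    rw [e4, ← e3, e2]
    ring
  have h2 := congrArg Complex.re h1
  rw [Complex.ofReal_re, Complex.re_sum] at h2
  rw [h2]
  unfold TP.ev
  simp only
  have h3 : ∑ a ∈ l.support, (l a * (Complex.I * ((Real.sin (∑ i, a i * x i) : ℝ) : ℂ))).re =
      ∑ a ∈ l.support, (-(l a).im) * Real.sin (∑ i, a i * x i) := by
    refine Finset.sum_congr rfl fun a _ => ?_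
    generalize Real.sin (∑ i, a i * x i) = t
    simp [Complex.mul_re, Complex.mul_im]
  rw [h3, ← Finset.sum_coe_sort l.support (fun a => (-(l a).im) * Real.sin (∑ i, a i * x i))]
  exact (Equiv.sum_comp e.symm (fun a : l.support => (-(l a.1).im) *
    Real.sin (∑ i, a.1 i * x i)))

/-! ### Approximation -/

/-- the point `sin (x / R)` of the cube -/
def cube (R : ℝ) (x : ι → ℝ) : ι → Set.Icc (-1 : ℝ) 1 := fun i =>
  ⟨Real.sin (x i / R), Real.neg_one_le_sin _, Real.sin_le_one _⟩

/-- the coordinate functions on the cube -/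
def crd (i : ι) : C(ι → Set.Icc (-1 : ℝ) 1, ℝ) := ⟨fun y => (y i : ℝ), by fun_prop⟩

theorem crd_separates : (Algebra.adjoin ℝ (Set.range (crd (ι := ι)))).SeparatesPoints := by
  intro y z hyz
  obtain ⟨i, hi⟩ : ∃ i, y i ≠ z i := by
    by_contra h
    push Not at h
    exact hyz (funext h)
  refine ⟨crd i, ⟨crd i, Algebra.subset_adjoin ⟨i, rfl⟩, rfl⟩, ?_⟩
  simpa [crd] using fun h => hi (Subtype.ext h)

theorem comp_cube_mem (R : ℝ) {p : C(ι → Set.Icc (-1 : ℝ) 1, ℝ)}
    (hp : p ∈ Algebra.adjoin ℝ (Set.range (crd (ι := ι)))) :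
    (fun x : ι → ℝ => ((p (cube R x) : ℝ) : ℂ)) ∈ ES ι := by
  classical
  induction hp using Algebra.adjoin_induction with
  | mem x hx =>
    obtain ⟨i, rfl⟩ := hx
    exact ES_sin i R
  | algebraMap r => exact ES_const (r : ℂ)
  | add x y _ _ hx hy =>
    have h := (ES ι).add_mem hx hy
    convert h using 1
    funext z
    simp
  | mul x y _ _ hx hy =>
    have h := ES_mul hx hy
    convert h using 1
    funext z
    simp

theorem exists_TP {F : (ι → ℝ) → ℝ} (hF : Continuous F) (hodd : ∀ x, F (-x) = - F x) {C : ℝ}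
    (hC : ∀ x, |F x| ≤ C) {R δ : ℝ} (hR : 0 < R) (hδ : 0 < δ) :
    ∃ T : TP ι, (∀ x, |T.ev x| ≤ C + δ) ∧ ∀ x, ‖x‖ ≤ R → |T.ev x - F x| ≤ δ := by
  let f : C(ι → Set.Icc (-1 : ℝ) 1, ℝ) :=
    ⟨fun y => F (fun i => R * Real.arcsin (y i)), by fun_prop⟩
  obtain ⟨g, hg⟩ := ContinuousMap.exists_mem_subalgebra_near_continuousMap_of_separatesPoints
    (Algebra.adjoin ℝ (Set.range (crd (ι := ι)))) crd_separates f δ hδ
  obtain ⟨T, hT⟩ := exists_TP_of_ES (comp_cube_mem R g.2)
  have hfo : ∀ x : ι → ℝ, f (cube R (-x)) = - f (cube R x) := by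
    intro x
    have : (fun i => R * Real.arcsin (cube R (-x) i)) =
        -(fun i => R * Real.arcsin (cube R x i)) := by
      funext i
      simp only [cube, Pi.neg_apply]
      rw [neg_div, Real.sin_neg, Real.arcsin_neg]
      ring
    change F (fun i => R * Real.arcsin (cube R (-x) i)) = - F (fun i => R * Real.arcsin (cube R x i))
    rw [this, hodd]
  have hgf : ∀ y, |(g : C(ι → Set.Icc (-1 : ℝ) 1, ℝ)) y - f y| ≤ δ := by
    intro y
    have h1 := ContinuousMap.norm_coe_le_norm ((g : C(ι → Set.Icc (-1 : ℝ) 1, ℝ)) - f) y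
    rw [ContinuousMap.sub_apply, Real.norm_eq_abs] at h1
    exact h1.trans hg.le
  have hTf : ∀ x, |T.ev x - f (cube R x)| ≤ δ := by
    intro x
    rw [hT]
    have h1 := hgf (cube R x)
    have h2 := hgf (cube R (-x))
    rw [hfo] at h2
    rw [abs_le] at *
    constructor <;> linarith [h1.1, h1.2, h2.1, h2.2]
  refine ⟨T, fun x => ?_, fun x hx => ?_⟩
  · have h1 := hTf x
    have h2 : |f (cube R x)| ≤ C := hC _
    have h3 : |T.ev x| ≤ |T.ev x - f (cube R x)| + |f (cube R x)| := by
      have := abs_add_le (T.ev x - f (cube R x)) (f (cube R x))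
      simpa using this
    linarith
  · have h1 : f (cube R x) = F x := by
      change F (fun i => R * Real.arcsin (cube R x i)) = F x
      congr 1
      funext i
      simp only [cube]
      have h2 : |x i| ≤ R := (norm_le_pi_norm x i).trans hx
      rw [abs_le] at h2
      have h3 : x i / R ≤ 1 := by rw [div_le_one hR]; exact h2.2
      have h4 : -1 ≤ x i / R := by rw [le_div_iff₀ hR]; linarith [h2.1]
      have hpi := Real.pi_gt_three
      rw [Real.arcsin_sin (by linarith) (by linarith)]
      field_simp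
    rw [← h1]
    exact hTf x

/-- a bounded continuous odd function is the continuous limit of a uniformly bounded sequence of
odd trigonometric polynomials; causality can be preserved -/
theorem exists_TP_seq {F : (ι → ℝ) → ℝ} (hF : Continuous F) (hodd : ∀ x, F (-x) = - F x) {C : ℝ}
    (hC : ∀ x, |F x| ≤ C) (s : ι → Prop) [DecidablePred s] (hd : DependsOn F {i | s i}) :
    ∃ T : ℕ → TP ι, (∀ n x, |(T n).ev x| ≤ C + 1) ∧ CC (fun n => (T n).ev) F ∧
      ∀ n k i, ¬ s i → (T n).a k i = 0 := by
  have h := fun n : ℕ => exists_TP hF hodd hC (R := (n : ℝ) + 1) (δ := 1 / ((n : ℝ) + 1))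
    (by positivity) (by positivity)
  choose T hT1 hT2 using h
  refine ⟨fun n => (T n).res s, fun n x => ?_, ?_, fun n k i hi => ?_⟩
  · rw [TP.res_ev]
    refine (hT1 n _).trans ?_
    have : 1 / ((n : ℝ) + 1) ≤ 1 := by
      rw [div_le_one (by positivity)]
      have : (0 : ℝ) ≤ n := Nat.cast_nonneg n
      linarith
    linarith
  · intro xn x hx
    simp only [TP.res_ev]
    set yn : ℕ → ι → ℝ := fun n i => if s i then xn n i else 0 with hyn
    set y : ι → ℝ := fun i => if s i then x i else 0 with hy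
    have hyt : Tendsto yn atTop (𝓝 y) := by
      rw [tendsto_pi_nhds]
      intro i
      by_cases hi : s i
      · simp only [hyn, hy, if_pos hi]
        exact (tendsto_pi_nhds.1 hx) i
      · simp only [hyn, hy, if_neg hi]
        exact tendsto_const_nhds
    have hFy : F x = F y := hd fun i hi => by
      have hi' : s i := hi
      simp only [hy, if_pos hi']
    rw [hFy]
    have h1 : Tendsto (fun n => F (yn n)) atTop (𝓝 (F y)) := (hF.tendsto y).comp hyt
    have h2 : Tendsto (fun n => (T n).ev (yn n) - F (yn n)) atTop (𝓝 0) := by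
      obtain ⟨B, hB⟩ := (hyt.norm).bddAbove_range
      have hB' : ∀ n, ‖yn n‖ ≤ B := fun n => hB ⟨n, rfl⟩
      refine squeeze_zero_norm' (a := fun n : ℕ => 1 / ((n : ℝ) + 1)) ?_
        tendsto_one_div_add_atTop_nhds_zero_nat
      filter_upwards [eventually_ge_atTop ⌈B⌉₊] with n hn
      rw [Real.norm_eq_abs]
      refine hT2 n _ ?_
      have : B ≤ n := (Nat.le_ceil B).trans (by exact_mod_cast hn)
      linarith [hB' n]
    have h3 := h2.add h1
    simpa using h3
  · simp [TP.res, hi]

end

end Crest.Agent.R339.Trig
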